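import Mathlib
import Vale.Agent.P274.BSDDefs
import Vale.Agent.P268.Hol

set_option linter.all false

namespace AFast7c025cx6a
@[reducible] noncomputable def a0 : MulAction ℝ ℂ := inferInstance
@[reducible] noncomputable def a1 : DistribMulAction ℝ ℂ := inferInstance
theorem a2 : SMulCommClass ℝ ℝ ℂ := inferInstance
@[reducible] noncomputable def a3 : DistribSMul ℝ ℂ := inferInstance
@[reducible] noncomputable def a4 : SMulZeroClass ℝ ℂ := inferInstance
@[reducible] noncomputable def a5 {x1 : ℕ} {x2 : Fin x1} : DistribMulAction ℝ ((fun a => ℂ) x2) := inferInstance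
@[reducible] noncomputable def a6 {x1 : ℕ} : Module ℝ (Fin x1 → ℂ) := inferInstance
@[reducible] noncomputable def a7 : SemigroupAction ℝ ℂ := inferInstance
@[reducible] noncomputable def a8.{u1} {x1 : Type u1} [x2 : NormedAddCommGroup x1] [x3 : NormedSpace ℂ x1] : TopologicalSpace (x1 →L[ℝ] ℂ) := inferInstance
theorem a9 : ContinuousAdd ℂ := inferInstance
theorem a10 : UniformContinuousConstSMul ℝ ℂ := inferInstance
theorem a11 {x1 : ℕ} : ContinuousConstSMul ℝ (Fin x1 → ℂ) := inferInstance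
theorem a12 : IsSemitopologicalSemiring ℂ := inferInstance
theorem a13 : IsSemitopologicalRing ℂ := inferInstance
theorem a14 : ContinuousSMul ℝ ℂ := inferInstance
theorem a15 : ContinuousConstSMul ℝ ℂ := inferInstance
@[reducible] noncomputable def a16 {x1 : ℕ} : DistribMulAction ℝ (Fin x1 → ℂ) := inferInstance
@[reducible] noncomputable def a17.{u1} {x1 : Type u1} [x2 : NormedAddCommGroup x1] {x3 : ℕ} [x4 : NormedSpace ℂ x1] : TopologicalSpace (x1 →L[ℝ] Fin x3 → ℂ) := inferInstance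
theorem a18 : IsTopologicalRing ℂ := inferInstance
theorem a19 : IsTopologicalAddGroup ℂ := inferInstance
@[reducible] noncomputable def a20.{u1} {x1 : Type u1} [x2 : NormedAddCommGroup x1] [x3 : NormedSpace ℂ x1] : AddCommMonoid (x1 →L[ℝ] ℂ) := inferInstance
theorem a21 {x1 : ℕ} : IsTopologicalAddGroup (Fin x1 → ℂ) := inferInstance
@[reducible] noncomputable def a22 {x1 : ℕ} : MulAction ℝ (Fin x1 → ℂ) := inferInstance
@[reducible] noncomputable def a23 {x1 : ℕ} : SemigroupAction ℝ (Fin x1 → ℂ) := inferInstance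
@[reducible] noncomputable def a24.{u1} {x1 : Type u1} [x2 : NormedAddCommGroup x1] [x3 : NormedSpace ℂ x1] : TopologicalSpace (x1 →L[ℝ] x1 →L[ℝ] ℂ) := inferInstance
@[reducible] noncomputable def a25.{u1} {x1 : Type u1} [x2 : NormedAddCommGroup x1] {x3 : ℕ} [x4 : NormedSpace ℂ x1] : Module ℝ (x1 →L[ℝ] Fin x3 → ℝ) := inferInstance
@[reducible] noncomputable def a26.{u1} {x1 : Type u1} [x2 : NormedAddCommGroup x1] [x3 : NormedSpace ℂ x1] : AddCommGroup (x1 →L[ℝ] x1 →L[ℝ] ℂ) := inferInstance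
@[reducible] def a27.{u1} {x1 : Type u1} [x2 : NormedAddCommGroup x1] [x3 : NormedSpace ℂ x1] : AddZero (x1 →L[ℂ] x1) := inferInstance
@[reducible] def a28.{u1} {x1 : Type u1} [x2 : NormedAddCommGroup x1] [x3 : NormedSpace ℂ x1] : AddZeroClass (x1 →L[ℂ] x1) := inferInstance
@[reducible] def a29.{u1} {x1 : Type u1} [x2 : NormedAddCommGroup x1] [x3 : NormedSpace ℂ x1] : AddMonoid (x1 →L[ℂ] x1) := inferInstance
@[reducible] noncomputable def a30.{u1} {x1 : Type u1} [x2 : NormedAddCommGroup x1] {x3 : ℕ} [x4 : NormedSpace ℂ x1] : AddCommMonoid (x1 →L[ℝ] Fin x3 → ℂ) := inferInstance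
theorem a31 : IsBoundedSMul ℝ ℂ := inferInstance
theorem a32 {x1 : ℕ} : ContinuousAdd (Fin x1 → ℂ) := inferInstance
theorem a33.{u1} {x1 : Type u1} {x2 : ℕ} [x3 : NormedAddCommGroup x1] [x4 : NormedSpace ℂ x1] : ContinuousConstSMul ℂ (x1 × (Fin x2 → ℂ)) := inferInstance
theorem a34.{u1} {x1 : Type u1} {x2 : ℕ} [x3 : NormedAddCommGroup x1] [x4 : NormedSpace ℂ x1] : SMulCommClass ℂ ℂ (x1 × (Fin x2 → ℂ)) := inferInstance
theorem a35.{u1} {x1 : Type u1} {x2 : ℕ} [x3 : NormedAddCommGroup x1] : ContinuousAdd (x1 × (Fin x2 → ℂ)) := inferInstance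
@[reducible] def a36.{u1} {x1 : Type u1} [x2 : NormedAddCommGroup x1] [x3 : NormedSpace ℂ x1] : AddCommGroup (x1 →L[ℂ] x1) := inferInstance
theorem a37 : IsTopologicalDivisionRing ℂ := inferInstance
@[reducible] def a38.{u1} {x1 : Type u1} {x2 : ℕ} [x3 : NormedAddCommGroup x1] [x4 : NormedSpace ℂ x1] : Module ℂ (x1 × (Fin x2 → ℂ)) := inferInstance
end AFast7c025cx6a
attribute [local instance] AFast7c025cx6a.a0 AFast7c025cx6a.a1 AFast7c025cx6a.a2 AFast7c025cx6a.a3
  AFast7c025cx6a.a4 AFast7c025cx6a.a5 AFast7c025cx6a.a6 AFast7c025cx6a.a7 AFast7c025cx6a.a8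
  AFast7c025cx6a.a9 AFast7c025cx6a.a10 AFast7c025cx6a.a11 AFast7c025cx6a.a12 AFast7c025cx6a.a13
  AFast7c025cx6a.a14 AFast7c025cx6a.a15 AFast7c025cx6a.a16 AFast7c025cx6a.a17 AFast7c025cx6a.a18
  AFast7c025cx6a.a19 AFast7c025cx6a.a20 AFast7c025cx6a.a21 AFast7c025cx6a.a22 AFast7c025cx6a.a23
  AFast7c025cx6a.a24 AFast7c025cx6a.a25 AFast7c025cx6a.a26 AFast7c025cx6a.a27 AFast7c025cx6a.a28
  AFast7c025cx6a.a29 AFast7c025cx6a.a30 AFast7c025cx6a.a31 AFast7c025cx6a.a32 AFast7c025cx6a.a33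
  AFast7c025cx6a.a34 AFast7c025cx6a.a35 AFast7c025cx6a.a36 AFast7c025cx6a.a37 AFast7c025cx6a.a38
namespace AFast7c025cx6b
theorem a0.{u1} {x1 : Type u1} [x2 : NormedAddCommGroup x1] [x3 : NormedSpace ℂ x1] : ContinuousSMul ℝ (x1 →L[ℂ] x1) := inferInstance
@[reducible] noncomputable def a1 : Module ℝ ℂ := inferInstance
theorem a2.{u1} {x1 : Type u1} [x2 : NormedAddCommGroup x1] [x3 : NormedSpace ℂ x1] : IsBoundedSMul ℝ (x1 →L[ℂ] x1) := inferInstance
@[reducible] noncomputable def a3.{u1} {x1 : Type u1} [x2 : NormedAddCommGroup x1] [x3 : NormedSpace ℂ x1] : Module ℝ (x1 →L[ℝ] ℂ) := inferInstance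
theorem a4.{u1} {x1 : Type u1} {x2 : ℕ} [x3 : NormedAddCommGroup x1] [x4 : NormedSpace ℂ x1] : ContinuousSMul ℝ (x1 × (Fin x2 → ℂ) →L[ℂ] x1 × (Fin x2 → ℂ)) := inferInstance
theorem a5.{u1} {x1 : Type u1} {x2 : ℕ} [x3 : NormedAddCommGroup x1] [x4 : NormedSpace ℂ x1] : IsBoundedSMul ℝ (x1 × (Fin x2 → ℂ) →L[ℂ] x1 × (Fin x2 → ℂ)) := inferInstance
@[reducible] noncomputable def a6.{u1} {x1 : Type u1} [x2 : NormedAddCommGroup x1] {x3 : ℕ} [x4 : NormedSpace ℂ x1] : Module ℝ (x1 →L[ℝ] Fin x3 → ℂ) := inferInstance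
@[reducible] noncomputable def a7.{u1} {x1 : Type u1} [x2 : NormedAddCommGroup x1] [x3 : NormedSpace ℂ x1] : SMulZeroClass ℝ (x1 →L[ℂ] x1) := inferInstance
@[reducible] noncomputable def a8.{u1} {x1 : Type u1} [x2 : NormedAddCommGroup x1] [x3 : NormedSpace ℂ x1] : Module ℝ (x1 →L[ℂ] x1) := inferInstance
@[reducible] noncomputable def a9.{u1} {x1 : Type u1} [x2 : NormedAddCommGroup x1] [x3 : NormedSpace ℂ x1] : DistribSMul ℝ (x1 →L[ℂ] x1) := inferInstance
theorem a10.{u1} {x1 : Type u1} {x2 : ℕ} [x3 : NormedAddCommGroup x1] [x4 : NormedSpace ℂ x1] : SMulCommClass ℂ ℝ (x1 × (Fin x2 → ℂ)) := inferInstance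
@[reducible] noncomputable def a11 {x1 : ℕ} {x2 : Fin x1} : SemigroupAction ℝ ((fun a => ℂ) x2) := inferInstance
@[reducible] noncomputable def a12 {x1 : ℕ} {x2 : Fin x1} : MulAction ℝ ((fun a => ℂ) x2) := inferInstance
@[reducible] noncomputable def a13.{u1} {x1 : Type u1} [x2 : NormedAddCommGroup x1] [x3 : NormedSpace ℂ x1] : DistribMulAction ℝ (x1 →L[ℂ] x1) := inferInstance
@[reducible] noncomputable def a14.{u1} {x1 : Type u1} [x2 : NormedAddCommGroup x1] [x3 : NormedSpace ℂ x1] : SMul ℝ (x1 →L[ℂ] x1) := inferInstance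
@[reducible] noncomputable def a15.{u1} {x1 : Type u1} {x2 : ℕ} [x3 : NormedAddCommGroup x1] [x4 : NormedSpace ℂ x1] : NormedSpace ℝ (x1 × (Fin x2 → ℂ) →L[ℂ] x1 × (Fin x2 → ℂ)) := inferInstance
@[reducible] noncomputable def a16.{u1} {x1 : Type u1} [x2 : NormedAddCommGroup x1] [x3 : NormedSpace ℂ x1] : NormedSpace ℝ (x1 →L[ℂ] x1) := inferInstance
@[reducible] noncomputable def a17.{u1} {x1 : Type u1} {x2 : ℕ} [x3 : NormedAddCommGroup x1] [x4 : NormedSpace ℂ x1] : DistribMulAction ℝ (x1 × (Fin x2 → ℂ) →L[ℂ] x1 × (Fin x2 → ℂ)) := inferInstance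
@[reducible] noncomputable def a18.{u1} {x1 : Type u1} [x2 : NormedAddCommGroup x1] [x3 : NormedSpace ℂ x1] : Module ℝ (x1 →L[ℝ] x1 →L[ℝ] ℂ) := inferInstance
@[reducible] noncomputable def a19.{u1} {x1 : Type u1} {x2 : ℕ} [x3 : NormedAddCommGroup x1] [x4 : NormedSpace ℂ x1] : SMulZeroClass ℝ (x1 × (Fin x2 → ℂ) →L[ℂ] x1 × (Fin x2 → ℂ)) := inferInstance
@[reducible] noncomputable def a20.{u1} {x1 : Type u1} {x2 : ℕ} [x3 : NormedAddCommGroup x1] [x4 : NormedSpace ℂ x1] : Module ℝ (x1 × (Fin x2 → ℂ) →L[ℂ] x1 × (Fin x2 → ℂ)) := inferInstance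
@[reducible] noncomputable def a21.{u1} {x1 : Type u1} {x2 : ℕ} [x3 : NormedAddCommGroup x1] [x4 : NormedSpace ℂ x1] : DistribSMul ℝ (x1 × (Fin x2 → ℂ) →L[ℂ] x1 × (Fin x2 → ℂ)) := inferInstance
theorem a22 {x1 : ℕ} : SMulCommClass ℝ ℝ (Fin x1 → ℂ) := inferInstance
theorem a23.{u1} {x1 : Type u1} {x2 : ℕ} [x3 : NormedAddCommGroup x1] [x4 : NormedSpace ℂ x1] : ContinuousSMul ℝ (x1 × (Fin x2 → ℂ)) := inferInstance
@[reducible] noncomputable def a24.{u1} {x1 : Type u1} {x2 : ℕ} [x3 : NormedAddCommGroup x1] [x4 : NormedSpace ℂ x1] : Module ℝ (x1 × (Fin x2 → ℂ)) := inferInstance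
@[reducible] noncomputable def a25.{u1} {x1 : Type u1} [x2 : NormedAddCommGroup x1] [x3 : NormedSpace ℂ x1] : NormedSpace ℝ (x1 →L[ℝ] x1 →L[ℝ] ℂ) := inferInstance
theorem a26.{u1} {x1 : Type u1} [x2 : NormedAddCommGroup x1] {x3 : ℕ} [x4 : NormedSpace ℂ x1] : SemilinearMapClass (x1 →L[ℝ] x1 →L[ℝ] Fin x3 → ℂ) (RingHom.id ℝ) x1 (x1 →L[ℝ] Fin x3 → ℂ) := inferInstance
theorem a27.{u1} {x1 : Type u1} [x2 : NormedAddCommGroup x1] [x3 : NormedSpace ℂ x1] : ContinuousAdd (x1 →L[ℝ] ℂ) := inferInstance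
@[reducible] noncomputable def a28.{u1} {x1 : Type u1} [x2 : NormedAddCommGroup x1] [x3 : NormedSpace ℂ x1] : AddCommMonoid (x1 →L[ℝ] x1 →L[ℝ] ℂ) := inferInstance
theorem a29.{u1} {x1 : Type u1} [x2 : NormedAddCommGroup x1] [x3 : NormedSpace ℂ x1] : SMulCommClass ℝ ℝ (x1 →L[ℝ] ℂ) := inferInstance
theorem a30.{u1} {x1 : Type u1} [x2 : NormedAddCommGroup x1] {x3 : ℕ} [x4 : NormedSpace ℂ x1] : AddHomClass (x1 →L[ℝ] x1 →L[ℝ] Fin x3 → ℂ) x1 (x1 →L[ℝ] Fin x3 → ℂ) := inferInstance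
@[reducible] noncomputable def a31.{u1} {x1 : Type u1} [x2 : NormedAddCommGroup x1] [x3 : NormedSpace ℂ x1] : NormedSpace ℝ (x1 →L[ℝ] ℂ) := inferInstance
theorem a32.{u1} {x1 : Type u1} {x2 : ℕ} [x3 : NormedAddCommGroup x1] [x4 : NormedSpace ℂ x1] : IsScalarTower ℝ ℂ (x1 × (Fin x2 → ℂ)) := inferInstance
@[reducible] def a33.{u1} {x1 : Type u1} [x2 : NormedAddCommGroup x1] [x3 : NormedSpace ℂ x1] : Module ℂ (x1 →L[ℂ] x1) := inferInstance
@[reducible] noncomputable def a34.{u1} {x1 : Type u1} {x2 : ℕ} [x3 : NormedAddCommGroup x1] [x4 : NormedSpace ℂ x1] : SMul ℝ (x1 × (Fin x2 → ℂ) →L[ℂ] x1 × (Fin x2 → ℂ)) := inferInstance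
theorem a35 {x1 : ℕ} : SMulCommClass ℂ ℝ (Fin x1 → ℂ) := inferInstance
@[reducible] def a36.{u1} {x1 : Type u1} [x2 : NormedAddCommGroup x1] [x3 : NormedSpace ℂ x1] : SMulZeroClass ℂ (x1 →L[ℂ] x1) := inferInstance
theorem a37.{u1} {x1 : Type u1} [x2 : NormedAddCommGroup x1] {x3 : ℕ} [x4 : NormedSpace ℂ x1] : SemilinearMapClass (x1 →L[ℝ] x1 →L[ℝ] Fin x3 → ℝ) (RingHom.id ℝ) x1 (x1 →L[ℝ] Fin x3 → ℝ) := inferInstance
theorem a38.{u1} {x1 : Type u1} [x2 : NormedAddCommGroup x1] [x3 : NormedSpace ℂ x1] : ZeroHomClass (x1 →L[ℝ] x1 →L[ℝ] x1 →L[ℝ] ℂ) x1 (x1 →L[ℝ] x1 →L[ℝ] ℂ) := inferInstance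
theorem a39.{u1} {x1 : Type u1} [x2 : NormedAddCommGroup x1] [x3 : NormedSpace ℂ x1] : AddMonoidHomClass (x1 →L[ℝ] x1 →L[ℝ] x1 →L[ℝ] ℂ) x1 (x1 →L[ℝ] x1 →L[ℝ] ℂ) := inferInstance
theorem a40.{u1} {x1 : Type u1} [x2 : NormedAddCommGroup x1] [x3 : NormedSpace ℂ x1] : DistribMulActionSemiHomClass (x1 →L[ℝ] x1 →L[ℝ] x1 →L[ℝ] ℂ) (⇑(RingHom.id ℝ)) x1 (x1 →L[ℝ] x1 →L[ℝ] ℂ) := inferInstance
@[reducible] def a41.{u1} {x1 : Type u1} [x2 : NormedAddCommGroup x1] [x3 : NormedSpace ℂ x1] : SMul ℂ (x1 →L[ℂ] x1) := inferInstance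
@[reducible] noncomputable def a42.{u1} {x1 : Type u1} [x2 : NormedAddCommGroup x1] [x3 : NormedSpace ℂ x1] : NormedAddCommGroup (x1 →L[ℝ] x1 →L[ℝ] ℂ) := inferInstance
theorem a43.{u1} {x1 : Type u1} [x2 : NormedAddCommGroup x1] [x3 : NormedSpace ℂ x1] : ContinuousConstSMul ℝ (x1 →L[ℝ] ℂ) := inferInstance
theorem a44 {x1 : ℕ} : ContinuousSMul ℝ (Fin x1 → ℂ) := inferInstance
theorem a45.{u1} {x1 : Type u1} [x2 : NormedAddCommGroup x1] {x3 : ℕ} [x4 : NormedSpace ℂ x1] : MulActionSemiHomClass (x1 →L[ℝ] x1 →L[ℝ] Fin x3 → ℂ) (⇑(RingHom.id ℝ)) x1 (x1 →L[ℝ] Fin x3 → ℂ) := inferInstance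
@[reducible] noncomputable def a46.{u1} {x1 : Type u1} {x2 : ℕ} [x3 : NormedAddCommGroup x1] [x4 : NormedSpace ℂ x1] : SMulZeroClass ℂ (x1 × (Fin x2 → ℂ) →L[ℂ] x1 × (Fin x2 → ℂ)) := inferInstance
theorem a47.{u1} {x1 : Type u1} {x2 : ℕ} [x3 : NormedAddCommGroup x1] [x4 : NormedSpace ℂ x1] : IsScalarTower ℝ ℝ (x1 × (Fin x2 → ℂ)) := inferInstance
theorem a48 : Module.Free ℝ ℂ := inferInstance
@[reducible] noncomputable def a49.{u1} {x1 : Type u1} {x2 : ℕ} [x3 : NormedAddCommGroup x1] [x4 : NormedSpace ℂ x1] : Module ℂ (x1 × (Fin x2 → ℂ) →L[ℂ] x1 × (Fin x2 → ℂ)) := inferInstance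
@[reducible] def a50.{u1, u2} {x1 : Type u1} [x2 : NormedAddCommGroup x1] {x3 : Type u2} [x4 : NormedAddCommGroup x3] [x5 : NormedSpace ℝ x1] [x6 : NormedSpace ℝ x3] : Module ℝ (x1 →L[ℝ] x3) := inferInstance
@[reducible] noncomputable def a51 {x1 : ℕ} {x2 : Fin x1} : Module ℝ ((fun a => ℂ) x2) := inferInstance
@[reducible] noncomputable def a52.{u1} {x1 : Type u1} {x2 : ℕ} [x3 : NormedAddCommGroup x1] [x4 : NormedSpace ℂ x1] : DistribSMul ℝ (x1 × (Fin x2 → ℂ)) := inferInstance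
@[reducible] noncomputable def a53.{u1} {x1 : Type u1} {x2 : ℕ} [x3 : NormedAddCommGroup x1] [x4 : NormedSpace ℂ x1] : DistribMulAction ℝ (x1 × (Fin x2 → ℂ)) := inferInstance
@[reducible] noncomputable def a54.{u1} {x1 : Type u1} {x2 : ℕ} [x3 : NormedAddCommGroup x1] [x4 : NormedSpace ℂ x1] : DistribSMul ℂ (x1 × (Fin x2 → ℂ) →L[ℂ] x1 × (Fin x2 → ℂ)) := inferInstance
@[reducible] def a55.{u1} {x1 : Type u1} [x2 : NormedAddCommGroup x1] [x3 : NormedSpace ℂ x1] : DistribSMul ℂ (x1 →L[ℂ] x1) := inferInstance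
theorem a56.{u1} {x1 : Type u1} {x2 : ℕ} [x3 : NormedAddCommGroup x1] [x4 : NormedSpace ℂ x1] : ContinuousConstSMul ℝ (x1 × (Fin x2 → ℂ)) := inferInstance
theorem a57.{u1} {x1 : Type u1} {x2 : ℕ} [x3 : NormedAddCommGroup x1] [x4 : NormedSpace ℂ x1] : ContinuousSMul ℂ (x1 × (Fin x2 → ℂ)) := inferInstance
@[reducible] noncomputable def a58.{u1} {x1 : Type u1} {x2 : ℕ} [x3 : NormedAddCommGroup x1] [x4 : NormedSpace ℂ x1] : Module ℝ (x1 × (Fin x2 → ℂ) →L[ℝ] ℂ) := inferInstance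
theorem a59.{u1} {x1 : Type u1} [x2 : NormedAddCommGroup x1] {x3 : ℕ} [x4 : NormedSpace ℂ x1] : AddMonoidHomClass (x1 →L[ℝ] x1 →L[ℝ] Fin x3 → ℂ) x1 (x1 →L[ℝ] Fin x3 → ℂ) := inferInstance
@[reducible] noncomputable def a60.{u1} {x1 : Type u1} {x2 : ℕ} [x3 : NormedAddCommGroup x1] [x4 : NormedSpace ℂ x1] : SMulZeroClass ℝ (x1 × (Fin x2 → ℂ)) := inferInstance
end AFast7c025cx6b
attribute [local instance] AFast7c025cx6b.a0 AFast7c025cx6b.a1 AFast7c025cx6b.a2 AFast7c025cx6b.a3
  AFast7c025cx6b.a4 AFast7c025cx6b.a5 AFast7c025cx6b.a6 AFast7c025cx6b.a7 AFast7c025cx6b.a8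
  AFast7c025cx6b.a9 AFast7c025cx6b.a10 AFast7c025cx6b.a11 AFast7c025cx6b.a12 AFast7c025cx6b.a13
  AFast7c025cx6b.a14 AFast7c025cx6b.a15 AFast7c025cx6b.a16 AFast7c025cx6b.a17 AFast7c025cx6b.a18
  AFast7c025cx6b.a19 AFast7c025cx6b.a20 AFast7c025cx6b.a21 AFast7c025cx6b.a22 AFast7c025cx6b.a23
  AFast7c025cx6b.a24 AFast7c025cx6b.a25 AFast7c025cx6b.a26 AFast7c025cx6b.a27 AFast7c025cx6b.a28
  AFast7c025cx6b.a29 AFast7c025cx6b.a30 AFast7c025cx6b.a31 AFast7c025cx6b.a32 AFast7c025cx6b.a33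
  AFast7c025cx6b.a34 AFast7c025cx6b.a35 AFast7c025cx6b.a36 AFast7c025cx6b.a37 AFast7c025cx6b.a38
  AFast7c025cx6b.a39 AFast7c025cx6b.a40 AFast7c025cx6b.a41 AFast7c025cx6b.a42 AFast7c025cx6b.a43
  AFast7c025cx6b.a44 AFast7c025cx6b.a45 AFast7c025cx6b.a46 AFast7c025cx6b.a47 AFast7c025cx6b.a48
  AFast7c025cx6b.a49 AFast7c025cx6b.a50 AFast7c025cx6b.a51 AFast7c025cx6b.a52 AFast7c025cx6b.a53
  AFast7c025cx6b.a54 AFast7c025cx6b.a55 AFast7c025cx6b.a56 AFast7c025cx6b.a57 AFast7c025cx6b.a58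
  AFast7c025cx6b.a59 AFast7c025cx6b.a60
section

open Filter Metric Set Topology

namespace Vale.Agent.P274

variable {E F G : Type*} [NormedAddCommGroup E] [NormedSpace ℂ E]
  [NormedAddCommGroup F] [NormedSpace ℂ F] [NormedAddCommGroup G] [NormedSpace ℂ G]

namespace IsBiholo

variable {U : Set E} {V : Set F} {W : Set G} {f : E → F} {g : F → E} {f' : F → G} {g' : G → F}

theorem symm (h : IsBiholo U V f g) : IsBiholo V U g f :=
  ⟨h.diffOn_inv, h.diffOn, h.mapsTo_inv, h.mapsTo, h.right_inv, h.left_inv⟩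

theorem trans (h : IsBiholo U V f g) (h' : IsBiholo V W f' g') :
    IsBiholo U W (f' ∘ f) (g ∘ g') where
  diffOn := h'.diffOn.comp h.diffOn h.mapsTo
  diffOn_inv := h.diffOn_inv.comp h'.diffOn_inv h'.mapsTo_inv
  mapsTo := h'.mapsTo.comp h.mapsTo
  mapsTo_inv := h.mapsTo_inv.comp h'.mapsTo_inv
  left_inv := fun x hx => by
    simp only [Function.comp_apply, h'.left_inv _ (h.mapsTo hx), h.left_inv _ hx]
  right_inv := fun y hy => by
    simp only [Function.comp_apply, h.right_inv _ (h'.mapsTo_inv hy), h'.right_inv _ hy]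

end IsBiholo

/-- Every point of `U` is moved into `K` by a biholomorphic automorphism of `U`. -/
def CocompactAut (U K : Set E) : Prop :=
  ∀ x ∈ U, ∃ g g' : E → E, IsBiholo U U g g' ∧ g' x ∈ K

end Vale.Agent.P274
end

section

open Filter Metric Set Topology

namespace Vale.Agent.P274

variable {ι : Type*} {E F : Type*} [NormedAddCommGroup E] [NormedSpace ℂ E]
  [NormedAddCommGroup F] [NormedSpace ℂ F]

/-- A family of maps which is, eventually along `l`, holomorphic and bounded near every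
point of `U`. -/
def LocBdd (l : Filter ι) (f : ι → E → F) (U : Set E) : Prop :=
  ∀ x ∈ U, ∃ r > 0, ∃ C : ℝ, ∀ᶠ j in l,
    DifferentiableOn ℂ (f j) (ball x r) ∧ ∀ y ∈ ball x r, ‖f j y‖ ≤ C

theorem lip_of_bdd {f : E → F} {x : E} {r C : ℝ} (hr : 0 < r)
    (hd : DifferentiableOn ℂ f (ball x r)) (hC : ∀ y ∈ ball x r, ‖f y‖ ≤ C)
    {y z : E} (hy : y ∈ ball x (r / 4)) (hz : z ∈ ball x (r / 4)) :
    dist (f z) (f y) ≤ 4 * C / r * dist z y := by
  have hyb : ball y (r / 2) ⊆ ball x r := by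
    intro w hw
    rw [mem_ball] at *
    have := dist_triangle w y x
    linarith
  have h1 : MapsTo f (ball y (r / 2)) (closedBall (f y) (2 * C)) := by
    intro w hw
    have h1 := hC w (hyb hw)
    have h2 := hC y (hyb (mem_ball_self (by positivity)))
    rw [mem_closedBall, dist_eq_norm]
    have := norm_sub_le (f w) (f y)
    linarith
  have hzy : z ∈ ball y (r / 2) := by
    rw [mem_ball] at *
    have := dist_triangle z x y
    rw [dist_comm x y] at this
    linarith only [this, hz, hy]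
  have h2 := Complex.dist_le_div_mul_dist_of_mapsTo_ball (hd.mono hyb) h1 hzy
  have h3 : 2 * C / (r / 2) = 4 * C / r := by field_simp; ring
  rwa [h3] at h2

/-- Montel's theorem, with the extraction of a subsequence replaced by an ultrafilter limit. -/
theorem montel_full [ProperSpace E] [ProperSpace F] (𝒰 : Ultrafilter ι) {f : ι → E → F} {U : Set E}
    (hU : IsOpen U) (hf : LocBdd (𝒰 : Filter ι) f U) :
    ∃ g : E → F, DifferentiableOn ℂ g U ∧
      TendstoLocallyUniformlyOn f g (𝒰 : Filter ι) U ∧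
      ∀ x ∈ U, ∀ u : ι → E, Tendsto u 𝒰 (𝓝 x) → Tendsto (fun j => f j (u j)) 𝒰 (𝓝 (g x)) := by
  have hlim : ∀ x : E, ∃ y : F, x ∈ U → Tendsto (fun j => f j x) 𝒰 (𝓝 y) := by
    intro x
    by_cases hx : x ∈ U
    · obtain ⟨r, hr, C, hC⟩ := hf x hx
      have h1 : ∀ᶠ j in (𝒰 : Filter ι), f j x ∈ closedBall (0 : F) C := by
        filter_upwards [hC] with j hj
        simpa using hj.2 x (mem_ball_self hr)
      obtain ⟨y, -, hy⟩ := (isCompact_closedBall (0 : F) C).ultrafilter_le_nhds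
        (𝒰.map (fun j => f j x)) (by
          rw [le_principal_iff]
          exact h1)
      exact ⟨y, fun _ => hy⟩
    · exact ⟨0, fun h => absurd h hx⟩
  choose g hg using hlim
  -- continuous convergence
  have hcont : ∀ x ∈ U, ∀ u : ι → E, Tendsto u 𝒰 (𝓝 x) →
      Tendsto (fun j => f j (u j)) 𝒰 (𝓝 (g x)) := by
    intro x hx u hu
    obtain ⟨r, hr, C, hC⟩ := hf x hx
    have h1 : Tendsto (fun j => 4 * C / r * dist (u j) x) 𝒰 (𝓝 0) := by
      have : Tendsto (fun j => dist (u j) x) 𝒰 (𝓝 0) := tendsto_iff_dist_tendsto_zero.1 hu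
      simpa using this.const_mul (4 * C / r)
    have h2 : Tendsto (fun j => dist (f j (u j)) (f j x)) 𝒰 (𝓝 0) := by
      refine squeeze_zero' (Eventually.of_forall fun j => dist_nonneg) ?_ h1
      filter_upwards [hC, hu (ball_mem_nhds x (show 0 < r / 4 by positivity))] with j hj hj2
      exact lip_of_bdd hr hj.1 hj.2 (mem_ball_self (by positivity)) hj2
    exact (tendsto_iff_of_dist h2).2 (hg x hx)
  have hpt : ∀ x ∈ U, Tendsto (fun j => f j x) 𝒰 (𝓝 (g x)) := fun x hx => hg x hx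
  suffices hmain : ∀ x ∈ U, DifferentiableAt ℂ g x ∧ ∃ ρ > 0, ∀ ε > 0,
      ∀ᶠ j in (𝒰 : Filter ι), ∀ y ∈ closedBall x ρ, dist (f j y) (g y) ≤ ε by
    refine ⟨g, fun x hx => (hmain x hx).1.differentiableWithinAt, ?_, hcont⟩
    rw [Metric.tendstoLocallyUniformlyOn_iff]
    intro ε hε x hx
    obtain ⟨-, ρ, hρ, h⟩ := hmain x hx
    refine ⟨closedBall x ρ, mem_nhdsWithin_of_mem_nhds (closedBall_mem_nhds x hρ), ?_⟩
    filter_upwards [h (ε / 2) (by positivity)] with j hj y hy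
    rw [dist_comm]
    linarith [hj y hy]
  intro x hx
  obtain ⟨r, hr, C, hC⟩ := hf x hx
  obtain ⟨ρ0, hρ0, hρU⟩ := Metric.isOpen_iff.1 hU x hx
  obtain ⟨ρ, hρ, hρ1, hρ2⟩ : ∃ ρ > 0, ρ < ρ0 ∧ ρ < r / 4 :=
    ⟨min ρ0 (r / 4) / 2, by positivity, by
      have := min_le_left ρ0 (r / 4)
      have h2 : 0 < min ρ0 (r / 4) := by positivity
      linarith, by
      have := min_le_right ρ0 (r / 4)
      have h2 : 0 < min ρ0 (r / 4) := by positivity
      linarith⟩
  have hballU : closedBall x ρ ⊆ U := (closedBall_subset_ball hρ1).trans hρU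
  have hballr : closedBall x ρ ⊆ ball x r := closedBall_subset_ball (by linarith)
  -- uniform convergence on the closed ball
  have huc : ∀ ε > 0, ∀ᶠ j in (𝒰 : Filter ι), ∀ y ∈ closedBall x ρ, dist (f j y) (g y) ≤ ε := by
    intro ε hε
    by_contra hcon
    rw [← Ultrafilter.eventually_not] at hcon
    have h2 : ∀ᶠ j in (𝒰 : Filter ι), ∃ y, y ∈ closedBall x ρ ∧ ε < dist (f j y) (g y) := by
      filter_upwards [hcon] with j hj
      push Not at hj
      exact hj
    have h3 : ∃ u : ι → E, ∀ᶠ j in (𝒰 : Filter ι), u j ∈ closedBall x ρ ∧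
        ε < dist (f j (u j)) (g (u j)) := by
      classical
      refine ⟨fun j => if h : ∃ y, y ∈ closedBall x ρ ∧ ε < dist (f j y) (g y)
        then h.choose else x, ?_⟩
      filter_upwards [h2] with j hj
      simp only [hj, dite_true]
      exact hj.choose_spec
    obtain ⟨u, hu⟩ := h3
    obtain ⟨y, hy, hy2⟩ := (isCompact_closedBall x ρ).ultrafilter_le_nhds
        (𝒰.map u) (by
          rw [le_principal_iff]
          exact hu.mono fun j hj => hj.1)
    have hyU := hballU hy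
    have hu2 : Tendsto u 𝒰 (𝓝 y) := hy2
    have h4 := hcont y hyU u hu2
    have h5 : Tendsto (fun j => g (u j)) 𝒰 (𝓝 (g y)) := by
      -- `g` is Lipschitz on the ball
      have h6 : ∀ᶠ j in (𝒰 : Filter ι), dist (g (u j)) (g y) ≤ 4 * C / r * dist (u j) y := by
        filter_upwards [hu] with j hj
        have h7 : Tendsto (fun i => dist (f i (u j)) (f i y)) 𝒰 (𝓝 (dist (g (u j)) (g y))) :=
          (hpt _ (hballU hj.1)).dist (hpt _ hyU)
        refine le_of_tendsto h7 ?_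
        filter_upwards [hC] with i hi
        exact lip_of_bdd hr hi.1 hi.2 (closedBall_subset_ball hρ2 hy)
          (closedBall_subset_ball hρ2 hj.1)
      have h7 : Tendsto (fun j => 4 * C / r * dist (u j) y) 𝒰 (𝓝 0) := by
        have : Tendsto (fun j => dist (u j) y) 𝒰 (𝓝 0) := tendsto_iff_dist_tendsto_zero.1 hu2
        simpa using this.const_mul (4 * C / r)
      exact tendsto_iff_dist_tendsto_zero.2
        (squeeze_zero' (Eventually.of_forall fun j => dist_nonneg) h6 h7)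
    have h8 : Tendsto (fun j => dist (f j (u j)) (g (u j))) 𝒰 (𝓝 0) := by
      simpa using h4.dist h5
    have h9 := h8.eventually (gt_mem_nhds hε)
    obtain ⟨j, hj1, hj2⟩ := (h9.and hu).exists
    linarith [hj2.2]
  -- Cauchy estimate for derivatives
  have hkey : ∀ η > 0, ∀ j k, DifferentiableOn ℂ (f j) (ball x r) →
      DifferentiableOn ℂ (f k) (ball x r) → (∀ y ∈ closedBall x ρ, dist (f j y) (g y) ≤ η) →
      (∀ y ∈ closedBall x ρ, dist (f k y) (g y) ≤ η) →
      ∀ y ∈ ball x (ρ / 2), dist (fderiv ℂ (f j) y) (fderiv ℂ (f k) y) ≤ 8 * η / ρ := by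
    intro η hη j k hj hk hj2 hk2 y hy
    have hyb : ball y (ρ / 2) ⊆ ball x ρ := by
      intro w hw
      rw [mem_ball] at *
      have := dist_triangle w y x
      linarith only [this, hw, hy]
    have hyr : ball y (ρ / 2) ⊆ ball x r := (hyb.trans ball_subset_closedBall).trans hballr
    have hyy : y ∈ ball x r := hyr (mem_ball_self (by positivity))
    have hdj : DifferentiableAt ℂ (f j) y := hj.differentiableAt (isOpen_ball.mem_nhds hyy)
    have hdk : DifferentiableAt ℂ (f k) y := hk.differentiableAt (isOpen_ball.mem_nhds hyy)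
    have hb : ∀ w ∈ ball y (ρ / 2), ‖(f j - f k) w‖ ≤ 2 * η := by
      intro w hw
      have h1 := hj2 w (ball_subset_closedBall (hyb hw))
      have h2 := hk2 w (ball_subset_closedBall (hyb hw))
      have h3 := dist_triangle_right (f j w) (f k w) (g w)
      rw [Pi.sub_apply, ← dist_eq_norm]
      linarith
    have hm : MapsTo (f j - f k) (ball y (ρ / 2)) (closedBall ((f j - f k) y) (4 * η)) := by
      intro w hw
      have h1 := hb w hw
      have h2 := hb y (mem_ball_self (by positivity))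
      rw [mem_closedBall, dist_eq_norm]
      have := norm_sub_le ((f j - f k) w) ((f j - f k) y)
      linarith
    have h1 := Complex.norm_fderiv_le_div_of_mapsTo_ball
      ((hj.mono hyr).sub (hk.mono hyr)) hm (by positivity)
    have h2 : fderiv ℂ (f j - f k) y = fderiv ℂ (f j) y - fderiv ℂ (f k) y :=
      fderiv_sub hdj hdk
    rw [h2, ← dist_eq_norm] at h1
    have h3 : 4 * η / (ρ / 2) = 8 * η / ρ := by field_simp; ring
    rwa [h3] at h1
  have hgood : ∀ η > 0, ∀ᶠ j in (𝒰 : Filter ι), DifferentiableOn ℂ (f j) (ball x r) ∧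
      ∀ y ∈ closedBall x ρ, dist (f j y) (g y) ≤ η := fun η hη =>
    (hC.mono fun j hj => hj.1).and (huc η hη)
  -- limits of the derivatives
  have hdlim : ∀ y : E, ∃ T : E →L[ℂ] F, y ∈ ball x (ρ / 2) →
      Tendsto (fun j => fderiv ℂ (f j) y) 𝒰 (𝓝 T) := by
    intro y
    by_cases hy : y ∈ ball x (ρ / 2)
    · have hcau : Cauchy (map (fun j => fderiv ℂ (f j) y) (𝒰 : Filter ι)) := by
        rw [Metric.cauchy_iff]
        refine ⟨inferInstance, fun ε hε => ?_⟩
        have hη : 0 < ε * ρ / 16 := by positivity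
        refine ⟨_, image_mem_map (hgood _ hη), ?_⟩
        rintro _ ⟨j, hj, rfl⟩ _ ⟨k, hk, rfl⟩
        have h := hkey _ hη j k hj.1 hk.1 hj.2 hk.2 y hy
        have h2 : 8 * (ε * ρ / 16) / ρ = ε / 2 := by field_simp; ring
        rw [h2] at h
        linarith only [h, hε]
      obtain ⟨T, hT⟩ := CompleteSpace.complete hcau
      exact ⟨T, fun _ => hT⟩
    · exact ⟨0, fun h => absurd h hy⟩
  choose g' hg' using hdlim
  have hρ2 : 0 < ρ / 2 := by positivity
  have hunif : TendstoUniformlyOnFilter (fun j => fderiv ℂ (f j)) g' (𝒰 : Filter ι) (𝓝 x) := by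
    rw [Metric.tendstoUniformlyOnFilter_iff]
    intro ε hε
    have hη : 0 < ε * ρ / 16 := by positivity
    have h1 := Filter.Eventually.prod_mk (hgood _ hη) (show ∀ᶠ y in 𝓝 x, y ∈ ball x (ρ / 2) from
      ball_mem_nhds x hρ2)
    filter_upwards [h1] with n hn
    obtain ⟨hn1, hn2⟩ := hn
    have h2 : Tendsto (fun i => dist (fderiv ℂ (f i) n.2) (fderiv ℂ (f n.1) n.2)) 𝒰
        (𝓝 (dist (g' n.2) (fderiv ℂ (f n.1) n.2))) := (hg' _ hn2).dist tendsto_const_nhds
    have h3 : dist (g' n.2) (fderiv ℂ (f n.1) n.2) ≤ 8 * (ε * ρ / 16) / ρ := by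
      refine le_of_tendsto h2 ?_
      filter_upwards [hgood _ hη] with i hi
      exact hkey _ hη i n.1 hi.1 hn1.1 hi.2 hn1.2 _ hn2
    have h4 : 8 * (ε * ρ / 16) / ρ = ε / 2 := by field_simp; ring
    rw [h4] at h3
    linarith only [h3, hε]
  have hd : ∀ᶠ n : ι × E in (𝒰 : Filter ι) ×ˢ 𝓝 x,
      HasFDerivAt (f n.1) (fderiv ℂ (f n.1) n.2) n.2 := by
    have h1 := Filter.Eventually.prod_mk hC (show ∀ᶠ y in 𝓝 x, y ∈ ball x r from
      ball_mem_nhds x hr)
    filter_upwards [h1] with n hn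
    exact (hn.1.1.differentiableAt (isOpen_ball.mem_nhds hn.2)).hasFDerivAt
  refine ⟨(hasFDerivAt_of_tendstoUniformlyOnFilter (f := f) hunif hd ?_).differentiableAt,
    ρ, hρ, huc⟩
  filter_upwards [ball_mem_nhds x hρ] with y hy
  exact hpt y (hballU (ball_subset_closedBall hy))

theorem montel [ProperSpace E] [ProperSpace F] (𝒰 : Ultrafilter ι) {f : ι → E → F} {U : Set E}
    (hU : IsOpen U) (hf : LocBdd (𝒰 : Filter ι) f U) :
    ∃ g : E → F, DifferentiableOn ℂ g U ∧
      ∀ x ∈ U, ∀ u : ι → E, Tendsto u 𝒰 (𝓝 x) → Tendsto (fun j => f j (u j)) 𝒰 (𝓝 (g x)) := by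
  obtain ⟨g, h1, -, h2⟩ := montel_full 𝒰 hU hf
  exact ⟨g, h1, h2⟩

end Vale.Agent.P274
end

section

open Filter Metric Set Topology

namespace Vale.Agent.P274

variable {ι : Type*} {E F : Type*} [NormedAddCommGroup E] [NormedSpace ℂ E]
  [NormedAddCommGroup F] [NormedSpace ℂ F]

/-- Borel-Carathéodory / Harnack bound for holomorphic functions with values in the closed
right half-plane. -/
theorem norm_le_of_re_nonneg {f : E → ℂ} {c z : E} {R : ℝ}
    (hd : DifferentiableOn ℂ f (ball c R)) (hf : ∀ y ∈ ball c R, 0 ≤ (f y).re)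
    (hz : z ∈ ball c R) : ‖f z‖ ≤ ‖f c‖ * (R + dist z c) / (R - dist z c) := by
  have hR : 0 < R := nonempty_ball.mp ⟨z, hz⟩
  rcases eq_or_ne z c with rfl | hne
  · simp [hR.ne']
  have hd0 : 0 < dist z c := dist_pos.2 hne
  have hzR : dist z c < R := hz
  set d := dist z c with hdd
  have hdn : ‖z - c‖ = d := (dist_eq_norm z c).symm
  set h : ℂ → ℂ := fun w => - f (c + w • (z - c)) with hh
  have hmaps : ∀ w ∈ ball (0 : ℂ) (R / d), c + w • (z - c) ∈ ball c R := by
    intro w hw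
    rw [mem_ball_zero_iff, lt_div_iff₀ hd0] at hw
    rw [mem_ball, dist_eq_norm, add_sub_cancel_left, norm_smul, hdn]
    exact hw
  have hdh : DifferentiableOn ℂ h (ball 0 (R / d)) := by
    refine DifferentiableOn.neg ?_
    refine hd.comp ?_ hmaps
    fun_prop
  have h1 : (1 : ℂ) ∈ ball (0 : ℂ) (R / d) := by
    rw [mem_ball_zero_iff, norm_one, lt_div_iff₀ hd0]
    linarith
  have hRd : 1 < R / d := by rw [lt_div_iff₀ hd0]; linarith
  have key : ∀ M > 0, ‖f z‖ ≤ 2 * M / (R / d - 1) + ‖f c‖ * (R / d + 1) / (R / d - 1) := by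
    intro M hM
    have := Complex.borelCaratheodory (M := M) hM hdh (by
      intro w hw
      have := hf _ (hmaps w hw)
      simp only [hh, mem_ofPred_eq, Complex.neg_re]
      linarith) (by positivity) h1
    simpa [hh] using this
  have hlim : Tendsto (fun M : ℝ => 2 * M / (R / d - 1) + ‖f c‖ * (R / d + 1) / (R / d - 1))
      (𝓝[>] 0) (𝓝 (2 * 0 / (R / d - 1) + ‖f c‖ * (R / d + 1) / (R / d - 1))) := by
    refine Tendsto.mono_left ?_ nhdsWithin_le_nhds
    have : Continuous (fun M : ℝ => 2 * M / (R / d - 1) + ‖f c‖ * (R / d + 1) / (R / d - 1)) := by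
      fun_prop
    exact this.tendsto 0
  have h3 := ge_of_tendsto hlim (eventually_of_mem self_mem_nhdsWithin fun M hM => key M hM)
  have h4 : 2 * 0 / (R / d - 1) + ‖f c‖ * (R / d + 1) / (R / d - 1)
      = ‖f c‖ * (R + d) / (R - d) := by
    have : R - d ≠ 0 := by linarith
    have : R / d - 1 ≠ 0 := by linarith
    field_simp
    ring
  rwa [h4] at h3

/-- Holomorphic functions with values in the closed right half-plane, bounded at points
`k j` converging to a point of a connected open set, are locally bounded. -/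
theorem locBdd_of_re_nonneg (𝒰 : Ultrafilter ι) {h : ι → E → ℂ} {U : Set E}
    (hUc : IsPreconnected U)
    (hh : ∀ x ∈ U, ∃ r > 0, ∀ᶠ j in (𝒰 : Filter ι),
      DifferentiableOn ℂ (h j) (ball x r) ∧ ∀ y ∈ ball x r, 0 ≤ (h j y).re)
    {k : ι → E} {k0 : E} (hk0 : k0 ∈ U) (hk : Tendsto k 𝒰 (𝓝 k0)) {C : ℝ}
    (hkC : ∀ᶠ j in (𝒰 : Filter ι), ‖h j (k j)‖ ≤ C) : LocBdd (𝒰 : Filter ι) h U := by
  -- the set of good points
  set A : Set E := {x | ∃ r > 0, ∃ C : ℝ, ∀ᶠ j in (𝒰 : Filter ι),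
    DifferentiableOn ℂ (h j) (ball x r) ∧ ∀ y ∈ ball x r, ‖h j y‖ ≤ C} with hA
  -- main propagation step
  have key : ∀ x ∈ U, ∀ r > 0, (∀ᶠ j in (𝒰 : Filter ι),
      DifferentiableOn ℂ (h j) (ball x r) ∧ ∀ y ∈ ball x r, 0 ≤ (h j y).re) →
      ∀ C : ℝ, (∀ᶠ j in (𝒰 : Filter ι), ∃ y ∈ ball x (r / 4), ‖h j y‖ ≤ C) → x ∈ A := by
    intro x hx r hr hr2 C hC
    refine ⟨r / 4, by positivity, C * 3 * 3, ?_⟩
    filter_upwards [hr2, hC] with j hj1 hj2
    refine ⟨hj1.1.mono (ball_subset_ball (by linarith)), ?_⟩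
    obtain ⟨y, hy, hyC⟩ := hj2
    intro z hz
    have hsub : ball y (r / 2) ⊆ ball x r := by
      intro w hw
      rw [mem_ball] at *
      have := dist_triangle w y x
      linarith only [this, hw, hy, hr]
    have hxy : x ∈ ball y (r / 2) := by
      rw [mem_ball] at *
      rw [dist_comm]; linarith
    have h1 := norm_le_of_re_nonneg (hj1.1.mono hsub) (fun w hw => hj1.2 w (hsub hw)) hxy
    have h2 : z ∈ ball x r := ball_subset_ball (by linarith) hz
    have h3 := norm_le_of_re_nonneg hj1.1 hj1.2 h2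
    rw [mem_ball] at hy hz
    have hC0 : 0 ≤ C := le_trans (norm_nonneg _) hyC
    have h4 : ‖h j x‖ ≤ C * 3 := by
      refine h1.trans ?_
      rw [dist_comm] at h1 ⊢
      have h5 : 0 < r / 2 - dist y x := by linarith only [hy, hr]
      rw [div_le_iff₀ h5]
      have h6 : r / 2 + dist y x ≤ 3 * (r / 2 - dist y x) := by linarith only [hy]
      have h7 : ‖h j y‖ * (r / 2 + dist y x) ≤ C * (3 * (r / 2 - dist y x)) := by
        apply mul_le_mul hyC h6 (by positivity) hC0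
      linarith only [h7]
    refine h3.trans ?_
    have h5 : 0 < r - dist z x := by linarith only [hz, hr]
    rw [div_le_iff₀ h5]
    have h6 : r + dist z x ≤ 3 * (r - dist z x) := by linarith only [h5, hz]
    have h7 : ‖h j x‖ * (r + dist z x) ≤ (C * 3) * (3 * (r - dist z x)) := by
      apply mul_le_mul h4 h6 (by positivity) (by positivity)
    linarith only [h7]
  have hAopen : IsOpen A := by
    rw [Metric.isOpen_iff]
    rintro x ⟨r, hr, C, hC⟩
    refine ⟨r / 2, by positivity, fun y hy => ⟨r / 2, by positivity, C, ?_⟩⟩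
    filter_upwards [hC] with j hj
    have hsub : ball y (r / 2) ⊆ ball x r := by
      intro w hw
      rw [mem_ball] at *
      have := dist_triangle w y x
      linarith
    exact ⟨hj.1.mono hsub, fun w hw => hj.2 w (hsub hw)⟩
  have hk0A : k0 ∈ A := by
    obtain ⟨r, hr, hr2⟩ := hh k0 hk0
    refine key k0 hk0 r hr hr2 C ?_
    filter_upwards [hkC, hk (ball_mem_nhds k0 (show 0 < r / 4 by positivity))] with j h1 h2
    exact ⟨k j, h2, h1⟩
  have hclosed : ∀ x ∈ U, x ∈ closure A → x ∈ A := by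
    intro x hx hxA
    obtain ⟨r, hr, hr2⟩ := hh x hx
    obtain ⟨y, hyA, hy⟩ := Metric.mem_closure_iff.1 hxA (r / 4) (by positivity)
    obtain ⟨s, hs, C', hC'⟩ := hyA
    refine key x hx r hr hr2 C' ?_
    filter_upwards [hC'] with j hj
    exact ⟨y, by rwa [mem_ball, dist_comm], hj.2 y (mem_ball_self hs)⟩
  have hsub : U ⊆ A := by
    have := hUc.subset_of_closure_inter_subset hAopen ⟨k0, hk0, hk0A⟩ ?_
    · exact this
    · rintro x ⟨h1, h2⟩
      exact hclosed x h2 h1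
  intro x hx
  exact hsub hx

end Vale.Agent.P274
end

section

open Filter Metric Set Topology

namespace Vale.Agent.P274

variable {E F : Type*} [NormedAddCommGroup E] [NormedSpace ℂ E]
  [NormedAddCommGroup F] [NormedSpace ℂ F]

/-- Identity theorem. -/
theorem eqOn_of_eventuallyEq [CompleteSpace F] {V : Set E} (hV : IsOpen V)
    (hVc : IsPreconnected V) {f g : E → F} (hf : DifferentiableOn ℂ f V)
    (hg : DifferentiableOn ℂ g V) {a : E} (ha : a ∈ V) (hfg : f =ᶠ[𝓝 a] g) : EqOn f g V := by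
  set h : E → F := fun x => f x - g x with hh
  have hd : DifferentiableOn ℂ h V := hf.sub hg
  set A : Set E := {x | h =ᶠ[𝓝 x] 0} with hA
  have hAo : IsOpen A := isOpen_iff_mem_nhds.2 fun x hx => eventually_eventually_nhds.2 hx
  have haA : a ∈ A := by
    filter_upwards [hfg] with x hx
    simp [hh, hx]
  have hsub : V ⊆ A := by
    refine hVc.subset_of_closure_inter_subset hAo ⟨a, ha, haA⟩ ?_
    rintro x ⟨hx1, hx2⟩
    obtain ⟨r, hr, hrV⟩ := Metric.isOpen_iff.1 hV x hx2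
    obtain ⟨b, hbA, hb⟩ := Metric.mem_closure_iff.1 hx1 (r / 2) (by positivity)
    have hbV : ball b (r / 2) ⊆ V := by
      refine Subset.trans ?_ hrV
      intro y hy
      rw [mem_ball] at *
      have := dist_triangle y b x
      rw [dist_comm x b] at hb
      linarith only [this, hy, hb]
    have hz : ∀ y ∈ ball b (r / 2), h y = 0 := by
      intro y hy
      rcases eq_or_ne y b with rfl | hne
      · exact hbA.self_of_nhds
      have hd0 : 0 < ‖y - b‖ := norm_pos_iff.2 (sub_ne_zero.2 hne)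
      have hmaps : ∀ w ∈ ball (0 : ℂ) (r / 2 / ‖y - b‖), b + w • (y - b) ∈ ball b (r / 2) := by
        intro w hw
        rw [mem_ball_zero_iff, lt_div_iff₀ hd0] at hw
        rw [mem_ball, dist_eq_norm, add_sub_cancel_left, norm_smul]
        exact hw
      have hdw : DifferentiableOn ℂ (fun w : ℂ => h (b + w • (y - b)))
          (ball (0 : ℂ) (r / 2 / ‖y - b‖)) := by
        refine (hd.mono hbV).comp ?_ hmaps
        fun_prop
      have h0 : (0 : ℂ) ∈ ball (0 : ℂ) (r / 2 / ‖y - b‖) := mem_ball_self (by positivity)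
      have hev : (fun w : ℂ => h (b + w • (y - b))) =ᶠ[𝓝 0] 0 := by
        have hc : Tendsto (fun w : ℂ => b + w • (y - b)) (𝓝 0) (𝓝 b) := by
          have : Continuous (fun w : ℂ => b + w • (y - b)) := by fun_prop
          have h2 := this.tendsto 0
          simpa using h2
        exact hc.eventually hbA
      have h1 := (hdw.analyticOnNhd isOpen_ball).eqOn_zero_of_preconnected_of_eventuallyEq_zero
        (convex_ball _ _).isPreconnected h0 hev
      have h2 : (1 : ℂ) ∈ ball (0 : ℂ) (r / 2 / ‖y - b‖) := by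
        rw [mem_ball_zero_iff, norm_one, lt_div_iff₀ hd0, one_mul]
        rwa [mem_ball, dist_eq_norm] at hy
      have h3 := h1 h2
      simpa using h3
    exact eventually_of_mem (isOpen_ball.mem_nhds (show x ∈ ball b (r / 2) from hb))
      fun y hy => hz y hy
  intro x hx
  have h1 := (hsub hx).self_of_nhds
  simp only [hh, Pi.zero_apply] at h1
  exact sub_eq_zero.1 h1

end Vale.Agent.P274
end

section

open Filter Metric Set Topology

namespace Vale.Agent.P274

variable {ι : Type*} {E F : Type*} [NormedAddCommGroup E] [NormedSpace ℂ E]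
  [NormedAddCommGroup F] [NormedSpace ℂ F]

/-- Tautness of bounded open sets with cocompact automorphism group: a limit of holomorphic
maps into `U` takes values in `U` as soon as one of its values is in `U`. -/
theorem taut [ProperSpace E] {U K : Set E} (hU : IsOpen U) (hb : Bornology.IsBounded U)
    (hK : IsCompact K) (hKU : K ⊆ U) (hco : CocompactAut U K) (𝒰 : Ultrafilter ι)
    {S : Set F} (hSo : IsOpen S) (hS : IsPreconnected S) {H : ι → F → E}
    (hH : ∀ s ∈ S, ∃ r > 0, ∀ᶠ j in (𝒰 : Filter ι),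
      DifferentiableOn ℂ (H j) (ball s r) ∧ MapsTo (H j) (ball s r) U)
    {H0 : F → E} (hlim : ∀ s ∈ S, Tendsto (fun j => H j s) 𝒰 (𝓝 (H0 s)))
    {s0 : F} (hs0 : s0 ∈ S) (h0 : H0 s0 ∈ U) : ∀ s ∈ S, H0 s ∈ U := by
  obtain ⟨R, hR⟩ := hb.subset_closedBall (0 : E)
  obtain ⟨ε, hε, hεU⟩ := hK.exists_cthickening_subset_open hU hKU
  -- local propagation
  have key : ∀ s ∈ S, ∃ δ > 0, ∀ s1 ∈ S, s1 ∈ ball s δ → H0 s1 ∈ U →
      ∀ s2 ∈ S, s2 ∈ ball s δ → H0 s2 ∈ U := by
    intro s hs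
    obtain ⟨r, hr, hr2⟩ := hH s hs
    set R' : ℝ := max R 1 with hR'
    have hR'0 : 0 < R' := lt_max_of_lt_right one_pos
    set δ : ℝ := min (r / 4) (ε * r / (16 * R')) with hδ
    have hδ0 : 0 < δ := by (clear * - hr hε; positivity)
    refine ⟨δ, hδ0, ?_⟩
    intro s1 hs1 hs1b hs1U s2 hs2 hs2b
    obtain ⟨g, g', hg, hgK⟩ := hco _ hs1U
    have hg'c : ContinuousAt g' (H0 s1) :=
      (hg.diffOn_inv.differentiableAt (hU.mem_nhds hs1U)).continuousAt
    have h1 : Tendsto (fun j => g' (H j s1)) 𝒰 (𝓝 (g' (H0 s1))) := hg'c.tendsto.comp (hlim _ hs1)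
    -- the limit of `g' (H j s2)`
    have hmem1 : ∀ᶠ j in (𝒰 : Filter ι), g' (H j s2) ∈ closedBall (0 : E) R := by
      filter_upwards [hr2] with j hj
      exact hR (hg.mapsTo_inv (hj.2 (ball_subset_ball ((min_le_left _ _).trans (by linarith only [hr]))
        hs2b)))
    obtain ⟨p, -, hp⟩ := (isCompact_closedBall (0 : E) R).ultrafilter_le_nhds
        (𝒰.map (fun j => g' (H j s2))) (by
          rw [le_principal_iff]
          exact hmem1)
    have hp' : Tendsto (fun j => g' (H j s2)) 𝒰 (𝓝 p) := hp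
    have hdist : dist p (g' (H0 s1)) ≤ ε / 2 := by
      refine le_of_tendsto (hp'.dist h1) ?_
      filter_upwards [hr2] with j hj
      have hd : DifferentiableOn ℂ (g' ∘ H j) (ball s r) := hg.diffOn_inv.comp hj.1 hj.2
      have hbd : ∀ y ∈ ball s r, ‖(g' ∘ H j) y‖ ≤ R' := by
        intro y hy
        have := hR (hg.mapsTo_inv (hj.2 hy))
        rw [mem_closedBall_zero_iff] at this
        exact this.trans (le_max_left _ _)
      have hb1 : s1 ∈ ball s (r / 4) := ball_subset_ball (min_le_left _ _) hs1b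
      have hb2 : s2 ∈ ball s (r / 4) := ball_subset_ball (min_le_left _ _) hs2b
      have h2 := lip_of_bdd hr hd hbd hb1 hb2
      have h3 : dist s2 s1 ≤ 2 * (ε * r / (16 * R')) := by
        have h4 := dist_triangle_right s2 s1 s
        have h5 : δ ≤ ε * r / (16 * R') := min_le_right _ _
        rw [mem_ball] at hs1b hs2b
        linarith
      refine h2.trans ?_
      calc 4 * R' / r * dist s2 s1 ≤ 4 * R' / r * (2 * (ε * r / (16 * R'))) := by
            gcongr
        _ = ε / 2 := by field_simp; ring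
    have hpU : p ∈ U := by
      exact hεU (mem_cthickening_of_dist_le _ _ _ _ hgK (by linarith))
    have hgc : ContinuousAt g p := (hg.diffOn.differentiableAt (hU.mem_nhds hpU)).continuousAt
    have h6 : Tendsto (fun j => g (g' (H j s2))) 𝒰 (𝓝 (g p)) := hgc.tendsto.comp hp'
    have h7 : Tendsto (fun j => H j s2) 𝒰 (𝓝 (g p)) := by
      refine h6.congr' ?_
      filter_upwards [hr2] with j hj
      exact hg.right_inv _ (hj.2 (ball_subset_ball ((min_le_left _ _).trans (by linarith)) hs2b))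
    rw [tendsto_nhds_unique (hlim _ hs2) h7]
    exact hg.mapsTo hpU
  set A : Set F := {x | ∃ s δ, x ∈ ball s δ ∧ ∀ s2 ∈ S, s2 ∈ ball s δ → H0 s2 ∈ U} with hA
  have hAo : IsOpen A := by
    rw [isOpen_iff_mem_nhds]
    rintro x ⟨s, δ, hx, hs⟩
    exact mem_of_superset (isOpen_ball.mem_nhds hx) fun y hy => ⟨s, δ, hy, hs⟩
  have h0A : s0 ∈ A := by
    obtain ⟨δ, hδ, h⟩ := key s0 hs0
    exact ⟨s0, δ, mem_ball_self hδ, h s0 hs0 (mem_ball_self hδ) h0⟩
  have hsub : S ⊆ A := by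
    refine hS.subset_of_closure_inter_subset hAo ⟨s0, hs0, h0A⟩ ?_
    rintro x ⟨hx1, hx2⟩
    obtain ⟨δ, hδ, h⟩ := key x hx2
    obtain ⟨a, ha1, ha2⟩ := mem_closure_iff_nhds.1 hx1 (ball x δ ∩ S)
      (inter_mem (ball_mem_nhds x hδ) (hSo.mem_nhds hx2))
    obtain ⟨s, δ', ha3, ha4⟩ := ha2
    exact ⟨x, δ, mem_ball_self hδ, h a ha1.2 ha1.1 (ha4 a ha1.2 ha3)⟩
  intro s hs
  obtain ⟨s', δ', hs1, hs2⟩ := hsub hs
  exact hs2 s hs hs1

end Vale.Agent.P274
end

section

open Filter Metric Set Topology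

namespace Vale.Agent.P274

open Complex

variable {E : Type*} [NormedAddCommGroup E] [NormedSpace ℂ E] {k : ℕ}

/-- The complex-linear map with real part `D`. -/
noncomputable def Lam (D : E →L[ℝ] (Fin k → ℝ)) : E →L[ℂ] (Fin k → ℂ) :=
  ContinuousLinearMap.pi fun j =>
    StrongDual.extendRCLike ((ContinuousLinearMap.proj (R := ℝ) j).comp D)

theorem Lam_apply (D : E →L[ℝ] (Fin k → ℝ)) (x : E) (j : Fin k) :
    Lam D x j = (D x j : ℂ) - I * (D (I • x) j : ℂ) := by
  simp [Lam, StrongDual.extendRCLike_apply]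

theorem Lam_re (D : E →L[ℝ] (Fin k → ℝ)) (x : E) (j : Fin k) : (Lam D x j).re = D x j := by
  rw [Lam_apply]; simp

/-- The complex bilinear part of a real bilinear map. -/
noncomputable def qb (B : E →L[ℝ] E →L[ℝ] (Fin k → ℝ)) (x y : E) : Fin k → ℂ := fun j =>
  (1 / 4) * ((B x y j - B (I • x) (I • y) j : ℝ) : ℂ)
    - (1 / 4) * I * ((B x (I • y) j + B (I • x) y j : ℝ) : ℂ)

/-- The Levi form of a real bilinear map. -/
noncomputable def Lev (B : E →L[ℝ] E →L[ℝ] (Fin k → ℝ)) (z : E) : Fin k → ℝ :=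
  (1 / 4 : ℝ) • (B z z + B (I • z) (I • z))

theorem I_smul_I_smul (x : E) : I • I • x = -x := by
  rw [smul_smul, I_mul_I]; simp

theorem smul_eq_re_im (c : ℂ) (x : E) : c • x = (c.re : ℝ) • x + (c.im : ℝ) • (I • x) := by
  conv_lhs => rw [← re_add_im c]
  rw [add_smul, mul_smul]
  rfl

theorem I_smul_smul_real (r : ℝ) (x : E) : I • (r • x) = r • (I • x) := by
  rw [smul_comm]

theorem qb_add_left (B : E →L[ℝ] E →L[ℝ] (Fin k → ℝ)) (x x' y : E) :
    qb B (x + x') y = qb B x y + qb B x' y := by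
  ext j
  simp only [qb, map_add, smul_add, add_apply, Pi.add_apply]
  push_cast
  ring

theorem qb_add_right (B : E →L[ℝ] E →L[ℝ] (Fin k → ℝ)) (x y y' : E) :
    qb B x (y + y') = qb B x y + qb B x y' := by
  ext j
  simp only [qb, map_add, smul_add, add_apply, Pi.add_apply]
  push_cast
  ring

theorem qb_real_left (B : E →L[ℝ] E →L[ℝ] (Fin k → ℝ)) (r : ℝ) (x y : E) :
    qb B (r • x) y = r • qb B x y := by
  ext j
  simp only [qb, I_smul_smul_real, map_smul, smul_apply, Pi.smul_apply,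
    smul_eq_mul, real_smul]
  push_cast
  ring

theorem qb_real_right (B : E →L[ℝ] E →L[ℝ] (Fin k → ℝ)) (r : ℝ) (x y : E) :
    qb B x (r • y) = r • qb B x y := by
  ext j
  simp only [qb, I_smul_smul_real, map_smul, smul_apply, Pi.smul_apply,
    smul_eq_mul, real_smul]
  push_cast
  ring

theorem qb_I_left (B : E →L[ℝ] E →L[ℝ] (Fin k → ℝ)) (x y : E) :
    qb B (I • x) y = I • qb B x y := by
  ext j
  simp only [qb, I_smul_I_smul, map_neg, neg_apply, Pi.neg_apply,
    Pi.smul_apply, smul_eq_mul]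
  push_cast
  linear_combination (1 / 4) * ((B x (I • y) j : ℂ) + (B (I • x) y j : ℂ)) * I_mul_I

theorem qb_I_right (B : E →L[ℝ] E →L[ℝ] (Fin k → ℝ)) (x y : E) :
    qb B x (I • y) = I • qb B x y := by
  ext j
  simp only [qb, I_smul_I_smul, map_neg, neg_apply, Pi.neg_apply,
    Pi.smul_apply, smul_eq_mul]
  push_cast
  linear_combination (1 / 4) * ((B x (I • y) j : ℂ) + (B (I • x) y j : ℂ)) * I_mul_I

/-- `qb B` as a complex bilinear map. -/
noncomputable def qbil (B : E →L[ℝ] E →L[ℝ] (Fin k → ℝ)) : E →ₗ[ℂ] E →ₗ[ℂ] (Fin k → ℂ) :=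
  LinearMap.mk₂ ℂ (qb B) (qb_add_left B)
    (fun c x y => by
      rw [smul_eq_re_im, qb_add_left, qb_real_left, qb_real_left, qb_I_left,
        ← smul_eq_re_im])
    (qb_add_right B)
    (fun c x y => by
      rw [smul_eq_re_im, qb_add_right, qb_real_right, qb_real_right, qb_I_right,
        ← smul_eq_re_im])

/-- The complex quadratic form attached to `B`. -/
noncomputable def Qf (B : E →L[ℝ] E →L[ℝ] (Fin k → ℝ)) (z : E) : Fin k → ℂ := qb B z z

theorem differentiable_Qf [FiniteDimensional ℂ E] (B : E →L[ℝ] E →L[ℝ] (Fin k → ℝ)) :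
    Differentiable ℂ (Qf B) := by
  set T : E →L[ℂ] E →L[ℂ] (Fin k → ℂ) :=
    LinearMap.toContinuousLinearMap
      ((LinearMap.toContinuousLinearMap : (E →ₗ[ℂ] (Fin k → ℂ)) ≃ₗ[ℂ] _).toLinearMap ∘ₗ qbil B)
  have h : ∀ z, Qf B z = T z z := fun z => rfl
  have : Qf B = fun z => T z z := funext h
  rw [this]
  fun_prop

theorem Qf_smul (B : E →L[ℝ] E →L[ℝ] (Fin k → ℝ)) (r : ℝ) (z : E) :
    Qf B (r • z) = (r ^ 2) • Qf B z := by
  simp only [Qf, qb_real_left, qb_real_right, smul_smul]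
  rw [sq]

theorem Qf_re (B : E →L[ℝ] E →L[ℝ] (Fin k → ℝ)) (z : E) (j : Fin k) :
    (Qf B z j).re = (1 / 4) * (B z z j - B (I • z) (I • z) j) := by
  simp only [Qf, qb, sub_re, mul_re, ofReal_re, ofReal_im, mul_im, I_re, I_im]
  norm_num

theorem Lev_apply (B : E →L[ℝ] E →L[ℝ] (Fin k → ℝ)) (z : E) (j : Fin k) :
    Lev B z j = (1 / 4) * (B z z j + B (I • z) (I • z) j) := by
  simp [Lev]

/-- Decomposition of the Hessian. -/
theorem half_B (B : E →L[ℝ] E →L[ℝ] (Fin k → ℝ)) (z : E) (j : Fin k) :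
    (1 / 2) * B z z j = (Qf B z j).re + Lev B z j := by
  rw [Qf_re, Lev_apply]; ring

end Vale.Agent.P274
end

section

open Filter Metric Set Topology

namespace Vale.Agent.P274

variable {E : Type*} [NormedAddCommGroup E] [InnerProductSpace ℂ E]

/-- `q` is a local quadratic peak point of the set `U`. -/
def PeakPt (U : Set E) (q : E) : Prop :=
  q ∈ closure U ∧ q ∉ U ∧ ∃ c > 0, ∃ δ > 0, ∃ P : E → ℂ, DifferentiableOn ℂ P (ball q δ) ∧
    P q = 0 ∧ ∀ z ∈ U, z ∈ ball q δ → c * ‖z - q‖ ^ 2 ≤ (P z).re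

theorem norm_sub_sq_identity (z a q : E) :
    ‖z - q‖ ^ 2 - ‖a - q‖ ^ 2 - 2 * (inner ℂ (a - q) (z - a)).re = ‖z - a‖ ^ 2 := by
  have h := @norm_add_sq ℂ E _ _ _ (a - q) (z - a)
  have h1 : (a - q) + (z - a) = z - q := by abel
  rw [h1] at h
  have h2 : RCLike.re (inner ℂ (a - q) (z - a)) = (inner ℂ (a - q) (z - a)).re := rfl
  rw [h2] at h
  linarith only [h]

/-- A point of the closure at which `c‖z-q‖² - Re Q` has a local maximum is a peak point. -/
theorem peakPt_of_localMax [Nontrivial E] {U : Set E} (hU : IsOpen U) {a q : E} {c r : ℝ}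
    (hc : 0 < c) (hr : 0 < r) {Q : E → ℂ} (hQ : DifferentiableOn ℂ Q (ball a r))
    (ha : a ∈ closure U)
    (hmax : ∀ z ∈ U, z ∈ ball a r →
      c * ‖z - q‖ ^ 2 - (Q z).re ≤ c * ‖a - q‖ ^ 2 - (Q a).re) : PeakPt U a := by
  set P : E → ℂ := fun z => Q z - Q a - 2 * (c : ℂ) * inner ℂ (a - q) (z - a) with hP
  have hPd : DifferentiableOn ℂ P (ball a r) := by
    have h1 : Differentiable ℂ (fun z : E => (inner ℂ (a - q) (z - a) : ℂ)) := by
      have : (fun z : E => (inner ℂ (a - q) (z - a) : ℂ)) =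
          fun z => innerSL ℂ (a - q) (z - a) := by
        funext z; exact (innerSL_apply_apply ℂ _ _).symm
      rw [this]
      fun_prop
    exact (hQ.sub_const _).sub (h1.differentiableOn.const_mul _)
  have hPa : P a = 0 := by simp [hP]
  have hPre : ∀ z ∈ U, z ∈ ball a r → c * ‖z - a‖ ^ 2 ≤ (P z).re := by
    intro z hz hza
    have h1 := hmax z hz hza
    have h2 := norm_sub_sq_identity z a q
    have h3 : (P z).re = (Q z).re - (Q a).re - 2 * c * (inner ℂ (a - q) (z - a)).re := by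
      simp only [hP, Complex.sub_re, Complex.mul_re, Complex.re_ofNat, Complex.ofReal_re,
        Complex.im_ofNat, Complex.ofReal_im, Complex.mul_im]
      ring
    rw [h3, ← h2]
    linarith only [h1]
  refine ⟨ha, fun haU => ?_, c, hc, r, hr, P, hPd, hPa, hPre⟩
  obtain ⟨r', hr', hrU⟩ := Metric.isOpen_iff.1 hU a haU
  set s := min r r' with hs
  have hs0 : 0 < s := lt_min hr hr'
  set φ : E → ℂ := fun z => Complex.exp (-(P z)) with hφ
  have hφd : DifferentiableOn ℂ φ (ball a s) :=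
    ((hPd.mono (ball_subset_ball (min_le_left _ _))).neg).cexp
  have hφn : ∀ z, ‖φ z‖ = Real.exp (-(P z).re) := by
    intro z
    simp only [hφ, Complex.norm_exp, Complex.neg_re]
  have hmem : ∀ z ∈ ball a s, c * ‖z - a‖ ^ 2 ≤ (P z).re := fun z hz =>
    hPre z (hrU (ball_subset_ball (min_le_right _ _) hz)) (ball_subset_ball (min_le_left _ _) hz)
  have hmax' : IsMaxOn (norm ∘ φ) (ball a s) a := by
    intro z hz
    simp only [mem_ofPred_eq, Function.comp_apply, hφn, hPa]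
    rw [Real.exp_le_exp]
    have := hmem z hz
    simp only [Complex.zero_re, neg_zero]
    linarith only [mul_nonneg (le_of_lt (sub_pos.2 hc)) (sq_nonneg ‖z - a‖), this]
  obtain ⟨v, hv⟩ := exists_ne (0 : E)
  have hvn : 0 < ‖v‖ := norm_pos_iff.2 hv
  set w : E := a + ((s / (2 * ‖v‖) : ℝ) : ℂ) • v with hw
  have hwa : ‖w - a‖ = s / 2 := by
    rw [hw, add_sub_cancel_left, norm_smul, Complex.norm_real, Real.norm_of_nonneg (by (clear * - hr hr' hv; positivity))]
    field_simp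
  have hwb : w ∈ ball a s := by
    rw [mem_ball, dist_eq_norm, hwa]; linarith only [hs0]
  have hconst := Complex.norm_eqOn_of_isPreconnected_of_isMaxOn
    (convex_ball a s).isPreconnected isOpen_ball hφd (mem_ball_self hs0) hmax' hwb
  simp only [Function.comp_apply, Function.const_apply, hφn, Real.exp_eq_exp, hPa,
    Complex.zero_re, neg_zero] at hconst
  have h1 := hmem w hwb
  rw [hwa] at h1
  have h2 : (P w).re = 0 := by linarith only [hconst]
  rw [h2] at h1
  have : 0 < c * (s / 2) ^ 2 := by (clear * - hc hr hr'; positivity)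
  linarith only [h1, this]

/-- The maximum lemma. -/
theorem exists_peakPt_of_lt [Nontrivial E] [ProperSpace E] {U : Set E} (hU : IsOpen U) {q : E}
    {δ₁ δ c κ : ℝ} (hδ₁ : δ₁ < δ) (hc : 0 < c) (hκ : 0 < κ) {P h : E → ℂ}
    (hP : DifferentiableOn ℂ P (ball q δ)) (hh : DifferentiableOn ℂ h (ball q δ))
    {z0 : E} (hz0 : z0 ∈ closure U) (hz0b : z0 ∈ ball q δ₁) (hh0 : h z0 ≠ 0)
    (hlt : ∀ z ∈ closure U, z ∈ sphere q δ₁ →
      Real.exp (κ * (c * ‖z - q‖ ^ 2 - (P z).re)) * ‖h z‖ <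
        Real.exp (κ * (c * ‖z0 - q‖ ^ 2 - (P z0).re)) * ‖h z0‖) :
    ∃ a ∈ ball q δ₁, PeakPt U a ∧ h a ≠ 0 ∧
      Real.exp (κ * (c * ‖z0 - q‖ ^ 2 - (P z0).re)) * ‖h z0‖ ≤
        Real.exp (κ * (c * ‖a - q‖ ^ 2 - (P a).re)) * ‖h a‖ := by
  set G : E → ℝ := fun z => Real.exp (κ * (c * ‖z - q‖ ^ 2 - (P z).re)) * ‖h z‖ with hG
  have hsub : closedBall q δ₁ ⊆ ball q δ := closedBall_subset_ball hδ₁
  have hGc : ContinuousOn G (closedBall q δ₁) := by
    have h1 := hP.continuousOn.mono hsub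
    have h2 := hh.continuousOn.mono hsub
    have h3 : ContinuousOn (fun z => (P z).re) (closedBall q δ₁) :=
      Complex.continuous_re.comp_continuousOn h1
    simp only [hG]
    fun_prop
  have hKc : IsCompact (closure U ∩ closedBall q δ₁) :=
    (isCompact_closedBall q δ₁).inter_left isClosed_closure
  have hz0K : z0 ∈ closure U ∩ closedBall q δ₁ := ⟨hz0, ball_subset_closedBall hz0b⟩
  obtain ⟨a, ⟨haU, hab⟩, hamax⟩ := hKc.exists_isMaxOn ⟨z0, hz0K⟩ (hGc.mono inter_subset_right)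
  have hG0 : 0 < G z0 := by
    simp only [hG]
    have : 0 < ‖h z0‖ := norm_pos_iff.2 hh0
    (clear * - hh0; positivity)
  have hGa : G z0 ≤ G a := hamax hz0K
  have hha : h a ≠ 0 := by
    intro h0
    have : G a = 0 := by simp [hG, h0]
    linarith only [hG0, hGa, this]
  have hab' : a ∈ ball q δ₁ := by
    rcases (mem_closedBall.1 hab).lt_or_eq with h1 | h1
    · exact h1
    · exact absurd (hlt a haU h1) (not_lt.2 hGa)
  refine ⟨a, hab', ?_, hha, hGa⟩
  -- local analysis near `a`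
  have haδ : a ∈ ball q δ := hsub hab
  have hhc : ContinuousAt h a := (hh.differentiableAt (isOpen_ball.mem_nhds haδ)).continuousAt
  have hslit : ∀ᶠ z in 𝓝 a, h z / h a ∈ Complex.slitPlane := by
    have h1 : ContinuousAt (fun z => h z / h a) a := hhc.div_const _
    have h2 : h a / h a ∈ Complex.slitPlane := by
      rw [div_self hha]; exact Complex.one_mem_slitPlane
    exact h1.eventually_mem (Complex.isOpen_slitPlane.mem_nhds h2)
  obtain ⟨r, hr, hr1⟩ := Metric.eventually_nhds_iff_ball.1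
    (hslit.and (isOpen_ball.eventually_mem hab'))
  set Q : E → ℂ := fun z => P z - (κ : ℂ)⁻¹ * Complex.log (h z / h a) with hQ
  refine peakPt_of_localMax hU (a := a) (q := q) (c := c) (r := r) (Q := Q) hc hr ?_ haU ?_
  · have hs1 : ball a r ⊆ ball q δ := fun z hz => hsub (ball_subset_closedBall (hr1 z hz).2)
    refine (hP.mono hs1).sub (DifferentiableOn.const_mul ?_ _)
    refine DifferentiableOn.clog ?_ fun z hz => (hr1 z hz).1
    simp only [div_eq_mul_inv]
    exact (hh.mono hs1).mul_const _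
  · intro z hzU hz
    obtain ⟨hz1, hz2⟩ := hr1 z hz
    have hhz : h z ≠ 0 := by
      intro h0
      rw [h0, zero_div] at hz1
      exact Complex.zero_notMem_slitPlane hz1
    have h1 : G z ≤ G a := hamax ⟨subset_closure hzU, ball_subset_closedBall hz2⟩
    have hQre : ∀ w, (Q w).re = (P w).re - κ⁻¹ * Real.log ‖h w / h a‖ := by
      intro w
      have hk : (κ : ℂ)⁻¹ = ((κ⁻¹ : ℝ) : ℂ) := by push_cast; rfl
      simp only [hQ]
      rw [hk, Complex.sub_re, Complex.re_ofReal_mul, Complex.log_re]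
    rw [hQre, hQre, div_self hha, norm_one, Real.log_one, mul_zero, sub_zero, norm_div,
      Real.log_div (norm_ne_zero_iff.2 hhz) (norm_ne_zero_iff.2 hha)]
    have h2 : Real.log (G z) ≤ Real.log (G a) := by
      refine Real.log_le_log ?_ h1
      simp only [hG]
      have : 0 < ‖h z‖ := norm_pos_iff.2 hhz
      (clear * - hhz; positivity)
    simp only [hG] at h2
    rw [Real.log_mul (Real.exp_pos _).ne' (norm_ne_zero_iff.2 hhz),
      Real.log_mul (Real.exp_pos _).ne' (norm_ne_zero_iff.2 hha), Real.log_exp, Real.log_exp] at h2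
    have hk1 : κ⁻¹ * κ = 1 := inv_mul_cancel₀ hκ.ne'
    have h3 : κ⁻¹ * (κ * (c * ‖z - q‖ ^ 2 - (P z).re) + Real.log ‖h z‖) ≤
        κ⁻¹ * (κ * (c * ‖a - q‖ ^ 2 - (P a).re) + Real.log ‖h a‖) :=
      mul_le_mul_of_nonneg_left h2 (by (clear * - hκ; positivity))
    have h4 : ∀ x y : ℝ, κ⁻¹ * (κ * x + y) = x + κ⁻¹ * y := by
      intro x y
      rw [mul_add, ← mul_assoc, hk1, one_mul]
    rw [h4, h4] at h3
    have h5 : κ⁻¹ * (Real.log ‖h z‖ - Real.log ‖h a‖) =
        κ⁻¹ * Real.log ‖h z‖ - κ⁻¹ * Real.log ‖h a‖ := by ring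
    rw [h5]
    linarith only [h3]

/-- Peak points are boundary points. -/
theorem PeakPt.mem_frontier {U : Set E} (hU : IsOpen U) {q : E} (h : PeakPt U q) :
    q ∈ frontier U := by
  rw [hU.frontier_eq]
  exact ⟨h.1, h.2.1⟩

end Vale.Agent.P274
end

section

open Filter Metric Set Topology Asymptotics

namespace Vale.Agent.P274

section

variable {E F : Type*} [NormedAddCommGroup E] [NormedSpace ℝ E] [NormedAddCommGroup F]
  [NormedSpace ℝ F]

/-- Integration of a growth estimate for the derivative. -/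
theorem isLittleO_of_fderiv {R : E → F} {N : ℕ} (hd : ∀ᶠ x in 𝓝 (0 : E), DifferentiableAt ℝ R x)
    (h0 : R 0 = 0) (h : (fderiv ℝ R) =o[𝓝 0] fun x => ‖x‖ ^ N) :
    R =o[𝓝 0] fun x => ‖x‖ ^ (N + 1) := by
  rw [isLittleO_iff] at h ⊢
  intro ε hε
  obtain ⟨r, hr, hrb⟩ := Metric.eventually_nhds_iff_ball.1 ((h hε).and hd)
  filter_upwards [ball_mem_nhds (0 : E) hr] with y hy
  have hy' : ‖y‖ < r := by simpa using hy
  have hsub : closedBall (0 : E) ‖y‖ ⊆ ball 0 r := closedBall_subset_ball hy'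
  have h1 := (convex_closedBall (0 : E) ‖y‖).norm_image_sub_le_of_norm_fderiv_le
    (f := R) (𝕜 := ℝ) (C := ε * ‖y‖ ^ N) (x := 0) (y := y)
    (fun z hz => (hrb z (hsub hz)).2) (fun z hz => by
      refine (hrb z (hsub hz)).1.trans ?_
      have h2 : ‖z‖ ≤ ‖y‖ := by simpa using hz
      rw [Real.norm_of_nonneg (by positivity)]
      gcongr)
    (mem_closedBall_self (norm_nonneg y)) (by simp)
  rw [h0, sub_zero, sub_zero] at h1
  rw [Real.norm_of_nonneg (by positivity), pow_succ, ← mul_assoc]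
  exact h1

/-- Second order Taylor expansion. -/
theorem taylor2 [CompleteSpace F] {f : E → F} {q : E} (hf : AnalyticAt ℝ f q) :
    (fun x => f (q + x) - f q - fderiv ℝ f q x - (1 / 2 : ℝ) • fderiv ℝ (fderiv ℝ f) q x x)
      =o[𝓝 0] fun x => ‖x‖ ^ 2 := by
  set D := fderiv ℝ f q with hD
  set B := fderiv ℝ (fderiv ℝ f) q with hB
  have hsymm : ∀ x y, B x y = B y x := by
    have : ContDiffAt ℝ ⊤ f q := hf.contDiffAt
    have h1 := this.isSymmSndFDerivAt (by simp)
    exact fun x y => h1 x y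
  have htr : Tendsto (fun x : E => q + x) (𝓝 0) (𝓝 q) := by
    have : Tendsto (fun x : E => q + x) (𝓝 0) (𝓝 (q + 0)) :=
      (continuous_const.add continuous_id).tendsto 0
    rwa [add_zero] at this
  have hBB : ∀ x : E, HasFDerivAt (fun x => (1 / 2 : ℝ) • B x x) (B x) x := by
    intro x
    have h1 : HasFDerivAt (fun x => B x) B x := B.hasFDerivAt
    have h2 : HasFDerivAt (fun x : E => x) (ContinuousLinearMap.id ℝ E) x := hasFDerivAt_id x
    have h3 := (h1.clm_apply h2).const_smul (1 / 2 : ℝ)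
    refine h3.congr_fderiv ?_
    ext v
    simp only [smul_apply, add_apply,
      ContinuousLinearMap.comp_apply, ContinuousLinearMap.flip_apply,
      ContinuousLinearMap.id_apply]
    rw [hsymm v x, ← two_smul ℝ, smul_smul]
    norm_num
  have hder : ∀ᶠ x in 𝓝 (0 : E), HasFDerivAt
      (fun x => f (q + x) - f q - D x - (1 / 2 : ℝ) • B x x)
      (fderiv ℝ f (q + x) - D - B x) x := by
    filter_upwards [htr.eventually hf.eventually_analyticAt] with x hx
    have h1 : HasFDerivAt (fun x => f (q + x)) (fderiv ℝ f (q + x)) x := by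
      have h2 := hx.differentiableAt.hasFDerivAt
      have h3 : HasFDerivAt (fun x : E => q + x) (ContinuousLinearMap.id ℝ E) x :=
        (hasFDerivAt_id x).const_add q
      have h4 := h2.comp x h3
      rw [ContinuousLinearMap.comp_id] at h4
      exact h4
    exact ((h1.sub_const _).sub D.hasFDerivAt).sub (hBB x)
  refine isLittleO_of_fderiv (N := 1) (hder.mono fun x hx => hx.differentiableAt)
    (by simp) ?_
  have h1 : (fun x => fderiv ℝ f (q + x) - D - B x) =o[𝓝 0] fun x => ‖x‖ ^ 1 := by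
    have h2 : HasFDerivAt (fderiv ℝ f) B q := hf.fderiv.differentiableAt.hasFDerivAt
    have h3 := hasFDerivAt_iff_isLittleO_nhds_zero.1 h2
    simp only [pow_one]
    exact h3.norm_right
  refine h1.congr' ?_ EventuallyEq.rfl
  filter_upwards [hder] with x hx
  exact hx.fderiv.symm

theorem taylor1_bound [CompleteSpace F] {f : E → F} {q : E} (hf : AnalyticAt ℝ f q) :
    (fun x => f (q + x) - f q - fderiv ℝ f q x) =O[𝓝 0] fun x => ‖x‖ ^ 2 := by
  have h1 := (taylor2 hf).isBigO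
  set B := fderiv ℝ (fderiv ℝ f) q with hB
  have h2 : (fun x => (1 / 2 : ℝ) • B x x) =O[𝓝 0] fun x : E => ‖x‖ ^ 2 := by
    refine IsBigO.of_bound ‖B‖ (Eventually.of_forall fun x => ?_)
    rw [norm_smul, Real.norm_of_nonneg (by norm_num), Real.norm_of_nonneg (by positivity)]
    have h3 := B.le_opNorm₂ x x
    have h4 : 0 ≤ ‖B x x‖ := norm_nonneg _
    linarith only [h4, h3]
  refine (h1.add h2).congr_left fun x => ?_
  abel

end

end Vale.Agent.P274
end

section

/-! # P274-V: definitions for the Vey-Frankel part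

`D` is an open subset of a finite-dimensional complex normed space `E`. -/

open Set Complex ComplexConjugate Topology
open scoped ContDiff

namespace Vale.Agent.P274.V

variable {E : Type*} [NormedAddCommGroup E] [NormedSpace ℂ E]

/-- A smooth Hermitian metric `h` (complex linear in the first, conjugate linear in the second
argument) and a smooth positive density `ρ` on `D`, both invariant under all biholomorphic
automorphisms of `D`. -/
structure InvMetric (D : Set E) (h : E → E →L[ℝ] E →L[ℝ] ℂ) (ρ : E → ℝ) : Prop where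
  smooth : ContDiffOn ℝ ∞ h D
  I_left : ∀ x ∈ D, ∀ u v, h x (I • u) v = I * h x u v
  symm : ∀ x ∈ D, ∀ u v, h x v u = conj (h x u v)
  pos : ∀ x ∈ D, ∀ u, u ≠ 0 → 0 < (h x u u).re
  inv : ∀ f g, IsBiholo D D f g → ∀ x ∈ D, ∀ u v,
    h (f x) (fderiv ℂ f x u) (fderiv ℂ f x v) = h x u v
  smooth_ρ : ContDiffOn ℝ ∞ ρ D
  pos_ρ : ∀ x ∈ D, 0 < ρ x
  inv_ρ : ∀ f g, IsBiholo D D f g → ∀ x ∈ D, ρ (f x) * ‖(fderiv ℂ f x).det‖ ^ 2 = ρ x

/-- The infinitesimal holomorphic isometries of `(D, h)`, extended by `0` outside `D`. -/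
def Kil (D : Set E) (h : E → E →L[ℝ] E →L[ℝ] ℂ) : Submodule ℝ (E → E) where
  carrier := {X | (∀ x ∈ D, DifferentiableAt ℂ X x) ∧ (∀ x, x ∉ D → X x = 0) ∧
    ∀ x ∈ D, ∀ u v, fderiv ℝ h x (X x) u v + h x (fderiv ℂ X x u) v
      + h x u (fderiv ℂ X x v) = 0}
  zero_mem' := by
    refine ⟨fun x _ => by fun_prop, fun x _ => rfl, fun x hx u v => ?_⟩
    have : fderiv ℂ (0 : E → E) x = 0 := by rw [fderiv_zero]; rfl
    simp [this]
  add_mem' := by
    rintro X Y ⟨h1, h2, h3⟩ ⟨h1', h2', h3'⟩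
    refine ⟨fun x hx => (h1 x hx).add (h1' x hx), fun x hx => ?_, fun x hx u v => ?_⟩
    · rw [Pi.add_apply, h2 x hx, h2' x hx, add_zero]
    · rw [fderiv_add (h1 x hx) (h1' x hx)]
      have a := h3 x hx u v
      have b := h3' x hx u v
      simp only [Pi.add_apply, map_add, add_apply]
      linear_combination a + b
  smul_mem' := by
    rintro r X ⟨h1, h2, h3⟩
    have hr : (r • X : E → E) = ((r : ℂ) • X : E → E) := by
      funext x; simp
    refine ⟨fun x hx => ?_, fun x hx => ?_, fun x hx u v => ?_⟩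
    · rw [hr]; exact (h1 x hx).const_smul _
    · rw [Pi.smul_apply, h2 x hx, smul_zero]
    · have a := h3 x hx u v
      have e : ∀ w, fderiv ℂ (r • X) x w = r • fderiv ℂ X x w := by
        intro w
        rw [hr, fderiv_const_smul (h1 x hx)]
        simp
      rw [e, e, Pi.smul_apply]
      simp only [map_smul, smul_apply]
      rw [← smul_add, ← smul_add, a, smul_zero]

theorem mem_Kil {D : Set E} {h : E → E →L[ℝ] E →L[ℝ] ℂ} {X : E → E} :
    X ∈ Kil D h ↔ (∀ x ∈ D, DifferentiableAt ℂ X x) ∧ (∀ x, x ∉ D → X x = 0) ∧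
    ∀ x ∈ D, ∀ u v, fderiv ℝ h x (X x) u v + h x (fderiv ℂ X x u) v
      + h x u (fderiv ℂ X x v) = 0 := Iff.rfl

/-- Lie bracket `[X, Y] = dY(X) - dX(Y)` of holomorphic vector fields. -/
noncomputable def lb (X Y : E → E) : E → E := fun x => fderiv ℂ Y x (X x) - fderiv ℂ X x (Y x)

/-- Push-forward `g_* X` of a vector field on `D` by the automorphism `g` of `D` with
inverse `g'`, extended by `0` outside `D`. -/
noncomputable def push (D : Set E) (g g' : E → E) (X : E → E) : E → E :=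
  D.indicator fun y => fderiv ℂ g (g' y) (X (g' y))

/-- `F` is the complete holomorphic flow of `X` on `D`. -/
structure IsFlow (D : Set E) (X : E → E) (F : ℝ → E → E) : Prop where
  biholo : ∀ t, IsBiholo D D (F t) (F (-t))
  zero : ∀ x ∈ D, F 0 x = x
  add : ∀ s t, ∀ x ∈ D, F (s + t) x = F s (F t x)
  deriv : ∀ x ∈ D, ∀ t, HasDerivAt (fun t => F t x) (X (F t x)) t
  deriv_fderiv : ∀ x ∈ D, ∀ t, HasDerivAt (fun t => fderiv ℂ (F t) x)
    ((fderiv ℂ X (F t x)).comp (fderiv ℂ (F t) x)) t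

/-- `a` is a cocompact, properly discontinuous holomorphic action of `Γ` on `D`. -/
structure IsAct (D : Set E) {Γ : Type*} [Group Γ] (a : Γ → E → E) : Prop where
  biholo : ∀ γ, IsBiholo D D (a γ) (a γ⁻¹)
  one : ∀ x ∈ D, a 1 x = x
  mul : ∀ γ δ, ∀ x ∈ D, a (γ * δ) x = a γ (a δ x)
  pd : ∀ K, IsCompact K → K ⊆ D → {γ | ∃ x ∈ K, a γ x ∈ K}.Finite
  cocompact : ∃ K, IsCompact K ∧ K ⊆ D ∧ ∀ x ∈ D, ∃ γ, a γ x ∈ K

/-- Divergence of `Y` with respect to the density `ρ`, multiplied by `ρ`. -/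
noncomputable def dv (ρ : E → ℝ) (Y : E → E) (x : E) : ℝ :=
  fderiv ℝ ρ x (Y x) + ρ x * LinearMap.trace ℝ E (fderiv ℝ Y x).toLinearMap

/-- Standing assumptions: `D` is open, connected, biholomorphic to a bounded open set, carries
the invariant metric `h` and density `ρ`, and all infinitesimal isometries are complete. -/
structure Ctx (D : Set E) (h : E → E →L[ℝ] E →L[ℝ] ℂ) (ρ : E → ℝ) : Prop where
  isOpen : IsOpen D
  conn : IsPreconnected D
  ne : D.Nonempty
  bdd : ∃ U : Set E, IsOpen U ∧ Bornology.IsBounded U ∧ Biholomorphic D U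
  met : InvMetric D h ρ
  flow : ∀ X ∈ Kil D h, ∃ F, IsFlow D X F

/-- The point `p` is an isolated fixed point of a holomorphic involution of `D`. -/
def SymAt (D : Set E) (p : E) : Prop :=
  ∃ s, IsBiholo D D s s ∧ s p = p ∧ ∃ r > 0, ∀ y ∈ D, dist y p < r → s y = y → y = p

/-! ### Siegel domains -/

variable {Z : Type*} [NormedAddCommGroup Z] [NormedSpace ℂ Z] {k : ℕ}

/-- `F` is a Hermitian (complex linear in the first argument) vector valued form. -/
structure HermF (F : Z →L[ℝ] Z →L[ℝ] (Fin k → ℂ)) : Prop where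
  I_left : ∀ u v, F (I • u) v = I • F u v
  symm : ∀ u v j, F v u j = conj (F u v j)

/-- The Siegel domain `Re w - F(z,z) ∈ Ω`. -/
def Sg (F : Z →L[ℝ] Z →L[ℝ] (Fin k → ℂ)) (Ω : Set (Fin k → ℝ)) : Set (Z × (Fin k → ℂ)) :=
  {p | (fun j => (p.2 j).re - (F p.1 p.1 j).re) ∈ Ω}

/-- A real vector as a complex vector. -/
def cpx (a : Fin k → ℝ) : Fin k → ℂ := fun j => (a j : ℂ)

/-- The field `(0, i a)`. -/
noncomputable def tauF (S : Set (Z × (Fin k → ℂ))) (a : Fin k → ℝ) :
    Z × (Fin k → ℂ) → Z × (Fin k → ℂ) := S.indicator fun _ => (0, I • cpx a)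

/-- The constant field `(0, a)`. -/
noncomputable def conF (S : Set (Z × (Fin k → ℂ))) (a : Fin k → ℝ) :
    Z × (Fin k → ℂ) → Z × (Fin k → ℂ) := S.indicator fun _ => (0, cpx a)

/-- The field `(c, 2 F(z, c))`. -/
noncomputable def nilF (F : Z →L[ℝ] Z →L[ℝ] (Fin k → ℂ)) (S : Set (Z × (Fin k → ℂ))) (c : Z) :
    Z × (Fin k → ℂ) → Z × (Fin k → ℂ) := S.indicator fun p => (c, (2 : ℂ) • F p.1 c)

/-- The field `(z / 2, w)`. -/
noncomputable def dilF (S : Set (Z × (Fin k → ℂ))) :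
    Z × (Fin k → ℂ) → Z × (Fin k → ℂ) := S.indicator fun p => ((1 / 2 : ℂ) • p.1, p.2)

/-- The field `(i z, 0)`. -/
noncomputable def rotF (S : Set (Z × (Fin k → ℂ))) :
    Z × (Fin k → ℂ) → Z × (Fin k → ℂ) := S.indicator fun p => (I • p.1, 0)

end Vale.Agent.P274.V
end

section

/-! # P274-V1: Cartan's uniqueness theorem

Proof. Let `r(x) = f x - x`. Fix `v` and let `φ(ζ) = r(p + ζ v)`, analytic at `0`. If `φ` does not
vanish near `0`, then `φ(ζ) = ζ^n g(ζ)`, `g(0) ≠ 0`. Since `r` has strict derivative `0` at `p`,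
`f^[k](p + ζ v) - (p + ζ v) = k φ(ζ) + o(ζ^n)` by induction on `k`. The function
`ζ ↦ (f^[k](p + ζ v) - (p + ζ v)) / ζ^n` is holomorphic with value `k g(0)` at `0`, and bounded
independently of `k` on a circle: contradiction. So `f = id` near `p` and, by the identity theorem,
on `U`.
-/

open Set Complex ComplexConjugate Topology
open scoped ContDiff

namespace Vale.Agent.P274.V

open Filter Asymptotics

variable {E : Type*} [NormedAddCommGroup E] [NormedSpace ℂ E]

/-- Schwarz lemma of order `n` at the origin. -/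
theorem cu_quot [CompleteSpace E] {h : ℂ → E} {ρ M : ℝ} (hρ : 0 < ρ)
    (hd : DifferentiableOn ℂ h (Metric.ball 0 ρ)) (hM : ∀ z ∈ Metric.ball (0 : ℂ) ρ, ‖h z‖ ≤ M)
    (n : ℕ) {a : E} (ha : Tendsto (fun z : ℂ => (z ^ n)⁻¹ • h z) (𝓝[≠] 0) (𝓝 a)) :
    ‖a‖ ≤ M / (ρ / 2) ^ n := by
  obtain ⟨H, hH⟩ : ∃ H : ℂ → E, H = Function.update (fun z : ℂ => (z ^ n)⁻¹ • h z) 0 a := ⟨_, rfl⟩
  have hH0 : H 0 = a := by rw [hH, Function.update_self]
  have hHne : ∀ z : ℂ, z ≠ 0 → H z = (z ^ n)⁻¹ • h z := by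
    intro z hz
    rw [hH, Function.update_of_ne hz]
  have hc : ContinuousAt H 0 := by rw [hH]; exact continuousAt_update_same.2 ha
  have hd1 : DifferentiableOn ℂ H (Metric.ball 0 ρ \ {0}) := by
    have h1 : DifferentiableOn ℂ (fun z : ℂ => (z ^ n)⁻¹ • h z) (Metric.ball 0 ρ \ {0}) := by
      refine DifferentiableOn.smul ?_ (hd.mono sdiff_subset)
      refine DifferentiableOn.inv (by fun_prop) ?_
      intro z hz
      exact pow_ne_zero n hz.2
    refine h1.congr fun z hz => hHne z hz.2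
  have hd2 : DifferentiableOn ℂ H (Metric.ball 0 ρ) :=
    (Complex.differentiableOn_compl_singleton_and_continuousAt_iff (Metric.ball_mem_nhds 0 hρ)).1
      ⟨hd1, hc⟩
  have hd3 : DiffContOnCl ℂ H (Metric.ball 0 (ρ / 2)) :=
    hd2.diffContOnCl_ball (Metric.closedBall_subset_ball (by linarith))
  have hr2 : 0 < ρ / 2 := by positivity
  have key := Complex.norm_le_of_forall_mem_frontier_norm_le Metric.isBounded_ball hd3
    (C := M / (ρ / 2) ^ n) (fun z hz => by
      rw [frontier_ball (0 : ℂ) hr2.ne', mem_sphere_zero_iff_norm] at hz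
      have hz0 : z ≠ 0 := by
        rintro rfl
        rw [norm_zero] at hz
        linarith only [hz, hr2]
      rw [hHne z hz0, norm_smul, norm_inv, norm_pow, hz, inv_mul_eq_div]
      have hzb : z ∈ Metric.ball (0 : ℂ) ρ := by
        rw [mem_ball_zero_iff, hz]
        linarith
      exact div_le_div_of_nonneg_right (hM z hzb) (by positivity))
    (subset_closure (Metric.mem_ball_self hr2))
  rw [hH0] at key
  exact key

/-- iterates on a line -/
theorem cu_iter {f : E → E} {p : E} (hfp : f p = p)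
    (hs : HasStrictFDerivAt f (ContinuousLinearMap.id ℂ E) p) (v : E) {n : ℕ}
    (hφ : (fun ζ : ℂ => f (p + ζ • v) - (p + ζ • v)) =O[𝓝 0] fun ζ => ζ ^ n) (k : ℕ) :
    Tendsto (fun ζ : ℂ => f^[k] (p + ζ • v)) (𝓝 0) (𝓝 p) ∧
    (fun ζ : ℂ => f^[k] (p + ζ • v) - (p + ζ • v) - (k : ℂ) • (f (p + ζ • v) - (p + ζ • v)))
      =o[𝓝 0] fun ζ => ζ ^ n := by
  have hl : Tendsto (fun ζ : ℂ => p + ζ • v) (𝓝 0) (𝓝 p) := by
    have h1 : Continuous fun ζ : ℂ => p + ζ • v := by fun_prop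
    have h2 := h1.tendsto 0
    rw [zero_smul, add_zero] at h2
    exact h2
  induction k with
  | zero =>
    refine ⟨hl, ?_⟩
    have : (fun ζ : ℂ => f^[0] (p + ζ • v) - (p + ζ • v)
        - ((0 : ℕ) : ℂ) • (f (p + ζ • v) - (p + ζ • v))) = fun _ => 0 := by
      funext ζ
      simp
    rw [this]
    exact isLittleO_zero _ _
  | succ k ih =>
    obtain ⟨ih1, ih2⟩ := ih
    have hfc : ContinuousAt f p := hs.continuousAt
    refine ⟨?_, ?_⟩
    · have h1 := (hfc.tendsto).comp ih1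
      rw [hfp] at h1
      refine h1.congr fun ζ => ?_
      rw [Function.iterate_succ_apply']
      rfl
    · -- the increment
      have hO : (fun ζ : ℂ => f^[k] (p + ζ • v) - (p + ζ • v)) =O[𝓝 0] fun ζ => ζ ^ n := by
        have h1 : (fun ζ : ℂ => f^[k] (p + ζ • v) - (p + ζ • v)) = fun ζ =>
            (f^[k] (p + ζ • v) - (p + ζ • v) - (k : ℂ) • (f (p + ζ • v) - (p + ζ • v)))
            + (k : ℂ) • (f (p + ζ • v) - (p + ζ • v)) := by
          funext ζ
          abel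
        rw [h1]
        exact ih2.isBigO.add (hφ.const_smul_left (k : ℂ))
      have h2 := (hs.isLittleO.comp_tendsto (ih1.prodMk_nhds hl)).trans_isBigO hO
      have h3 : (fun ζ : ℂ => f^[k + 1] (p + ζ • v) - (p + ζ • v)
          - ((k + 1 : ℕ) : ℂ) • (f (p + ζ • v) - (p + ζ • v))) = fun ζ =>
          (f^[k] (p + ζ • v) - (p + ζ • v) - (k : ℂ) • (f (p + ζ • v) - (p + ζ • v)))
          + ((fun q : E × E => f q.1 - f q.2 - ContinuousLinearMap.id ℂ E (q.1 - q.2)) ∘
            fun ζ : ℂ => (f^[k] (p + ζ • v), p + ζ • v)) ζ := by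
        funext ζ
        rw [Function.iterate_succ_apply']
        simp only [Function.comp_apply, ContinuousLinearMap.id_apply, Nat.cast_add, Nat.cast_one,
          add_smul, one_smul]
        abel
      rw [h3]
      exact ih2.add h2

/-- Cartan's uniqueness theorem on a line. -/
theorem cu_line [FiniteDimensional ℂ E] {U : Set E} (hU : IsOpen U)
    (hb : Bornology.IsBounded U) {f : E → E} (hf : DifferentiableOn ℂ f U) (hm : MapsTo f U U)
    {p : E} (hp : p ∈ U) (hfp : f p = p) (hd : fderiv ℂ f p = ContinuousLinearMap.id ℂ E) (v : E) :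
    ∀ᶠ ζ : ℂ in 𝓝 0, f (p + ζ • v) - (p + ζ • v) = 0 := by
  have hcs : CompleteSpace E := FiniteDimensional.complete ℂ E
  have hfa : AnalyticAt ℂ f p := Vale.Agent.P268.analyticAt_of_differentiableOn hU hf hp
  have hs : HasStrictFDerivAt f (ContinuousLinearMap.id ℂ E) p := by
    have h1 := hfa.hasStrictFDerivAt
    rw [hd] at h1
    exact h1
  have hla : AnalyticAt ℂ (fun ζ : ℂ => p + ζ • v) 0 := by fun_prop
  have hfa' : AnalyticAt ℂ f (p + (0 : ℂ) • v) := by rw [zero_smul, add_zero]; exact hfa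
  have hφa : AnalyticAt ℂ (fun ζ : ℂ => f (p + ζ • v) - (p + ζ • v)) 0 :=
    (AnalyticAt.fun_comp (g := f) (f := fun ζ : ℂ => p + ζ • v) (x := 0) hfa' hla).sub hla
  by_contra hne
  obtain ⟨n, g, hg, hg0, hgφ⟩ := hφa.exists_eventuallyEq_pow_smul_nonzero_iff.2 hne
  have hgφ' : ∀ᶠ ζ : ℂ in 𝓝 0, f (p + ζ • v) - (p + ζ • v) = ζ ^ n • g ζ := by
    filter_upwards [hgφ] with ζ hζ
    rw [hζ, sub_zero]
  have hgO : g =O[𝓝 0] fun _ => (1 : ℂ) := hg.continuousAt.tendsto.isBigO_one ℂ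
  have hO : (fun ζ : ℂ => f (p + ζ • v) - (p + ζ • v)) =O[𝓝 0] fun ζ => ζ ^ n := by
    refine IsBigO.congr' (f₁ := fun ζ : ℂ => ζ ^ n • g ζ) (g₁ := fun ζ : ℂ => ζ ^ n • (1 : ℂ)) ?_
      ?_ ?_
    · exact (isBigO_refl _ _).smul hgO
    · filter_upwards [hgφ'] with ζ hζ using hζ.symm
    · exact Eventually.of_forall fun ζ => by simp
  obtain ⟨M, hM⟩ := Metric.isBounded_iff.1 hb
  obtain ⟨ρ, hρ, hρU⟩ : ∃ ρ > 0, ∀ ζ ∈ Metric.ball (0 : ℂ) ρ, p + ζ • v ∈ U := by
    have h1 : Continuous fun ζ : ℂ => p + ζ • v := by fun_prop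
    have h2 : (fun ζ : ℂ => p + ζ • v) ⁻¹' U ∈ 𝓝 (0 : ℂ) := by
      refine h1.continuousAt.preimage_mem_nhds ?_
      rw [zero_smul, add_zero]
      exact hU.mem_nhds hp
    obtain ⟨ρ, hρ, h3⟩ := Metric.mem_nhds_iff.1 h2
    exact ⟨ρ, hρ, h3⟩
  have hbound : ∀ k : ℕ, (k : ℝ) * ‖g 0‖ ≤ M / (ρ / 2) ^ n := by
    intro k
    have hmk : MapsTo f^[k] U U := hm.iterate k
    have hdk : DifferentiableOn ℂ (fun ζ : ℂ => f^[k] (p + ζ • v) - (p + ζ • v))
        (Metric.ball 0 ρ) := by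
      refine DifferentiableOn.sub ?_ (by fun_prop)
      exact (hf.iterate hm k).comp (by fun_prop) hρU
    have hlim : Tendsto (fun ζ : ℂ => (ζ ^ n)⁻¹ • (f^[k] (p + ζ • v) - (p + ζ • v)))
        (𝓝[≠] 0) (𝓝 ((k : ℂ) • g 0)) := by
      have h1 := (cu_iter hfp hs v hO k).2
      have h2 : Tendsto (fun ζ : ℂ => (ζ ^ n)⁻¹ • (f^[k] (p + ζ • v) - (p + ζ • v)
          - (k : ℂ) • (f (p + ζ • v) - (p + ζ • v)))) (𝓝[≠] 0) (𝓝 0) := by
        have h3 := (h1.mono (nhdsWithin_le_nhds (s := {0}ᶜ))).tendsto_inv_smul_nhds_zero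
        exact h3
      have h4 : Tendsto (fun ζ : ℂ => (k : ℂ) • g ζ) (𝓝[≠] 0) (𝓝 ((k : ℂ) • g 0)) :=
        (hg.continuousAt.tendsto.mono_left nhdsWithin_le_nhds).const_smul _
      have h5 := h2.add h4
      rw [zero_add] at h5
      refine h5.congr' ?_
      filter_upwards [hgφ'.filter_mono nhdsWithin_le_nhds, self_mem_nhdsWithin] with ζ hζ hζ0
      have hz : ζ ^ n ≠ 0 := pow_ne_zero n hζ0
      have h7 : (ζ ^ n)⁻¹ • (k : ℂ) • (ζ ^ n • g ζ) = (k : ℂ) • g ζ := by
        rw [smul_comm ((ζ ^ n)⁻¹) (k : ℂ), inv_smul_smul₀ hz]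
      rw [hζ, smul_sub, h7, sub_add_cancel]
    have h6 := cu_quot hρ hdk (M := M) (fun z hz => by
      rw [← dist_eq_norm]
      exact hM (hmk (hρU z hz)) (hρU z hz)) n hlim
    rw [norm_smul, Complex.norm_natCast] at h6
    exact h6
  have hpos : 0 < ‖g 0‖ := norm_pos_iff.2 hg0
  obtain ⟨k, hk⟩ := exists_nat_gt (M / (ρ / 2) ^ n / ‖g 0‖)
  rw [div_lt_iff₀ hpos] at hk
  exact absurd (hbound k) (not_le.2 hk)

/-- Cartan's uniqueness theorem. -/
theorem cartan_unique [FiniteDimensional ℂ E] {U : Set E} (hU : IsOpen U) (hc : IsPreconnected U)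
    (hb : Bornology.IsBounded U) {f : E → E} (hf : DifferentiableOn ℂ f U) (hm : MapsTo f U U)
    {p : E} (hp : p ∈ U) (hfp : f p = p) (hd : fderiv ℂ f p = ContinuousLinearMap.id ℂ E) :
    ∀ x ∈ U, f x = x := by
  have hcs : CompleteSpace E := FiniteDimensional.complete ℂ E
  obtain ⟨r, hr, hrU⟩ := Metric.isOpen_iff.1 hU p hp
  have hev : f =ᶠ[𝓝 p] fun x => x := by
    filter_upwards [Metric.ball_mem_nhds p hr] with x hx
    rcases eq_or_ne x p with rfl | hxp
    · exact hfp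
    have hd0 : 0 < ‖x - p‖ := norm_pos_iff.2 (sub_ne_zero.2 hxp)
    have hmaps : ∀ ζ ∈ Metric.ball (0 : ℂ) (r / ‖x - p‖), p + ζ • (x - p) ∈ U := by
      intro ζ hζ
      apply hrU
      rw [mem_ball_zero_iff, lt_div_iff₀ hd0] at hζ
      rw [Metric.mem_ball, dist_eq_norm, add_sub_cancel_left, norm_smul]
      exact hζ
    have hdw : DifferentiableOn ℂ (fun ζ : ℂ => f (p + ζ • (x - p)) - (p + ζ • (x - p)))
        (Metric.ball (0 : ℂ) (r / ‖x - p‖)) := by
      refine DifferentiableOn.sub ?_ (by fun_prop)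
      exact hf.comp (by fun_prop) hmaps
    have h1 := (hdw.analyticOnNhd Metric.isOpen_ball).eqOn_zero_of_preconnected_of_eventuallyEq_zero
      (convex_ball _ _).isPreconnected (Metric.mem_ball_self (by positivity))
      (cu_line hU hb hf hm hp hfp hd (x - p))
    have h2 : (1 : ℂ) ∈ Metric.ball (0 : ℂ) (r / ‖x - p‖) := by
      rw [mem_ball_zero_iff, norm_one, lt_div_iff₀ hd0, one_mul]
      rwa [Metric.mem_ball, dist_eq_norm] at hx
    have h3 := h1 h2
    simp only [one_smul, add_sub_cancel, Pi.zero_apply] at h3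
    exact sub_eq_zero.1 h3
  exact Vale.Agent.P274.eqOn_of_eventuallyEq hU hc hf differentiableOn_id hp hev

/-- Cartan's uniqueness theorem for a domain biholomorphic to a bounded one
(conjugate by the biholomorphism). -/
theorem cartan_unique' [FiniteDimensional ℂ E] {D : Set E} (hD : IsOpen D) (hc : IsPreconnected D)
    (hb : ∃ U : Set E, IsOpen U ∧ Bornology.IsBounded U ∧ Biholomorphic D U)
    {f : E → E} (hf : DifferentiableOn ℂ f D) (hm : MapsTo f D D)
    {p : E} (hp : p ∈ D) (hfp : f p = p) (hd : fderiv ℂ f p = ContinuousLinearMap.id ℂ E) :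
    ∀ x ∈ D, f x = x := by
  obtain ⟨U, hU, hUb, φ, ψ, hφ⟩ := hb
  have himg : φ '' D = U := by
    apply Subset.antisymm
    · rintro _ ⟨x, hx, rfl⟩
      exact hφ.mapsTo hx
    · intro y hy
      exact ⟨ψ y, hφ.mapsTo_inv hy, hφ.right_inv y hy⟩
  have hUc : IsPreconnected U := by
    rw [← himg]
    exact hc.image φ hφ.diffOn.continuousOn
  have hq : φ p ∈ U := hφ.mapsTo hp
  have hψq : ψ (φ p) = p := hφ.left_inv p hp
  have hFm : MapsTo (φ ∘ f ∘ ψ) U U := hφ.mapsTo.comp (hm.comp hφ.mapsTo_inv)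
  have hFd : DifferentiableOn ℂ (φ ∘ f ∘ ψ) U :=
    hφ.diffOn.comp (hf.comp hφ.diffOn_inv hφ.mapsTo_inv) (hm.comp hφ.mapsTo_inv)
  have hFq : (φ ∘ f ∘ ψ) (φ p) = φ p := by
    simp only [Function.comp_apply, hψq, hfp]
  have hψd : HasFDerivAt ψ (fderiv ℂ ψ (φ p)) (φ p) :=
    (hφ.diffOn_inv.differentiableAt (hU.mem_nhds hq)).hasFDerivAt
  have hφd : HasFDerivAt φ (fderiv ℂ φ p) p :=
    (hφ.diffOn.differentiableAt (hD.mem_nhds hp)).hasFDerivAt
  have hfd : HasFDerivAt f (ContinuousLinearMap.id ℂ E) p := by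
    rw [← hd]
    exact (hf.differentiableAt (hD.mem_nhds hp)).hasFDerivAt
  have h1 : HasFDerivAt (f ∘ ψ) ((ContinuousLinearMap.id ℂ E).comp (fderiv ℂ ψ (φ p))) (φ p) := by
    refine HasFDerivAt.comp (φ p) ?_ hψd
    rw [hψq]
    exact hfd
  have h2 : HasFDerivAt (φ ∘ f ∘ ψ) ((fderiv ℂ φ p).comp
      ((ContinuousLinearMap.id ℂ E).comp (fderiv ℂ ψ (φ p)))) (φ p) := by
    refine HasFDerivAt.comp (φ p) ?_ h1
    rw [Function.comp_apply, hψq, hfp]
    exact hφd
  have h3 : HasFDerivAt (φ ∘ ψ) ((fderiv ℂ φ p).comp (fderiv ℂ ψ (φ p))) (φ p) := by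
    refine HasFDerivAt.comp (φ p) ?_ hψd
    rw [hψq]
    exact hφd
  have h4 : HasFDerivAt (φ ∘ ψ) (ContinuousLinearMap.id ℂ E) (φ p) := by
    refine (hasFDerivAt_id (φ p)).congr_of_eventuallyEq ?_
    filter_upwards [hU.mem_nhds hq] with y hy
    exact hφ.right_inv y hy
  have h5 := h3.unique h4
  rw [ContinuousLinearMap.id_comp, h5] at h2
  have key := cartan_unique hU hUc hUb hFd hFm hq hFq h2.fderiv
  intro x hx
  have h6 := key (φ x) (hφ.mapsTo hx)
  simp only [Function.comp_apply, hφ.left_inv x hx] at h6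
  have h7 := congrArg ψ h6
  rw [hφ.left_inv _ (hm hx), hφ.left_inv x hx] at h7
  exact h7

end Vale.Agent.P274.V
end

section

/-! # P274-V7: a Killing field is determined by its 1-jet at a point

Proof of `Kil_jet_unique`. `F t p = p` for all `t` (uniqueness of integral curves, or: the constant curve;
`ODE_solution_unique_univ` needs global Lipschitz, so use `ODE_solution_unique_of_eventually` and a
connectedness argument, or `flow_eq_self_of_zero` below).  Then `A t = fderiv ℂ (F t) p` satisfies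
`A' = fderiv ℂ X p ∘ A = 0` (`deriv_fderiv`), so `A t = A 0 = id` (`F 0 = id` on the open set `D`).  By
`cartan_unique'` `F t = id` on `D`, hence `X x = d/dt F t x = 0`.
`Kil_finiteDimensional`: the real linear map `Kil D h → E × (E →L[ℂ] E)`, `X ↦ (X p, fderiv ℂ X p)` is
injective and the target is finite-dimensional over `ℝ`. -/

open Set Complex ComplexConjugate Topology
open scoped ContDiff

namespace Vale.Agent.P274.V

variable {E : Type*} [NormedAddCommGroup E] [NormedSpace ℂ E]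

/-- Zeros of the field are fixed by the flow. -/
theorem flow_eq_self_of_zero [FiniteDimensional ℂ E] {D : Set E} (hD : IsOpen D) {X : E → E}
    (hX : ∀ x ∈ D, DifferentiableAt ℂ X x) {F : ℝ → E → E} (hF : IsFlow D X F) {p : E}
    (hp : p ∈ D) (h0 : X p = 0) (t : ℝ) : F t p = p := by
  have hE : CompleteSpace E := FiniteDimensional.complete ℂ E
  have hcd : ContDiffAt ℂ 1 X p := by
    have h1 := P268.contDiffOn_of_differentiableOn (F := E) hD
      (fun x hx => (hX x hx).differentiableWithinAt) 1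
    exact_mod_cast h1.contDiffAt (hD.mem_nhds hp)
  obtain ⟨K, s, hs, hK⟩ := hcd.exists_lipschitzOnWith
  -- near `0` the flow fixes `p`
  have hev : (fun t => F t p) =ᶠ[𝓝 0] fun _ => p := by
    refine ODE_solution_unique_of_eventually (v := fun _ => X) (s := fun _ => s) (K := K)
      (Filter.Eventually.of_forall fun _ => hK) ?_ ?_ (hF.zero p hp)
    · have hc : Filter.Tendsto (fun t => F t p) (𝓝 0) (𝓝 p) := by
        have := (hF.deriv p hp 0).continuousAt.tendsto
        rwa [hF.zero p hp] at this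
      filter_upwards [hc hs] with t ht using ⟨hF.deriv p hp t, ht⟩
    · refine Filter.Eventually.of_forall fun t => ⟨?_, mem_of_mem_nhds hs⟩
      rw [h0]
      exact hasDerivAt_const t p
  obtain ⟨ε, hε, hε'⟩ := Metric.eventually_nhds_iff.1 hev
  obtain ⟨n, hn⟩ := exists_nat_gt (|t| / ε)
  have hn0 : (0 : ℝ) < n := lt_of_le_of_lt (by (clear * - hε; positivity)) hn
  have hsmall : F (t / n) p = p := by
    refine hε' ?_
    rw [dist_zero_right, Real.norm_eq_abs, abs_div, abs_of_pos hn0, div_lt_iff₀ hn0]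
    rw [div_lt_iff₀ hε] at hn
    linarith
  have hk : ∀ k : ℕ, F (k * (t / n)) p = p := by
    intro k
    induction k with
    | zero => simpa using hF.zero p hp
    | succ k ih =>
      have e : ((k + 1 : ℕ) : ℝ) * (t / n) = k * (t / n) + t / n := by push_cast; ring
      rw [e, hF.add _ _ p hp, hsmall, ih]
  have := hk n
  rwa [mul_div_cancel₀ t hn0.ne'] at this

/-- At a zero `p` of `X` with `fderiv ℂ X p = c • id` the derivative of the flow is `exp (c t)`. -/
theorem fderiv_flow_of_zero [FiniteDimensional ℂ E] {D : Set E} (hD : IsOpen D) {X : E → E}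
    (hX : ∀ x ∈ D, DifferentiableAt ℂ X x) {F : ℝ → E → E} (hF : IsFlow D X F) {p : E}
    (hp : p ∈ D) (h0 : X p = 0) {c : ℂ} (h1 : fderiv ℂ X p = c • ContinuousLinearMap.id ℂ E)
    (t : ℝ) : fderiv ℂ (F t) p = exp (c * t) • ContinuousLinearMap.id ℂ E := by
  have hd : ∀ s : ℝ, HasDerivAt (fun t => fderiv ℂ (F t) p) (c • fderiv ℂ (F s) p) s := by
    intro s
    have h2 := hF.deriv_fderiv p hp s
    rw [flow_eq_self_of_zero hD hX hF hp h0 s, h1] at h2
    simpa using h2
  have hexp : ∀ s : ℝ, HasDerivAt (fun t : ℝ => exp (-(c * t))) (exp (-(c * s)) * (-c)) s := by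
    intro s
    have h2 : HasDerivAt (fun t : ℝ => -(c * (t : ℂ))) (-c) s := by
      have h3 := ((Complex.ofRealCLM.hasDerivAt (x := s)).const_mul c).fun_neg
      simp only [Complex.ofRealCLM_apply, ofReal_one, mul_one] at h3
      exact h3
    exact h2.cexp
  have hB : ∀ s : ℝ, HasDerivAt (fun t : ℝ => exp (-(c * t)) • fderiv ℂ (F t) p) 0 s := by
    intro s
    have h2 := (hexp s).fun_smul (hd s)
    have e : exp (-(c * s)) • c • fderiv ℂ (F s) p + (exp (-(c * s)) * (-c)) • fderiv ℂ (F s) p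
        = 0 := by
      rw [smul_smul, ← add_smul, mul_neg, add_neg_cancel, zero_smul]
    rw [e] at h2
    exact h2
  have hconst := is_const_of_deriv_eq_zero (fun s => (hB s).differentiableAt)
    (fun s => (hB s).deriv) t 0
  have hid : fderiv ℂ (F 0) p = ContinuousLinearMap.id ℂ E := by
    have : F 0 =ᶠ[𝓝 p] id := by
      filter_upwards [hD.mem_nhds hp] with x hx using hF.zero x hx
    rw [this.fderiv_eq, fderiv_id]
  simp only [hid, ofReal_zero, mul_zero, neg_zero, Complex.exp_zero, one_smul] at hconst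
  rw [← hconst, smul_smul, ← Complex.exp_add]
  simp

theorem Kil_jet_unique [FiniteDimensional ℂ E] {D : Set E} {h : E → E →L[ℝ] E →L[ℝ] ℂ}
    {ρ : E → ℝ} (C : Ctx D h ρ) {X : E → E} (hX : X ∈ Kil D h) {p : E} (hp : p ∈ D)
    (h0 : X p = 0) (h1 : fderiv ℂ X p = 0) : X = 0 := by
  obtain ⟨F, hF⟩ := C.flow X hX
  have hXd : ∀ x ∈ D, DifferentiableAt ℂ X x := hX.1
  have hfix : ∀ t, ∀ x ∈ D, F t x = x := by
    intro t
    refine cartan_unique' C.isOpen C.conn C.bdd (hF.biholo t).diffOn (hF.biholo t).mapsTo hp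
      (flow_eq_self_of_zero C.isOpen hXd hF hp h0 t) ?_
    have := fderiv_flow_of_zero C.isOpen hXd hF hp h0 (c := 0) (by rw [h1, zero_smul]) t
    simpa using this
  funext x
  by_cases hx : x ∈ D
  · have h2 := hF.deriv x hx 0
    have h3 : (fun t => F t x) = fun _ => x := funext fun t => hfix t x hx
    rw [h3, hfix 0 x hx] at h2
    exact h2.unique (hasDerivAt_const 0 x)
  · exact hX.2.1 x hx

theorem Kil_finiteDimensional [FiniteDimensional ℂ E] {D : Set E} {h : E → E →L[ℝ] E →L[ℝ] ℂ}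
    {ρ : E → ℝ} (C : Ctx D h ρ) : FiniteDimensional ℝ (Kil D h) := by
  obtain ⟨p, hp⟩ := C.ne
  have hfE : FiniteDimensional ℝ E := FiniteDimensional.complexToReal E
  have hfL : FiniteDimensional ℝ (E →L[ℂ] E) := FiniteDimensional.complexToReal _
  have hr : ∀ (r : ℝ) (X : E → E), (r • X : E → E) = ((r : ℂ) • X : E → E) := by
    intro r X
    funext x; simp
  let L : Kil D h →ₗ[ℝ] E × (E →L[ℂ] E) :=
    { toFun := fun X => (X.1 p, fderiv ℂ X.1 p)
      map_add' := by
        rintro ⟨X, hX⟩ ⟨Y, hY⟩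
        refine Prod.ext rfl ?_
        exact fderiv_add (hX.1 p hp) (hY.1 p hp)
      map_smul' := by
        rintro r ⟨X, hX⟩
        refine Prod.ext rfl ?_
        show fderiv ℂ (r • X) p = r • fderiv ℂ X p
        rw [hr, fderiv_const_smul (hX.1 p hp)]
        ext v
        simp }
  refine FiniteDimensional.of_injective L ?_
  rw [← LinearMap.ker_eq_bot, LinearMap.ker_eq_bot']
  rintro ⟨X, hX⟩ hL
  have h0 : X p = 0 := congrArg Prod.fst hL
  have h1 : fderiv ℂ X p = 0 := congrArg Prod.snd hL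
  exact Subtype.ext (Kil_jet_unique C hX hp h0 h1)

/-- Skewness at the zeros. -/
theorem skew_of_zero {D : Set E} {h : E → E →L[ℝ] E →L[ℝ] ℂ} {X : E → E} (hX : X ∈ Kil D h)
    {p : E} (hp : p ∈ D) (h0 : X p = 0) (u v : E) :
    h p (fderiv ℂ X p u) v + h p u (fderiv ℂ X p v) = 0 := by
  have h3 := hX.2.2 p hp u v
  rw [h0, map_zero] at h3
  simpa using h3

end Vale.Agent.P274.V
end

section

/-! # P274-V5: the derivative of a family of automorphisms lies in `Kil`

Proof. For fixed `x ∈ D`, `u, v` differentiate the identity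
`h (G t x) (fderiv ℂ (G t) x u) (fderiv ℂ (G t) x v) = h x u v` at `t = 0`:
`h` is differentiable at `x = G 0 x` (`hm.smooth`), `fderiv ℂ (G 0) x = id` since `G 0 = id` on the open
set `D`. -/

open Set Complex ComplexConjugate Topology
open scoped ContDiff

namespace Vale.Agent.P274.V

variable {E : Type*} [NormedAddCommGroup E] [NormedSpace ℂ E]

/-- The derivative of a homomorphism-free family at a time where it is the identity. -/
theorem fderiv_eq_id_of_eqOn {D : Set E} (hD : IsOpen D) {G : E → E} (h0 : ∀ x ∈ D, G x = x)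
    {x : E} (hx : x ∈ D) : fderiv ℂ G x = ContinuousLinearMap.id ℂ E := by
  have e : G =ᶠ[𝓝 x] id := by
    filter_upwards [hD.mem_nhds hx] with y hy using h0 y hy
  rw [e.fderiv_eq, fderiv_id]

theorem hasDerivAt_clm_apply' {A : ℝ → E →L[ℂ] E} {A' : E →L[ℂ] E} {t : ℝ}
    (h : HasDerivAt A A' t) (u : E) : HasDerivAt (fun s => A s u) (A' u) t := by
  have := ((ContinuousLinearMap.apply ℂ E u).restrictScalars ℝ).hasFDerivAt.comp_hasDerivAt t h
  simpa [Function.comp_def] using this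

theorem mem_Kil_of_family [FiniteDimensional ℂ E] {D : Set E} (hD : IsOpen D)
    {h : E → E →L[ℝ] E →L[ℝ] ℂ} {ρ : E → ℝ} (hm : InvMetric D h ρ) {G G' : ℝ → E → E}
    (hG : ∀ t, IsBiholo D D (G t) (G' t)) (h0 : ∀ x ∈ D, G 0 x = x) {Y : E → E}
    (hY : ∀ x ∈ D, DifferentiableAt ℂ Y x) (hY0 : ∀ x, x ∉ D → Y x = 0)
    (h1 : ∀ x ∈ D, HasDerivAt (fun t => G t x) (Y x) 0)
    (h2 : ∀ x ∈ D, HasDerivAt (fun t => fderiv ℂ (G t) x) (fderiv ℂ Y x) 0) :
    Y ∈ Kil D h := by
  refine ⟨hY, hY0, fun x hx u v => ?_⟩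
  have hid : fderiv ℂ (G 0) x = ContinuousLinearMap.id ℂ E := fderiv_eq_id_of_eqOn hD h0 hx
  have hd : HasFDerivAt h (fderiv ℝ h x) (G 0 x) := by
    rw [h0 x hx]
    exact ((hm.smooth.contDiffAt (hD.mem_nhds hx)).differentiableAt (by simp)).hasFDerivAt
  have a1 : HasDerivAt (fun t => h (G t x)) (fderiv ℝ h x (Y x)) 0 :=
    HasFDerivAt.comp_hasDerivAt (E := E →L[ℝ] E →L[ℝ] ℂ) (F := E) (0 : ℝ) hd (h1 x hx)
  have a2 := (a1.clm_apply (hasDerivAt_clm_apply' (h2 x hx) u)).clm_apply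
    (hasDerivAt_clm_apply' (h2 x hx) v)
  have a3 : (fun t => h (G t x) (fderiv ℂ (G t) x u) (fderiv ℂ (G t) x v))
      = fun _ => h x u v := by
    funext t
    exact hm.inv _ _ (hG t) x hx u v
  rw [a3] at a2
  have a4 := a2.unique (hasDerivAt_const _ _)
  rw [h0 x hx, hid] at a4
  simpa using a4

theorem hasDerivAt_matrix_det {n : Type*} [Fintype n] [DecidableEq n] {A : ℝ → Matrix n n ℝ}
    {A' : Matrix n n ℝ} (h0 : A 0 = 1) (hA : ∀ i j, HasDerivAt (fun t => A t i j) (A' i j) 0) :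
    HasDerivAt (fun t => (A t).det) A'.trace 0 := by
  have h1 : ∀ σ : Equiv.Perm n, HasDerivAt (fun t => ∏ i, A t (σ i) i)
      (∑ i, (∏ j ∈ Finset.univ.erase i, A 0 (σ j) j) • A' (σ i) i) 0 := fun σ =>
    HasDerivAt.fun_finsetProd (fun i _ => hA (σ i) i)
  have h2 : HasDerivAt (fun t => (A t).det) (∑ σ : Equiv.Perm n, (Equiv.Perm.sign σ : ℤ) •
      (∑ i, (∏ j ∈ Finset.univ.erase i, A 0 (σ j) j) • A' (σ i) i)) 0 := by
    simp only [Matrix.det_apply']
    refine HasDerivAt.fun_sum fun σ _ => ?_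
    simpa [zsmul_eq_mul] using (h1 σ).const_mul ((Equiv.Perm.sign σ : ℤ) : ℝ)
  convert h2 using 1
  rw [Finset.sum_eq_single (1 : Equiv.Perm n)]
  · simp [h0, Matrix.trace]
  · intro σ _ hσ
    have : ∀ i, (∏ j ∈ Finset.univ.erase i, A 0 (σ j) j) = 0 := by
      intro i
      obtain ⟨a, ha⟩ : ∃ a, σ a ≠ a := by
        by_contra hc
        push Not at hc
        exact hσ (Equiv.ext hc)
      by_cases hi : a = i
      · subst hi
        refine Finset.prod_eq_zero (i := σ a) (Finset.mem_erase.2 ⟨ha, Finset.mem_univ _⟩) ?_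
        rw [h0, Matrix.one_apply_ne]
        intro hc
        exact ha (σ.injective hc)
      · refine Finset.prod_eq_zero (i := a) (Finset.mem_erase.2 ⟨hi, Finset.mem_univ _⟩) ?_
        rw [h0, Matrix.one_apply_ne ha]
    simp [this]
  · simp

theorem hasDerivAt_det {V : Type*} [NormedAddCommGroup V] [NormedSpace ℝ V]
    [FiniteDimensional ℝ V] {A : ℝ → V →L[ℝ] V} {A' : V →L[ℝ] V}
    (h0 : A 0 = ContinuousLinearMap.id ℝ V) (hA : HasDerivAt A A' 0) :
    HasDerivAt (fun t => (A t).toLinearMap.det) (LinearMap.trace ℝ V A'.toLinearMap) 0 := by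
  classical
  let b := Module.finBasis ℝ V
  have e1 : ∀ B : V →L[ℝ] V, B.toLinearMap.det = (LinearMap.toMatrix b b B.toLinearMap).det :=
    fun B => (LinearMap.det_toMatrix b _).symm
  simp only [e1]
  rw [LinearMap.trace_eq_matrix_trace ℝ b]
  refine hasDerivAt_matrix_det ?_ fun i j => ?_
  · rw [h0]
    simp
  · simp only [LinearMap.toMatrix_apply]
    have a1 : HasDerivAt (fun t => A t (b j)) (A' (b j)) 0 := by
      simpa using hA.clm_apply (hasDerivAt_const (0 : ℝ) (b j))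
    have a2 := (LinearMap.toContinuousLinearMap (b.coord i)).hasFDerivAt.comp_hasDerivAt
      (0 : ℝ) a1
    simpa [Function.comp_def] using a2

/-- The invariant density has divergence free Killing fields.  Proof: differentiate
`ρ (F t x) * ‖(fderiv ℂ (F t) x).det‖^2 = ρ x` at `t = 0`; derivative of `det` at the identity is the
trace and the real trace of a complex linear map is twice the real part of the complex trace
(or: `‖det_ℂ A‖^2 = det_ℝ A` for complex linear `A`, `LinearMap.det_restrictScalars`, and differentiate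
the real determinant). -/
theorem dv_eq_zero_of_flow [FiniteDimensional ℂ E] {D : Set E} (hD : IsOpen D)
    {h : E → E →L[ℝ] E →L[ℝ] ℂ} {ρ : E → ℝ} (hm : InvMetric D h ρ) {X : E → E}
    (hX : ∀ x ∈ D, DifferentiableAt ℂ X x) {F : ℝ → E → E} (hF : IsFlow D X F) :
    ∀ x ∈ D, dv ρ X x = 0 := by
  intro x hx
  have : FiniteDimensional ℝ E := FiniteDimensional.complexToReal E
  have hid : fderiv ℂ (F 0) x = ContinuousLinearMap.id ℂ E := fderiv_eq_id_of_eqOn hD hF.zero hx
  -- the derivative of the real Jacobian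
  have b1 : HasDerivAt (fun t => (fderiv ℂ (F t) x).restrictScalars ℝ)
      ((fderiv ℂ X x).restrictScalars ℝ) 0 := by
    have := hF.deriv_fderiv x hx 0
    rw [hid, hF.zero x hx] at this
    exact (ContinuousLinearMap.restrictScalarsL ℂ E E ℝ ℝ).hasFDerivAt.comp_hasDerivAt 0 this
  have b2 := hasDerivAt_det (by rw [hid]; rfl) b1
  have b3 : ∀ B : E →L[ℂ] E, (B.restrictScalars ℝ).toLinearMap.det = ‖B.det‖ ^ 2 := by
    intro B
    have : (B.restrictScalars ℝ).toLinearMap = B.toLinearMap.restrictScalars ℝ := rfl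
    rw [this, LinearMap.det_restrictScalars, Algebra.norm_complex_apply, Complex.normSq_eq_norm_sq]
  simp only [b3] at b2
  have b4 : HasDerivAt (fun t => ρ (F t x)) (fderiv ℝ ρ x (X x)) 0 := by
    have hd : HasFDerivAt ρ (fderiv ℝ ρ x) (F 0 x) := by
      rw [hF.zero x hx]
      exact ((hm.smooth_ρ.contDiffAt (hD.mem_nhds hx)).differentiableAt (by simp)).hasFDerivAt
    have := hF.deriv x hx 0
    rw [hF.zero x hx] at this
    exact hd.comp_hasDerivAt 0 this
  have b5 := b4.mul b2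
  have b6 : ((fun t => ρ (F t x)) * fun t => ‖(fderiv ℂ (F t) x).det‖ ^ 2) = fun _ => ρ x := by
    funext t
    exact hm.inv_ρ _ _ (hF.biholo t) x hx
  rw [b6] at b5
  have b7 := b5.unique (hasDerivAt_const _ _)
  have b8 : (fderiv ℂ X x).restrictScalars ℝ = fderiv ℝ X x :=
    ((hX x hx).fderiv_restrictScalars ℝ).symm
  rw [hid, hF.zero x hx, b8] at b7
  have b9 : ‖(ContinuousLinearMap.id ℂ E).det‖ = 1 := by
    simp [ContinuousLinearMap.det]
  rw [b9, one_pow, mul_one] at b7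
  exact b7

end Vale.Agent.P274.V
end

section

/-! # P274-V18: automorphisms and Killing fields of a Siegel domain

`S = Sg F Ω = {(z, w) | Re w - F(z,z) ∈ Ω}`, `Ω` open, `t • Ω ⊆ Ω` for `t > 0`.
Automorphisms (polynomial maps, inverse = parameter `-t`), families and derivative at `t = 0`:
* `(z, w) ↦ (z, w + i t a)`, `tauF S a`;
* `(z, w) ↦ (z + t c, w + 2 t F(z,c) + t² F(c,c))`, `nilF F S c`
  (`Re` of the new `w` minus `F(z+tc,z+tc)` is the old value since
  `F(z+tc,z+tc) = F(z,z) + 2 t Re F(z,c) + t² F(c,c)`, `F(c,c)` real);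
* `(z, w) ↦ (e^{t/2} z, e^t w)`, `dilF S`;
* `(z, w) ↦ (e^{it} z, w)`, `rotF S`.
`z ↦ F z c` is complex linear (`hF.I_left`), so these are holomorphic.  Use `mem_Kil_of_family`. -/

open Set Complex ComplexConjugate Topology
open scoped ContDiff

namespace Vale.Agent.P274.V

variable {Z : Type*} [NormedAddCommGroup Z] [NormedSpace ℂ Z] [FiniteDimensional ℂ Z] {k : ℕ}

theorem HermF.smul_left {F : Z →L[ℝ] Z →L[ℝ] (Fin k → ℂ)} (hF : HermF F) (c : ℂ) (u v : Z) :
    F (c • u) v = c • F u v := by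
  have h1 : c • u = (c.re : ℝ) • u + (c.im : ℝ) • (I • u) := by
    conv_lhs => rw [← re_add_im c]
    rw [add_smul, mul_smul]
    simp only [Complex.coe_smul]
  have h2 : c • F u v = (c.re : ℝ) • F u v + (c.im : ℝ) • (I • F u v) := by
    conv_lhs => rw [← re_add_im c]
    rw [add_smul, mul_smul]
    simp only [Complex.coe_smul]
  rw [h1, h2, map_add, map_smul, map_smul]
  simp only [add_apply, smul_apply, hF.I_left]

theorem HermF.smul_right {F : Z →L[ℝ] Z →L[ℝ] (Fin k → ℂ)} (hF : HermF F) (c : ℂ) (u v : Z) :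
    F u (c • v) = conj c • F u v := by
  funext j
  rw [hF.symm (c • v) u j, hF.smul_left, Pi.smul_apply, Pi.smul_apply, smul_eq_mul, smul_eq_mul,
    map_mul, ← hF.symm v u j]

theorem isOpen_Sg (F : Z →L[ℝ] Z →L[ℝ] (Fin k → ℂ)) {Ω : Set (Fin k → ℝ)} (hΩ : IsOpen Ω) :
    IsOpen (Sg F Ω) := by
  have h1 : Continuous fun p : Z × (Fin k → ℂ) => F p.1 p.1 :=
    (F.continuous.comp continuous_fst).clm_apply continuous_fst
  have h2 : Continuous fun p : Z × (Fin k → ℂ) =>
      (fun j => (p.2 j).re - (F p.1 p.1 j).re : Fin k → ℝ) := by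
    refine continuous_pi fun j => ?_
    exact (continuous_re.comp ((continuous_apply j).comp continuous_snd)).sub
      (continuous_re.comp ((continuous_apply j).comp h1))
  exact hΩ.preimage h2

theorem sf_isBiholo {E : Type*} [NormedAddCommGroup E] [NormedSpace ℂ E] {S : Set E}
    {A A' : E →L[ℂ] E} {b b' : E} (h1 : ∀ x ∈ S, A x + b ∈ S) (h2 : ∀ x ∈ S, A' x + b' ∈ S)
    (h3 : ∀ x, A' (A x + b) + b' = x) (h4 : ∀ x, A (A' x + b') + b = x) :
    IsBiholo S S (fun x => A x + b) (fun x => A' x + b') :=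
  ⟨(A.differentiable.add_const b).differentiableOn,
    (A'.differentiable.add_const b').differentiableOn, h1, h2, fun x _ => h3 x, fun x _ => h4 x⟩

/-- A family of affine automorphisms. -/
theorem sf_affine {E : Type*} [NormedAddCommGroup E] [NormedSpace ℂ E] [FiniteDimensional ℂ E]
    {S : Set E} (hS : IsOpen S) {h : E → E →L[ℝ] E →L[ℝ] ℂ} {ρ : E → ℝ} (hm : InvMetric S h ρ)
    (A : ℝ → E →L[ℂ] E) (b : ℝ → E) {A' : E →L[ℂ] E} {b' : E} (hA : HasDerivAt A A' 0)
    (hb : HasDerivAt b b' 0) (hA0 : A 0 = ContinuousLinearMap.id ℂ E) (hb0 : b 0 = 0)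
    (hmaps : ∀ t, ∀ x ∈ S, A t x + b t ∈ S) (hinv : ∀ t x, A (-t) (A t x + b t) + b (-t) = x) :
    (S.indicator fun x => A' x + b') ∈ Kil S h := by
  have hY : ∀ x ∈ S, (S.indicator fun x => A' x + b') =ᶠ[𝓝 x] fun x => A' x + b' := by
    intro x hx
    filter_upwards [hS.mem_nhds hx] with y hy
    exact indicator_of_mem hy _
  have hd : ∀ (B : E →L[ℂ] E) (c x : E), HasFDerivAt (fun x => B x + c) B x := fun B c x =>
    B.hasFDerivAt.add_const c
  refine mem_Kil_of_family hS hm (G := fun t x => A t x + b t)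
    (G' := fun t x => A (-t) x + b (-t)) ?_ ?_ ?_ ?_ ?_ ?_
  · intro t
    refine sf_isBiholo (hmaps t) (hmaps (-t)) (hinv t) ?_
    intro x
    have := hinv (-t) x
    rwa [neg_neg] at this
  · intro x _
    simp [hA0, hb0]
  · intro x hx
    exact (hY x hx).differentiableAt_iff.2 (hd A' b' x).differentiableAt
  · intro x hx
    exact indicator_of_notMem hx _
  · intro x hx
    rw [indicator_of_mem hx]
    have h1 : HasDerivAt (fun t => A t x) (A' x) 0 :=
      ((ContinuousLinearMap.apply ℂ E x).restrictScalars ℝ).hasFDerivAt.comp_hasDerivAt 0 hA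
    exact h1.add hb
  · intro x hx
    rw [(hY x hx).fderiv_eq, (hd A' b' x).fderiv]
    have h1 : (fun t => fderiv ℂ (fun x => A t x + b t) x) = A := by
      funext t
      exact (hd (A t) (b t) x).fderiv
    rw [h1]
    exact hA

theorem sf_mem_of_eq {F : Z →L[ℝ] Z →L[ℝ] (Fin k → ℂ)} {Ω : Set (Fin k → ℝ)}
    {p q : Z × (Fin k → ℂ)} (hp : p ∈ Sg F Ω)
    (h : ∀ j, (q.2 j).re - (F q.1 q.1 j).re = (p.2 j).re - (F p.1 p.1 j).re) : q ∈ Sg F Ω := by
  have h1 : (fun j => (q.2 j).re - (F q.1 q.1 j).re) = fun j => (p.2 j).re - (F p.1 p.1 j).re :=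
    funext h
  change (fun j => (q.2 j).re - (F q.1 q.1 j).re) ∈ Ω
  rw [h1]
  exact hp

theorem sf_tau_mem {F : Z →L[ℝ] Z →L[ℝ] (Fin k → ℂ)} {Ω : Set (Fin k → ℝ)}
    (a : Fin k → ℝ) {x : Z × (Fin k → ℂ)} (hx : x ∈ Sg F Ω) :
    (x.1, x.2 + I • cpx a) ∈ Sg F Ω := by
  refine sf_mem_of_eq hx fun j => ?_
  simp [cpx]

theorem sf_nil_mem {F : Z →L[ℝ] Z →L[ℝ] (Fin k → ℂ)} (hF : HermF F) {Ω : Set (Fin k → ℝ)}
    (c : Z) {x : Z × (Fin k → ℂ)} (hx : x ∈ Sg F Ω) :
    (x.1 + c, x.2 + ((2 : ℂ) • F x.1 c + F c c)) ∈ Sg F Ω := by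
  refine sf_mem_of_eq hx fun j => ?_
  have h1 : (F c x.1 j).re = (F x.1 c j).re := by
    rw [hF.symm x.1 c j, conj_re]
  simp only [map_add, add_apply, Pi.add_apply, Pi.smul_apply, add_re,
    smul_eq_mul, mul_re, re_ofNat, im_ofNat, h1]
  ring

theorem tauF_mem {F : Z →L[ℝ] Z →L[ℝ] (Fin k → ℂ)} {Ω : Set (Fin k → ℝ)}
    (hΩ : IsOpen Ω) {h ρ} (hm : InvMetric (Sg F Ω) h ρ) (a : Fin k → ℝ) :
    tauF (Sg F Ω) a ∈ Kil (Sg F Ω) h := by
  have key := sf_affine (isOpen_Sg F hΩ) hm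
    (fun _ => ContinuousLinearMap.id ℂ (Z × (Fin k → ℂ)))
    (fun t => t • ((0, I • cpx a) : Z × (Fin k → ℂ)))
    (A' := 0) (b' := (0, I • cpx a)) (hasDerivAt_const _ _)
    (by simpa using (hasDerivAt_id (0 : ℝ)).smul_const ((0, I • cpx a) : Z × (Fin k → ℂ)))
    rfl (zero_smul _ _) ?_ ?_
  · have h1 : (fun _ => (0, I • cpx a) : Z × (Fin k → ℂ) → Z × (Fin k → ℂ)) =
        fun x => (0 : Z × (Fin k → ℂ) →L[ℂ] Z × (Fin k → ℂ)) x + (0, I • cpx a) := by
      funext x
      simp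
    unfold tauF
    rw [h1]
    exact key
  · intro t x hx
    convert sf_tau_mem (t • a) hx using 1
    refine Prod.ext ?_ ?_
    · simp
    · funext j
      simp only [cpx, ContinuousLinearMap.id_apply, Prod.snd_add, Prod.smul_snd, Pi.add_apply,
        Pi.smul_apply, smul_eq_mul, ofReal_mul, real_smul]
      ring
  · intro t x
    simp only [ContinuousLinearMap.id_apply, neg_smul]
    abel

/-- `z ↦ F z c` as a complex linear map. -/
noncomputable def sf_Fc {F : Z →L[ℝ] Z →L[ℝ] (Fin k → ℂ)} (hF : HermF F) (c : Z) :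
    Z →L[ℂ] (Fin k → ℂ) where
  toFun z := F z c
  map_add' u v := by simp
  map_smul' a u := by simp [hF.smul_left]
  cont := F.continuous.clm_apply continuous_const

theorem nilF_mem {F : Z →L[ℝ] Z →L[ℝ] (Fin k → ℂ)} (hF : HermF F) {Ω : Set (Fin k → ℝ)}
    (hΩ : IsOpen Ω) {h ρ} (hm : InvMetric (Sg F Ω) h ρ) (c : Z) :
    nilF F (Sg F Ω) c ∈ Kil (Sg F Ω) h := by
  set L : Z × (Fin k → ℂ) →L[ℂ] Z × (Fin k → ℂ) :=
    (ContinuousLinearMap.inr ℂ Z (Fin k → ℂ)).comp (((2 : ℂ) • sf_Fc hF c).comp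
      (ContinuousLinearMap.fst ℂ Z (Fin k → ℂ))) with hL
  have hLa : ∀ x, L x = (0, (2 : ℂ) • F x.1 c) := fun x => rfl
  have hA : HasDerivAt (fun t : ℝ => ContinuousLinearMap.id ℂ (Z × (Fin k → ℂ)) + (t : ℂ) • L)
      L 0 := by
    have h1 : HasDerivAt (fun t : ℝ => (t : ℂ)) 1 0 := Complex.ofRealCLM.hasDerivAt
    have h2 := (h1.smul_const L).const_add (ContinuousLinearMap.id ℂ (Z × (Fin k → ℂ)))
    rwa [one_smul] at h2
  have hb : HasDerivAt (fun t : ℝ => ((t : ℂ) • ((c, 0) : Z × (Fin k → ℂ))) +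
      ((t : ℂ) * (t : ℂ)) • ((0, F c c) : Z × (Fin k → ℂ))) (c, 0) 0 := by
    have h1 : HasDerivAt (fun t : ℝ => (t : ℂ)) 1 0 := Complex.ofRealCLM.hasDerivAt
    have h2 := (h1.smul_const ((c, 0) : Z × (Fin k → ℂ))).add
      ((h1.mul h1).smul_const ((0, F c c) : Z × (Fin k → ℂ)))
    exact h2.congr_deriv (by simp)
  have key := sf_affine (isOpen_Sg F hΩ) hm
    (fun t : ℝ => ContinuousLinearMap.id ℂ (Z × (Fin k → ℂ)) + (t : ℂ) • L)
    (fun t : ℝ => ((t : ℂ) • ((c, 0) : Z × (Fin k → ℂ))) +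
      ((t : ℂ) * (t : ℂ)) • ((0, F c c) : Z × (Fin k → ℂ)))
    (A' := L) (b' := (c, 0)) hA hb (by simp) (by simp) ?_ ?_
  · have h1 : (fun p => (c, (2 : ℂ) • F p.1 c) : Z × (Fin k → ℂ) → Z × (Fin k → ℂ)) =
        fun x => L x + (c, 0) := by
      funext x
      rw [hLa]
      simp
    unfold nilF
    rw [h1]
    exact key
  · intro t x hx
    convert sf_nil_mem hF (t • c) hx using 1
    refine Prod.ext ?_ ?_
    · simp [hLa]
    · funext j
      simp only [hLa, add_apply, smul_apply,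
        ContinuousLinearMap.id_apply, Prod.snd_add, Prod.smul_snd, Pi.add_apply,
        Pi.smul_apply, smul_eq_mul, map_smul, real_smul, Pi.zero_apply]
      ring
  · intro t x
    refine Prod.ext ?_ ?_
    · simp [hLa]
    · funext j
      simp only [hLa, add_apply, smul_apply,
        ContinuousLinearMap.id_apply, Prod.snd_add, Prod.smul_snd, Pi.add_apply,
        Pi.smul_apply, smul_eq_mul, map_smul, real_smul, Pi.zero_apply, Prod.fst_add,
        Prod.smul_fst, map_add, smul_zero, add_zero, hF.smul_left, ofReal_neg, map_zero,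
        zero_apply]
      ring

theorem dilF_mem {F : Z →L[ℝ] Z →L[ℝ] (Fin k → ℂ)} {Ω : Set (Fin k → ℝ)}
    (hΩ : IsOpen Ω) (hcone : ∀ t : ℝ, 0 < t → ∀ y ∈ Ω, t • y ∈ Ω) {h ρ}
    (hm : InvMetric (Sg F Ω) h ρ) : dilF (Sg F Ω) ∈ Kil (Sg F Ω) h := by
  set P1 : Z × (Fin k → ℂ) →L[ℂ] Z × (Fin k → ℂ) :=
    (ContinuousLinearMap.inl ℂ Z (Fin k → ℂ)).comp (ContinuousLinearMap.fst ℂ Z (Fin k → ℂ))
    with hP1
  set P2 : Z × (Fin k → ℂ) →L[ℂ] Z × (Fin k → ℂ) :=
    (ContinuousLinearMap.inr ℂ Z (Fin k → ℂ)).comp (ContinuousLinearMap.snd ℂ Z (Fin k → ℂ))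
    with hP2
  have h1a : ∀ x, P1 x = (x.1, 0) := fun x => rfl
  have h2a : ∀ x, P2 x = (0, x.2) := fun x => rfl
  have hA : HasDerivAt (fun t : ℝ => Real.exp (t / 2) • P1 + Real.exp t • P2)
      ((1 / 2 : ℝ) • P1 + (1 : ℝ) • P2) 0 := by
    have h1 : HasDerivAt (fun t : ℝ => Real.exp (t / 2)) (1 / 2) 0 := by
      have := ((hasDerivAt_id (0 : ℝ)).div_const 2).exp
      simpa using this
    have h2 : HasDerivAt (fun t : ℝ => Real.exp t) 1 0 := by
      simpa using Real.hasDerivAt_exp 0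
    exact (h1.smul_const P1).add (h2.smul_const P2)
  have key := sf_affine (isOpen_Sg F hΩ) hm
    (fun t : ℝ => Real.exp (t / 2) • P1 + Real.exp t • P2)
    (fun _ => 0) (A' := (1 / 2 : ℝ) • P1 + (1 : ℝ) • P2) (b' := 0) hA (hasDerivAt_const _ _)
    ?_ rfl ?_ ?_
  · have h1 : (fun p => ((1 / 2 : ℂ) • p.1, p.2) : Z × (Fin k → ℂ) → Z × (Fin k → ℂ)) =
        fun x => ((1 / 2 : ℝ) • P1 + (1 : ℝ) • P2) x + 0 := by
      funext x
      rw [add_zero, add_apply, smul_apply,
        smul_apply, h1a, h2a]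
      refine Prod.ext ?_ ?_
      · simp only [Prod.fst_add, Prod.smul_fst, smul_zero, add_zero]
        rw [← Complex.coe_smul]
        norm_num
      · simp
    unfold dilF
    rw [h1]
    exact key
  · ext x
    · simp [h1a, h2a]
    · simp [h1a, h2a]
    · simp [h1a, h2a]
    · simp [h1a, h2a]
  · intro t x hx
    have h2 := hcone (Real.exp t) (Real.exp_pos t) _ hx
    change (fun j => _) ∈ Ω
    have h3 : ∀ u : Z, F (Real.exp (t / 2) • u) (Real.exp (t / 2) • u) = Real.exp t • F u u := by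
      intro u
      rw [map_smul, map_smul, smul_apply, smul_smul, ← Real.exp_add,
        add_halves]
    have h4 : (Real.exp (t / 2) • P1 + Real.exp t • P2) x + 0 =
        (Real.exp (t / 2) • x.1, Real.exp t • x.2) := by
      rw [add_zero, add_apply, smul_apply,
        smul_apply, h1a, h2a]
      simp
    rw [h4]
    have h5 : (fun j => ((Real.exp t • x.2) j).re -
        (F (Real.exp (t / 2) • x.1) (Real.exp (t / 2) • x.1) j).re) =
        Real.exp t • fun j => (x.2 j).re - (F x.1 x.1 j).re := by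
      funext j
      rw [h3]
      simp only [Pi.smul_apply, smul_eq_mul, real_smul, mul_re, ofReal_re, ofReal_im, zero_mul,
        sub_zero]
      ring
    rw [← h5] at h2
    exact h2
  · intro t x
    simp only [add_zero, add_apply, smul_apply, h1a, h2a]
    refine Prod.ext ?_ ?_
    · simp only [Prod.fst_add, Prod.smul_fst, smul_zero, add_zero, smul_smul, ← Real.exp_add]
      rw [show -t / 2 + t / 2 = 0 by ring, Real.exp_zero, one_smul]
    · simp only [Prod.snd_add, Prod.smul_snd, smul_zero, zero_add, smul_smul, ← Real.exp_add]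
      rw [show -t + t = 0 by ring, Real.exp_zero, one_smul]

theorem rotF_mem {F : Z →L[ℝ] Z →L[ℝ] (Fin k → ℂ)} (hF : HermF F) {Ω : Set (Fin k → ℝ)}
    (hΩ : IsOpen Ω) {h ρ} (hm : InvMetric (Sg F Ω) h ρ) :
    rotF (Sg F Ω) ∈ Kil (Sg F Ω) h := by
  set P1 : Z × (Fin k → ℂ) →L[ℂ] Z × (Fin k → ℂ) :=
    (ContinuousLinearMap.inl ℂ Z (Fin k → ℂ)).comp (ContinuousLinearMap.fst ℂ Z (Fin k → ℂ))
    with hP1
  set P2 : Z × (Fin k → ℂ) →L[ℂ] Z × (Fin k → ℂ) :=
    (ContinuousLinearMap.inr ℂ Z (Fin k → ℂ)).comp (ContinuousLinearMap.snd ℂ Z (Fin k → ℂ))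
    with hP2
  have h1a : ∀ x, P1 x = (x.1, 0) := fun x => rfl
  have h2a : ∀ x, P2 x = (0, x.2) := fun x => rfl
  have hA : HasDerivAt (fun t : ℝ => Complex.exp (t * I) • P1 + P2) (I • P1) 0 := by
    have h1 : HasDerivAt (fun t : ℝ => (t : ℂ) * I) I 0 := by
      have := (Complex.ofRealCLM.hasDerivAt (x := (0 : ℝ))).mul_const I
      simpa using this
    have h2 : HasDerivAt (fun t : ℝ => Complex.exp (t * I)) I 0 := by
      simpa using h1.cexp
    exact (h2.smul_const P1).add_const P2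
  have key := sf_affine (isOpen_Sg F hΩ) hm
    (fun t : ℝ => Complex.exp (t * I) • P1 + P2)
    (fun _ => 0) (A' := I • P1) (b' := 0) hA (hasDerivAt_const _ _)
    ?_ rfl ?_ ?_
  · have h1 : (fun p => (I • p.1, 0) : Z × (Fin k → ℂ) → Z × (Fin k → ℂ)) =
        fun x => (I • P1) x + 0 := by
      funext x
      rw [add_zero, smul_apply, h1a]
      simp
    unfold rotF
    rw [h1]
    exact key
  · ext x
    · simp [h1a, h2a]
    · simp [h1a, h2a]
    · simp [h1a, h2a]
    · simp [h1a, h2a]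
  · intro t x hx
    have h4 : (Complex.exp (t * I) • P1 + P2) x + 0 = (Complex.exp (t * I) • x.1, x.2) := by
      rw [add_zero, add_apply, smul_apply, h1a, h2a]
      simp
    rw [h4]
    refine sf_mem_of_eq hx fun j => ?_
    rw [hF.smul_left, hF.smul_right, smul_smul, Complex.mul_conj, Complex.normSq_eq_norm_sq,
      Complex.norm_exp_ofReal_mul_I]
    simp
  · intro t x
    simp only [add_zero, add_apply, smul_apply, h1a, h2a]
    refine Prod.ext ?_ ?_
    · simp only [Prod.fst_add, Prod.smul_fst, add_zero, smul_smul, ← Complex.exp_add]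
      rw [show ((-t : ℝ) : ℂ) * I + (t : ℂ) * I = 0 by push_cast; ring, Complex.exp_zero, one_smul]
    · simp

/-- Every point can be moved to `(0, e)`, `e ∈ Ω`: take `c = -z` in the second family, then
subtract the imaginary part of `w`. -/
theorem exists_normalize {F : Z →L[ℝ] Z →L[ℝ] (Fin k → ℂ)} (hF : HermF F) {Ω : Set (Fin k → ℝ)}
    {p : Z × (Fin k → ℂ)} (hp : p ∈ Sg F Ω) :
    ∃ g g', IsBiholo (Sg F Ω) (Sg F Ω) g g' ∧ ∃ e ∈ Ω, g p = (0, cpx e) := by
  have hnil : ∀ c : Z, DifferentiableOn ℂ (fun x : Z × (Fin k → ℂ) =>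
      (x.1 + c, x.2 + ((2 : ℂ) • F x.1 c + F c c))) (Sg F Ω) := by
    intro c
    apply Differentiable.differentiableOn
    have h1 : Differentiable ℂ fun x : Z × (Fin k → ℂ) => F x.1 c :=
      (sf_Fc hF c).differentiable.comp differentiable_fst
    exact (differentiable_fst.add_const c).prodMk
      (differentiable_snd.add ((h1.const_smul (2 : ℂ)).add_const (F c c)))
  have htau : ∀ a : Fin k → ℝ, DifferentiableOn ℂ (fun x : Z × (Fin k → ℂ) =>
      (x.1, x.2 + I • cpx a)) (Sg F Ω) := by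
    intro a
    apply Differentiable.differentiableOn
    exact differentiable_fst.prodMk (differentiable_snd.add_const _)
  have b1 : ∀ c : Z, IsBiholo (Sg F Ω) (Sg F Ω)
      (fun x : Z × (Fin k → ℂ) => (x.1 + c, x.2 + ((2 : ℂ) • F x.1 c + F c c)))
      (fun x : Z × (Fin k → ℂ) => (x.1 + (-c), x.2 + ((2 : ℂ) • F x.1 (-c) + F (-c) (-c)))) := by
    intro c
    refine ⟨hnil c, hnil (-c), fun x hx => sf_nil_mem hF c hx, fun x hx => sf_nil_mem hF (-c) hx,
      ?_, ?_⟩
    · intro x _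
      refine Prod.ext ?_ ?_
      · simp
      · simp only [map_add, map_neg, add_apply, neg_apply, neg_neg]
        module
    · intro x _
      refine Prod.ext ?_ ?_
      · simp
      · simp only [map_add, map_neg, add_apply, neg_apply, neg_neg]
        module
  have b2 : ∀ a : Fin k → ℝ, IsBiholo (Sg F Ω) (Sg F Ω)
      (fun x : Z × (Fin k → ℂ) => (x.1, x.2 + I • cpx a))
      (fun x : Z × (Fin k → ℂ) => (x.1, x.2 + I • cpx (-a))) := by
    intro a
    have hneg : cpx (-a) = -cpx a := by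
      funext j
      simp [cpx]
    refine ⟨htau a, htau (-a), fun x hx => sf_tau_mem a hx, fun x hx => sf_tau_mem (-a) hx,
      ?_, ?_⟩
    · intro x _
      refine Prod.ext rfl ?_
      simp only [hneg]
      module
    · intro x _
      refine Prod.ext rfl ?_
      simp only [hneg]
      module
  refine ⟨_, _, (b1 (-p.1)).trans (b2 (fun j => -(p.2 j).im)),
    fun j => (p.2 j).re - (F p.1 p.1 j).re, hp, ?_⟩
  refine Prod.ext ?_ ?_
  · simp
  · funext j
    have him : (F p.1 p.1 j).im = 0 := by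
      have h1 := hF.symm p.1 p.1 j
      have h2 := congrArg Complex.im h1
      rw [conj_im] at h2
      linarith
    simp only [Function.comp_apply, map_neg, neg_apply, neg_neg, Pi.add_apply, Pi.smul_apply,
      Pi.neg_apply, smul_eq_mul, cpx]
    apply Complex.ext
    · simp
      ring
    · simp [him]

end Vale.Agent.P274.V
end

section

/-! # P274-V20a: linear algebra for the Siegel algebra (helper234) -/

open Polynomial Module

namespace Vale.Agent.P274.V

variable {G : Type*} [AddCommGroup G] [Module ℝ G]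

theorem iSup_eigenspace_eq_top_of_prod (A : End ℝ G) (s : Finset ℝ)
    (hs : aeval A (∏ μ ∈ s, (X - C μ)) = 0) : ⨆ μ : s, End.eigenspace A (μ : ℝ) = ⊤ := by
  classical
  rcases s.eq_empty_or_nonempty with rfl | hne
  · rw [Finset.prod_empty, map_one] at hs
    have : ∀ x : G, x = 0 := fun x => by
      have := congrArg (fun f : End ℝ G => f x) hs
      simpa using this
    rw [eq_top_iff]
    intro x _
    rw [this x]
    exact Submodule.zero_mem _
  · rw [eq_top_iff]
    intro x _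
    have h1 : (∑ j ∈ s, Lagrange.basis s (id : ℝ → ℝ) j) = 1 :=
      Lagrange.sum_basis (Function.injective_id.injOn) hne
    have h2 : x = ∑ j ∈ s, aeval A (Lagrange.basis s (id : ℝ → ℝ) j) x := by
      have := congrArg (fun p : ℝ[X] => aeval A p x) h1
      simp only [map_sum, map_one, End.one_apply, LinearMap.sum_apply] at this
      exact this.symm
    rw [h2]
    refine Submodule.sum_mem _ fun j hj => ?_
    refine Submodule.mem_iSup_of_mem (⟨j, hj⟩ : s) ?_
    rw [End.mem_eigenspace_iff]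
    have h3 : (X - C j) * Lagrange.basis s (id : ℝ → ℝ) j =
        C (∏ i ∈ s.erase j, (j - i)⁻¹) * ∏ μ ∈ s, (X - C μ) := by
      rw [Lagrange.basis, ← Finset.mul_prod_erase s (fun μ => X - C μ) hj]
      simp only [Lagrange.basisDivisor, id, Finset.prod_mul_distrib, map_prod]
      ring
    have h4 : aeval A ((X - C j) * Lagrange.basis s (id : ℝ → ℝ) j) x = 0 := by
      rw [h3, map_mul, hs, mul_zero]; rfl
    rw [map_mul, map_sub, aeval_X, aeval_C, End.mul_apply, LinearMap.sub_apply,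
      Module.algebraMap_end_apply, sub_eq_zero] at h4
    exact h4

theorem trace_eq_sum_eigen [FiniteDimensional ℝ G] (A : End ℝ G) (s : Finset ℝ)
    (hs : aeval A (∏ μ ∈ s, (X - C μ)) = 0) :
    LinearMap.trace ℝ G A = ∑ μ ∈ s, μ * (finrank ℝ (End.eigenspace A μ) : ℝ) := by
  classical
  have hind : iSupIndep fun μ : s => End.eigenspace A (μ : ℝ) :=
    (End.eigenspaces_iSupIndep A).comp Subtype.val_injective
  have hint := DirectSum.isInternal_submodule_of_iSupIndep_of_iSup_eq_top hind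
    (iSup_eigenspace_eq_top_of_prod A s hs)
  have hmaps : ∀ μ : s, Set.MapsTo A (End.eigenspace A (μ : ℝ)) (End.eigenspace A (μ : ℝ)) := by
    intro μ x hx
    rw [SetLike.mem_coe, End.mem_eigenspace_iff] at hx ⊢
    rw [hx, map_smul, hx]
  rw [LinearMap.trace_eq_sum_trace_restrict hint hmaps, ← Finset.sum_attach s]
  rw [Finset.univ_eq_attach]
  refine Finset.sum_congr rfl fun μ _ => ?_
  have : A.restrict (hmaps μ) = (μ : ℝ) • LinearMap.id := by
    ext x
    have hx := x.2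
    rw [End.mem_eigenspace_iff] at hx
    exact hx
  rw [this, map_smul, LinearMap.trace_id, smul_eq_mul]

theorem comm_pow (A N : End ℝ G) (hAN : ∀ x, A (N x) = N (A x) - N x) (K : ℕ) (x : G) :
    A ((N ^ K) x) = (N ^ K) (A x) - (K : ℝ) • (N ^ K) x := by
  induction K generalizing x with
  | zero => simp
  | succ K ih =>
    rw [pow_succ, End.mul_apply, End.mul_apply, ih, hAN, map_sub]
    push_cast
    module

/-- The polynomials `P_K(x) = ∏_{i<K} (x + δ - i)`. -/
theorem jet_pow {V : Type*} [AddCommGroup V] [Module ℂ V] (A N : End ℝ G)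
    (hAN : ∀ x, A (N x) = N (A x) - N x) (j : G → V)
    (hadd : ∀ x y, j (x + y) = j x + j y) (hsmul : ∀ (r : ℝ) x, j (r • x) = (r : ℂ) • j x)
    (δ : ℝ) (hj : ∀ x, j (N x) = Complex.I • (j (A x) + (δ : ℂ) • j x)) (K : ℕ) (x : G) :
    j ((N ^ K) x) =
      Complex.I ^ K • j (aeval A (∏ i ∈ Finset.range K, (X - C ((i : ℝ) - δ))) x) := by
  induction K generalizing x with
  | zero => simp
  | succ K ih =>
    have h1 : (N ^ (K + 1)) x = N ((N ^ K) x) := by rw [pow_succ', End.mul_apply]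
    rw [h1, hj, comm_pow A N hAN]
    have h2 : j ((N ^ K) (A x) - (K : ℝ) • (N ^ K) x) + (δ : ℂ) • j ((N ^ K) x) =
        j ((N ^ K) (A x - ((K : ℝ) - δ) • x)) := by
      have h3 : (N ^ K) (A x - ((K : ℝ) - δ) • x) =
          ((N ^ K) (A x) - (K : ℝ) • (N ^ K) x) + δ • (N ^ K) x := by
        rw [map_sub, map_smul]; module
      rw [h3, hadd, hsmul δ]
    have h4 : aeval A (X - C ((K : ℝ) - δ)) x = A x - ((K : ℝ) - δ) • x := by
      rw [map_sub, aeval_X, aeval_C, LinearMap.sub_apply, Module.algebraMap_end_apply]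
    rw [h2, ih, Finset.prod_range_succ, map_mul, End.mul_apply, h4, smul_smul, pow_succ']

/-- An operator lowering the eigenvalue is nilpotent. -/
theorem nilpotent_of_comm [FiniteDimensional ℝ G] (A N : End ℝ G)
    (hAN : ∀ x, A (N x) = N (A x) - N x) : ∃ K : ℕ, N ^ K = 0 := by
  by_contra hcon
  push Not at hcon
  set T : End ℝ (End ℝ G) := LinearMap.mulLeft ℝ A - LinearMap.mulRight ℝ A with hT
  have hev : ∀ K : ℕ, T.HasEigenvector (-(K : ℝ)) (N ^ K) := by
    intro K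
    refine ⟨?_, hcon K⟩
    rw [End.mem_eigenspace_iff]
    ext x
    simp only [hT, LinearMap.sub_apply, LinearMap.mulLeft_apply, LinearMap.mulRight_apply,
      End.mul_apply, LinearMap.smul_apply]
    rw [comm_pow A N hAN]
    module
  have hli := End.eigenvectors_linearIndependent' T (fun K : ℕ => -(K : ℝ))
    (fun a b hab => by simpa using hab) (fun K => N ^ K) hev
  have := hli.finite
  exact not_finite ℕ

end Vale.Agent.P274.V
end

section

/-! # P274-V11: a partition of unity adapted to the action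

Proof. Let `K` be the compact set of `IsAct.cocompact`; `χ₀` a smooth (`C^∞`) function `E → ℝ`, `0 ≤ χ₀ ≤ 1`,
`χ₀ = 1` on `K`, `tsupport χ₀` compact `⊆ D` (`exists_contDiff_tsupport_subset`/ `exists_smooth_...`).
For a compact `L ⊆ D` the set `{γ | ∃ x ∈ L, a γ x ∈ tsupport χ₀}` is finite (apply `pd` to
`L ∪ tsupport χ₀`).  So `S x = ∑ᶠ γ, χ₀ (a γ x)` is near every point of `D` a finite sum over a fixed finite
set, hence `C^1` on `D`; `S > 0` on `D` by cocompactness, `S (a δ x) = S x` for `x ∈ D` (reindex).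
Put `χ x = χ₀ x / S x` on `D`, `0` outside. -/

open Set Complex ComplexConjugate Topology
open scoped ContDiff

namespace Vale.Agent.P274.V

variable {E : Type*} [NormedAddCommGroup E] [NormedSpace ℂ E]

/-- Local finiteness. -/
theorem IsAct.finite [FiniteDimensional ℂ E] {D : Set E} {Γ : Type*} [Group Γ] {a : Γ → E → E}
    (ha : IsAct D a) {L M : Set E} (hL : IsCompact L) (hLD : L ⊆ D) (hM : IsCompact M)
    (hMD : M ⊆ D) : {γ | ∃ x ∈ L, a γ x ∈ M}.Finite := by
  refine (ha.pd (L ∪ M) (hL.union hM) (union_subset hLD hMD)).subset ?_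
  rintro γ ⟨x, hx, hγ⟩
  exact ⟨x, Or.inl hx, Or.inr hγ⟩

/-- A nonnegative smooth function with compact support in `D`, positive on `K`. -/
theorem cutoff_bump [FiniteDimensional ℂ E] {D : Set E} (hD : IsOpen D) {K : Set E}
    (hK : IsCompact K) (hKD : K ⊆ D) :
    ∃ f : E → ℝ, ContDiff ℝ 1 f ∧ HasCompactSupport f ∧ tsupport f ⊆ D ∧ (∀ x, 0 ≤ f x) ∧
      ∀ x ∈ K, 0 < f x := by
  have : FiniteDimensional ℝ E := FiniteDimensional.complexToReal E
  refine hK.induction_on (p := fun s => ∃ f : E → ℝ, ContDiff ℝ 1 f ∧ HasCompactSupport f ∧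
      tsupport f ⊆ D ∧ (∀ x, 0 ≤ f x) ∧ ∀ x ∈ s, 0 < f x) ?_ ?_ ?_ ?_
  · refine ⟨fun _ => 0, contDiff_const, HasCompactSupport.zero, ?_, fun _ => le_rfl,
      fun x hx => absurd hx (notMem_empty x)⟩
    have : tsupport (fun _ : E => (0 : ℝ)) = ∅ := by
      rw [tsupport_eq_empty_iff]; rfl
    rw [this]; exact empty_subset _
  · rintro s t hst ⟨f, h1, h2, h3, h4, h5⟩
    exact ⟨f, h1, h2, h3, h4, fun x hx => h5 x (hst hx)⟩
  · rintro s t ⟨f, h1, h2, h3, h4, h5⟩ ⟨g, k1, k2, k3, k4, k5⟩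
    refine ⟨f + g, h1.add k1, h2.add k2, ?_, fun x => add_nonneg (h4 x) (k4 x), ?_⟩
    · exact (tsupport_add f g).trans (union_subset h3 k3)
    · rintro x (hx | hx)
      · exact add_pos_of_pos_of_nonneg (h5 x hx) (k4 x)
      · exact add_pos_of_nonneg_of_pos (h4 x) (k5 x hx)
  · intro x hx
    obtain ⟨f, h1, h2, h3, h4, h5⟩ :=
      exists_contDiff_tsupport_subset (n := 1) (hD.mem_nhds (hKD hx))
    have hc : Continuous f := h3.continuous
    refine ⟨{y | 0 < f y}, mem_nhdsWithin_of_mem_nhds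
      ((isOpen_lt continuous_const hc).mem_nhds (by simp [h5])), f, by exact_mod_cast h3, h2, h1,
      fun y => (h4 ⟨y, rfl⟩).1, fun y hy => hy⟩

theorem exists_cutoff [FiniteDimensional ℂ E] {D : Set E} (hD : IsOpen D) {Γ : Type*} [Group Γ]
    {a : Γ → E → E} (ha : IsAct D a) :
    ∃ χ : E → ℝ, ContDiff ℝ 1 χ ∧ HasCompactSupport χ ∧ tsupport χ ⊆ D ∧ (∀ x, 0 ≤ χ x) ∧
      (∀ x ∈ D, ∃ γ, 0 < χ (a γ x)) ∧ ∀ x ∈ D, ∑ᶠ γ, χ (a γ x) = 1 := by
  have : FiniteDimensional ℝ E := FiniteDimensional.complexToReal E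
  have : CompleteSpace E := FiniteDimensional.complete ℂ E
  obtain ⟨K, hK, hKD, hKc⟩ := ha.cocompact
  obtain ⟨f, f1, f2, f3, f4, f5⟩ := cutoff_bump hD hK hKD
  have hmaps : ∀ γ, ∀ x ∈ D, a γ x ∈ D := fun γ x hx => (ha.biholo γ).mapsTo hx
  -- finite sets
  have hfin : ∀ L : Set E, IsCompact L → L ⊆ D → {γ | ∃ x ∈ L, a γ x ∈ tsupport f}.Finite :=
    fun L hL hLD => ha.finite hL hLD f2 f3
  obtain ⟨S, hS⟩ : ∃ S : E → ℝ, ∀ x, S x = ∑ᶠ γ, f (a γ x) := ⟨_, fun _ => rfl⟩
  have hsum : ∀ L : Set E, ∀ hL : IsCompact L, ∀ hLD : L ⊆ D, ∀ x ∈ L, ∀ g : E → ℝ,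
      Function.support g ⊆ Function.support f →
      ∑ᶠ γ, g (a γ x) = ∑ γ ∈ (hfin L hL hLD).toFinset, g (a γ x) := by
    intro L hL hLD x hx g hg
    refine finsum_eq_sum_of_support_subset _ ?_
    intro γ hγ
    rw [Set.Finite.coe_toFinset]
    exact ⟨x, hx, subset_tsupport f (hg hγ)⟩
  have hSc : ∀ x ∈ D, ContDiffAt ℝ 1 S x := by
    intro x hx
    obtain ⟨L, hL1, hL2, hL3⟩ := local_compact_nhds (hD.mem_nhds hx)
    have hLD : L ⊆ D := hL2
    have heq : S =ᶠ[𝓝 x] fun y => ∑ γ ∈ (hfin L hL3 hLD).toFinset, f (a γ y) := by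
      filter_upwards [hL1] with y hy
      rw [hS]
      exact hsum L hL3 hLD y hy f Subset.rfl
    refine ContDiffAt.congr_of_eventuallyEq ?_ heq
    refine ContDiffAt.sum fun γ _ => ?_
    have h1 : ContDiffOn ℂ (1 : ℕ) (a γ) D :=
      Vale.Agent.P268.contDiffOn_of_differentiableOn hD (ha.biholo γ).diffOn 1
    have h2 : ContDiffAt ℂ 1 (a γ) x := by
      have := h1.contDiffAt (hD.mem_nhds hx)
      exact_mod_cast this
    exact f1.contDiffAt.comp x (h2.restrict_scalars ℝ)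
  have hSpos : ∀ x ∈ D, 0 < S x := by
    intro x hx
    rw [hS, hsum {x} isCompact_singleton (singleton_subset_iff.2 hx) x rfl f Subset.rfl]
    obtain ⟨γ, hγ⟩ := hKc x hx
    refine Finset.sum_pos' (fun δ _ => f4 _) ⟨γ, ?_, f5 _ hγ⟩
    rw [Set.Finite.mem_toFinset]
    exact ⟨x, rfl, subset_tsupport f (f5 _ hγ).ne'⟩
  have hSinv : ∀ δ, ∀ x ∈ D, S (a δ x) = S x := by
    intro δ x hx
    have h := finsum_comp_equiv (Equiv.mulRight δ) (f := fun γ => f (a γ x))
    rw [hS, hS, ← h]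
    refine finsum_congr fun γ => ?_
    change f (a γ (a δ x)) = f (a (γ * δ) x)
    rw [ha.mul γ δ x hx]
  obtain ⟨χ, hχ⟩ : ∃ χ : E → ℝ, ∀ x, χ x = f x / S x := ⟨_, fun _ => rfl⟩
  have hsupp : Function.support χ ⊆ Function.support f := by
    intro x hx h0
    apply hx
    rw [hχ, h0, zero_div]
  have hts : tsupport χ ⊆ tsupport f := closure_mono hsupp
  refine ⟨χ, ?_, ?_, hts.trans f3, ?_, ?_, ?_⟩
  · rw [contDiff_iff_contDiffAt]
    intro x
    by_cases hx : x ∈ D
    · have : χ = fun x => f x / S x := funext hχ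
      rw [this]
      exact f1.contDiffAt.div (hSc x hx) (hSpos x hx).ne'
    · have hx' : x ∉ tsupport χ := fun h => hx (f3 (hts h))
      have heq : χ =ᶠ[𝓝 x] fun _ => 0 := notMem_tsupport_iff_eventuallyEq.1 hx'
      exact contDiffAt_const.congr_of_eventuallyEq heq
  · exact f2.mono hsupp
  · intro x
    rw [hχ]
    by_cases hx : x ∈ D
    · exact div_nonneg (f4 x) (hSpos x hx).le
    · have : f x = 0 := by
        by_contra h
        exact hx (f3 (subset_tsupport f h))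
      rw [this, zero_div]
  · intro x hx
    obtain ⟨γ, hγ⟩ := hKc x hx
    refine ⟨γ, ?_⟩
    rw [hχ]
    exact div_pos (f5 _ hγ) (hSpos _ (hmaps γ x hx))
  · intro x hx
    rw [hsum {x} isCompact_singleton (singleton_subset_iff.2 hx) x rfl χ hsupp]
    have h1 : ∀ γ, χ (a γ x) = f (a γ x) / S x := by
      intro γ
      rw [hχ, hSinv γ x hx]
    simp only [h1]
    rw [← Finset.sum_div,
      ← hsum {x} isCompact_singleton (singleton_subset_iff.2 hx) x rfl f Subset.rfl, ← hS]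
    exact div_self (hSpos x hx).ne'

end Vale.Agent.P274.V
end

section

/-! # P274-V14: mean value property and the L² bound for holomorphic functions

Proof. For fixed `v` with `‖v‖ < r`: `f x = (2π)⁻¹ ∫_0^{2π} f (x + e^{iθ} v) dθ`
(`circleAverage_of_differentiable_on` / `Complex.circleIntegral`... for `ζ ↦ f (x + ζ v)` on `|ζ| ≤ 1`).
Average over `v ∈ ball 0 r` and use Fubini; for each `θ` the map `v ↦ e^{iθ} v` preserves `ball 0 r` and the Haar
measure (`Measure.addHaar_image_linearMap`/`map_linearMap_addHaar_eq_smul_addHaar`, real determinant of the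
multiplication by `e^{iθ}`: its absolute value is `1` since it preserves the ball, whose measure is finite and
positive).  The `L²` bound is Cauchy-Schwarz/Jensen. -/

open Set Complex ComplexConjugate Topology MeasureTheory Metric
open scoped ContDiff

namespace Vale.Agent.P274.V

variable {E : Type*} [NormedAddCommGroup E] [NormedSpace ℂ E]

/-- Rotations preserve Haar measure. -/
theorem measurePreserving_rot [FiniteDimensional ℂ E] [MeasurableSpace E] [BorelSpace E]
    (μ : Measure E) [μ.IsAddHaarMeasure] {c : ℂ} (hc : ‖c‖ = 1) :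
    MeasurePreserving (fun v : E => c • v) μ μ := by
  have hc0 : c ≠ 0 := by
    intro h; rw [h, norm_zero] at hc; exact zero_ne_one hc
  have hmeas : Measurable (fun v : E => c • v) := (continuous_const_smul c).measurable
  refine ⟨hmeas, ?_⟩
  let L : E ≃ₗ[ℝ] E := (LinearEquiv.smulOfNeZero ℂ E c hc0).restrictScalars ℝ
  have hL : ∀ v, (L : E →ₗ[ℝ] E) v = c • v := fun v => rfl
  have hdet : LinearMap.det (L : E →ₗ[ℝ] E) ≠ 0 := (LinearEquiv.isUnit_det' L).ne_zero
  have hmap := Measure.map_linearMap_addHaar_eq_smul_addHaar μ hdet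
  have hfun : ((L : E →ₗ[ℝ] E) : E → E) = fun v => c • v := by
    funext v; exact hL v
  rw [hfun] at hmap
  rw [hmap]
  have hball : (fun v : E => c • v) ⁻¹' (ball (0 : E) 1) = ball 0 1 := by
    ext v
    simp [norm_smul, hc]
  have h1 : Measure.map (fun v : E => c • v) μ (ball (0 : E) 1) = μ (ball 0 1) := by
    rw [Measure.map_apply hmeas measurableSet_ball, hball]
  rw [hmap, Measure.smul_apply, smul_eq_mul] at h1
  have hpos : μ (ball (0 : E) 1) ≠ 0 := (measure_ball_pos μ 0 one_pos).ne'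
  have hfin : μ (ball (0 : E) 1) ≠ ⊤ := measure_ball_lt_top.ne
  have h2 : ENNReal.ofReal |(LinearMap.det (L : E →ₗ[ℝ] E))⁻¹| = 1 := by
    have := (ENNReal.mul_eq_right hpos hfin).1 h1
    exact this
  rw [h2, one_smul]

theorem mean_value_ball [FiniteDimensional ℂ E] [MeasurableSpace E] [BorelSpace E]
    (μ : Measure E) [μ.IsAddHaarMeasure] {U : Set E} (hU : IsOpen U) {f : E → ℂ}
    (hf : DifferentiableOn ℂ f U) {x : E} {r : ℝ} (hr : 0 < r) (hB : closedBall x r ⊆ U) :
    ∫ y in ball x r, f y ∂μ = (μ (ball x r)).toReal • f x := by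
  have hfc : ContinuousOn f (closedBall x r) := hf.continuousOn.mono hB
  -- translation
  have htr : ∫ y in ball x r, f y ∂μ = ∫ v in ball (0 : E) r, f (x + v) ∂μ := by
    have hmp : MeasurePreserving (fun v : E => x + v) μ μ := measurePreserving_add_left μ x
    have hemb : MeasurableEmbedding (fun v : E => x + v) := (MeasurableEquiv.addLeft x).measurableEmbedding
    have hpre : (fun v : E => x + v) ⁻¹' (ball x r) = ball 0 r := by
      ext v; simp
    rw [← hpre]
    exact (hmp.setIntegral_preimage_emb hemb f (ball x r)).symm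
  -- rotation
  have hrot : ∀ θ : ℝ, ∫ v in ball (0 : E) r, f (x + circleMap 0 1 θ • v) ∂μ
      = ∫ v in ball (0 : E) r, f (x + v) ∂μ := by
    intro θ
    have hn : ‖circleMap 0 1 θ‖ = 1 := by simp
    have hc0 : circleMap 0 1 θ ≠ 0 := by
      intro h; rw [h, norm_zero] at hn; exact zero_ne_one hn
    have hmp := measurePreserving_rot μ hn
    have hemb : MeasurableEmbedding (fun v : E => circleMap 0 1 θ • v) :=
      (Homeomorph.smulOfNeZero _ hc0).measurableEmbedding
    have hpre : (fun v : E => circleMap 0 1 θ • v) ⁻¹' (ball 0 r) = ball (0 : E) r := by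
      ext v; simp [norm_smul]
    have := hmp.setIntegral_preimage_emb hemb (fun v => f (x + v)) (ball (0 : E) r)
    rw [hpre] at this
    exact this
  -- one variable mean value
  have hone : ∀ v ∈ ball (0 : E) r, f x = (2 * Real.pi)⁻¹ •
      ∫ θ in (0 : ℝ)..(2 * Real.pi), f (x + circleMap 0 1 θ • v) := by
    intro v hv
    have hmaps : ∀ ζ ∈ closedBall (0 : ℂ) 1, x + ζ • v ∈ closedBall x r := by
      intro ζ hζ
      rw [mem_closedBall_iff_norm, add_sub_cancel_left, norm_smul]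
      rw [mem_closedBall_zero_iff] at hζ
      rw [mem_ball_zero_iff] at hv
      calc ‖ζ‖ * ‖v‖ ≤ 1 * ‖v‖ := by gcongr
        _ ≤ r := by rw [one_mul]; exact hv.le
    have hd : ∀ ζ ∈ closedBall (0 : ℂ) 1, DifferentiableAt ℂ (fun ζ : ℂ => f (x + ζ • v)) ζ := by
      intro ζ hζ
      have h1 : DifferentiableAt ℂ f (x + ζ • v) :=
        hf.differentiableAt (hU.mem_nhds (hB (hmaps ζ hζ)))
      have h2 : DifferentiableAt ℂ (fun ζ : ℂ => x + ζ • v) ζ := by fun_prop
      exact h1.comp ζ h2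
    have hdc : DiffContOnCl ℂ (fun ζ : ℂ => f (x + ζ • v)) (ball 0 |1|) := by
      rw [abs_one]
      refine ⟨fun ζ hζ => (hd ζ (ball_subset_closedBall hζ)).differentiableWithinAt, ?_⟩
      rw [closure_ball _ one_ne_zero]
      exact fun ζ hζ => (hd ζ hζ).continuousAt.continuousWithinAt
    have := hdc.circleAverage
    rw [Real.circleAverage_def] at this
    simp only [zero_smul, add_zero] at this
    exact this.symm
  -- Fubini
  have hint : Integrable (fun p : E × ℝ => f (x + circleMap 0 1 p.2 • p.1))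
      ((μ.restrict (ball (0 : E) r)).prod (volume.restrict (Ioc 0 (2 * Real.pi)))) := by
    rw [Measure.prod_restrict]
    have hcomp : IsCompact (closedBall (0 : E) r ×ˢ Icc (0 : ℝ) (2 * Real.pi)) := by
      have : ProperSpace E := FiniteDimensional.proper ℂ E
      exact (isCompact_closedBall _ _).prod isCompact_Icc
    have hcont : ContinuousOn (fun p : E × ℝ => f (x + circleMap 0 1 p.2 • p.1))
        (closedBall (0 : E) r ×ˢ Icc (0 : ℝ) (2 * Real.pi)) := by
      refine hfc.comp ?_ ?_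
      · apply Continuous.continuousOn
        have : Continuous (fun p : E × ℝ => circleMap 0 1 p.2) := (continuous_circleMap 0 1).comp continuous_snd
        exact continuous_const.add (this.smul continuous_fst)
      · rintro ⟨v, θ⟩ ⟨hv, -⟩
        rw [mem_closedBall_zero_iff] at hv
        simp only [mem_closedBall_iff_norm, add_sub_cancel_left, norm_smul]
        simpa using hv
    have := hcont.integrableOn_compact (μ := μ.prod volume) hcomp
    exact this.mono_set (prod_mono ball_subset_closedBall Ioc_subset_Icc_self)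
  have hpi : (0 : ℝ) ≤ 2 * Real.pi := by positivity
  have hpi' : (2 * Real.pi : ℝ) ≠ 0 := by positivity
  have key : ∫ v in ball (0 : E) r, (∫ θ in Ioc (0 : ℝ) (2 * Real.pi), f (x + circleMap 0 1 θ • v)) ∂μ
      = ∫ θ in Ioc (0 : ℝ) (2 * Real.pi), (∫ v in ball (0 : E) r, f (x + circleMap 0 1 θ • v) ∂μ) :=
    integral_integral_swap hint
  have hR : ∫ θ in Ioc (0 : ℝ) (2 * Real.pi), (∫ v in ball (0 : E) r, f (x + circleMap 0 1 θ • v) ∂μ)
      = (2 * Real.pi) • ∫ v in ball (0 : E) r, f (x + v) ∂μ := by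
    simp only [hrot]
    rw [setIntegral_const]
    congr 1
    simp [Measure.real, Real.pi_nonneg]
  have hLft : ∫ v in ball (0 : E) r, (∫ θ in Ioc (0 : ℝ) (2 * Real.pi), f (x + circleMap 0 1 θ • v)) ∂μ
      = (μ (ball x r)).toReal • (2 * Real.pi) • f x := by
    have : ∀ v ∈ ball (0 : E) r, (∫ θ in Ioc (0 : ℝ) (2 * Real.pi), f (x + circleMap 0 1 θ • v))
        = (2 * Real.pi) • f x := by
      intro v hv
      rw [← intervalIntegral.integral_of_le hpi]
      have h := hone v hv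
      rw [h, smul_smul, mul_inv_cancel₀ hpi', one_smul]
    rw [setIntegral_congr_fun measurableSet_ball this, setIntegral_const]
    congr 1
    rw [Measure.real, Measure.addHaar_ball_center μ x r]
  rw [htr]
  have hfin : (2 * Real.pi) • ∫ v in ball (0 : E) r, f (x + v) ∂μ
      = (2 * Real.pi) • ((μ (ball x r)).toReal • f x) := by
    rw [← hR, ← key, hLft, smul_comm]
  exact smul_right_injective _ hpi' hfin

theorem sq_norm_le_integral [FiniteDimensional ℂ E] [MeasurableSpace E] [BorelSpace E]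
    (μ : Measure E) [μ.IsAddHaarMeasure] {U : Set E} (hU : IsOpen U) {f : E → ℂ}
    (hf : DifferentiableOn ℂ f U) {x : E} {r : ℝ} (hr : 0 < r) (hB : closedBall x r ⊆ U) :
    (μ (ball x r)).toReal * ‖f x‖ ^ 2 ≤ ∫ y in ball x r, ‖f y‖ ^ 2 ∂μ := by
  have h := mean_value_ball μ hU (hf.pow 2) hr hB
  have h1 : ‖∫ y in ball x r, (f ^ 2) y ∂μ‖ ≤ ∫ y in ball x r, ‖(f ^ 2) y‖ ∂μ :=
    norm_integral_le_integral_norm _
  rw [h, norm_smul, Real.norm_of_nonneg ENNReal.toReal_nonneg] at h1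
  simpa [norm_pow] using h1

end Vale.Agent.P274.V
end
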