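import Mathlib

set_option linter.all false

section

open Filter Metric Set Topology Asymptotics

namespace Vale.Agent.P274

/-- An analytic function which is flat at a point vanishes near this point. -/
theorem eventually_zero_of_flat {E F : Type*} [NormedAddCommGroup E] [NormedSpace ℝ E]
    [NormedAddCommGroup F] [NormedSpace ℝ F] {g : E → F} (hg : AnalyticAt ℝ g 0)
    (h : ∀ N : ℕ, g =O[𝓝 0] fun y => ‖y‖ ^ N) : ∀ᶠ y in 𝓝 (0 : E), g y = 0 := by
  obtain ⟨p, hp⟩ := hg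
  have hz : ∀ n, ∀ y : E, (p n fun _ => y) = 0 := by
    intro n
    refine Nat.strong_induction_on n fun k hk => ?_
    have psum_eq : p.partialSum (k + 1) = fun y => p k fun _ => y := by
      funext z
      refine Finset.sum_eq_single _ (fun b hb hnb => ?_) fun hn => ?_
      · have := Finset.mem_range_succ_iff.mp hb
        simp only [hk b (this.lt_of_ne hnb)]
      · exact False.elim (hn (Finset.mem_range.mpr (lt_add_one k)))
    have h1 := hp.isBigO_sub_partialSum_pow k.succ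
    simp only [psum_eq, zero_add] at h1
    have h2 : (fun y : E => p k fun _ => y) =O[𝓝 0] fun y => ‖y‖ ^ (k + 1) := by
      have h3 := (h (k + 1)).sub h1
      refine h3.congr_left fun y => ?_
      simp
    exact h2.continuousMultilinearMap_apply_eq_zero
  obtain ⟨r, hr⟩ := hp
  have : ∀ᶠ y in 𝓝 (0 : E), y ∈ eball (0 : E) r := eball_mem_nhds _ hr.r_pos
  filter_upwards [this] with y hy
  have h1 := hr.hasSum hy
  simp only [hz, zero_add] at h1
  exact h1.unique hasSum_zero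

theorem vanish_aux {E : Type} [NormedAddCommGroup E] [NormedSpace ℝ E]
    {A : Set E} (h0 : (0 : E) ∈ A) {π : E →L[ℝ] E} (hπ : ∀ x, π (π x) = π x)
    (hZ : ∀ᶠ y in 𝓝 (0 : E), y ∈ A → ∀ w : E → ℝ, AnalyticAt ℝ w y →
      (∀ᶠ x in 𝓝 y, x ∈ A → w x = 0) → ∀ v, fderiv ℝ w y (π v) = 0) (N : ℕ) :
    ∀ (F : Type) [NormedAddCommGroup F] [NormedSpace ℝ F] [CompleteSpace F] (G : E → F),
      AnalyticAt ℝ G 0 → (∀ᶠ y in 𝓝 (0 : E), y ∈ A → G y = 0) →
      (∀ᶠ y in 𝓝 (0 : E), G (π y) = G y) → G =O[𝓝 0] fun y => ‖y‖ ^ N := by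
  induction N with
  | zero =>
    intro F _ _ _ G hG _ _
    simp only [pow_zero]
    exact hG.continuousAt.tendsto.isBigO_one ℝ
  | succ N ih =>
    intro F _ _ _ G hG hGA hGπ
    have hG' : AnalyticAt ℝ (fderiv ℝ G) 0 := hG.fderiv
    have hπc : Tendsto π (𝓝 0) (𝓝 0) := by
      have := π.continuous.tendsto 0
      rwa [map_zero] at this
    have hGπ2 := eventually_eventually_nhds.2 hGπ
    have han := hG.eventually_analyticAt
    -- derivative relation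
    have hrel : ∀ᶠ y in 𝓝 (0 : E), fderiv ℝ G y = (fderiv ℝ G (π y)).comp π := by
      filter_upwards [hGπ2, hπc.eventually han] with y h1 h2
      have h3 : fderiv ℝ (G ∘ π) y = fderiv ℝ G y := Filter.EventuallyEq.fderiv_eq h1
      rw [← h3, fderiv_comp y h2.differentiableAt π.differentiableAt, π.fderiv]
    have hrel2 : ∀ᶠ y in 𝓝 (0 : E), fderiv ℝ G (π y) = fderiv ℝ G y := by
      filter_upwards [hrel, hπc.eventually hrel] with y h1 h2
      rw [h1]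
      rw [hπ] at h2
      exact h2
    have hA' : ∀ᶠ y in 𝓝 (0 : E), y ∈ A → fderiv ℝ G y = 0 := by
      filter_upwards [hrel, hZ, eventually_eventually_nhds.2 hGA, han] with y h1 h2 h3 h4 hyA
      ext v
      have h5 : fderiv ℝ G y (π v) = 0 := by
        rw [← sub_eq_zero, sub_zero]
        refine SeparatingDual.eq_zero_of_forall_dual_eq_zero (R := ℝ) fun ℓ => ?_
        have h6 := h2 hyA (fun x => ℓ (G x)) ((ℓ.analyticAt _).comp h4) (by
          filter_upwards [h3] with x hx hxA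
          rw [hx hxA, map_zero]) v
        have h7 : fderiv ℝ (fun x => ℓ (G x)) y = ℓ.comp (fderiv ℝ G y) := by
          have := fderiv_comp y (ℓ.differentiableAt (x := G y)) h4.differentiableAt
          rw [ℓ.fderiv] at this
          exact this
        rw [h7] at h6
        exact h6
      have h8 : fderiv ℝ G y (v - π v) = 0 := by
        rw [h1]
        simp [hπ]
      have : v = π v + (v - π v) := by abel
      rw [this, map_add, h5, h8]
      simp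
    have hih := ih (E →L[ℝ] F) (fderiv ℝ G) hG' hA' hrel2
    obtain ⟨C, hC0, hC⟩ := hih.exists_nonneg
    replace hC := hC.bound
    have hG0 : G 0 = 0 := hGA.self_of_nhds h0
    obtain ⟨r, hr, hrb⟩ := Metric.eventually_nhds_iff_ball.1 (hC.and han)
    refine IsBigO.of_bound C ?_
    filter_upwards [ball_mem_nhds (0 : E) hr] with y hy
    have hy' : ‖y‖ < r := by simpa using hy
    have hsub : closedBall (0 : E) ‖y‖ ⊆ ball 0 r := closedBall_subset_ball hy'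
    have h1 := (convex_closedBall (0 : E) ‖y‖).norm_image_sub_le_of_norm_fderiv_le
      (f := G) (𝕜 := ℝ) (C := C * ‖y‖ ^ N) (x := 0) (y := y)
      (fun z hz => (hrb z (hsub hz)).2.differentiableAt) (fun z hz => by
        refine (hrb z (hsub hz)).1.trans ?_
        have h2 : ‖z‖ ≤ ‖y‖ := by simpa using hz
        rw [Real.norm_of_nonneg (by positivity)]
        gcongr)
      (mem_closedBall_self (norm_nonneg y)) (by simp)
    rw [hG0, sub_zero, sub_zero] at h1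
    rw [Real.norm_of_nonneg (by positivity), pow_succ, ← mul_assoc]
    exact h1

/-- If every function vanishing on `A` has vanishing derivatives in the direction of the range of
the projection `π` (locally along `A`), then every analytic function vanishing on `A` near `0`
vanishes on the range of `π` near `0`. -/
theorem vanish_of_tangential {E : Type} [NormedAddCommGroup E] [NormedSpace ℝ E]
    {A : Set E} (h0 : (0 : E) ∈ A) {π : E →L[ℝ] E} (hπ : ∀ x, π (π x) = π x)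
    (hA : ∀ᶠ y in 𝓝 (0 : E), y ∈ A → π y = y)
    (hZ : ∀ᶠ y in 𝓝 (0 : E), y ∈ A → ∀ w : E → ℝ, AnalyticAt ℝ w y →
      (∀ᶠ x in 𝓝 y, x ∈ A → w x = 0) → ∀ v, fderiv ℝ w y (π v) = 0)
    {w : E → ℝ} (hw : AnalyticAt ℝ w 0) (hwA : ∀ᶠ y in 𝓝 (0 : E), y ∈ A → w y = 0) :
    ∀ᶠ y in 𝓝 (0 : E), w (π y) = 0 := by
  have hπ0 : π 0 = 0 := map_zero π
  have hg : AnalyticAt ℝ (fun y => w (π y)) 0 := by
    have h1 : AnalyticAt ℝ w (π 0) := by rwa [hπ0]
    exact h1.comp (π.analyticAt 0)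
  refine eventually_zero_of_flat hg fun N => ?_
  refine vanish_aux h0 hπ hZ N ℝ _ hg ?_ (Eventually.of_forall fun y => by rw [hπ])
  filter_upwards [hA, hwA] with y h1 h2 hyA
  rw [h1 hyA, h2 hyA]

theorem vanish_of_tangential_vec {E : Type} [NormedAddCommGroup E] [NormedSpace ℝ E]
    {A : Set E} (h0 : (0 : E) ∈ A) {π : E →L[ℝ] E} (hπ : ∀ x, π (π x) = π x)
    (hA : ∀ᶠ y in 𝓝 (0 : E), y ∈ A → π y = y)
    (hZ : ∀ᶠ y in 𝓝 (0 : E), y ∈ A → ∀ w : E → ℝ, AnalyticAt ℝ w y →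
      (∀ᶠ x in 𝓝 y, x ∈ A → w x = 0) → ∀ v, fderiv ℝ w y (π v) = 0)
    {F : Type} [NormedAddCommGroup F] [NormedSpace ℝ F] [CompleteSpace F]
    {w : E → F} (hw : AnalyticAt ℝ w 0) (hwA : ∀ᶠ y in 𝓝 (0 : E), y ∈ A → w y = 0) :
    ∀ᶠ y in 𝓝 (0 : E), w (π y) = 0 := by
  have hπ0 : π 0 = 0 := map_zero π
  have hg : AnalyticAt ℝ (fun y => w (π y)) 0 := by
    have h1 : AnalyticAt ℝ w (π 0) := by rwa [hπ0]
    exact h1.comp (π.analyticAt 0)
  refine eventually_zero_of_flat hg fun N => ?_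
  refine vanish_aux h0 hπ hZ N F _ hg ?_ (Eventually.of_forall fun y => by rw [hπ])
  filter_upwards [hA, hwA] with y h1 h2 hyA
  rw [h1 hyA, h2 hyA]

end Vale.Agent.P274
end

section

open Filter Metric Set Topology Asymptotics

namespace Vale.Agent.P274

variable {E : Type} [NormedAddCommGroup E] [NormedSpace ℝ E]

/-- `ρ` is an analytic submersion at `q` vanishing on `A` near `q`. -/
structure Eqn (A : Set E) (c : ℕ) (ρ : E → (Fin c → ℝ)) (q : E) : Prop where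
  an : AnalyticAt ℝ ρ q
  van : ∀ᶠ x in 𝓝 q, x ∈ A → ρ x = 0
  surj : Function.Surjective (fderiv ℝ ρ q)

/-- `c` is an upper bound for the number of independent equations of `A` at points of `A`. -/
def MaxCodim (A : Set E) (c : ℕ) : Prop :=
  ∀ q' ∈ A, ∀ c' : ℕ, ∀ ρ' : E → (Fin c' → ℝ), Eqn A c' ρ' q' → c' ≤ c

theorem exists_maximal_eqn [FiniteDimensional ℝ E] {A : Set E} (hA : A.Nonempty) :
    ∃ q ∈ A, ∃ c : ℕ, ∃ ρ : E → (Fin c → ℝ), Eqn A c ρ q ∧ MaxCodim A c := by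
  classical
  set Q : ℕ → Prop := fun c => ∃ q ∈ A, ∃ ρ : E → (Fin c → ℝ), Eqn A c ρ q with hQ
  have hbd : ∀ c, Q c → c ≤ Module.finrank ℝ E := by
    rintro c ⟨q, hq, ρ, hρ⟩
    have h1 := (fderiv ℝ ρ q : E →ₗ[ℝ] (Fin c → ℝ)).finrank_le_finrank_of_surjective hρ.surj
    simpa using h1
  have h0 : Q 0 := by
    obtain ⟨q, hq⟩ := hA
    refine ⟨q, hq, fun _ => 0, analyticAt_const, Eventually.of_forall fun _ _ => rfl, ?_⟩
    intro b
    exact ⟨0, Subsingleton.elim _ _⟩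
  set c := Nat.findGreatest Q (Module.finrank ℝ E) with hc
  have hcQ : Q c := Nat.findGreatest_spec (Nat.zero_le _) h0
  obtain ⟨q, hq, ρ, hρ⟩ := hcQ
  exact ⟨q, hq, c, ρ, hρ, fun q' hq' c' ρ' h' =>
    Nat.le_findGreatest (hbd c' ⟨q', hq', ρ', h'⟩) ⟨q', hq', ρ', h'⟩⟩

theorem Eqn.tangential {A : Set E} {c : ℕ} {ρ : E → (Fin c → ℝ)} {q : E} (h : Eqn A c ρ q)
    (hmax : MaxCodim A c) (hq : q ∈ A) {u : E → ℝ} (hu : AnalyticAt ℝ u q)
    (hu0 : ∀ᶠ x in 𝓝 q, x ∈ A → u x = 0) {v : E} (hv : fderiv ℝ ρ q v = 0) :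
    fderiv ℝ u q v = 0 := by
  by_contra hne
  set ρ' : E → (Fin (c + 1) → ℝ) := fun x => Fin.cons (u x) (ρ x) with hρ'
  have hcomp : ∀ i : Fin c, AnalyticAt ℝ (fun x => ρ x i) q := fun i =>
    ((ContinuousLinearMap.proj (R := ℝ) (φ := fun _ : Fin c => ℝ) i).analyticAt _).comp h.an
  have han : AnalyticAt ℝ ρ' q := by
    refine AnalyticAt.pi fun i => ?_
    refine Fin.cases ?_ (fun i => ?_) i
    · exact hu
    · exact hcomp i
  have hder : ∀ w, fderiv ℝ ρ' q w = Fin.cons (fderiv ℝ u q w) (fderiv ℝ ρ q w) := by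
    intro w
    have h1 : HasFDerivAt ρ' (ContinuousLinearMap.pi fun i : Fin (c + 1) =>
        (Fin.cases (fderiv ℝ u q) (fun j =>
          (ContinuousLinearMap.proj (R := ℝ) (φ := fun _ : Fin c => ℝ) j).comp
            (fderiv ℝ ρ q)) i : E →L[ℝ] ℝ)) q := by
      refine hasFDerivAt_pi.2 fun i => ?_
      refine Fin.cases ?_ (fun j => ?_) i
      · exact hu.differentiableAt.hasFDerivAt
      · exact hasFDerivAt_pi'.1 h.an.differentiableAt.hasFDerivAt j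
    rw [h1.fderiv]
    ext i
    refine Fin.cases ?_ (fun j => ?_) i <;> simp
  have hsurj : Function.Surjective (fderiv ℝ ρ' q) := by
    intro b
    obtain ⟨v0, hv0⟩ := h.surj (Fin.tail b)
    refine ⟨v0 + ((b 0 - fderiv ℝ u q v0) / fderiv ℝ u q v) • v, ?_⟩
    rw [hder, map_add, map_add, map_smul, map_smul, hv, hv0, smul_zero, add_zero, smul_eq_mul,
      div_mul_cancel₀ _ hne]
    rw [add_sub_cancel]
    exact Fin.cons_self_tail b
  have hvan : ∀ᶠ x in 𝓝 q, x ∈ A → ρ' x = 0 := by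
    filter_upwards [h.van, hu0] with x h1 h2 hxA
    simp only [hρ', h1 hxA, h2 hxA]
    ext i
    refine Fin.cases ?_ (fun j => ?_) i <;> simp
  have := hmax q hq (c + 1) ρ' ⟨han, hvan, hsurj⟩
  (clear * - this; omega)

/-- Data of an adapted chart. -/
structure Chart (c : ℕ) (ρ : E → (Fin c → ℝ)) (q : E) where
  R : (Fin c → ℝ) →L[ℝ] E
  π : E →L[ℝ] E
  Ψ : E → E
  χ : E → E
  DR : ∀ r, fderiv ℝ ρ q (R r) = r
  Dπ : ∀ x, fderiv ℝ ρ q (π x) = 0
  π_add : ∀ x, π x + R (fderiv ℝ ρ q x) = x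
  Ψq : Ψ q = 0
  χ0 : χ 0 = q
  anΨ : AnalyticAt ℝ Ψ q
  anχ : AnalyticAt ℝ χ 0
  dΨ : fderiv ℝ Ψ q = ContinuousLinearMap.id ℝ E
  DΨ : ∀ x, fderiv ℝ ρ q (Ψ x) = ρ x
  left : ∀ᶠ x in 𝓝 q, χ (Ψ x) = x
  right : ∀ᶠ y in 𝓝 (0 : E), Ψ (χ y) = y

theorem exists_chart [FiniteDimensional ℝ E] {c : ℕ} {ρ : E → (Fin c → ℝ)} {q : E}
    (han : AnalyticAt ℝ ρ q) (hρq : ρ q = 0) (hs : Function.Surjective (fderiv ℝ ρ q)) :
    Nonempty (Chart c ρ q) := by
  have hcs : CompleteSpace E := FiniteDimensional.complete ℝ E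
  set D := fderiv ℝ ρ q with hD
  obtain ⟨R0, hR0⟩ := (D : E →ₗ[ℝ] (Fin c → ℝ)).exists_rightInverse_of_surjective
    (LinearMap.range_eq_top.2 hs)
  set R : (Fin c → ℝ) →L[ℝ] E := LinearMap.toContinuousLinearMap R0 with hR
  have hDR : ∀ r, D (R r) = r := fun r => by
    have := LinearMap.congr_fun hR0 r
    exact this
  set π : E →L[ℝ] E := ContinuousLinearMap.id ℝ E - R.comp D with hπ
  have hDπ : ∀ x, D (π x) = 0 := by
    intro x
    simp [hπ, hDR]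
  have hπadd : ∀ x, π x + R (D x) = x := by
    intro x
    simp [hπ]
  set Ψ : E → E := fun x => R (ρ x) + π (x - q) with hΨ
  have hΨq : Ψ q = 0 := by simp [hΨ, hρq]
  have hanΨ : AnalyticAt ℝ Ψ q := by
    have h1 : AnalyticAt ℝ (fun x => R (ρ x)) q := (R.analyticAt _).comp han
    have h2 : AnalyticAt ℝ (fun x => π (x - q)) q :=
      (π.analyticAt _).comp (analyticAt_id.sub analyticAt_const)
    exact h1.add h2
  have hΨ' : HasFDerivAt Ψ (ContinuousLinearMap.id ℝ E) q := by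
    have h1 : HasFDerivAt (fun x => R (ρ x)) (R.comp D) q :=
      R.hasFDerivAt.comp q han.differentiableAt.hasFDerivAt
    have h2 : HasFDerivAt (fun x => π (x - q)) (π.comp (ContinuousLinearMap.id ℝ E)) q :=
      π.hasFDerivAt.comp q ((hasFDerivAt_id q).sub_const q)
    have h3 := h1.add h2
    have h4 : R.comp D + π.comp (ContinuousLinearMap.id ℝ E) = ContinuousLinearMap.id ℝ E := by
      ext x
      simp [hπ]
    rw [h4] at h3
    exact h3
  have hΨ'' : HasFDerivAt Ψ ((ContinuousLinearEquiv.refl ℝ E : E ≃L[ℝ] E) : E →L[ℝ] E) q := hΨ'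
  have hcd : ContDiffAt ℝ ⊤ Ψ q := hanΨ.contDiffAt
  have hne : (⊤ : WithTop ℕ∞) ≠ 0 := by simp
  set χ := hcd.localInverse hΨ'' hne with hχ
  have hχan : ContDiffAt ℝ ⊤ χ (Ψ q) := hcd.to_localInverse hΨ'' hne
  have hstrict := hcd.hasStrictFDerivAt' hΨ'' hne
  refine ⟨⟨R, π, Ψ, χ, hDR, hDπ, hπadd, hΨq, ?_, hanΨ, ?_, hΨ'.fderiv, ?_, ?_, ?_⟩⟩
  · have := hcd.localInverse_apply_image hΨ'' hne
    rwa [hΨq] at this
  · rw [hΨq] at hχan
    exact hχan.analyticAt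
  · intro x
    simp only [hΨ]
    rw [map_add, hDR, hDπ, add_zero]
  · exact hstrict.eventually_left_inverse
  · have := hstrict.eventually_right_inverse
    rwa [hΨq] at this

theorem Chart.bijective_near [FiniteDimensional ℝ E] {c : ℕ} {ρ : E → (Fin c → ℝ)} {q : E}
    (C : Chart c ρ q) : ∀ᶠ x in 𝓝 q, Function.Bijective (fderiv ℝ C.Ψ x) := by
  have hcs : CompleteSpace E := FiniteDimensional.complete ℝ E
  have h1 : ContinuousAt (fderiv ℝ C.Ψ) q := C.anΨ.fderiv.continuousAt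
  have h2 := (ContinuousLinearEquiv.refl ℝ E).nhds
  have h3 : ((ContinuousLinearEquiv.refl ℝ E : E ≃L[ℝ] E) : E →L[ℝ] E) = fderiv ℝ C.Ψ q := by
    rw [C.dΨ]; rfl
  rw [h3] at h2
  filter_upwards [h1.eventually_mem h2] with x hx
  obtain ⟨e, he⟩ := hx
  rw [← he]
  exact e.bijective

theorem Chart.surj_near [FiniteDimensional ℝ E] {c : ℕ} {ρ : E → (Fin c → ℝ)} {q : E}
    (C : Chart c ρ q) (hs : Function.Surjective (fderiv ℝ ρ q)) :
    ∀ᶠ x in 𝓝 q, (∀ v, fderiv ℝ ρ x v = fderiv ℝ ρ q (fderiv ℝ C.Ψ x v)) ∧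
      Function.Surjective (fderiv ℝ ρ x) := by
  filter_upwards [C.bijective_near, C.anΨ.eventually_analyticAt] with x h1 h2
  have h3 : ∀ v, fderiv ℝ ρ x v = fderiv ℝ ρ q (fderiv ℝ C.Ψ x v) := by
    intro v
    have h4 : ρ = fun x => fderiv ℝ ρ q (C.Ψ x) := funext fun x => (C.DΨ x).symm
    have h5 : HasFDerivAt (fun x => fderiv ℝ ρ q (C.Ψ x))
        ((fderiv ℝ ρ q).comp (fderiv ℝ C.Ψ x)) x :=
      (fderiv ℝ ρ q).hasFDerivAt.comp x h2.differentiableAt.hasFDerivAt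
    rw [← h4] at h5
    rw [h5.fderiv]
    rfl
  refine ⟨h3, fun b => ?_⟩
  obtain ⟨w, hw⟩ := hs b
  obtain ⟨v, hv⟩ := h1.2 w
  exact ⟨v, by rw [h3, hv, hw]⟩

theorem Eqn.eventually [FiniteDimensional ℝ E] {A : Set E} {c : ℕ} {ρ : E → (Fin c → ℝ)} {q : E}
    (h : Eqn A c ρ q) (hq : q ∈ A) : ∀ᶠ x in 𝓝 q, Eqn A c ρ x := by
  obtain ⟨C⟩ := exists_chart h.an (h.van.self_of_nhds hq) h.surj
  filter_upwards [h.an.eventually_analyticAt, eventually_eventually_nhds.2 h.van,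
    C.surj_near h.surj] with x h1 h2 h3
  exact ⟨h1, h2, h3.2⟩

theorem Chart.ππ {c : ℕ} {ρ : E → (Fin c → ℝ)} {q : E} (C : Chart c ρ q) (x : E) :
    C.π (C.π x) = C.π x := by
  have h1 := C.π_add (C.π x)
  rwa [C.Dπ, map_zero, add_zero] at h1

theorem Chart.tendsto_χ {c : ℕ} {ρ : E → (Fin c → ℝ)} {q : E} (C : Chart c ρ q) :
    Tendsto C.χ (𝓝 0) (𝓝 q) := by
  have := C.anχ.continuousAt.tendsto
  rwa [C.χ0] at this

theorem Chart.tendsto_Ψ {c : ℕ} {ρ : E → (Fin c → ℝ)} {q : E} (C : Chart c ρ q) :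
    Tendsto C.Ψ (𝓝 q) (𝓝 0) := by
  have := C.anΨ.continuousAt.tendsto
  rwa [C.Ψq] at this

theorem Chart.adapted1 {A : Set E} {c : ℕ} {ρ : E → (Fin c → ℝ)} {q : E}
    (h : Eqn A c ρ q) (C : Chart c ρ q) :
    ∀ᶠ y in 𝓝 (0 : E), y ∈ {y | C.χ y ∈ A} → C.π y = y := by
  filter_upwards [C.tendsto_χ.eventually h.van, C.right] with y h1 h2 h3
  have h4 := h1 h3
  have h5 := C.π_add y
  have h6 : fderiv ℝ ρ q y = 0 := by
    rw [← h2, C.DΨ, h4]
  rwa [h6, map_zero, add_zero] at h5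

theorem Chart.adapted2 [FiniteDimensional ℝ E] {A : Set E} {c : ℕ} {ρ : E → (Fin c → ℝ)} {q : E}
    (h : Eqn A c ρ q) (hmax : MaxCodim A c) (hq : q ∈ A) (C : Chart c ρ q) :
    ∀ᶠ y in 𝓝 (0 : E), y ∈ {y | C.χ y ∈ A} → ∀ w : E → ℝ, AnalyticAt ℝ w y →
      (∀ᶠ x in 𝓝 y, x ∈ {y | C.χ y ∈ A} → w x = 0) → ∀ v, fderiv ℝ w y (C.π v) = 0 := by
  have hχc := C.tendsto_χ
  filter_upwards [hχc.eventually (h.eventually hq), hχc.eventually (C.surj_near h.surj),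
    hχc.eventually C.bijective_near, C.right, hχc.eventually C.anΨ.eventually_analyticAt,
    hχc.eventually (eventually_eventually_nhds.2 C.left)] with y h1 h2 h3 h4 h5 h6 hyA w hw hw0 v
  set x := C.χ y with hx
  have hw' : AnalyticAt ℝ w (C.Ψ x) := by rwa [h4]
  have hcomp : AnalyticAt ℝ (fun z => w (C.Ψ z)) x := hw'.comp h5
  have hvan : ∀ᶠ z in 𝓝 x, z ∈ A → w (C.Ψ z) = 0 := by
    have h7 : Tendsto C.Ψ (𝓝 x) (𝓝 y) := by
      have := h5.continuousAt.tendsto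
      rwa [h4] at this
    filter_upwards [h7.eventually hw0, h6] with z h8 h9 h10
    refine h8 ?_
    simp only [mem_ofPred_eq, h9]
    exact h10
  obtain ⟨v', hv'⟩ := h3.2 (C.π v)
  have h11 := h1.tangential hmax hyA hcomp hvan (v := v') (by rw [h2.1, hv', C.Dπ])
  have h12 : fderiv ℝ (fun z => w (C.Ψ z)) x = (fderiv ℝ w y).comp (fderiv ℝ C.Ψ x) := by
    have := fderiv_comp x (hw'.differentiableAt) h5.differentiableAt
    rw [h4] at this
    exact this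
  rw [h12] at h11
  rw [← hv']
  exact h11

/-- Every analytic function vanishing on `A` near `q` vanishes on `{ρ = 0}` near `q`. -/
theorem Eqn.vanish [FiniteDimensional ℝ E] {A : Set E} {c : ℕ} {ρ : E → (Fin c → ℝ)} {q : E}
    (h : Eqn A c ρ q) (hmax : MaxCodim A c) (hq : q ∈ A) {u : E → ℝ} (hu : AnalyticAt ℝ u q)
    (hu0 : ∀ᶠ x in 𝓝 q, x ∈ A → u x = 0) : ∀ᶠ x in 𝓝 q, ρ x = 0 → u x = 0 := by
  obtain ⟨C⟩ := exists_chart h.an (h.van.self_of_nhds hq) h.surj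
  have hkey := vanish_of_tangential (A := {y | C.χ y ∈ A}) (π := C.π) (w := fun y => u (C.χ y))
    (by simp only [mem_ofPred_eq, C.χ0]; exact hq) C.ππ (C.adapted1 h) (C.adapted2 h hmax hq) ?_ ?_
  · filter_upwards [C.tendsto_Ψ.eventually hkey, C.left] with x h1 h2 h3
    have h4 : C.π (C.Ψ x) = C.Ψ x := by
      have h5 := C.π_add (C.Ψ x)
      rwa [C.DΨ, h3, map_zero, add_zero] at h5
    simp only [h4, h2] at h1
    exact h1
  · have h1 : AnalyticAt ℝ u (C.χ 0) := by rwa [C.χ0]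
    exact h1.comp C.anχ
  · filter_upwards [C.tendsto_χ.eventually hu0] with y h1 h2
    exact h1 h2

end Vale.Agent.P274
end

section

/-! Analytically dense sets and orders in the first variable: definitions. -/

open Filter Topology

namespace Vale.Agent.P274.W

variable {T : Type} [NormedAddCommGroup T] [NormedSpace ℝ T]

/-- `A` is analytically dense at each of its points: an analytic function vanishing on `A` near a
point of `A` vanishes near this point. -/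
def Gen (A : Set T) : Prop :=
  ∀ q ∈ A, ∀ f : T → ℝ, AnalyticAt ℝ f q → (∀ᶠ t in 𝓝 q, t ∈ A → f t = 0) →
    ∀ᶠ t in 𝓝 q, f t = 0

/-- Near `(0, q)` the function is zero, or a power of the first variable times a function which is
analytic and not zero at `(0, q)`. -/
def HasOrd {F : Type} [NormedAddCommGroup F] [NormedSpace ℝ F] (f : ℝ × T → F) (q : T) : Prop :=
  (∀ᶠ p in 𝓝 ((0 : ℝ), q), f p = 0) ∨
    ∃ (k : ℕ) (g : ℝ × T → F), AnalyticAt ℝ g (0, q) ∧ g (0, q) ≠ 0 ∧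
      ∀ᶠ p in 𝓝 ((0 : ℝ), q), f p = p.1 ^ k • g p

end Vale.Agent.P274.W
end

section

/-! TASK W1: division by a power of the first variable, orders. -/

open Filter Topology

namespace Vale.Agent.P274.W

/-! ### Division of power series -/

section Quot

variable {E F : Type*} [NormedAddCommGroup E] [NormedSpace ℝ E] [NormedAddCommGroup F]
  [NormedSpace ℝ F]

/-- The series of the quotient. -/
noncomputable def quotSeries (p : FormalMultilinearSeries ℝ E F) (e : E) (π : E →L[ℝ] E) :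
    FormalMultilinearSeries ℝ E F := fun n =>
  ∑ i : Fin (n + 1), ((p (n + 1)).curryMid i e).compContinuousLinearMap
    (fun j : Fin n => if j.castSucc < i then ContinuousLinearMap.id ℝ E else π)

theorem quotSeries_apply (p : FormalMultilinearSeries ℝ E F) (e : E) (π : E →L[ℝ] E) (n : ℕ)
    (v : E) : quotSeries p e π n (fun _ => v) = ∑ i : Fin (n + 1), p (n + 1)
      (fun j => if j < i then v else if i = j then e else π v) := by
  unfold quotSeries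
  rw [sum_apply]
  refine Finset.sum_congr rfl fun i _ => ?_
  rw [ContinuousMultilinearMap.compContinuousLinearMap_apply,
    ContinuousMultilinearMap.curryMid_apply]
  congr 1
  funext j
  refine Fin.succAboveCases i ?_ (fun k => ?_) j
  · rw [Fin.insertNth_apply_same]
    simp
  · rw [Fin.insertNth_apply_succAbove]
    by_cases h : k.castSucc < i
    · rw [if_pos h, if_pos ((Fin.succAbove_lt_iff_castSucc_lt i k).2 h)]
      rfl
    · rw [if_neg h, if_neg (fun h' => h ((Fin.succAbove_lt_iff_castSucc_lt i k).1 h')),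
        if_neg (Fin.ne_succAbove i k)]

theorem quotSeries_sub (p : FormalMultilinearSeries ℝ E F) (e : E) (π : E →L[ℝ] E) (n : ℕ)
    {v : E} {s : ℝ} (h : v - π v = s • e) :
    p (n + 1) (fun _ => v) - p (n + 1) (fun _ => π v) = s • quotSeries p e π n (fun _ => v) := by
  have h1 := (p (n + 1)).toMultilinearMap.map_sub_map_piecewise (fun _ => v) (fun _ => π v)
    Finset.univ
  rw [Finset.piecewise_univ] at h1
  simp only [Finset.mem_univ, forall_const] at h1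
  rw [quotSeries_apply, Finset.smul_sum]
  refine h1.trans (Finset.sum_congr rfl fun i _ => ?_)
  have h2 : (fun j => if j < i then v else if i = j then v - π v else π v) =
      Function.update (fun j => if j < i then v else if i = j then e else π v) i (s • e) := by
    funext j
    by_cases hj : j = i
    · subst hj
      simp [h]
    · rw [Function.update_of_ne hj]
      by_cases h3 : j < i
      · simp [h3]
      · simp [h3, Ne.symm hj]
  have h3 : Function.update (fun j => if j < i then v else if i = j then e else π v) i e =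
      fun j => if j < i then v else if i = j then e else π v := by
    rw [Function.update_eq_self_iff]
    simp
  rw [h2, MultilinearMap.map_update_smul, h3]
  rfl

theorem norm_quotSeries_le (p : FormalMultilinearSeries ℝ E F) (e : E) {π : E →L[ℝ] E}
    (hπ : ‖π‖ ≤ 1) (n : ℕ) : ‖quotSeries p e π n‖ ≤ (n + 1) * (‖p (n + 1)‖ * ‖e‖) := by
  unfold quotSeries
  refine (norm_sum_le _ _).trans ?_
  have : ∀ i ∈ (Finset.univ : Finset (Fin (n + 1))),
      ‖((p (n + 1)).curryMid i e).compContinuousLinearMap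
        (fun j : Fin n => if j.castSucc < i then ContinuousLinearMap.id ℝ E else π)‖ ≤
      ‖p (n + 1)‖ * ‖e‖ := by
    intro i _
    refine (ContinuousMultilinearMap.norm_compContinuousLinearMap_le _ _).trans ?_
    have h1 : ‖(p (n + 1)).curryMid i e‖ ≤ ‖p (n + 1)‖ * ‖e‖ := by
      refine (((p (n + 1)).curryMid i).le_opNorm e).trans ?_
      rw [ContinuousMultilinearMap.norm_curryMid]
    have h2 : ∏ j : Fin n, ‖(if j.castSucc < i then ContinuousLinearMap.id ℝ E else π)‖ ≤ 1 := by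
      refine Finset.prod_le_one (fun _ _ => norm_nonneg _) fun j _ => ?_
      split_ifs
      · exact ContinuousLinearMap.norm_id_le
      · exact hπ
    calc _ ≤ ‖(p (n + 1)).curryMid i e‖ * 1 := by gcongr
      _ ≤ _ := by rw [mul_one]; exact h1
  refine (Finset.sum_le_sum this).trans ?_
  simp

theorem quotSeries_radius_pos (p : FormalMultilinearSeries ℝ E F) (e : E) {π : E →L[ℝ] E}
    (hπ : ‖π‖ ≤ 1) (hp : 0 < p.radius) : 0 < (quotSeries p e π).radius := by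
  obtain ⟨r, hr0, hr⟩ := ENNReal.lt_iff_exists_nnreal_btwn.1 hp
  have hr0' : 0 < r := by exact_mod_cast hr0
  obtain ⟨C, hC, hC'⟩ := p.norm_mul_pow_le_of_lt_radius hr
  have h2 : ((r / 2 : NNReal) : ENNReal) ≤ (quotSeries p e π).radius := by
    refine (quotSeries p e π).le_radius_of_bound (C / r * ‖e‖) fun n => ?_
    have h3 := norm_quotSeries_le p e hπ n
    have h4 := hC' (n + 1)
    have hr1 : (0 : ℝ) < r := by exact_mod_cast hr0'
    have h5 : ((n : ℝ) + 1) ≤ 2 ^ n := by exact_mod_cast Nat.lt_two_pow_self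
    rw [NNReal.coe_div, NNReal.coe_ofNat, div_pow]
    have h6 : ‖p (n + 1)‖ * (r : ℝ) ^ n ≤ C / r := by
      rw [le_div_iff₀ hr1, mul_assoc, ← pow_succ]
      exact h4
    have h7 : (0 : ℝ) < 2 ^ n := by positivity
    calc ‖quotSeries p e π n‖ * ((r : ℝ) ^ n / 2 ^ n)
        ≤ ((n + 1) * (‖p (n + 1)‖ * ‖e‖)) * ((r : ℝ) ^ n / 2 ^ n) := by gcongr
      _ = ((n + 1) / 2 ^ n) * ((‖p (n + 1)‖ * (r : ℝ) ^ n) * ‖e‖) := by ring
      _ ≤ 1 * ((C / r) * ‖e‖) := by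
          gcongr
          rw [div_le_one h7]
          exact h5
      _ = _ := one_mul _
  refine lt_of_lt_of_le ?_ h2
  exact_mod_cast half_pos hr0'

/-- Division of an analytic function vanishing on a hyperplane. -/
theorem exists_quot [CompleteSpace F] {f : E → F} {x : E} (hf : AnalyticAt ℝ f x) (e : E)
    (σ : E →L[ℝ] ℝ) {π : E →L[ℝ] E} (hπ : ∀ v, v - π v = σ v • e) (hπ1 : ‖π‖ ≤ 1)
    (h0 : ∀ᶠ v in 𝓝 (0 : E), f (x + π v) = 0) :
    ∃ g : E → F, AnalyticAt ℝ g x ∧ ∀ᶠ v in 𝓝 (0 : E), f (x + v) = σ v • g (x + v) := by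
  obtain ⟨p, r, hr⟩ := hf
  have hp : 0 < p.radius := lt_of_lt_of_le hr.r_pos hr.r_le
  have hq := quotSeries_radius_pos p e hπ1 hp
  have hqs := (quotSeries p e π).hasFPowerSeriesOnBall hq
  refine ⟨fun y => (quotSeries p e π).sum (y - x), ?_, ?_⟩
  · have h1 : AnalyticAt ℝ (quotSeries p e π).sum (x - x) := by
      rw [sub_self]
      exact hqs.analyticAt
    exact AnalyticAt.comp (f := fun y => y - x) h1 (analyticAt_id.sub analyticAt_const)
  · have e1 : ∀ᶠ v in 𝓝 (0 : E), v ∈ Metric.eball (0 : E) r := Metric.eball_mem_nhds _ hr.r_pos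
    have e2 : ∀ᶠ v in 𝓝 (0 : E), v ∈ Metric.eball (0 : E) (quotSeries p e π).radius :=
      Metric.eball_mem_nhds _ hq
    have e3 : ∀ᶠ v in 𝓝 (0 : E), π v ∈ Metric.eball (0 : E) r := by
      have : Tendsto π (𝓝 0) (𝓝 0) := by
        have := π.continuous.tendsto 0
        rwa [map_zero] at this
      exact this.eventually e1
    filter_upwards [e1, e2, e3, h0] with v h1 h2 h3 h4
    have s1 := hr.hasSum h1
    have s2 := hr.hasSum h3
    rw [h4] at s2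
    have s3 := s1.sub s2
    rw [sub_zero, ← hasSum_nat_add_iff' 1] at s3
    have s4 := hqs.hasSum h2
    rw [zero_add] at s4
    have s5 := s4.const_smul (σ v)
    have h5 : ∑ i ∈ Finset.range 1, (p i (fun _ => v) - p i (fun _ => π v)) = 0 := by
      rw [Finset.sum_range_one]
      have : (fun _ : Fin 0 => v) = fun _ : Fin 0 => π v := Subsingleton.elim _ _
      rw [this, sub_self]
    rw [h5, sub_zero] at s3
    have h6 : (fun n => p (n + 1) (fun _ => v) - p (n + 1) (fun _ => π v)) =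
        fun n => σ v • quotSeries p e π n (fun _ => v) := by
      funext n
      exact quotSeries_sub p e π n (hπ v)
    rw [h6] at s3
    simp only [add_sub_cancel_left]
    exact s3.unique s5

end Quot

variable {T : Type} [NormedAddCommGroup T] [NormedSpace ℝ T]
  {F : Type} [NormedAddCommGroup F] [NormedSpace ℝ F]

theorem exists_div_one [CompleteSpace F] {q : T} {f : ℝ × T → F} (hf : AnalyticAt ℝ f (0, q))
    (h0 : ∀ᶠ t in 𝓝 q, f (0, t) = 0) :
    ∃ g : ℝ × T → F, AnalyticAt ℝ g (0, q) ∧ ∀ᶠ p in 𝓝 ((0 : ℝ), q), f p = p.1 • g p := by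
  let π : ℝ × T →L[ℝ] ℝ × T := (ContinuousLinearMap.inr ℝ ℝ T).comp (ContinuousLinearMap.snd ℝ ℝ T)
  have hπ1 : ‖π‖ ≤ 1 := by
    refine π.opNorm_le_bound zero_le_one fun v => ?_
    rw [one_mul]
    have : π v = (0, v.2) := rfl
    rw [this, Prod.norm_mk, norm_zero, max_eq_right (norm_nonneg _)]
    exact norm_snd_le v
  have hπ : ∀ v : ℝ × T, v - π v = ContinuousLinearMap.fst ℝ ℝ T v • ((1 : ℝ), (0 : T)) := by
    intro v
    have : π v = (0, v.2) := rfl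
    rw [this]
    ext <;> simp
  obtain ⟨g, hg, hg'⟩ := exists_quot hf ((1 : ℝ), (0 : T)) (ContinuousLinearMap.fst ℝ ℝ T)
    (π := π) hπ hπ1 (by
      have h1 : Tendsto (fun v : ℝ × T => q + v.2) (𝓝 0) (𝓝 q) := by
        have : Continuous fun v : ℝ × T => q + v.2 := by fun_prop
        have h2 := this.tendsto 0
        simpa using h2
      filter_upwards [h1.eventually h0] with v hv
      have : ((0 : ℝ), q) + π v = (0, q + v.2) := by
        have : π v = (0, v.2) := rfl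
        rw [this, Prod.mk_add_mk, add_zero]
      rw [this]
      exact hv)
  refine ⟨g, hg, ?_⟩
  have h1 : Tendsto (fun p : ℝ × T => p - ((0 : ℝ), q)) (𝓝 (0, q)) (𝓝 0) := by
    have : Continuous fun p : ℝ × T => p - ((0 : ℝ), q) := by fun_prop
    have h2 := this.tendsto (0, q)
    rwa [sub_self] at h2
  filter_upwards [h1.eventually hg'] with p hp
  rw [add_sub_cancel] at hp
  rw [hp]
  simp

section Main

variable [FiniteDimensional ℝ T] [FiniteDimensional ℝ F]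

omit [NormedSpace ℝ T] [FiniteDimensional ℝ T] in
theorem tendsto_zero_mk (q : T) : Tendsto (fun t : T => ((0 : ℝ), t)) (𝓝 q) (𝓝 (0, q)) :=
  (Continuous.prodMk_right (0 : ℝ)).tendsto q

theorem HasOrd.eventually {f : ℝ × T → F} {q : T} (h : HasOrd f q) :
    ∀ᶠ q' in 𝓝 q, HasOrd f q' := by
  rcases h with h | ⟨k, g, hg, hg0, hfg⟩
  · filter_upwards [(tendsto_zero_mk q).eventually (eventually_eventually_nhds.2 h)] with q' hq'
    exact Or.inl hq'
  · have h1 : ∀ᶠ q' in 𝓝 q, g (0, q') ≠ 0 :=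
      (tendsto_zero_mk q).eventually (hg.continuousAt.eventually_ne hg0)
    filter_upwards [(tendsto_zero_mk q).eventually (eventually_eventually_nhds.2 hfg), h1,
      (tendsto_zero_mk q).eventually hg.eventually_analyticAt] with q' h2 h3 h4
    exact Or.inr ⟨k, g, h4, h3, h2⟩

omit [FiniteDimensional ℝ T] in
/-- an analytic function which is not locally zero is a power of the first variable times a
function whose restriction to the hyperplane is not locally zero -/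
theorem exists_pow_smul {q : T} {f : ℝ × T → F} (hf : AnalyticAt ℝ f (0, q))
    (h : ¬ ∀ᶠ p in 𝓝 ((0 : ℝ), q), f p = 0) :
    ∃ (k : ℕ) (g : ℝ × T → F), AnalyticAt ℝ g (0, q) ∧
      (∀ᶠ p in 𝓝 ((0 : ℝ), q), f p = p.1 ^ k • g p) ∧ ¬ ∀ᶠ t in 𝓝 q, g (0, t) = 0 := by
  have : CompleteSpace F := FiniteDimensional.complete ℝ F
  by_contra hcon
  push Not at hcon
  have h1 : ∀ k : ℕ, ∃ g : ℝ × T → F, AnalyticAt ℝ g (0, q) ∧
      ∀ᶠ p in 𝓝 ((0 : ℝ), q), f p = p.1 ^ k • g p := by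
    intro k
    induction k with
    | zero => exact ⟨f, hf, Eventually.of_forall fun p => by simp⟩
    | succ k ih =>
      obtain ⟨g, hg, hfg⟩ := ih
      obtain ⟨g2, hg2, hg2'⟩ := exists_div_one hg (hcon k g hg hfg)
      refine ⟨g2, hg2, ?_⟩
      filter_upwards [hfg, hg2'] with p h1 h2
      rw [h1, h2, smul_smul, pow_succ]
  refine h ?_
  have h2 : AnalyticAt ℝ (fun y => f (((0 : ℝ), q) + y)) 0 := by
    have h3 : AnalyticAt ℝ f (((0 : ℝ), q) + 0) := by rwa [add_zero]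
    exact h3.comp (analyticAt_const.add analyticAt_id)
  have hadd : Tendsto (fun y : ℝ × T => ((0 : ℝ), q) + y) (𝓝 0) (𝓝 (0, q)) := by
    have : Continuous fun y : ℝ × T => ((0 : ℝ), q) + y := by fun_prop
    have h3 := this.tendsto 0
    rwa [add_zero] at h3
  have h3 := Vale.Agent.P274.eventually_zero_of_flat h2 (fun N => by
    obtain ⟨g, hg, hfg⟩ := h1 N
    have h4 : (fun y => g (((0 : ℝ), q) + y)) =O[𝓝 0] fun _ => (1 : ℝ) := by
      have h5 : Tendsto (fun y => g (((0 : ℝ), q) + y)) (𝓝 0) (𝓝 (g (0, q))) :=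
        hg.continuousAt.tendsto.comp hadd
      exact h5.isBigO_one ℝ
    obtain ⟨c, hc⟩ := h4.bound
    refine Asymptotics.IsBigO.of_bound c ?_
    filter_upwards [hc, hadd.eventually hfg] with y h5 h6
    rw [h6, norm_smul, norm_pow, Real.norm_eq_abs]
    simp only [zero_add, Prod.fst_add, norm_one, mul_one] at h5 ⊢
    rw [norm_pow, norm_norm]
    have h7 : |y.1| ≤ ‖y‖ := norm_fst_le y
    calc |y.1| ^ N * ‖g (((0 : ℝ), q) + y)‖ ≤ ‖y‖ ^ N * c := by gcongr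
      _ = _ := mul_comm _ _)
  have hsub : Tendsto (fun p : ℝ × T => p - ((0 : ℝ), q)) (𝓝 (0, q)) (𝓝 0) := by
    have : Continuous fun p : ℝ × T => p - ((0 : ℝ), q) := by fun_prop
    have h2 := this.tendsto (0, q)
    rwa [sub_self] at h2
  filter_upwards [hsub.eventually h3] with p hp
  rwa [add_sub_cancel] at hp

omit [FiniteDimensional ℝ T] in
/-- density of `A` for vector valued functions -/
theorem Gen.frequently_ne {A : Set T} (hA : Gen A) {q : T} (hq : q ∈ A) {g : T → F}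
    (hg : AnalyticAt ℝ g q) (h : ¬ ∀ᶠ t in 𝓝 q, g t = 0) : ∃ᶠ t in 𝓝 q, t ∈ A ∧ g t ≠ 0 := by
  intro hcon
  refine h ?_
  let b := Module.finBasis ℝ F
  have h1 : ∀ i, ∀ᶠ t in 𝓝 q, b.coord i (g t) = 0 := by
    intro i
    have h2 : AnalyticAt ℝ (fun t => LinearMap.toContinuousLinearMap (b.coord i) (g t)) q :=
      (ContinuousLinearMap.analyticAt _ _).comp hg
    refine hA q hq _ h2 ?_
    filter_upwards [hcon] with t ht htA
    by_contra h3
    refine ht ⟨htA, fun h4 => h3 ?_⟩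
    rw [h4, map_zero]
  filter_upwards [eventually_all.2 h1] with t ht
  exact b.ext_elem fun i => by
    have := ht i
    simpa using this

theorem Gen.exists_hasOrd_one {A : Set T} (hA : Gen A) {q : T} (hq : q ∈ A)
    {f : ℝ × T → F} (hf : AnalyticAt ℝ f (0, q)) {O : Set T} (hO : O ∈ 𝓝 q) :
    ∃ q' ∈ A ∩ O, HasOrd f q' := by
  by_cases h : ∀ᶠ p in 𝓝 ((0 : ℝ), q), f p = 0
  · exact ⟨q, ⟨hq, mem_of_mem_nhds hO⟩, Or.inl h⟩
  · obtain ⟨k, g, hg, hfg, hg0⟩ := exists_pow_smul hf h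
    have h1 : AnalyticAt ℝ (fun t => g (0, t)) q :=
      AnalyticAt.comp (f := fun t : T => ((0 : ℝ), t)) hg (analyticAt_const.prod analyticAt_id)
    have h2 := hA.frequently_ne hq h1 hg0
    have h3 : ∀ᶠ t in 𝓝 q, t ∈ O ∧ AnalyticAt ℝ g (0, t) ∧
        ∀ᶠ p in 𝓝 ((0 : ℝ), t), f p = p.1 ^ k • g p := by
      filter_upwards [hO, (tendsto_zero_mk q).eventually hg.eventually_analyticAt,
        (tendsto_zero_mk q).eventually (eventually_eventually_nhds.2 hfg)] with t h4 h5 h6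
      exact ⟨h4, h5, h6⟩
    obtain ⟨t, ⟨htA, ht0⟩, htO, ht1, ht2⟩ := (h2.and_eventually h3).exists
    exact ⟨t, ⟨htA, htO⟩, Or.inr ⟨k, g, ht1, ht0, ht2⟩⟩

/-- Existence of points of `A` at which finitely many analytic functions have orders. -/
theorem Gen.exists_hasOrd {A : Set T} (hA : Gen A) {q : T} (hq : q ∈ A) {ι : Type} [Finite ι]
    {f : ι → ℝ × T → F} (hf : ∀ i, AnalyticAt ℝ (f i) (0, q)) {O : Set T} (hO : O ∈ 𝓝 q) :
    ∃ q' ∈ A ∩ O, ∀ i, HasOrd (f i) q' ∧ AnalyticAt ℝ (f i) (0, q') := by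
  classical
  have := Fintype.ofFinite ι
  have key : ∀ S : Finset ι, ∀ q ∈ A, (∀ i, AnalyticAt ℝ (f i) (0, q)) → ∀ O ∈ 𝓝 q,
      ∃ q' ∈ A ∩ O, (∀ i, AnalyticAt ℝ (f i) (0, q')) ∧ ∀ i ∈ S, HasOrd (f i) q' := by
    intro S
    induction S using Finset.induction_on with
    | empty => exact fun q hq hf O hO => ⟨q, ⟨hq, mem_of_mem_nhds hO⟩, hf, by simp⟩
    | insert i S hi ih =>
      intro q hq hf O hO
      obtain ⟨U, hUO, hUo, hqU⟩ := mem_nhds_iff.1 hO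
      obtain ⟨q1, ⟨hq1A, hq1U⟩, hq1, hq1S⟩ := ih q hq hf U (hUo.mem_nhds hqU)
      have h1 : ∀ᶠ t in 𝓝 q1, t ∈ U ∧ (∀ j, AnalyticAt ℝ (f j) (0, t)) ∧
          ∀ j ∈ S, HasOrd (f j) t := by
        filter_upwards [hUo.mem_nhds hq1U,
          eventually_all.2 fun j => (tendsto_zero_mk q1).eventually (hq1 j).eventually_analyticAt,
          (Finset.eventually_all S).2 fun j hj => (hq1S j hj).eventually] with t h2 h3 h4
        exact ⟨h2, h3, h4⟩
      obtain ⟨q2, ⟨hq2A, hq2U, hq2, hq2S⟩, hq2i⟩ := hA.exists_hasOrd_one hq1A (hq1 i) h1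
      refine ⟨q2, ⟨hq2A, hUO hq2U⟩, hq2, fun j hj => ?_⟩
      rcases Finset.mem_insert.1 hj with rfl | hj
      · exact hq2i
      · exact hq2S j hj
  obtain ⟨q', hq', h1, h2⟩ := key Finset.univ q hq hf O hO
  exact ⟨q', hq', fun i => ⟨h2 i (Finset.mem_univ _), h1 i⟩⟩

end Main

end Vale.Agent.P274.W
end

section

/-! TASK W2. -/

open Filter Topology Polynomial

namespace Vale.Agent.P274.W

variable {Y : Type} [NormedAddCommGroup Y] [NormedSpace ℝ Y] [FiniteDimensional ℝ Y]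

/-- The polynomial with given coefficients in degrees `< d`, as a linear map. -/
noncomputable def hlp (d : ℕ) : (Fin d → ℂ) →ₗ[ℂ] ℂ[X] where
  toFun a := ∑ i : Fin d, C (a i) * X ^ (i : ℕ)
  map_add' a b := by
    rw [← Finset.sum_add_distrib]
    refine Finset.sum_congr rfl fun i _ => ?_
    rw [Pi.add_apply, C_add, add_mul]
  map_smul' c a := by
    rw [RingHom.id_apply, Finset.smul_sum]
    refine Finset.sum_congr rfl fun i _ => ?_
    rw [Pi.smul_apply, smul_eq_mul, C_mul, smul_eq_C_mul, mul_assoc]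

theorem hlp_coeff (d : ℕ) (a : Fin d → ℂ) (k : ℕ) :
    (hlp d a).coeff k = if h : k < d then a ⟨k, h⟩ else 0 := by
  change (∑ i : Fin d, C (a i) * X ^ (i : ℕ)).coeff k = _
  rw [finsetSum_coeff]
  simp only [coeff_C_mul, coeff_X_pow]
  split_ifs with h
  · rw [Finset.sum_eq_single (⟨k, h⟩ : Fin d)]
    · simp
    · intro i _ hi
      rw [if_neg, mul_zero]
      intro hk
      exact hi (Fin.ext hk.symm)
    · intro hn
      exact absurd (Finset.mem_univ _) hn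
  · refine Finset.sum_eq_zero fun i _ => ?_
    rw [if_neg, mul_zero]
    intro hk
    exact h (hk ▸ i.2)

theorem hlp_degree (d : ℕ) (a : Fin d → ℂ) : (hlp d a).degree < d := by
  rw [degree_lt_iff_coeff_zero]
  intro m hm
  rw [hlp_coeff, dif_neg (not_lt.2 hm)]

theorem hlp_inj {d : ℕ} {a : Fin d → ℂ} (h : hlp d a = 0) : a = 0 := by
  funext i
  have := hlp_coeff d a i
  rw [h, coeff_zero, dif_pos i.2] at this
  exact this.symm

/-- The monic polynomial with given lower coefficients. -/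
noncomputable def hmp (d : ℕ) (a : Fin d → ℂ) : ℂ[X] := X ^ d + hlp d a

theorem hmp_monic (d : ℕ) (a : Fin d → ℂ) : (hmp d a).Monic :=
  monic_X_pow_add (hlp_degree d a)

theorem hmp_natDegree (d : ℕ) (a : Fin d → ℂ) : (hmp d a).natDegree = d := by
  have h : (hmp d a).degree = d := by
    unfold hmp
    rw [degree_add_eq_left_of_degree_lt, degree_X_pow]
    rw [degree_X_pow]
    exact hlp_degree d a
  exact natDegree_eq_of_degree_eq_some h

theorem hmp_eq {d : ℕ} {Q : ℂ[X]} (hQ : Q.Monic) (hd : Q.natDegree = d) :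
    hmp d (fun i => Q.coeff i) = Q := by
  ext k
  unfold hmp
  rw [coeff_add, hlp_coeff, coeff_X_pow]
  rcases lt_trichotomy k d with h | h | h
  · rw [if_neg h.ne, dif_pos h, zero_add]
  · subst h
    rw [if_pos rfl, dif_neg (lt_irrefl _), add_zero, ← hd]
    exact hQ.coeff_natDegree.symm
  · rw [if_neg h.ne', dif_neg (not_lt.2 h.le), add_zero]
    exact (coeff_eq_zero_of_natDegree_lt (hd ▸ h)).symm

/-- The multiplication map on coefficient vectors. -/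
noncomputable def hmu (d1 d2 : ℕ) (p : (Fin d1 → ℂ) × (Fin d2 → ℂ)) : Fin (d1 + d2) → ℂ :=
  fun i => (hmp d1 p.1 * hmp d2 p.2).coeff i

/-- Its derivative. -/
noncomputable def hD {d1 d2 : ℕ} (Q1 Q2 : ℂ[X]) :
    ((Fin d1 → ℂ) × (Fin d2 → ℂ)) →ₗ[ℂ] (Fin (d1 + d2) → ℂ) where
  toFun p := fun i => (hlp d1 p.1 * Q2 + Q1 * hlp d2 p.2).coeff i
  map_add' p q := by
    funext i
    simp only [Prod.fst_add, Prod.snd_add, map_add, add_mul, mul_add, coeff_add, Pi.add_apply]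
    ring
  map_smul' c p := by
    funext i
    simp only [Prod.smul_fst, Prod.smul_snd, map_smul, smul_mul_assoc, mul_smul_comm, coeff_add,
      coeff_smul, smul_eq_mul, Pi.smul_apply, RingHom.id_apply, mul_add]

theorem hD_injective {d1 d2 : ℕ} {Q1 Q2 : ℂ[X]} (h1 : Q1.Monic) (h2 : Q2.Monic)
    (hd1 : Q1.natDegree = d1) (hd2 : Q2.natDegree = d2) (hco : IsCoprime Q1 Q2) :
    Function.Injective (hD Q1 Q2 : ((Fin d1 → ℂ) × (Fin d2 → ℂ)) →ₗ[ℂ] _) := by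
  rw [← LinearMap.ker_eq_bot, LinearMap.ker_eq_bot']
  rintro ⟨a, b⟩ h
  have hdeg1 : Q1.degree = d1 := by rw [degree_eq_natDegree h1.ne_zero, hd1]
  have hdeg2 : Q2.degree = d2 := by rw [degree_eq_natDegree h2.ne_zero, hd2]
  have hz : hlp d1 a * Q2 + Q1 * hlp d2 b = 0 := by
    have hlt : (hlp d1 a * Q2 + Q1 * hlp d2 b).degree < ((d1 + d2 : ℕ) : WithBot ℕ) := by
      refine lt_of_le_of_lt (degree_add_le _ _) (max_lt ?_ ?_)
      · rw [degree_mul, hdeg2, Nat.cast_add]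
        exact WithBot.add_lt_add_right (WithBot.coe_ne_bot) (hlp_degree d1 a)
      · rw [degree_mul, hdeg1, Nat.cast_add]
        exact WithBot.add_lt_add_left (WithBot.coe_ne_bot) (hlp_degree d2 b)
    ext k
    rw [coeff_zero]
    by_cases hk : k < d1 + d2
    · exact congrFun h ⟨k, hk⟩
    · exact (degree_lt_iff_coeff_zero _ _).1 hlt k (not_lt.1 hk)
  have hdvd : Q1 ∣ hlp d1 a * Q2 := by
    refine ⟨-hlp d2 b, ?_⟩
    rw [mul_neg]
    exact eq_neg_of_add_eq_zero_left hz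
  have ha : hlp d1 a = 0 := by
    refine eq_zero_of_dvd_of_degree_lt (hco.dvd_of_dvd_mul_right hdvd) ?_
    rw [hdeg1]
    exact hlp_degree d1 a
  have hb : hlp d2 b = 0 := by
    rw [ha, zero_mul, zero_add] at hz
    exact (mul_eq_zero.1 hz).resolve_left h1.ne_zero
  exact Prod.ext (hlp_inj ha) (hlp_inj hb)

/-- coefficient of `hlp` as a continuous linear map. -/
noncomputable def hcf (d k : ℕ) : (Fin d → ℂ) →L[ℂ] ℂ :=
  LinearMap.toContinuousLinearMap ((lcoeff ℂ k).comp (hlp d))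

theorem hcf_apply (d k : ℕ) (a : Fin d → ℂ) : hcf d k a = (hlp d a).coeff k := rfl

theorem hmp_coeff (d k : ℕ) (a : Fin d → ℂ) :
    (hmp d a).coeff k = (X ^ d : ℂ[X]).coeff k + hcf d k a := by
  unfold hmp
  rw [coeff_add, hcf_apply]

theorem hmu_contDiff (d1 d2 : ℕ) : ContDiff ℂ ⊤ (hmu d1 d2) := by
  rw [contDiff_pi]
  intro i
  have : (fun p : (Fin d1 → ℂ) × (Fin d2 → ℂ) => hmu d1 d2 p i) = fun p =>
      ∑ x ∈ Finset.HasAntidiagonal.antidiagonal (i : ℕ), ((X ^ d1 : ℂ[X]).coeff x.1 + hcf d1 x.1 p.1) *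
        ((X ^ d2 : ℂ[X]).coeff x.2 + hcf d2 x.2 p.2) := by
    funext p
    unfold hmu
    rw [coeff_mul]
    simp only [hmp_coeff]
  rw [this]
  refine ContDiff.sum fun x _ => ?_
  exact (contDiff_const.add ((hcf d1 x.1).contDiff.comp contDiff_fst)).mul
    (contDiff_const.add ((hcf d2 x.2).contDiff.comp contDiff_snd))

theorem hmu_hasFDerivAt (d1 d2 : ℕ) (p : (Fin d1 → ℂ) × (Fin d2 → ℂ)) :
    HasFDerivAt (hmu d1 d2)
      (LinearMap.toContinuousLinearMap (hD (hmp d1 p.1) (hmp d2 p.2))) p := by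
  rw [hasFDerivAt_pi']
  intro i
  have : (fun p : (Fin d1 → ℂ) × (Fin d2 → ℂ) => hmu d1 d2 p i) = fun p =>
      ∑ x ∈ Finset.HasAntidiagonal.antidiagonal (i : ℕ), ((X ^ d1 : ℂ[X]).coeff x.1 + hcf d1 x.1 p.1) *
        ((X ^ d2 : ℂ[X]).coeff x.2 + hcf d2 x.2 p.2) := by
    funext p
    unfold hmu
    rw [coeff_mul]
    simp only [hmp_coeff]
  rw [this]
  have h : HasFDerivAt (fun p : (Fin d1 → ℂ) × (Fin d2 → ℂ) =>
      ∑ x ∈ Finset.HasAntidiagonal.antidiagonal (i : ℕ), ((X ^ d1 : ℂ[X]).coeff x.1 + hcf d1 x.1 p.1) *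
        ((X ^ d2 : ℂ[X]).coeff x.2 + hcf d2 x.2 p.2))
      (∑ x ∈ Finset.HasAntidiagonal.antidiagonal (i : ℕ),
        (((X ^ d1 : ℂ[X]).coeff x.1 + hcf d1 x.1 p.1) •
            (hcf d2 x.2).comp (ContinuousLinearMap.snd ℂ _ _) +
          ((X ^ d2 : ℂ[X]).coeff x.2 + hcf d2 x.2 p.2) •
            (hcf d1 x.1).comp (ContinuousLinearMap.fst ℂ _ _))) p := by
    refine HasFDerivAt.fun_sum fun x _ => ?_
    refine HasFDerivAt.mul ?_ ?_
    · exact ((hcf d1 x.1).hasFDerivAt.comp p hasFDerivAt_fst).const_add _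
    · exact ((hcf d2 x.2).hasFDerivAt.comp p hasFDerivAt_snd).const_add _
  refine h.congr_fderiv (ContinuousLinearMap.ext fun q => ?_)
  change _ = (hlp d1 q.1 * hmp d2 p.2 + hmp d1 p.1 * hlp d2 q.2).coeff i
  rw [coeff_add, coeff_mul, coeff_mul, ← Finset.sum_add_distrib]
  simp only [sum_apply, add_apply,
    smul_apply, ContinuousLinearMap.comp_apply,
    ContinuousLinearMap.coe_fst', ContinuousLinearMap.coe_snd', smul_eq_mul, hmp_coeff, hcf_apply]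
  refine Finset.sum_congr rfl fun x _ => ?_
  ring

/-- Analytic factorization of polynomials with analytic coefficients (Hensel's lemma). -/
theorem hensel {P : Y → ℂ[X]} {y0 : Y} {d1 d2 : ℕ}
    (hm : ∀ y, (P y).Monic ∧ (P y).natDegree = d1 + d2)
    (hP : ∀ i, AnalyticAt ℝ (fun y => (P y).coeff i) y0)
    {Q1 Q2 : ℂ[X]} (h1 : Q1.Monic) (h2 : Q2.Monic) (hd1 : Q1.natDegree = d1)
    (hd2 : Q2.natDegree = d2) (hco : IsCoprime Q1 Q2) (hfac : P y0 = Q1 * Q2) :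
    ∃ R1 R2 : Y → ℂ[X], (∀ y, (R1 y).Monic ∧ (R1 y).natDegree = d1) ∧
      (∀ y, (R2 y).Monic ∧ (R2 y).natDegree = d2) ∧
      (∀ i, AnalyticAt ℝ (fun y => (R1 y).coeff i) y0) ∧
      (∀ i, AnalyticAt ℝ (fun y => (R2 y).coeff i) y0) ∧
      R1 y0 = Q1 ∧ R2 y0 = Q2 ∧ ∀ᶠ y in 𝓝 y0, P y = R1 y * R2 y := by
  set p0 : (Fin d1 → ℂ) × (Fin d2 → ℂ) := (fun i => Q1.coeff i, fun i => Q2.coeff i) with hp0
  have hQ1 : hmp d1 p0.1 = Q1 := hmp_eq h1 hd1
  have hQ2 : hmp d2 p0.2 = Q2 := hmp_eq h2 hd2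
  have hinj := hD_injective h1 h2 hd1 hd2 hco
  have hfr : Module.finrank ℂ ((Fin d1 → ℂ) × (Fin d2 → ℂ)) =
      Module.finrank ℂ (Fin (d1 + d2) → ℂ) := by
    simp
  set e : ((Fin d1 → ℂ) × (Fin d2 → ℂ)) ≃L[ℂ] (Fin (d1 + d2) → ℂ) :=
    (LinearEquiv.ofInjectiveOfFinrankEq (hD Q1 Q2) hinj hfr).toContinuousLinearEquiv with he
  have hder : HasFDerivAt (hmu d1 d2) (e : _ →L[ℂ] _) p0 := by
    have := hmu_hasFDerivAt d1 d2 p0
    rw [hQ1, hQ2] at this
    exact this.congr_fderiv rfl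
  have hcd : ContDiffAt ℂ ⊤ (hmu d1 d2) p0 := (hmu_contDiff d1 d2).contDiffAt
  have hne : (⊤ : WithTop ℕ∞) ≠ 0 := by simp
  set χ := hcd.localInverse hder hne with hχ
  have hχan : AnalyticAt ℂ χ (hmu d1 d2 p0) := (hcd.to_localInverse hder hne).analyticAt
  have hχanR : AnalyticAt ℝ χ (hmu d1 d2 p0) := hχan.restrictScalars
  have hχ0 : χ (hmu d1 d2 p0) = p0 := hcd.localInverse_apply_image hder hne
  have hstrict := hcd.hasStrictFDerivAt' hder hne
  have hright : ∀ᶠ c in 𝓝 (hmu d1 d2 p0), hmu d1 d2 (χ c) = c :=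
    hstrict.eventually_right_inverse
  set c : Y → (Fin (d1 + d2) → ℂ) := fun y i => (P y).coeff i with hc
  have hcan : AnalyticAt ℝ c y0 := by
    rw [analyticAt_pi_iff]
    exact fun i => hP i
  have hc0 : c y0 = hmu d1 d2 p0 := by
    funext i
    simp only [hc, hmu, hQ1, hQ2, hfac]
  have hcomp : AnalyticAt ℝ (fun y => χ (c y)) y0 := by
    rw [← hc0] at hχanR
    exact hχanR.comp hcan
  refine ⟨fun y => hmp d1 (χ (c y)).1, fun y => hmp d2 (χ (c y)).2,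
    fun y => ⟨hmp_monic _ _, hmp_natDegree _ _⟩, fun y => ⟨hmp_monic _ _, hmp_natDegree _ _⟩,
    fun i => ?_, fun i => ?_, ?_, ?_, ?_⟩
  · simp only [hmp_coeff]
    refine analyticAt_const.add ?_
    have h3 : AnalyticAt ℝ (fun y => (χ (c y)).1) y0 := analyticAt_fst.fun_comp hcomp
    exact ((((hcf d1 i).analyticAt _).restrictScalars).comp h3)
  · simp only [hmp_coeff]
    refine analyticAt_const.add ?_
    have h3 : AnalyticAt ℝ (fun y => (χ (c y)).2) y0 := analyticAt_snd.fun_comp hcomp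
    exact ((((hcf d2 i).analyticAt _).restrictScalars).comp h3)
  · simp only [hc0, hχ0, hQ1]
  · simp only [hc0, hχ0, hQ2]
  · have h3 : Tendsto c (𝓝 y0) (𝓝 (hmu d1 d2 p0)) := by
      have := hcan.continuousAt.tendsto
      rwa [hc0] at this
    filter_upwards [h3.eventually hright] with y hy
    have h4 : (hmp d1 (χ (c y)).1 * hmp d2 (χ (c y)).2).Monic :=
      (hmp_monic _ _).mul (hmp_monic _ _)
    have h5 : (hmp d1 (χ (c y)).1 * hmp d2 (χ (c y)).2).natDegree = d1 + d2 := by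
      rw [(hmp_monic _ _).natDegree_mul (hmp_monic _ _), hmp_natDegree, hmp_natDegree]
    rw [← hmp_eq (hm y).1 (hm y).2, ← hmp_eq h4 h5]
    congr 1
    exact hy.symm

end Vale.Agent.P274.W
end

section

/-! TASK W3. -/

open Filter Topology Polynomial

namespace Vale.Agent.P274.W

namespace Puiseux

/-! ### Algebra -/

/-- A monic polynomial of degree `d`, without term of degree `d - 1`, other than `X ^ d`, is the
product of two coprime factors of smaller degree. -/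
theorem exists_factor {d : ℕ} (hd : 0 < d) {Q : ℂ[X]} (hm : Q.Monic) (hdeg : Q.natDegree = d)
    (h0 : Q.coeff (d - 1) = 0) (hne : Q ≠ X ^ d) :
    ∃ (Q1 Q2 : ℂ[X]), Q1.Monic ∧ Q2.Monic ∧ Q1.natDegree < d ∧ Q2.natDegree < d ∧
      Q1.natDegree + Q2.natDegree = d ∧ IsCoprime Q1 Q2 ∧ Q = Q1 * Q2 := by
  have hQ0 : Q ≠ 0 := hm.ne_zero
  have hdg : Q.degree ≠ 0 := by
    rw [Polynomial.degree_eq_natDegree hQ0, hdeg]
    exact_mod_cast hd.ne'
  obtain ⟨α, hα⟩ := IsAlgClosed.exists_root Q hdg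
  obtain ⟨q, hq, hnd⟩ := exists_eq_pow_rootMultiplicity_mul_and_not_dvd Q hQ0 α
  set m := rootMultiplicity α Q with hmdef
  have hmpos : 0 < m := (rootMultiplicity_pos hQ0).2 hα
  have hpm : ((X - C α) ^ m).Monic := (monic_X_sub_C α).pow m
  have hqm : q.Monic := hpm.of_mul_monic_left (hq ▸ hm)
  have hdeg2 : ((X - C α) ^ m).natDegree = m := by
    rw [(monic_X_sub_C α).natDegree_pow, natDegree_X_sub_C, mul_one]
  have hsum : m + q.natDegree = d := by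
    have h1 := hpm.natDegree_mul hqm
    rw [← hq, hdeg, hdeg2] at h1
    exact h1.symm
  have hlt : m < d := by
    rcases (show m ≤ d by omega).lt_or_eq with h | h
    · exact h
    exfalso
    have hq0 : q.natDegree = 0 := by omega
    have hq1 : q = 1 := (hqm.natDegree_eq_zero).1 hq0
    rw [hq1, mul_one, h] at hq
    rw [hq, sub_eq_add_neg, ← C_neg, coeff_X_add_C_pow] at h0
    have h1 : d - (d - 1) = 1 := by omega
    have h2 : d.choose (d - 1) = d := by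
      rw [Nat.choose_symm_of_eq_add (show d = d - 1 + 1 by omega), Nat.choose_one_right]
    rw [h1, h2, pow_one] at h0
    have h3 : α = 0 := by
      rcases mul_eq_zero.1 h0 with h | h
      · exact neg_eq_zero.1 h
      · exact absurd h (by exact_mod_cast hd.ne')
    apply hne
    rw [hq, h3, map_zero, sub_zero]
  refine ⟨(X - C α) ^ m, q, hpm, hqm, by rw [hdeg2]; exact hlt, by omega, by rw [hdeg2]; exact hsum,
    ?_, hq⟩
  exact IsCoprime.pow_left (((irreducible_X_sub_C α).coprime_iff_not_dvd).2 hnd)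

theorem scaleRoots_prod {κ : Type} (s : Finset κ) (β : κ → ℂ) (r : ℂ) :
    scaleRoots (∏ i ∈ s, (X - C (β i))) r = ∏ i ∈ s, (X - C (r * β i)) := by
  classical
  induction s using Finset.induction_on with
  | empty => simp
  | insert a s ha ih =>
    rw [Finset.prod_insert ha, Finset.prod_insert ha, mul_scaleRoots_of_noZeroDivisors, ih,
      X_sub_C_scaleRoots, mul_comm r]

variable {T : Type} [NormedAddCommGroup T] [NormedSpace ℝ T]

/-! ### Filters -/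

omit [NormedSpace ℝ T] in
theorem ev {q : T} {φ : ℝ × T → Prop} (h : ∀ᶠ p in 𝓝 ((0 : ℝ), q), φ p) :
    ∀ᶠ q' in 𝓝 q, ∀ᶠ p in 𝓝 ((0 : ℝ), q'), φ p := by
  have h1 := h.eventually_nhds
  have h2 : Tendsto (fun q' : T => ((0 : ℝ), q')) (𝓝 q) (𝓝 ((0 : ℝ), q)) :=
    (Continuous.prodMk_right (0 : ℝ)).tendsto q
  exact h2.eventually h1

theorem evA {F : Type} [NormedAddCommGroup F] [NormedSpace ℝ F] [CompleteSpace F] {q : T} {f : ℝ × T → F}
    (h : AnalyticAt ℝ f (0, q)) : ∀ᶠ q' in 𝓝 q, AnalyticAt ℝ f (0, q') := by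
  have h2 : Tendsto (fun q' : T => ((0 : ℝ), q')) (𝓝 q) (𝓝 ((0 : ℝ), q)) :=
    (Continuous.prodMk_right (0 : ℝ)).tendsto q
  exact h2.eventually h.eventually_analyticAt

/-- power substitution -/
def pm (N : ℕ) (p : ℝ × T) : ℝ × T := (p.1 ^ N, p.2)

omit [NormedAddCommGroup T] [NormedSpace ℝ T] in
theorem pm_pm (N M : ℕ) (p : ℝ × T) : pm N (pm M p) = pm (N * M) p := by
  simp only [pm, ← pow_mul, mul_comm]

omit [NormedAddCommGroup T] [NormedSpace ℝ T] in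
theorem pm_zero {N : ℕ} (hN : 0 < N) (q : T) : pm N ((0 : ℝ), q) = (0, q) := by
  simp only [pm, zero_pow hN.ne']

theorem analyticAt_pm (N : ℕ) (p : ℝ × T) : AnalyticAt ℝ (pm N) p := by
  unfold pm
  exact (analyticAt_fst.pow N).prod analyticAt_snd

theorem tendsto_pm {N : ℕ} (hN : 0 < N) (q : T) :
    Tendsto (pm N) (𝓝 ((0 : ℝ), q)) (𝓝 (0, q)) := by
  have h := (analyticAt_pm N ((0 : ℝ), q)).continuousAt
  rw [ContinuousAt, pm_zero hN] at h
  exact h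

theorem analyticAt_comp_pm {F : Type} [NormedAddCommGroup F] [NormedSpace ℝ F] {q : T}
    {f : ℝ × T → F} (h : AnalyticAt ℝ f (0, q)) {N : ℕ} (hN : 0 < N) :
    AnalyticAt ℝ (fun p => f (pm N p)) (0, q) :=
  AnalyticAt.comp (g := f) (f := pm N) (by rw [pm_zero hN]; exact h) (analyticAt_pm N _)

/-- `P (s ^ N, t)` is a product of linear factors near `(0, q)` -/
def SplitN (P : ℝ × T → ℂ[X]) (N : ℕ) (q : T) : Prop :=
  ∃ (κ : Type) (_ : Fintype κ) (β : κ → ℝ × T → ℂ), (∀ i, AnalyticAt ℝ (β i) (0, q)) ∧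
    ∀ᶠ p in 𝓝 ((0 : ℝ), q), P (pm N p) = ∏ i, (X - C (β i p))

theorem SplitN.ev {P : ℝ × T → ℂ[X]} {N : ℕ} {q : T} (h : SplitN P N q) :
    ∀ᶠ q' in 𝓝 q, SplitN P N q' := by
  obtain ⟨κ, _, β, h1, h2⟩ := h
  have h3 : ∀ᶠ q' in 𝓝 q, ∀ i, AnalyticAt ℝ (β i) (0, q') :=
    (Filter.eventually_all).2 fun i => evA (h1 i)
  filter_upwards [h3, Puiseux.ev h2] with q' h4 h5
  exact ⟨κ, inferInstance, β, h4, h5⟩

/-- products -/
theorem SplitN.mul {P R1 R2 : ℝ × T → ℂ[X]} {N1 N2 : ℕ} (hN1 : 0 < N1) (hN2 : 0 < N2) {q : T}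
    (h : ∀ᶠ p in 𝓝 ((0 : ℝ), q), P p = R1 p * R2 p) (h1 : SplitN R1 N1 q)
    (h2 : SplitN (fun p => R2 (pm N1 p)) N2 q) : SplitN P (N1 * N2) q := by
  obtain ⟨κ1, _, β1, h3, h4⟩ := h1
  obtain ⟨κ2, _, β2, h5, h6⟩ := h2
  refine ⟨κ1 ⊕ κ2, inferInstance, Sum.elim (fun i p => β1 i (pm N2 p)) β2, ?_, ?_⟩
  · rintro (i | i)
    · exact analyticAt_comp_pm (h3 i) hN2
    · exact h5 i
  · filter_upwards [(tendsto_pm (Nat.mul_pos hN1 hN2) q).eventually h,
      (tendsto_pm hN2 q).eventually h4, h6] with p h7 h8 h9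
    rw [h7, Fintype.prod_sum_type]
    simp only [Sum.elim_inl, Sum.elim_inr]
    rw [← h8, ← h9]
    simp only [pm_pm]

/-- scaling of the roots -/
theorem SplitN.scale {P Q : ℝ × T → ℂ[X]} {M N R : ℕ} (hN : 0 < N) {q : T}
    (h : ∀ᶠ p in 𝓝 ((0 : ℝ), q), P (pm M p) = scaleRoots (Q p) ((p.1 : ℂ) ^ R))
    (h1 : SplitN Q N q) : SplitN P (M * N) q := by
  obtain ⟨κ, _, β, h3, h4⟩ := h1
  refine ⟨κ, inferInstance, fun i p => (((pm N p).1 : ℂ) ^ R) * β i p, fun i => ?_, ?_⟩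
  · refine AnalyticAt.mul ?_ (h3 i)
    have h5 : AnalyticAt ℝ (fun p : ℝ × T => ((pm N p).1 : ℂ)) (0, q) := by
      have h6 : AnalyticAt ℝ (fun p : ℝ × T => (pm N p).1) (0, q) :=
        analyticAt_fst.comp (analyticAt_pm N _)
      exact (Complex.ofRealCLM.analyticAt _).comp h6
    exact h5.pow R
  · filter_upwards [(tendsto_pm hN q).eventually h, h4] with p h7 h8
    rw [← pm_pm, h7, h8, scaleRoots_prod]

/-- translation of the roots -/
theorem SplitN.shift {P : ℝ × T → ℂ[X]} {c : ℝ × T → ℂ} {N : ℕ} (hN : 0 < N) {q : T}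
    (hc : AnalyticAt ℝ c (0, q)) (h1 : SplitN (fun p => (P p).comp (X - C (c p))) N q) :
    SplitN P N q := by
  obtain ⟨κ, _, β, h3, h4⟩ := h1
  refine ⟨κ, inferInstance, fun i p => β i p - c (pm N p), fun i => ?_, ?_⟩
  · exact (h3 i).sub (analyticAt_comp_pm hc hN)
  · filter_upwards [h4] with p h5
    have h6 : P (pm N p) = ((P (pm N p)).comp (X - C (c (pm N p)))).comp
        (X + C (c (pm N p))) := by
      rw [comp_assoc, sub_comp, X_comp, C_comp, add_sub_cancel_right, comp_X]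
    rw [h6, h5, prod_comp]
    refine Finset.prod_congr rfl fun i _ => ?_
    rw [sub_comp, X_comp, C_comp, C_sub]
    ring

/-! ### The Tschirnhaus transformation -/

theorem comp_monic {P : ℂ[X]} {d : ℕ} (hm : P.Monic ∧ P.natDegree = d) (c : ℂ) :
    (P.comp (X - C c)).Monic ∧ (P.comp (X - C c)).natDegree = d := by
  refine ⟨hm.1.comp_X_sub_C c, ?_⟩
  rw [natDegree_comp, natDegree_X_sub_C, mul_one, hm.2]

theorem coeff_comp {P : ℂ[X]} {d : ℕ} (hd : P.natDegree = d) (c : ℂ) (i : ℕ) :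
    (P.comp (X - C c)).coeff i =
      ∑ j ∈ Finset.range (d + 1), P.coeff j * ((-c) ^ (j - i) * (j.choose i : ℂ)) := by
  rw [comp, eval₂_eq_sum_range, finsetSum_coeff, hd]
  refine Finset.sum_congr rfl fun j _ => ?_
  rw [coeff_C_mul, sub_eq_add_neg, ← C_neg, coeff_X_add_C_pow]

theorem coeff_comp_pred {P : ℂ[X]} {d : ℕ} (hd : 0 < d) (hm : P.Monic ∧ P.natDegree = d) :
    (P.comp (X - C (P.coeff (d - 1) / d))).coeff (d - 1) = 0 := by
  obtain ⟨e, rfl⟩ : ∃ e, d = e + 1 := ⟨d - 1, by omega⟩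
  rw [coeff_comp hm.2, Finset.sum_range_succ, Finset.sum_range_succ, Finset.sum_eq_zero]
  · have h1 : P.coeff (e + 1) = 1 := by
      have := hm.1.coeff_natDegree
      rwa [hm.2] at this
    rw [h1]
    simp only [Nat.add_sub_cancel, Nat.choose_self, Nat.sub_self, Nat.add_sub_cancel_left,
      Nat.choose_succ_self_right, pow_zero, pow_one, Nat.cast_one, mul_one, zero_add, one_mul]
    have h2 : ((e + 1 : ℕ) : ℂ) ≠ 0 := by exact_mod_cast Nat.succ_ne_zero e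
    field_simp
    ring
  · intro j hj
    rw [Finset.mem_range] at hj
    rw [Nat.choose_eq_zero_of_lt (by omega)]
    simp

/-- all coefficients are analytic at the nearby points -/
theorem evC {q : T} {P : ℝ × T → ℂ[X]} {d : ℕ} (hd : ∀ p, (P p).natDegree = d)
    (hP : ∀ i, AnalyticAt ℝ (fun p => (P p).coeff i) (0, q)) :
    ∀ᶠ q' in 𝓝 q, ∀ i, AnalyticAt ℝ (fun p => (P p).coeff i) (0, q') := by
  have h1 : ∀ᶠ q' in 𝓝 q, ∀ i : Fin (d + 1), AnalyticAt ℝ (fun p => (P p).coeff i) (0, q') :=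
    (Filter.eventually_all).2 fun i => evA (hP i)
  filter_upwards [h1] with q' h2 i
  by_cases hi : i < d + 1
  · exact h2 ⟨i, hi⟩
  · have h3 : (fun p : ℝ × T => (P p).coeff i) = fun _ => 0 := by
      funext p
      exact coeff_eq_zero_of_natDegree_lt (by rw [hd]; omega)
    rw [h3]
    exact analyticAt_const

/-- the monic polynomial with given lower coefficients -/
noncomputable def mk {d : ℕ} (b : Fin d → ℂ) : ℂ[X] := X ^ d + ∑ i : Fin d, C (b i) * X ^ (i : ℕ)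

theorem mk_monic {d : ℕ} (b : Fin d → ℂ) : (mk b).Monic ∧ (mk b).natDegree = d := by
  have h := degree_sum_fin_lt b
  refine ⟨monic_X_pow_add h, ?_⟩
  rw [mk, natDegree_add_eq_left_of_degree_lt (by rw [degree_X_pow]; exact h), natDegree_X_pow]

theorem coeff_mk {d : ℕ} (b : Fin d → ℂ) (i : Fin d) : (mk b).coeff i = b i := by
  rw [mk, coeff_add, coeff_X_pow, if_neg (by omega), zero_add, finsetSum_coeff,
    Finset.sum_eq_single i]
  · simp
  · intro j _ hj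
    rw [coeff_C_mul, coeff_X_pow, if_neg, mul_zero]
    intro h
    exact hj (Fin.ext h.symm)
  · intro h
    exact absurd (Finset.mem_univ _) h

/-- the induction step, for polynomials without term of degree `d - 1` -/
theorem step [FiniteDimensional ℝ T] {A : Set T} (hA : Gen A) {d : ℕ} (hd : 0 < d)
    (ih : ∀ e < d, ∀ (q : T), q ∈ A → ∀ (P : ℝ × T → ℂ[X]),
      (∀ p, (P p).Monic ∧ (P p).natDegree = e) →
      (∀ i, AnalyticAt ℝ (fun p => (P p).coeff i) (0, q)) → ∀ (O : Set T), O ∈ 𝓝 q →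
      ∃ q' ∈ A ∩ O, ∃ N : ℕ, 0 < N ∧ SplitN P N q')
    {q : T} (hq : q ∈ A) {P : ℝ × T → ℂ[X]} (hm : ∀ p, (P p).Monic ∧ (P p).natDegree = d)
    (hP : ∀ i, AnalyticAt ℝ (fun p => (P p).coeff i) (0, q)) (h0 : ∀ p, (P p).coeff (d - 1) = 0)
    {O : Set T} (hO : O ∈ 𝓝 q) :
    ∃ q' ∈ A ∩ O, ∃ N : ℕ, 0 < N ∧ SplitN P N q' := by
  classical
  obtain ⟨q1, ⟨hq1, hq1O⟩, h1⟩ := Gen.exists_hasOrd hA hq (ι := Fin d)
    (f := fun i p => (P p).coeff i) (fun i => hP i) (interior_mem_nhds.2 hO)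
  have h2 : ∀ i : Fin d, ∃ (k : ℕ) (g : ℝ × T → ℂ), AnalyticAt ℝ g (0, q1) ∧
      (∀ᶠ p in 𝓝 ((0 : ℝ), q1), (P p).coeff i = p.1 ^ k • g p) ∧
      ((∀ᶠ p in 𝓝 ((0 : ℝ), q1), (P p).coeff i = 0) → g = fun _ => 0) ∧
      ((¬ ∀ᶠ p in 𝓝 ((0 : ℝ), q1), (P p).coeff i = 0) → g (0, q1) ≠ 0) := by
    intro i
    by_cases h3 : ∀ᶠ p in 𝓝 ((0 : ℝ), q1), (P p).coeff i = 0
    · refine ⟨0, fun _ => 0, analyticAt_const, ?_, fun _ => rfl, fun h => absurd h3 h⟩
      filter_upwards [h3] with p hp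
      rw [hp, smul_zero]
    · rcases (h1 i).1 with h4 | ⟨k, g, hg1, hg2, hg3⟩
      · exact absurd h4 h3
      · exact ⟨k, g, hg1, hg3, fun h => absurd h h3, fun _ => hg2⟩
  choose k g hg1 hg2 hg3 hg4 using h2
  by_cases hall : ∀ i : Fin d, ∀ᶠ p in 𝓝 ((0 : ℝ), q1), (P p).coeff i = 0
  · refine ⟨q1, ⟨hq1, interior_subset hq1O⟩, 1, one_pos, Fin d, inferInstance, fun _ _ => 0,
      fun i => analyticAt_const, ?_⟩
    filter_upwards [(Filter.eventually_all).2 hall] with p hp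
    have h3 : pm 1 p = p := by simp [pm]
    rw [h3]
    simp only [map_zero, sub_zero, Finset.prod_const, Finset.card_univ, Fintype.card_fin]
    ext j
    rw [coeff_X_pow]
    rcases lt_trichotomy j d with h | h | h
    · rw [if_neg h.ne]
      exact hp ⟨j, h⟩
    · rw [if_pos h, h]
      have := (hm p).1.coeff_natDegree
      rwa [(hm p).2] at this
    · rw [if_neg h.ne', coeff_eq_zero_of_natDegree_lt]
      rw [(hm p).2]
      exact h
  obtain ⟨i1, hi1⟩ := not_forall.1 hall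
  set I : Finset (Fin d) := Finset.univ.filter fun i : Fin d =>
    ¬ ∀ᶠ p in 𝓝 ((0 : ℝ), q1), (P p).coeff i = 0 with hI
  have hmemI : ∀ i, i ∈ I ↔ ¬ ∀ᶠ p in 𝓝 ((0 : ℝ), q1), (P p).coeff i = 0 := by
    intro i
    simp [hI]
  set M : ℕ := d.factorial with hM
  have hMpos : 0 < M := Nat.factorial_pos d
  have hdvd : ∀ i : Fin d, (d - i) ∣ M := fun i =>
    Nat.dvd_factorial (by have := i.2; omega) (Nat.sub_le _ _)
  obtain ⟨i0, hi0, hmin⟩ := Finset.exists_min_image I (fun i => M * k i / (d - i))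
    ⟨i1, (hmemI i1).2 hi1⟩
  set R : ℕ := M * k i0 / (d - i0) with hR
  have key : ∀ i ∈ I, R * (d - i) ≤ M * k i := by
    intro i hi
    have h3 := hmin i hi
    exact (Nat.le_div_iff_mul_le (by have := i.2; omega)).1 h3
  have key0 : R * (d - i0) = M * k i0 :=
    Nat.div_mul_cancel (dvd_mul_of_dvd_left (hdvd i0) _)
  set b : ℝ × T → Fin d → ℂ := fun p i =>
    (p.1 : ℂ) ^ (M * k i - R * (d - i)) * g i (pm M p) with hb
  set Q : ℝ × T → ℂ[X] := fun p => mk (b p) with hQ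
  have hQm : ∀ p, (Q p).Monic ∧ (Q p).natDegree = d := fun p => mk_monic _
  have hbA : ∀ i, AnalyticAt ℝ (fun p => b p i) (0, q1) := by
    intro i
    refine AnalyticAt.mul ?_ (analyticAt_comp_pm (hg1 i) hMpos)
    exact ((Complex.ofRealCLM.analyticAt _).comp analyticAt_fst).pow _
  have hQA : ∀ i, AnalyticAt ℝ (fun p => (Q p).coeff i) (0, q1) := by
    intro j
    rcases lt_trichotomy j d with h | h | h
    · have h3 : (fun p => (Q p).coeff j) = fun p => b p ⟨j, h⟩ := by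
        funext p
        exact coeff_mk (b p) ⟨j, h⟩
      rw [h3]
      exact hbA _
    · have h3 : (fun p => (Q p).coeff j) = fun _ => 1 := by
        funext p
        rw [h]
        have := (hQm p).1.coeff_natDegree
        rwa [(hQm p).2] at this
      rw [h3]
      exact analyticAt_const
    · have h3 : (fun p => (Q p).coeff j) = fun _ => 0 := by
        funext p
        exact coeff_eq_zero_of_natDegree_lt (by rw [(hQm p).2]; exact h)
      rw [h3]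
      exact analyticAt_const
  have hscale : ∀ᶠ p in 𝓝 ((0 : ℝ), q1), P (pm M p) = scaleRoots (Q p) ((p.1 : ℂ) ^ R) := by
    filter_upwards [(tendsto_pm hMpos q1).eventually ((Filter.eventually_all).2 hg2)] with p hp
    ext j
    rw [coeff_scaleRoots, (hQm p).2]
    rcases lt_trichotomy j d with h | h | h
    · have h3 := hp ⟨j, h⟩
      have h4 : (Q p).coeff j = b p ⟨j, h⟩ := coeff_mk (b p) ⟨j, h⟩
      simp only at h3
      rw [h3, h4, hb]
      simp only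
      by_cases hj : (⟨j, h⟩ : Fin d) ∈ I
      · have h5 := key _ hj
        simp only at h5
        have h6 : M * k ⟨j, h⟩ = (M * k ⟨j, h⟩ - R * (d - j)) + R * (d - j) := by omega
        rw [Complex.real_smul]
        simp only [pm]
        rw [← pow_mul]
        push_cast
        rw [← pow_mul]
        conv_lhs => rw [h6, pow_add]
        ring
      · have h5 := hg3 ⟨j, h⟩ (by
          by_contra h6
          exact hj ((hmemI _).2 h6))
        rw [h5]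
        simp
    · rw [h, Nat.sub_self, pow_zero, mul_one]
      have h3 := (hm (pm M p)).1.coeff_natDegree
      have h4 := (hQm p).1.coeff_natDegree
      rw [(hm (pm M p)).2] at h3
      rw [(hQm p).2] at h4
      rw [h3, h4]
    · rw [coeff_eq_zero_of_natDegree_lt (by rw [(hm _).2]; exact h),
        coeff_eq_zero_of_natDegree_lt (by rw [(hQm p).2]; exact h), zero_mul]
  have hQ0 : (Q (0, q1)).coeff (d - 1) = 0 := by
    have h3 : (Q (0, q1)).coeff (d - 1) = b (0, q1) ⟨d - 1, by omega⟩ :=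
      coeff_mk (b (0, q1)) ⟨d - 1, by omega⟩
    rw [h3, hb]
    have h4 := hg3 ⟨d - 1, by omega⟩ (Filter.Eventually.of_forall fun p => h0 p)
    simp only [h4, mul_zero]
  have hQne : Q (0, q1) ≠ X ^ d := by
    intro h3
    have h4 : (Q (0, q1)).coeff i0 = b (0, q1) i0 := coeff_mk (b (0, q1)) i0
    rw [h3, coeff_X_pow, if_neg i0.2.ne, hb] at h4
    simp only [key0, Nat.sub_self, pow_zero, one_mul, pm_zero hMpos] at h4
    exact hg4 i0 ((hmemI i0).1 hi0) h4.symm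
  obtain ⟨Q1, Q2, hQ1m, hQ2m, hd1, hd2, hsum, hco, hfac⟩ :=
    exists_factor hd (hQm (0, q1)).1 (hQm (0, q1)).2 hQ0 hQne
  obtain ⟨R1, R2, hR1, hR2, hR1A, hR2A, -, -, hR⟩ := hensel (P := Q) (y0 := ((0 : ℝ), q1))
    (d1 := Q1.natDegree) (d2 := Q2.natDegree)
    (fun y => ⟨(hQm y).1, by rw [(hQm y).2, hsum]⟩) hQA hQ1m hQ2m rfl rfl hco hfac
  -- the first factor
  set W : Set T := {q' | (∀ᶠ p in 𝓝 ((0 : ℝ), q'), P (pm M p) = scaleRoots (Q p) ((p.1 : ℂ) ^ R)) ∧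
    (∀ᶠ p in 𝓝 ((0 : ℝ), q'), Q p = R1 p * R2 p) ∧
    (∀ i, AnalyticAt ℝ (fun p => (R2 p).coeff i) (0, q')) ∧ q' ∈ O} with hW
  have hWn : W ∈ 𝓝 q1 := by
    filter_upwards [ev hscale, ev hR, evC (fun p => (hR2 p).2) hR2A,
      mem_interior_iff_mem_nhds.1 hq1O] with q' h3 h4 h5 h6
    exact ⟨h3, h4, h5, h6⟩
  obtain ⟨q2, ⟨hq2, hq2W⟩, N1, hN1, hs1⟩ := ih _ hd1 q1 hq1 R1 hR1 hR1A (interior W)
    (interior_mem_nhds.2 hWn)
  -- the second factor
  obtain ⟨q3, ⟨hq3, hq3W, hq3s⟩, N2, hN2, hs2⟩ := ih _ hd2 q2 hq2 (fun p => R2 (pm N1 p))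
    (fun p => hR2 _) (fun i => analyticAt_comp_pm ((interior_subset hq2W).2.2.1 i) hN1)
    (W ∩ {q' | SplitN R1 N1 q'})
    (Filter.inter_mem (mem_interior_iff_mem_nhds.1 hq2W) hs1.ev)
  exact ⟨q3, ⟨hq3, hq3W.2.2.2⟩, M * (N1 * N2), Nat.mul_pos hMpos (Nat.mul_pos hN1 hN2),
    SplitN.scale (Nat.mul_pos hN1 hN2) hq3W.1 (SplitN.mul hN1 hN2 hq3W.2.1 hq3s hs2)⟩

theorem main [FiniteDimensional ℝ T] {A : Set T} (hA : Gen A) (d : ℕ) :
    ∀ (q : T), q ∈ A → ∀ (P : ℝ × T → ℂ[X]), (∀ p, (P p).Monic ∧ (P p).natDegree = d) →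
      (∀ i, AnalyticAt ℝ (fun p => (P p).coeff i) (0, q)) → ∀ (O : Set T), O ∈ 𝓝 q →
      ∃ q' ∈ A ∩ O, ∃ N : ℕ, 0 < N ∧ SplitN P N q' := by
  induction d using Nat.strong_induction_on with
  | _ d ih =>
  intro q hq P hm hP O hO
  rcases Nat.eq_zero_or_pos d with hd | hd
  · refine ⟨q, ⟨hq, mem_of_mem_nhds hO⟩, 1, one_pos, Empty, inferInstance, fun i => i.elim,
      fun i => i.elim, ?_⟩
    refine Filter.Eventually.of_forall fun p => ?_
    rw [Finset.univ_eq_empty, Finset.prod_empty]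
    exact (hm _).1.natDegree_eq_zero.1 (by rw [(hm _).2, hd])
  have hcA : AnalyticAt ℝ (fun p : ℝ × T => (P p).coeff (d - 1) / d) (0, q) := (hP (d - 1)).div_const
  obtain ⟨q', ⟨h1, h2, h3⟩, N, hN, h4⟩ := step hA hd ih hq
    (P := fun p => (P p).comp (X - C ((P p).coeff (d - 1) / d)))
    (fun p => comp_monic (hm p) _) (fun i => by
      have h5 : (fun p : ℝ × T => ((P p).comp (X - C ((P p).coeff (d - 1) / d))).coeff i) =
          fun p => ∑ j ∈ Finset.range (d + 1), (P p).coeff j *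
            ((-((P p).coeff (d - 1) / d)) ^ (j - i) * (j.choose i : ℂ)) := by
        funext p
        exact coeff_comp (hm p).2 _ i
      rw [h5]
      refine Finset.analyticAt_fun_sum _ fun j _ => ?_
      exact (hP j).mul ((hcA.neg.pow _).mul analyticAt_const))
    (fun p => coeff_comp_pred hd (hm p))
    (O := O ∩ {q' | AnalyticAt ℝ (fun p : ℝ × T => (P p).coeff (d - 1) / d) (0, q')})
    (Filter.inter_mem hO (evA hcA))
  exact ⟨q', ⟨h1, h2⟩, N, hN, h4.shift hN h3⟩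

end Puiseux

open Puiseux

variable {T : Type} [NormedAddCommGroup T] [NormedSpace ℝ T] [FiniteDimensional ℝ T]

/-- Newton-Puiseux theorem with parameters, at suitable points of `A`. -/
theorem Gen.puiseux {A : Set T} (hA : Gen A) (d : ℕ) {q : T} (hq : q ∈ A) {P : ℝ × T → ℂ[X]}
    (hm : ∀ p, (P p).Monic ∧ (P p).natDegree = d)
    (hP : ∀ i, AnalyticAt ℝ (fun p => (P p).coeff i) (0, q)) {O : Set T} (hO : O ∈ 𝓝 q) :
    ∃ q' ∈ A ∩ O, ∃ N : ℕ, 0 < N ∧ ∃ β : Fin d → ℝ × T → ℂ,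
      (∀ i, AnalyticAt ℝ (β i) (0, q')) ∧
      ∀ᶠ p in 𝓝 ((0 : ℝ), q'), P (p.1 ^ N, p.2) = ∏ i, (X - C (β i p)) := by
  obtain ⟨q', hq', N, hN, κ, _, β, h1, h2⟩ := main hA d q hq P hm hP O hO
  have h3 : Fintype.card κ = d := by
    have h4 := h2.self_of_nhds
    have h5 := (hm (pm N (0, q'))).2
    rw [h4, natDegree_finsetProd_X_sub_C_eq_card, Finset.card_univ] at h5
    exact h5
  have e := Fintype.equivFinOfCardEq h3
  refine ⟨q', hq', N, hN, fun i => β (e.symm i), fun i => h1 _, ?_⟩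
  filter_upwards [h2] with p hp
  rw [← e.symm.prod_comp] at hp
  exact hp

end Vale.Agent.P274.W
end

section

/-! A Banach algebra of functions on the unit circle with bounded conjugation (TASK H1). -/

open Metric

namespace Vale.Agent.P274.H

namespace CA

/-- Laurent polynomials. -/
def L : Type := AddMonoidAlgebra ℂ ℤ

noncomputable instance : CommRing L := inferInstanceAs (CommRing (AddMonoidAlgebra ℂ ℤ))
noncomputable instance instAlgL : Algebra ℂ L := inferInstanceAs (Algebra ℂ (AddMonoidAlgebra ℂ ℤ))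

/-- monomials -/
noncomputable def mo (n : ℤ) (c : ℂ) : L := AddMonoidAlgebra.single n c

/-- coefficients -/
noncomputable def co (f : L) : ℤ →₀ ℂ := AddMonoidAlgebra.coeff f

lemma co_add (f g : L) : co (f + g) = co f + co g := rfl
lemma co_zero : co 0 = 0 := rfl
lemma co_neg (f : L) : co (-f) = -co f := rfl
lemma co_smul (c : ℂ) (f : L) : co (c • f) = c • co f := rfl
lemma co_mo (n : ℤ) (c : ℂ) : co (mo n c) = Finsupp.single n c := rfl
lemma co_inj {f g : L} (h : co f = co g) : f = g := AddMonoidAlgebra.coeff_injective h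

/-- The norm. -/
noncomputable def nrm (f : L) : ℝ := (co f).sum (fun n a => ‖a‖ * 3 ^ n.natAbs)

lemma nrm_eq (f : L) {s : Finset ℤ} (hs : (co f).support ⊆ s) :
    nrm f = ∑ n ∈ s, ‖co f n‖ * 3 ^ n.natAbs := by
  unfold nrm
  rw [Finsupp.sum_of_support_subset _ hs]
  intro i _
  simp

lemma nrm_zero : nrm 0 = 0 := by
  unfold nrm; rw [co_zero]; simp

lemma nrm_mo (n : ℤ) (c : ℂ) : nrm (mo n c) = ‖c‖ * 3 ^ n.natAbs := by
  unfold nrm; rw [co_mo, Finsupp.sum_single_index (by simp)]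

lemma nrm_add (f g : L) : nrm (f + g) ≤ nrm f + nrm g := by
  classical
  set s := (co f).support ∪ (co g).support with hs
  have h1 : (co f).support ⊆ s := Finset.subset_union_left
  have h2 : (co g).support ⊆ s := Finset.subset_union_right
  have h3 : (co (f + g)).support ⊆ s := by
    rw [co_add]; exact Finsupp.support_add
  rw [nrm_eq f h1, nrm_eq g h2, nrm_eq _ h3, ← Finset.sum_add_distrib]
  refine Finset.sum_le_sum fun n _ => ?_
  rw [← add_mul, co_add, Finsupp.add_apply]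
  gcongr
  exact norm_add_le _ _

lemma nrm_neg (f : L) : nrm (-f) = nrm f := by
  have h3 : (co (-f)).support ⊆ (co f).support := by
    rw [co_neg, Finsupp.support_neg]
  rw [nrm_eq _ h3, nrm_eq f subset_rfl]
  refine Finset.sum_congr rfl fun n _ => ?_
  rw [co_neg, Finsupp.neg_apply, norm_neg]

lemma nrm_smul (c : ℂ) (f : L) : nrm (c • f) = ‖c‖ * nrm f := by
  have h3 : (co (c • f)).support ⊆ (co f).support := by
    rw [co_smul]; exact Finsupp.support_smul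
  rw [nrm_eq _ h3, nrm_eq f subset_rfl, Finset.mul_sum]
  refine Finset.sum_congr rfl fun n _ => ?_
  rw [co_smul, Finsupp.smul_apply, norm_smul, mul_assoc]

lemma nrm_eq_zero {f : L} (h : nrm f = 0) : f = 0 := by
  rw [nrm_eq f subset_rfl, Finset.sum_eq_zero_iff_of_nonneg (fun i _ => by positivity)] at h
  apply co_inj
  ext n
  rw [co_zero, Finsupp.zero_apply]
  by_cases hn : n ∈ (co f).support
  · have := h n hn
    rcases mul_eq_zero.1 this with h1 | h1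
    · exact norm_eq_zero.1 h1
    · exact absurd h1 (by positivity)
  · simpa using hn

lemma mo_mul (m n : ℤ) (a b : ℂ) : mo m a * mo n b = mo (m + n) (a * b) :=
  AddMonoidAlgebra.single_mul_single m n a b

lemma one_eq : (1 : L) = mo 0 1 := rfl

lemma smul_mo (n : ℤ) (a b : ℂ) : a • mo n b = mo n (a * b) :=
  AddMonoidAlgebra.smul_single' a n b

lemma sum_mo (f : L) : (co f).sum mo = f := AddMonoidAlgebra.sum_coeff_single f

lemma nrm_sum {ι : Type*} (s : Finset ι) (g : ι → L) : nrm (∑ i ∈ s, g i) ≤ ∑ i ∈ s, nrm (g i) :=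
  Finset.le_sum_of_subadditive nrm nrm_zero.le nrm_add s g

lemma nrm_mul (f g : L) : nrm (f * g) ≤ nrm f * nrm g := by
  have h : f * g = ∑ m ∈ (co f).support, ∑ n ∈ (co g).support, mo (m + n) (co f m * co g n) := by
    conv_lhs => rw [← sum_mo f, ← sum_mo g]
    rw [Finsupp.sum, Finsupp.sum, Finset.sum_mul_sum]
    refine Finset.sum_congr rfl fun m _ => Finset.sum_congr rfl fun n _ => ?_
    rw [mo_mul]
  rw [h]
  refine (nrm_sum _ _).trans ?_
  rw [nrm_eq f subset_rfl, nrm_eq g subset_rfl, Finset.sum_mul_sum]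
  refine Finset.sum_le_sum fun m _ => (nrm_sum _ _).trans (Finset.sum_le_sum fun n _ => ?_)
  rw [nrm_mo, norm_mul]
  have h1 : (3 : ℝ) ^ (m + n).natAbs ≤ 3 ^ m.natAbs * 3 ^ n.natAbs := by
    rw [← pow_add]
    exact pow_le_pow_right₀ (by norm_num) (Int.natAbs_add_le m n)
  calc ‖co f m‖ * ‖co g n‖ * 3 ^ (m + n).natAbs
      ≤ ‖co f m‖ * ‖co g n‖ * (3 ^ m.natAbs * 3 ^ n.natAbs) := by gcongr
    _ = _ := by ring

noncomputable instance instNCR : NormedCommRing L :=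
  { (RingNorm.toNormedRing
      { toFun := nrm
        map_zero' := nrm_zero
        add_le' := nrm_add
        neg' := nrm_neg
        mul_le' := nrm_mul
        eq_zero_of_map_eq_zero' := fun _ h => nrm_eq_zero h } : NormedRing L) with
    mul_comm := mul_comm }

lemma norm_def (f : L) : ‖f‖ = nrm f := rfl

noncomputable instance instNA : NormedAlgebra ℂ L :=
  { instAlgL with
    norm_smul_le := fun c f => (nrm_smul c f).le }

/-- The Banach algebra. -/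
abbrev A : Type := UniformSpace.Completion L

/-- monomials in `A` -/
noncomputable def mA (n : ℤ) : A := ((mo n 1 : L) : A)

lemma norm_mA (n : ℤ) : ‖mA n‖ = 3 ^ n.natAbs := by
  rw [mA, UniformSpace.Completion.norm_coe, norm_def, nrm_mo]; simp

lemma mA_mul (m n : ℤ) : mA m * mA n = mA (m + n) := by
  rw [mA, mA, ← UniformSpace.Completion.coe_mul, mo_mul, mul_one]; rfl

lemma mA_zero : mA 0 = 1 := by
  rw [mA, ← one_eq, UniformSpace.Completion.coe_one]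

/-- the embedding -/
noncomputable def eL : L →L[ℂ] A := UniformSpace.Completion.toComplL

lemma eL_apply (f : L) : eL f = (f : A) := rfl

lemma eL_dense : DenseRange eL := UniformSpace.Completion.denseRange_coe

lemma eL_ui : IsUniformInducing eL := UniformSpace.Completion.isUniformInducing_coe L

lemma coe_eq (f : L) : (f : A) = ∑ n ∈ (co f).support, co f n • mA n := by
  conv_lhs => rw [← sum_mo f, ← eL_apply]
  rw [Finsupp.sum, map_sum]
  refine Finset.sum_congr rfl fun n _ => ?_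
  rw [mA, ← eL_apply, ← map_smul, smul_mo, mul_one]

/-- Induction principle. -/
lemma ind {p : A → Prop} (hc : IsClosed {a | p a}) (hadd : ∀ a b, p a → p b → p (a + b))
    (hmon : ∀ (n : ℤ) (c : ℂ), p (c • mA n)) (a : A) : p a := by
  refine UniformSpace.Completion.induction_on a hc fun f => ?_
  rw [coe_eq]
  refine Finset.sum_induction _ p hadd ?_ fun n _ => hmon n _
  simpa using hmon 0 0

section Maps

variable {σ : ℂ →+* ℂ} [RingHomIsometric σ] {F : Type*} [NormedAddCommGroup F] [NormedSpace ℂ F]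

/-- Norm bound from bound on monomials. -/
lemma bound {C : ℝ} (φ : A →SL[σ] F) (h : ∀ n : ℤ, ‖φ (mA n)‖ ≤ C * 3 ^ n.natAbs) (a : A) :
    ‖φ a‖ ≤ C * ‖a‖ := by
  refine UniformSpace.Completion.induction_on a ?_ fun f => ?_
  · exact isClosed_le (by fun_prop) (by fun_prop)
  · rw [UniformSpace.Completion.norm_coe, norm_def, nrm_eq f subset_rfl, coe_eq, map_sum,
      Finset.mul_sum]
    refine (norm_sum_le _ _).trans (Finset.sum_le_sum fun n _ => ?_)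
    rw [map_smulₛₗ, norm_smul, RingHomIsometric.norm_map]
    calc ‖co f n‖ * ‖φ (mA n)‖ ≤ ‖co f n‖ * (C * 3 ^ n.natAbs) := by gcongr; exact h n
      _ = _ := by ring

variable (σ) in
/-- A map on Laurent polynomials, from values on monomials. -/
noncomputable def lin (T : ℤ → F) : L →ₛₗ[σ] F where
  toFun f := (co f).sum (fun n a => σ a • T n)
  map_add' f g := by
    rw [co_add, Finsupp.sum_add_index']
    · intro n; simp
    · intro n a b; rw [map_add, add_smul]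
  map_smul' c f := by
    rw [co_smul, Finsupp.sum_smul_index (by intro i; simp), Finsupp.smul_sum]
    refine Finset.sum_congr rfl fun n _ => ?_
    change σ (c * co f n) • T n = σ c • σ (co f n) • T n
    rw [map_mul, mul_smul]

lemma lin_bound (T : ℤ → F) {C : ℝ} (h : ∀ n : ℤ, ‖T n‖ ≤ C * 3 ^ n.natAbs) (f : L) :
    ‖lin σ T f‖ ≤ C * ‖f‖ := by
  rw [norm_def, nrm_eq f subset_rfl, Finset.mul_sum]
  change ‖∑ n ∈ (co f).support, σ (co f n) • T n‖ ≤ _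
  refine (norm_sum_le _ _).trans (Finset.sum_le_sum fun n _ => ?_)
  rw [norm_smul, RingHomIsometric.norm_map]
  calc ‖co f n‖ * ‖T n‖ ≤ ‖co f n‖ * (C * 3 ^ n.natAbs) := by gcongr; exact h n
    _ = _ := by ring

variable [CompleteSpace F]

variable (σ) in
/-- A map on `A`, from values on monomials. -/
noncomputable def ex (T : ℤ → F) {C : ℝ} (h : ∀ n : ℤ, ‖T n‖ ≤ C * 3 ^ n.natAbs) : A →SL[σ] F :=
  ((lin σ T).mkContinuous C (lin_bound T h)).extend eL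

lemma ex_mA (T : ℤ → F) {C : ℝ} (h : ∀ n : ℤ, ‖T n‖ ≤ C * 3 ^ n.natAbs) (n : ℤ) :
    ex σ T h (mA n) = T n := by
  unfold ex mA
  rw [← eL_apply, ContinuousLinearMap.extend_eq _ eL_dense eL_ui, LinearMap.mkContinuous_apply]
  change (co (mo n 1)).sum (fun n a => σ a • T n) = T n
  rw [co_mo, Finsupp.sum_single_index (by simp), map_one, one_smul]

end Maps

lemma three_pow_ge (n : ℤ) : (1 : ℝ) ≤ 3 ^ n.natAbs := one_le_pow₀ (by norm_num)

/-- evaluation -/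
noncomputable def ev (ζ : ℂ) : A →L[ℂ] ℂ :=
  open Classical in
  if h : ‖ζ‖ = 1 then
    ex (RingHom.id ℂ) (C := 1) (fun n => ζ ^ n) (fun n => by
      rw [norm_zpow, h, one_zpow, one_mul]; exact three_pow_ge n)
  else 0

lemma ev_mA {ζ : ℂ} (h : ‖ζ‖ = 1) (n : ℤ) : ev ζ (mA n) = ζ ^ n := by
  unfold ev
  rw [dif_pos h, ex_mA]

lemma ev_one {ζ : ℂ} (h : ‖ζ‖ = 1) : ev ζ 1 = 1 := by
  rw [← mA_zero, ev_mA h, zpow_zero]

lemma ne_zero_of_norm {ζ : ℂ} (h : ‖ζ‖ = 1) : ζ ≠ 0 := by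
  rintro rfl; simp at h

lemma ev_mul {ζ : ℂ} (h : ‖ζ‖ = 1) (a b : A) : ev ζ (a * b) = ev ζ a * ev ζ b := by
  have h0 := ne_zero_of_norm h
  refine ind (p := fun a => ev ζ (a * b) = ev ζ a * ev ζ b) ?_ ?_ ?_ a
  · exact isClosed_eq (by fun_prop) (by fun_prop)
  · intro a a' ha ha'
    rw [add_mul, map_add, ha, ha', map_add, add_mul]
  · intro n c
    refine ind (p := fun b => ev ζ (c • mA n * b) = ev ζ (c • mA n) * ev ζ b) ?_ ?_ ?_ b
    · exact isClosed_eq (by fun_prop) (by fun_prop)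
    · intro a a' ha ha'
      rw [mul_add, map_add, ha, ha', map_add, mul_add]
    · intro m d
      rw [smul_mul_smul_comm, mA_mul, map_smul, map_smul, map_smul, ev_mA h, ev_mA h, ev_mA h,
        zpow_add₀ h0]
      simp only [smul_eq_mul]
      ring

/-- conjugation, conjugate linear -/
noncomputable def st₀ : A →SL[starRingEnd ℂ] A :=
  ex (starRingEnd ℂ) (C := 1) (fun n => mA (-n)) (fun n => by
    rw [norm_mA, Int.natAbs_neg, one_mul])

lemma st₀_mA (n : ℤ) : st₀ (mA n) = mA (-n) := by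
  unfold st₀; rw [ex_mA]

/-- conjugation -/
noncomputable def st : A →L[ℝ] A where
  toFun := st₀
  map_add' := map_add st₀
  map_smul' r a := by
    rw [RingHom.id_apply, ← Complex.coe_smul, map_smulₛₗ, Complex.conj_ofReal, Complex.coe_smul]
  cont := st₀.continuous

lemma st_apply (a : A) : st a = st₀ a := rfl

lemma st_smul (c : ℂ) (a : A) : st (c • a) = (starRingEnd ℂ) c • st a := by
  rw [st_apply, st_apply, map_smulₛₗ]

lemma st_mA (n : ℤ) : st (mA n) = mA (-n) := st₀_mA n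

lemma st_mul (a b : A) : st (a * b) = st a * st b := by
  refine ind (p := fun a => st (a * b) = st a * st b) ?_ ?_ ?_ a
  · exact isClosed_eq (by fun_prop) (by fun_prop)
  · intro a a' ha ha'
    rw [add_mul, map_add, ha, ha', map_add, add_mul]
  · intro n c
    refine ind (p := fun b => st (c • mA n * b) = st (c • mA n) * st b) ?_ ?_ ?_ b
    · exact isClosed_eq (by fun_prop) (by fun_prop)
    · intro a a' ha ha'
      rw [mul_add, map_add, ha, ha', map_add, mul_add]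
    · intro m d
      rw [smul_mul_smul_comm, mA_mul, st_smul, st_smul, st_smul, st_mA, st_mA, st_mA,
        smul_mul_smul_comm, mA_mul, map_mul]
      congr 2
      ring

lemma st_st (a : A) : st (st a) = a := by
  refine ind (p := fun a => st (st a) = a) ?_ ?_ ?_ a
  · exact isClosed_eq (by fun_prop) (by fun_prop)
  · intro a b ha hb
    rw [map_add, map_add, ha, hb]
  · intro n c
    rw [st_smul, st_smul, st_mA, st_mA, neg_neg, Complex.conj_conj]

lemma st_one : st 1 = 1 := by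
  rw [← mA_zero, st_mA, neg_zero]

lemma ev_st {ζ : ℂ} (h : ‖ζ‖ = 1) (a : A) : ev ζ (st a) = (starRingEnd ℂ) (ev ζ a) := by
  refine ind (p := fun a => ev ζ (st a) = (starRingEnd ℂ) (ev ζ a)) ?_ ?_ ?_ a
  · exact isClosed_eq (by fun_prop) (Complex.continuous_conj.comp (by fun_prop))
  · intro a b ha hb
    rw [map_add, map_add, ha, hb, map_add, map_add]
  · intro n c
    rw [st_smul, st_mA, map_smul, map_smul, ev_mA h, ev_mA h, smul_eq_mul, smul_eq_mul, map_mul,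
      map_zpow₀, zpow_neg, ← inv_zpow]
    congr 2
    exact Complex.inv_eq_conj h

/-- conjugate function -/
noncomputable def Hil : A →L[ℂ] A :=
  ex (RingHom.id ℂ) (C := 2) (fun n => (-Complex.I * (n.sign : ℂ)) • (mA n - 1)) (fun n => by
    rw [norm_smul, norm_mul, norm_neg, Complex.norm_I, one_mul]
    have h1 : ‖(n.sign : ℂ)‖ ≤ 1 := by
      rcases lt_trichotomy n 0 with h | h | h
      · rw [Int.sign_eq_neg_one_of_neg h]; simp
      · rw [h]; simp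
      · rw [Int.sign_eq_one_of_pos h]; simp
    have h2 : ‖mA n - 1‖ ≤ 2 * 3 ^ n.natAbs := by
      refine (norm_sub_le _ _).trans ?_
      rw [norm_mA, ← mA_zero, norm_mA, Int.natAbs_zero, pow_zero]
      have := three_pow_ge n
      linarith
    calc ‖(n.sign : ℂ)‖ * ‖mA n - 1‖ ≤ 1 * (2 * 3 ^ n.natAbs) := by gcongr
      _ = _ := one_mul _)

lemma Hil_mA (n : ℤ) : Hil (mA n) = (-Complex.I * (n.sign : ℂ)) • (mA n - 1) := by
  unfold Hil; rw [ex_mA]

lemma Hil_one : Hil 1 = 0 := by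
  rw [← mA_zero, Hil_mA]; simp

lemma ev_Hil (a : A) : ev 1 (Hil a) = 0 := by
  refine ind (p := fun a => ev 1 (Hil a) = 0) ?_ ?_ ?_ a
  · exact isClosed_eq (by fun_prop) (by fun_prop)
  · intro a b ha hb
    rw [map_add, map_add, ha, hb, add_zero]
  · intro n c
    rw [map_smul, map_smul, Hil_mA, map_smul, map_sub, ev_mA norm_one, ev_one norm_one]
    simp

lemma st_Hil (a : A) : st (Hil a) = Hil (st a) := by
  refine ind (p := fun a => st (Hil a) = Hil (st a)) ?_ ?_ ?_ a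
  · exact isClosed_eq (by fun_prop) (by fun_prop)
  · intro a b ha hb
    rw [map_add, map_add, ha, hb, map_add, map_add]
  · intro n c
    rw [map_smul, st_smul, Hil_mA, st_smul, map_sub, st_mA, st_one, st_smul, map_smul, st_mA,
      Hil_mA]
    congr 2
    rw [Int.sign_neg]
    simp

/-- values of the holomorphic extension on monomials -/
noncomputable def w (ζ : ℂ) (n : ℤ) : ℂ := if 0 < n then 2 * ζ ^ n.natAbs - 1 else 1

lemma w_bound {ζ : ℂ} (h : ‖ζ‖ < 2) (n : ℤ) : ‖w ζ n‖ ≤ 3 * 3 ^ n.natAbs := by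
  have h3 := three_pow_ge n
  unfold w
  split_ifs with hn
  · refine (norm_sub_le _ _).trans ?_
    rw [norm_mul, norm_pow, norm_one]
    have h1 : ‖ζ‖ ^ n.natAbs ≤ 3 ^ n.natAbs := by
      gcongr; linarith
    have h2 : ‖(2 : ℂ)‖ = 2 := by simp
    rw [h2]
    linarith
  · rw [norm_one]; linarith

/-- the holomorphic extension -/
noncomputable def Wf (ζ : ℂ) : A →L[ℂ] ℂ :=
  open Classical in
  if h : ‖ζ‖ < 2 then ex (RingHom.id ℂ) (C := 3) (w ζ) (w_bound h) else 0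

lemma Wf_mA {ζ : ℂ} (h : ‖ζ‖ < 2) (n : ℤ) : Wf ζ (mA n) = w ζ n := by
  unfold Wf
  rw [dif_pos h, ex_mA]

lemma Wf_bound2 {ζ : ℂ} (h : ‖ζ‖ < 2) (a : A) : ‖Wf ζ a‖ ≤ 3 * ‖a‖ :=
  bound _ (fun n => by rw [Wf_mA h]; exact w_bound h n) a

lemma Wf_circle {ζ : ℂ} (h : ‖ζ‖ = 1) (a : A) :
    Wf ζ a = ev ζ a + Complex.I * ev ζ (Hil a) := by
  have h2 : ‖ζ‖ < 2 := by rw [h]; norm_num
  refine ind (p := fun a => Wf ζ a = ev ζ a + Complex.I * ev ζ (Hil a)) ?_ ?_ ?_ a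
  · exact isClosed_eq (by fun_prop) (by fun_prop)
  · intro a b ha hb
    rw [map_add, map_add, ha, hb, map_add, map_add]
    ring
  · intro n c
    rw [map_smul, map_smul, map_smul, map_smul, Wf_mA h2, Hil_mA, map_smul, map_sub, ev_mA h,
      ev_one h]
    simp only [smul_eq_mul]
    have hI : Complex.I * (-Complex.I * (n.sign : ℂ)) = n.sign := by
      rw [← mul_assoc, mul_neg, Complex.I_mul_I]; simp
    have h4 : Complex.I * (c * (-Complex.I * (n.sign : ℂ) * (ζ ^ n - 1)))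
        = c * ((n.sign : ℂ) * (ζ ^ n - 1)) := by
      linear_combination (c * (ζ ^ n - 1)) * hI
    rw [h4]
    unfold w
    rcases lt_trichotomy n 0 with hn | hn | hn
    · rw [if_neg (by omega), Int.sign_eq_neg_one_of_neg hn]; push_cast; ring
    · subst hn; simp
    · rw [if_pos hn, Int.sign_eq_one_of_pos hn]
      have : ζ ^ n = ζ ^ n.natAbs := by
        rw [← zpow_natCast, Int.natAbs_of_nonneg hn.le]
      rw [this]; push_cast; ring

lemma w_diff (n : ℤ) : Differentiable ℂ (fun ζ => w ζ n) := by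
  unfold w
  split_ifs
  · fun_prop
  · fun_prop

lemma tlu {u : ℕ → A} {a : A} (hu : Filter.Tendsto u Filter.atTop (nhds a)) :
    TendstoLocallyUniformlyOn (fun k ζ => Wf ζ (u k)) (fun ζ => Wf ζ a) Filter.atTop
      (ball 0 2) := by
  apply TendstoUniformlyOn.tendstoLocallyUniformlyOn
  rw [Metric.tendstoUniformlyOn_iff]
  intro ε hε
  have h1 : ∀ᶠ k in Filter.atTop, ‖a - u k‖ < ε / 3 := by
    have := (tendsto_const_nhds (x := a)).sub hu
    rw [sub_self] at this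
    exact (tendsto_zero_iff_norm_tendsto_zero.1 this).eventually (gt_mem_nhds (by positivity))
  filter_upwards [h1] with k hk ζ hζ
  rw [dist_eq_norm, ← map_sub]
  have h2 : ‖ζ‖ < 2 := by simpa using hζ
  have h3 := Wf_bound2 h2 (a - u k)
  linarith

lemma Wf_diff (a : A) : DifferentiableOn ℂ (fun ζ => Wf ζ a) (ball 0 2) := by
  refine ind (p := fun a => DifferentiableOn ℂ (fun ζ => Wf ζ a) (ball 0 2)) ?_ ?_ ?_ a
  · apply IsSeqClosed.isClosed
    intro u a hu ha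
    exact (tlu ha).differentiableOn (Filter.Eventually.of_forall hu) isOpen_ball
  · intro a b ha hb
    simp only [map_add]
    exact ha.add hb
  · intro n c
    have h1 : DifferentiableOn ℂ (fun ζ => c * w ζ n) (ball 0 2) :=
      ((w_diff n).const_mul c).differentiableOn
    refine h1.congr fun ζ hζ => ?_
    have h2 : ‖ζ‖ < 2 := by simpa using hζ
    rw [map_smul, Wf_mA h2, smul_eq_mul]

lemma pow_lip {ζ ζ' : ℂ} (h : ‖ζ‖ ≤ 1) (h' : ‖ζ'‖ ≤ 1) (n : ℕ) :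
    ‖ζ ^ n - ζ' ^ n‖ ≤ n * ‖ζ - ζ'‖ := by
  induction n with
  | zero => simp
  | succ n ih =>
    have h1 : ζ ^ (n + 1) - ζ' ^ (n + 1) = ζ * (ζ ^ n - ζ' ^ n) + (ζ - ζ') * ζ' ^ n := by ring
    rw [h1]
    refine (norm_add_le _ _).trans ?_
    rw [norm_mul, norm_mul, norm_pow]
    have h2 : ‖ζ'‖ ^ n ≤ 1 := pow_le_one₀ (norm_nonneg _) h'
    calc ‖ζ‖ * ‖ζ ^ n - ζ' ^ n‖ + ‖ζ - ζ'‖ * ‖ζ'‖ ^ n
        ≤ 1 * (n * ‖ζ - ζ'‖) + ‖ζ - ζ'‖ * 1 := by gcongr
      _ = _ := by push_cast; ring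

lemma nat_le_three_pow (n : ℕ) : (n : ℝ) ≤ 3 ^ n := by
  have h1 : n < 3 ^ n := Nat.lt_pow_self (by norm_num)
  exact_mod_cast h1.le

lemma Wf_lip {ζ ζ' : ℂ} (h : ‖ζ‖ ≤ 1) (h' : ‖ζ'‖ ≤ 1) (a : A) :
    ‖Wf ζ a - Wf ζ' a‖ ≤ 3 * ‖a‖ * ‖ζ - ζ'‖ := by
  have h2 : ‖ζ‖ < 2 := by linarith
  have h2' : ‖ζ'‖ < 2 := by linarith
  have h3 := bound (σ := RingHom.id ℂ) (C := 3 * ‖ζ - ζ'‖) (Wf ζ - Wf ζ') (fun n => by
    rw [sub_apply, Wf_mA h2, Wf_mA h2']
    unfold w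
    split_ifs with hn
    · have h4 : 2 * ζ ^ n.natAbs - 1 - (2 * ζ' ^ n.natAbs - 1)
          = 2 * (ζ ^ n.natAbs - ζ' ^ n.natAbs) := by ring
      rw [h4, norm_mul]
      have h5 : ‖(2 : ℂ)‖ = 2 := by simp
      rw [h5]
      have h6 := pow_lip h h' n.natAbs
      have h7 := nat_le_three_pow n.natAbs
      calc 2 * ‖ζ ^ n.natAbs - ζ' ^ n.natAbs‖ ≤ 2 * (n.natAbs * ‖ζ - ζ'‖) := by gcongr
        _ ≤ 2 * (3 ^ n.natAbs * ‖ζ - ζ'‖) := by gcongr
        _ ≤ 3 * (3 ^ n.natAbs * ‖ζ - ζ'‖) := by gcongr; norm_num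
        _ = _ := by ring
    · rw [sub_self, norm_zero]; positivity) a
  rw [sub_apply] at h3
  linarith

/-- derivative at `1` -/
noncomputable def D1 : A →L[ℂ] ℂ :=
  ex (RingHom.id ℂ) (C := 2) (fun n => if 0 < n then 2 * (n.natAbs : ℂ) else 0) (fun n => by
    split_ifs with h
    · rw [norm_mul, Complex.norm_natCast]
      have h5 : ‖(2 : ℂ)‖ = 2 := by simp
      rw [h5]
      have := nat_le_three_pow n.natAbs
      linarith
    · rw [norm_zero]; positivity)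

lemma D1_mA (n : ℤ) : D1 (mA n) = if 0 < n then 2 * (n.natAbs : ℂ) else 0 := by
  unfold D1; rw [ex_mA]

lemma one_mem : (1 : ℂ) ∈ ball (0 : ℂ) 2 := by simp

lemma hasDerivAt_D1 (a : A) : HasDerivAt (fun ζ => Wf ζ a) (D1 a) 1 := by
  refine ind (p := fun a => HasDerivAt (fun ζ => Wf ζ a) (D1 a) 1) ?_ ?_ ?_ a
  · apply IsSeqClosed.isClosed
    intro u a hu ha
    have h1 := (tlu ha).deriv (Filter.Eventually.of_forall fun k => Wf_diff (u k)) isOpen_ball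
    have h2 := h1.tendsto_at one_mem
    have h3 : Filter.Tendsto (fun k => D1 (u k)) Filter.atTop (nhds (D1 a)) :=
      (D1.continuous.tendsto a).comp ha
    have h4 : deriv (fun ζ => Wf ζ a) 1 = D1 a := by
      refine tendsto_nhds_unique h2 (h3.congr fun k => ?_)
      exact ((hu k).deriv).symm
    have h5 : DifferentiableAt ℂ (fun ζ => Wf ζ a) 1 :=
      (Wf_diff a).differentiableAt (isOpen_ball.mem_nhds one_mem)
    change HasDerivAt _ _ _
    rw [← h4]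
    exact h5.hasDerivAt
  · intro a b ha hb
    simp only [map_add]
    exact ha.add hb
  · intro n c
    have h1 : HasDerivAt (fun ζ => c * w ζ n) (c * D1 (mA n)) 1 := by
      apply HasDerivAt.const_mul
      rw [D1_mA]
      unfold w
      split_ifs with h
      · have h2 := ((hasDerivAt_pow n.natAbs (1 : ℂ)).const_mul 2).sub_const 1
        simpa using h2
      · exact hasDerivAt_const _ _
    rw [map_smul, smul_eq_mul]
    refine h1.congr_of_eventuallyEq ?_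
    filter_upwards [isOpen_ball.mem_nhds one_mem] with ζ hζ
    have h2 : ‖ζ‖ < 2 := by simpa using hζ
    rw [map_smul, Wf_mA h2, smul_eq_mul]

/-- mean -/
noncomputable def mean : A →L[ℂ] ℂ :=
  ex (RingHom.id ℂ) (C := 1) (fun n => if n = 0 then 1 else 0) (fun n => by
    have := three_pow_ge n
    split_ifs
    · rw [norm_one]; linarith
    · rw [norm_zero]; positivity)

lemma mean_mA (n : ℤ) : mean (mA n) = if n = 0 then 1 else 0 := by
  unfold mean; rw [ex_mA]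

/-- the element `u` -/
noncomputable def u : A := (1 / 4 : ℂ) • (2 - mA 1 - mA (-1))

lemma u_mul (n : ℤ) : u * mA n = (1 / 4 : ℂ) • ((2 : ℂ) • mA n - mA (1 + n) - mA (-1 + n)) := by
  unfold u
  rw [smul_mul_assoc, sub_mul, sub_mul, mA_mul, mA_mul, two_mul, two_smul]

lemma D1_u (a : A) : D1 (u * a) = -(1 / 2) * mean a := by
  refine ind (p := fun a => D1 (u * a) = -(1 / 2) * mean a) ?_ ?_ ?_ a
  · exact isClosed_eq (by fun_prop) (by fun_prop)
  · intro a b ha hb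
    rw [mul_add, map_add, ha, hb, map_add]; ring
  · intro n c
    rw [mul_smul_comm, map_smul, map_smul, u_mul, map_smul, map_sub, map_sub, map_smul, D1_mA,
      D1_mA, D1_mA, mean_mA]
    simp only [smul_eq_mul]
    rcases lt_trichotomy n 0 with hn | hn | hn
    · rw [if_neg (by omega), if_neg (by omega), if_neg (by omega), if_neg (by omega)]; simp
    · subst hn; norm_num; ring
    · have h1 : ((n.natAbs : ℕ) : ℂ) = (n : ℂ) := by
        rw [Nat.cast_natAbs, abs_of_pos hn]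
      have h2 : (((1 + n).natAbs : ℕ) : ℂ) = (n : ℂ) + 1 := by
        rw [Nat.cast_natAbs, abs_of_pos (by omega)]; push_cast; ring
      have h3 : (if 0 < -1 + n then 2 * (((-1 + n).natAbs : ℕ) : ℂ) else 0)
          = 2 * ((n : ℂ) - 1) := by
        split_ifs with h
        · rw [Nat.cast_natAbs, abs_of_pos h]; push_cast; ring
        · have : n = 1 := by omega
          subst this; simp
      have h5 : (0 : ℤ) < 1 + n := by omega
      have h6 : ¬ (n = 0) := by omega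
      rw [h3, if_pos hn, if_pos h5, if_neg h6, h1, h2]
      ring

lemma mA_pow (k : ℕ) : mA 1 ^ k = mA k := by
  induction k with
  | zero => rw [pow_zero, Nat.cast_zero, mA_zero]
  | succ k ih => rw [pow_succ, ih, mA_mul]; push_cast; rfl

lemma mA_neg_pow (k : ℕ) : mA (-1) ^ k = mA (-k) := by
  induction k with
  | zero => rw [pow_zero, Nat.cast_zero, neg_zero, mA_zero]
  | succ k ih =>
    rw [pow_succ, ih, mA_mul]; congr 1; push_cast; ring

lemma mean_u (k : ℕ) : mean (u ^ k) = ((1 / 4 : ℝ) ^ k * (2 * k).choose k : ℝ) := by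
  have h1 : (2 - mA 1 - mA (-1) : A) = -(mA (-1) * (1 - mA 1) ^ 2) := by
    have h : mA (-1) * mA 1 = 1 := by rw [mA_mul]; exact mA_zero
    linear_combination (mA 1 - 2) * h
  have h2 : u ^ k = ((1 / 4 : ℂ) ^ k * (-1) ^ k) • (mA (-k) * (1 - mA 1) ^ (2 * k)) := by
    unfold u
    rw [smul_pow, h1, mul_smul, neg_pow, mul_pow, mA_neg_pow, ← pow_mul]
    congr 1
    have : ((-1 : A)) ^ k = ((-1 : ℂ) ^ k) • (1 : A) := by
      rw [← one_pow (M := A) k, ← smul_pow]; simp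
    rw [this, smul_mul_assoc, one_mul]
  have h3 : (1 - mA 1 : A) ^ (2 * k)
      = ∑ j ∈ Finset.range (2 * k + 1), ((-1 : ℂ) ^ j * ((2 * k).choose j : ℂ)) • mA j := by
    have : (1 - mA 1 : A) = (-1 : ℂ) • mA 1 + 1 := by rw [neg_one_smul]; ring
    rw [this, add_pow]
    refine Finset.sum_congr rfl fun j _ => ?_
    rw [smul_pow, mA_pow, one_pow, mul_one, mul_smul, smul_mul_assoc]
    congr 1
    rw [mul_comm, ← nsmul_eq_mul, Nat.cast_smul_eq_nsmul]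
  rw [h2, map_smul, h3, Finset.mul_sum, map_sum]
  have h4 : ∑ j ∈ Finset.range (2 * k + 1),
      mean (mA (-k) * (((-1 : ℂ) ^ j * ((2 * k).choose j : ℂ)) • mA j))
      = (-1 : ℂ) ^ k * ((2 * k).choose k : ℂ) := by
    rw [Finset.sum_eq_single k]
    · rw [mul_smul_comm, mA_mul, map_smul, mean_mA, if_pos (by ring), smul_eq_mul, mul_one]
    · intro j _ hj
      rw [mul_smul_comm, mA_mul, map_smul, mean_mA, if_neg (by omega), smul_zero]
    · intro h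
      exact absurd (Finset.mem_range.2 (by omega)) h
  rw [h4, smul_eq_mul]
  have h5 : ((-1 : ℂ) ^ k) * (-1) ^ k = 1 := by
    rw [← mul_pow]; simp
  push_cast
  linear_combination ((1 / 4 : ℂ) ^ k * ((2 * k).choose k : ℂ)) * h5

lemma D1_ne (m : ℕ) (hm : 0 < m) : (D1 (u ^ m)).re ≠ 0 := by
  obtain ⟨k, rfl⟩ : ∃ k, m = k + 1 := ⟨m - 1, by omega⟩
  rw [pow_succ', D1_u, mean_u]
  have h1 : 0 < (1 / 4 : ℝ) ^ k * (2 * k).choose k := by
    have : 0 < (2 * k).choose k := Nat.choose_pos (by omega)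
    positivity
  have h2 : (-(1 / 2) * (((1 / 4 : ℝ) ^ k * (2 * k).choose k : ℝ) : ℂ))
      = ((-(1 / 2) * ((1 / 4 : ℝ) ^ k * (2 * k).choose k) : ℝ) : ℂ) := by
    push_cast; ring
  rw [h2, Complex.ofReal_re]
  intro h
  linarith

end CA

/-- A commutative Banach algebra of functions on the unit circle which are restrictions of
Laurent series on an annulus, with its conjugation operators. -/
structure CircAlg (𝓐 : Type) [NormedCommRing 𝓐] [NormedAlgebra ℂ 𝓐] where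
  /-- the coordinate function and its inverse -/
  z : 𝓐
  zi : 𝓐
  z_zi : z * zi = 1
  /-- evaluation at the points of the circle -/
  ev : ℂ → 𝓐 →L[ℂ] ℂ
  ev_one : ∀ ζ, ‖ζ‖ = 1 → ev ζ 1 = 1
  ev_mul : ∀ ζ, ‖ζ‖ = 1 → ∀ a b, ev ζ (a * b) = ev ζ a * ev ζ b
  ev_z : ∀ ζ, ‖ζ‖ = 1 → ev ζ z = ζ
  ev_zi : ∀ ζ, ‖ζ‖ = 1 → ev ζ zi = ζ⁻¹
  /-- complex conjugation of functions -/
  st : 𝓐 →L[ℝ] 𝓐
  st_one : st 1 = 1
  st_mul : ∀ a b, st (a * b) = st a * st b
  st_smul : ∀ (c : ℂ) a, st (c • a) = (starRingEnd ℂ) c • st a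
  st_st : ∀ a, st (st a) = a
  st_z : st z = zi
  ev_st : ∀ ζ, ‖ζ‖ = 1 → ∀ a, ev ζ (st a) = (starRingEnd ℂ) (ev ζ a)
  /-- the conjugate function, normalized to vanish at `1` -/
  Hil : 𝓐 →L[ℂ] 𝓐
  Hil_one : Hil 1 = 0
  ev_Hil : ∀ a, ev 1 (Hil a) = 0
  st_Hil : ∀ a, st (Hil a) = Hil (st a)
  /-- `Wf ζ a` is the value at `ζ` of the holomorphic function `a + i Hil a` -/
  Wf : ℂ → 𝓐 →L[ℂ] ℂ
  Wf_circle : ∀ ζ, ‖ζ‖ = 1 → ∀ a, Wf ζ a = ev ζ a + Complex.I * ev ζ (Hil a)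
  /-- a constant -/
  K : ℝ
  K_pos : 0 < K
  Wf_diff : ∀ a, DifferentiableOn ℂ (fun ζ => Wf ζ a) (ball 0 2)
  Wf_bound : ∀ ζ ∈ closedBall (0 : ℂ) 1, ∀ a, ‖Wf ζ a‖ ≤ K * ‖a‖
  Wf_lip : ∀ ζ ∈ closedBall (0 : ℂ) 1, ∀ ζ' ∈ closedBall (0 : ℂ) 1, ∀ a,
    ‖Wf ζ a - Wf ζ' a‖ ≤ K * ‖a‖ * ‖ζ - ζ'‖
  /-- derivative at `1` -/
  D1 : 𝓐 →L[ℂ] ℂ
  hasDerivAt_D1 : ∀ a, HasDerivAt (fun ζ => Wf ζ a) (D1 a) 1
  D1_ne : ∀ m : ℕ, 0 < m → (D1 (((1 / 4 : ℂ) • (2 - z - zi)) ^ m)).re ≠ 0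

theorem exists_circAlg : ∃ (𝓐 : Type) (_ : NormedCommRing 𝓐) (_ : NormedAlgebra ℂ 𝓐)
    (_ : CompleteSpace 𝓐), Nonempty (CircAlg 𝓐) := by
  refine ⟨CA.A, inferInstance, inferInstance, inferInstance, ⟨?_⟩⟩
  exact
    { z := CA.mA 1
      zi := CA.mA (-1)
      z_zi := by rw [CA.mA_mul]; exact CA.mA_zero
      ev := CA.ev
      ev_one := fun ζ h => CA.ev_one h
      ev_mul := fun ζ h => CA.ev_mul h
      ev_z := fun ζ h => by rw [CA.ev_mA h, zpow_one]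
      ev_zi := fun ζ h => by rw [CA.ev_mA h, zpow_neg_one]
      st := CA.st
      st_one := CA.st_one
      st_mul := CA.st_mul
      st_smul := CA.st_smul
      st_st := CA.st_st
      st_z := CA.st_mA 1
      ev_st := fun ζ h => CA.ev_st h
      Hil := CA.Hil
      Hil_one := CA.Hil_one
      ev_Hil := CA.ev_Hil
      st_Hil := CA.st_Hil
      Wf := CA.Wf
      Wf_circle := fun ζ h => CA.Wf_circle h
      K := 3
      K_pos := by norm_num
      Wf_diff := CA.Wf_diff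
      Wf_bound := fun ζ h => CA.Wf_bound2 (by
        have : ‖ζ‖ ≤ 1 := by simpa using h
        linarith)
      Wf_lip := fun ζ h ζ' h' => CA.Wf_lip (by simpa using h) (by simpa using h')
      D1 := CA.D1
      hasDerivAt_D1 := CA.hasDerivAt_D1
      D1_ne := fun m hm => CA.D1_ne m hm }

end Vale.Agent.P274.H
end

section

open Metric Set

namespace Vale.Agent.P274.H

/-- the coordinates `(x, y, s)` as a point -/
def pt {B : Type} {c : ℕ} (x y : Fin c → B) (s : B) : (Fin c ⊕ Fin c) ⊕ Unit → B :=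
  Sum.elim (Sum.elim x y) (fun _ => s)

/-- the parameter along the circle -/
noncomputable def sl (s0 l : ℝ) (ζ : ℂ) : ℝ := s0 * ((1 - l) + l * (‖1 - ζ‖ ^ 2 / 4))

namespace Bishop

section poly

open MvPolynomial

variable {𝓑 : Type} [NormedCommRing 𝓑] [NormedAlgebra ℝ 𝓑]

theorem bd_lip {σ : Type} [Fintype σ] {M : ℝ} (hM : 0 ≤ M) (Q : MvPolynomial σ ℝ) :
    ∃ C : ℝ, 0 ≤ C ∧ (∀ p : σ → 𝓑, ‖p‖ ≤ M → ‖aeval p Q‖ ≤ C) ∧
      ∀ p q : σ → 𝓑, ‖p‖ ≤ M → ‖q‖ ≤ M → ‖aeval p Q - aeval q Q‖ ≤ C * ‖p - q‖ := by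
  induction Q using MvPolynomial.induction_on with
  | C a =>
    refine ⟨‖algebraMap ℝ 𝓑 a‖, norm_nonneg _, fun p _ => ?_, fun p q _ _ => ?_⟩
    · rw [aeval_C]
    · rw [aeval_C, aeval_C, sub_self, norm_zero]
      positivity
  | add P Q hP hQ =>
    obtain ⟨C1, h1, h2, h3⟩ := hP
    obtain ⟨C2, k1, k2, k3⟩ := hQ
    refine ⟨C1 + C2, by positivity, fun p hp => ?_, fun p q hp hq => ?_⟩
    · rw [map_add]
      exact (norm_add_le _ _).trans (add_le_add (h2 p hp) (k2 p hp))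
    · rw [map_add, map_add, add_sub_add_comm, add_mul]
      exact (norm_add_le _ _).trans (add_le_add (h3 p q hp hq) (k3 p q hp hq))
  | mul_X P i hP =>
    obtain ⟨C1, h1, h2, h3⟩ := hP
    refine ⟨C1 * M + C1, by positivity, fun p hp => ?_, fun p q hp hq => ?_⟩
    · rw [map_mul, aeval_X]
      have e1 : ‖p i‖ ≤ M := (norm_le_pi_norm p i).trans hp
      calc ‖aeval p P * p i‖ ≤ ‖aeval p P‖ * ‖p i‖ := norm_mul_le _ _
        _ ≤ C1 * M := mul_le_mul (h2 p hp) e1 (norm_nonneg _) h1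
        _ ≤ C1 * M + C1 := by linarith only [h1]
    · rw [map_mul, map_mul, aeval_X, aeval_X]
      have e1 : ‖p i‖ ≤ M := (norm_le_pi_norm p i).trans hp
      have e2 : ‖p i - q i‖ ≤ ‖p - q‖ := norm_le_pi_norm (p - q) i
      have e3 : aeval p P * p i - aeval q P * q i =
          (aeval p P - aeval q P) * p i + aeval q P * (p i - q i) := by ring
      rw [e3]
      calc ‖(aeval p P - aeval q P) * p i + aeval q P * (p i - q i)‖
          ≤ ‖aeval p P - aeval q P‖ * ‖p i‖ + ‖aeval q P‖ * ‖p i - q i‖ :=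
            (norm_add_le _ _).trans (add_le_add (norm_mul_le _ _) (norm_mul_le _ _))
        _ ≤ (C1 * ‖p - q‖) * M + C1 * ‖p - q‖ :=
            add_le_add (mul_le_mul (h3 p q hp hq) e1 (norm_nonneg _) (by positivity))
              (mul_le_mul (h2 q hq) e2 (norm_nonneg _) h1)
        _ = (C1 * M + C1) * ‖p - q‖ := by ring

/-- the estimate for polynomials without constant term whose only linear term is `X t` -/
def Qd {σ : Type} [Fintype σ] (𝓑 : Type) [NormedCommRing 𝓑] [NormedAlgebra ℝ 𝓑] (M : ℝ) (t : σ)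
    (P : MvPolynomial σ ℝ) : Prop :=
  ∃ C : ℝ, 0 ≤ C ∧ ∀ p q : σ → 𝓑, ‖p‖ ≤ M → ‖q‖ ≤ M →
    ‖aeval p P - aeval q P‖ ≤ C * (‖p‖ + ‖q‖) * ‖p - q‖ + C * ‖p t - q t‖

theorem Qd_XX {σ : Type} [Fintype σ] {M : ℝ} (hM : 0 ≤ M) (t i j : σ) (Q : MvPolynomial σ ℝ) :
    Qd 𝓑 M t (X i * (X j * Q)) := by
  obtain ⟨C, h1, h2, h3⟩ := bd_lip (𝓑 := 𝓑) hM Q
  refine ⟨C + C * M, by positivity, fun p q hp hq => ?_⟩
  rw [map_mul, map_mul, map_mul, map_mul, aeval_X, aeval_X, aeval_X, aeval_X]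
  have a1 : ‖p i - q i‖ ≤ ‖p - q‖ := norm_le_pi_norm (p - q) i
  have a2 : ‖p j - q j‖ ≤ ‖p - q‖ := norm_le_pi_norm (p - q) j
  have a3 : ‖p j‖ ≤ ‖p‖ := norm_le_pi_norm p j
  have a4 : ‖q i‖ ≤ ‖q‖ := norm_le_pi_norm q i
  have a5 : ‖q j‖ ≤ M := (norm_le_pi_norm q j).trans hq
  have b1 := h2 p hp
  have b2 := h3 p q hp hq
  have e : p i * (p j * aeval p Q) - q i * (q j * aeval q Q) =
      (p i - q i) * (p j * aeval p Q) + (q i * ((p j - q j) * aeval p Q) +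
        q i * (q j * (aeval p Q - aeval q Q))) := by ring
  rw [e]
  have c1 : ‖(p i - q i) * (p j * aeval p Q)‖ ≤ ‖p - q‖ * (‖p‖ * C) :=
    (norm_mul_le _ _).trans (mul_le_mul a1 ((norm_mul_le _ _).trans
      (mul_le_mul a3 b1 (norm_nonneg _) (norm_nonneg _))) (norm_nonneg _) (norm_nonneg _))
  have c2 : ‖q i * ((p j - q j) * aeval p Q)‖ ≤ ‖q‖ * (‖p - q‖ * C) :=
    (norm_mul_le _ _).trans (mul_le_mul a4 ((norm_mul_le _ _).trans
      (mul_le_mul a2 b1 (norm_nonneg _) (norm_nonneg _))) (norm_nonneg _) (norm_nonneg _))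
  have c3 : ‖q i * (q j * (aeval p Q - aeval q Q))‖ ≤ ‖q‖ * (M * (C * ‖p - q‖)) :=
    (norm_mul_le _ _).trans (mul_le_mul a4 ((norm_mul_le _ _).trans
      (mul_le_mul a5 b2 (norm_nonneg _) hM)) (norm_nonneg _) (norm_nonneg _))
  have c4 : 0 ≤ (C + C * M) * ‖p t - q t‖ := by (clear * - hM h1; positivity)
  have c5 : 0 ≤ C * M * ‖p‖ * ‖p - q‖ := by (clear * - hM h1; positivity)
  calc ‖(p i - q i) * (p j * aeval p Q) + (q i * ((p j - q j) * aeval p Q) +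
        q i * (q j * (aeval p Q - aeval q Q)))‖
      ≤ ‖p - q‖ * (‖p‖ * C) + (‖q‖ * (‖p - q‖ * C) + ‖q‖ * (M * (C * ‖p - q‖))) :=
        (norm_add_le _ _).trans (add_le_add c1 ((norm_add_le _ _).trans (add_le_add c2 c3)))
    _ ≤ (C + C * M) * (‖p‖ + ‖q‖) * ‖p - q‖ + (C + C * M) * ‖p t - q t‖ := by
        linarith only [c4, c5]

theorem Qd_add {σ : Type} [Fintype σ] {M : ℝ} {t : σ} {P Q : MvPolynomial σ ℝ}
    (hP : Qd 𝓑 M t P) (hQ : Qd 𝓑 M t Q) : Qd 𝓑 M t (P + Q) := by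
  obtain ⟨C1, h1, h2⟩ := hP
  obtain ⟨C2, k1, k2⟩ := hQ
  refine ⟨C1 + C2, by positivity, fun p q hp hq => ?_⟩
  rw [map_add, map_add, add_sub_add_comm]
  have := (norm_add_le (aeval p P - aeval q P) (aeval p Q - aeval q Q)).trans
    (add_le_add (h2 p q hp hq) (k2 p q hp hq))
  linarith only [this]

theorem Qd_of {σ : Type} [Fintype σ] [DecidableEq σ] {M : ℝ} (hM : 0 ≤ M) {t : σ}
    {P : MvPolynomial σ ℝ} (h0 : coeff 0 P = 0)
    (h1 : ∀ j, j ≠ t → coeff (Finsupp.single j 1) P = 0) : Qd 𝓑 M t P := by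
  have hm : ∀ m ∈ P.support, Qd 𝓑 M t (monomial m (coeff m P)) := by
    intro m hm
    have hmc : coeff m P ≠ 0 := mem_support_iff.mp hm
    have hm0 : m ≠ 0 := by
      rintro rfl
      exact hmc h0
    obtain ⟨i, hi⟩ : ∃ i, m i ≠ 0 := by
      by_contra hcon
      push Not at hcon
      exact hm0 (Finsupp.ext hcon)
    set m1 := m - Finsupp.single i 1 with hm1
    have e1 : m = Finsupp.single i 1 + m1 := by
      rw [hm1, add_comm, tsub_add_cancel_of_le]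
      rw [Finsupp.single_le_iff]
      omega
    by_cases hz : m1 = 0
    · -- linear
      have e2 : m = Finsupp.single i 1 := by rw [e1, hz, add_zero]
      have hit : i = t := by
        by_contra hne
        exact hmc (by rw [e2]; exact h1 i hne)
      subst hit
      refine ⟨|coeff m P|, abs_nonneg _, fun p q _ _ => ?_⟩
      have e3 : monomial m (coeff m P) = C (coeff m P) * (X i : MvPolynomial σ ℝ) := by
        conv_lhs => rw [e2]
        rw [e2, C_mul_X_eq_monomial]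
      rw [e3, map_mul, map_mul, aeval_C, aeval_C, aeval_X, aeval_X, ← mul_sub,
        ← Algebra.smul_def, norm_smul, Real.norm_eq_abs]
      have : 0 ≤ |coeff m P| * (‖p‖ + ‖q‖) * ‖p - q‖ := by (clear * - hmc; positivity)
      linarith only [this]
    · obtain ⟨j, hj⟩ : ∃ j, m1 j ≠ 0 := by
        by_contra hcon
        push Not at hcon
        exact hz (Finsupp.ext hcon)
      set m2 := m1 - Finsupp.single j 1 with hm2
      have e2 : m1 = Finsupp.single j 1 + m2 := by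
        rw [hm2, add_comm, tsub_add_cancel_of_le]
        rw [Finsupp.single_le_iff]
        omega
      have e3 : monomial m (coeff m P) =
          (X i : MvPolynomial σ ℝ) * (X j * monomial m2 (coeff m P)) := by
        generalize coeff m P = a
        rw [e1, e2, X, X, monomial_mul, monomial_mul, one_mul, one_mul]
      rw [e3]
      exact Qd_XX hM t i j _
  have h : P = ∑ m ∈ P.support, monomial m (coeff m P) := (support_sum_monomial_coeff P).symm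
  have hz : Qd 𝓑 M t 0 := ⟨0, le_rfl, fun p q _ _ => by simp⟩
  rw [h]
  exact Finset.sum_induction _ (Qd 𝓑 M t) (fun a b ha hb => Qd_add ha hb) hz hm

end poly

section sol

variable {𝓑 : Type} [NormedCommRing 𝓑] [NormedAlgebra ℝ 𝓑] {c : ℕ}

/-- the nonlinear operator -/
noncomputable def Rop (H : 𝓑 →L[ℝ] 𝓑) (r : Fin c → MvPolynomial ((Fin c ⊕ Fin c) ⊕ Unit) ℝ)
    (x : Fin c → 𝓑) (s : 𝓑) : Fin c → 𝓑 :=
  fun i => MvPolynomial.aeval (pt x (fun j => H (x j)) s) (r i)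

theorem pt_norm_le (H : 𝓑 →L[ℝ] 𝓑) (x : Fin c → 𝓑) (s : 𝓑) :
    ‖pt x (fun j => H (x j)) s‖ ≤ (1 + ‖H‖) * ‖x‖ + ‖s‖ := by
  have h0 : 0 ≤ (1 + ‖H‖) * ‖x‖ + ‖s‖ := by positivity
  rw [pi_norm_le_iff_of_nonneg h0]
  rintro ((j | j) | u)
  · show ‖x j‖ ≤ _
    have h1 := norm_le_pi_norm x j
    have h2 : 0 ≤ ‖H‖ * ‖x‖ + ‖s‖ := by positivity
    linarith only [h1, h2]
  · show ‖H (x j)‖ ≤ _
    have h1 := norm_le_pi_norm x j
    have h2 : ‖H (x j)‖ ≤ ‖H‖ * ‖x‖ :=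
      (H.le_opNorm _).trans (mul_le_mul_of_nonneg_left h1 (norm_nonneg _))
    have h3 : 0 ≤ ‖x‖ + ‖s‖ := by positivity
    linarith only [h2, h3]
  · show ‖s‖ ≤ _
    have h3 : 0 ≤ (1 + ‖H‖) * ‖x‖ := by positivity
    linarith only [h3]

theorem pt_sub (H : 𝓑 →L[ℝ] 𝓑) (x x' : Fin c → 𝓑) (s s' : 𝓑) :
    pt x (fun j => H (x j)) s - pt x' (fun j => H (x' j)) s' =
      pt (x - x') (fun j => H ((x - x') j)) (s - s') := by
  funext a
  rcases a with (j | j) | u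
  · rfl
  · show H (x j) - H (x' j) = H ((x - x') j)
    rw [Pi.sub_apply, map_sub]
  · rfl

/-- the hypotheses on the polynomials -/
def Adm (r : Fin c → MvPolynomial ((Fin c ⊕ Fin c) ⊕ Unit) ℝ) : Prop :=
  (∀ i, MvPolynomial.coeff 0 (r i) = 0) ∧
    ∀ i j, MvPolynomial.coeff (Finsupp.single (Sum.inl j) 1) (r i) = 0

/-- the basic estimate -/
def Est (H : 𝓑 →L[ℝ] 𝓑) (r : Fin c → MvPolynomial ((Fin c ⊕ Fin c) ⊕ Unit) ℝ) (A : ℝ) : Prop :=
  ∀ x x' : Fin c → 𝓑, ∀ s s' : 𝓑, ‖x‖ ≤ 1 → ‖x'‖ ≤ 1 → ‖s‖ ≤ 1 → ‖s'‖ ≤ 1 →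
    ‖Rop H r x s - Rop H r x' s'‖ ≤ A * (‖x‖ + ‖x'‖ + ‖s‖ + ‖s'‖) * ‖x - x'‖ + A * ‖s - s'‖

theorem exists_est_aux {S h N a b : ℝ} (k3 : S * h * N * b ≤ S * h * 4 * b)
    (k4 : 0 ≤ (S * (4 * h + 1) + 1) * (N * a)) (k5 : 0 ≤ (S * h ^ 2 + 1) * b) :
    S * (h * N) * (h * a + b) + S * b ≤
      (S * (h ^ 2 + 4 * h + 1) + 1) * N * a + (S * (h ^ 2 + 4 * h + 1) + 1) * b := by
  have e : (S * (h ^ 2 + 4 * h + 1) + 1) * N * a + (S * (h ^ 2 + 4 * h + 1) + 1) * b =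
      S * (h * N) * (h * a + b) + S * b + (S * (4 * h + 1) + 1) * (N * a) +
        (S * h ^ 2 + 1) * b + (S * h * 4 * b - S * h * N * b) := by ring
  rw [e]
  linarith only [k3, k4, k5]

theorem exists_est (H : 𝓑 →L[ℝ] 𝓑) {r : Fin c → MvPolynomial ((Fin c ⊕ Fin c) ⊕ Unit) ℝ}
    (hr : Adm r) : ∃ A : ℝ, 0 < A ∧ Est H r A := by
  classical
  set h : ℝ := 1 + ‖H‖ with hh
  have hh1 : 1 ≤ h := by
    have := norm_nonneg H
    linarith only [this]
  have hQ : ∀ i, Qd 𝓑 (h + 1) (Sum.inr ()) (r i) := by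
    intro i
    apply Qd_of (by linarith only [hh1]) (hr.1 i)
    rintro (j | u) hj
    · exact hr.2 i j
    · exact absurd rfl hj
  choose C hC0 hC using hQ
  set S : ℝ := ∑ i, C i with hS
  have hS0 : 0 ≤ S := Finset.sum_nonneg fun i _ => hC0 i
  have hCS : ∀ i, C i ≤ S := fun i =>
    Finset.single_le_sum (fun j _ => hC0 j) (Finset.mem_univ i)
  have h0' : 0 ≤ h := zero_le_one.trans hh1
  have hB0 : 0 < S * (h ^ 2 + 4 * h + 1) + 1 := by positivity
  have hB4 : 0 ≤ S * (4 * h + 1) + 1 := by positivity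
  have hB5 : 0 ≤ S * h ^ 2 + 1 := by positivity
  refine ⟨S * (h ^ 2 + 4 * h + 1) + 1, hB0, ?_⟩
  intro x x' s s' hx hx' hs hs'
  have hp := pt_norm_le H x s
  have hq := pt_norm_le H x' s'
  rw [← hh] at hp hq
  have hd := pt_norm_le H (x - x') (s - s')
  rw [← pt_sub, ← hh] at hd
  set p := pt x (fun j => H (x j)) s with hpdef
  set q := pt x' (fun j => H (x' j)) s' with hqdef
  have hpM : ‖p‖ ≤ h + 1 :=
    hp.trans (add_le_add ((mul_le_mul_of_nonneg_left hx h0').trans_eq (mul_one h)) hs)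
  have hqM : ‖q‖ ≤ h + 1 :=
    hq.trans (add_le_add ((mul_le_mul_of_nonneg_left hx' h0').trans_eq (mul_one h)) hs')
  have n1 := norm_nonneg x
  have n2 := norm_nonneg x'
  have n3 := norm_nonneg s
  have n4 := norm_nonneg s'
  have n5 := norm_nonneg (x - x')
  have n6 := norm_nonneg (s - s')
  set N := ‖x‖ + ‖x'‖ + ‖s‖ + ‖s'‖ with hN
  have hN0 : 0 ≤ N := add_nonneg (add_nonneg (add_nonneg n1 n2) n3) n4
  have hN4 : N ≤ 4 := by rw [hN]; linarith only [hx, hx', hs, hs']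
  have hpq : ‖p‖ + ‖q‖ ≤ h * N := by
    have a1 : ‖s‖ ≤ h * ‖s‖ := le_mul_of_one_le_left n3 hh1
    have a2 : ‖s'‖ ≤ h * ‖s'‖ := le_mul_of_one_le_left n4 hh1
    have a3 : h * N = h * ‖x‖ + h * ‖x'‖ + h * ‖s‖ + h * ‖s'‖ := by
      rw [hN, mul_add, mul_add, mul_add]
    linarith only [hp, hq, a1, a2, a3]
  have hrhs : 0 ≤ (S * (h ^ 2 + 4 * h + 1) + 1) * N * ‖x - x'‖ +
      (S * (h ^ 2 + 4 * h + 1) + 1) * ‖s - s'‖ :=
    add_nonneg (mul_nonneg (mul_nonneg hB0.le hN0) n5) (mul_nonneg hB0.le n6)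
  rw [pi_norm_le_iff_of_nonneg hrhs]
  intro i
  have key := hC i p q hpM hqM
  have e1 : ‖p (Sum.inr ()) - q (Sum.inr ())‖ = ‖s - s'‖ := rfl
  rw [e1] at key
  have k1 : C i * (‖p‖ + ‖q‖) * ‖p - q‖ ≤ S * (h * N) * (h * ‖x - x'‖ + ‖s - s'‖) :=
    mul_le_mul (mul_le_mul (hCS i) hpq (add_nonneg (norm_nonneg _) (norm_nonneg _)) hS0) hd
      (norm_nonneg _) (mul_nonneg hS0 (mul_nonneg h0' hN0))
  have k2 : C i * ‖s - s'‖ ≤ S * ‖s - s'‖ := mul_le_mul_of_nonneg_right (hCS i) n6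
  have k3 : S * h * N * ‖s - s'‖ ≤ S * h * 4 * ‖s - s'‖ := by
    apply mul_le_mul_of_nonneg_right _ n6
    exact mul_le_mul_of_nonneg_left hN4 (mul_nonneg hS0 h0')
  have k4 : 0 ≤ (S * (4 * h + 1) + 1) * (N * ‖x - x'‖) := mul_nonneg hB4 (mul_nonneg hN0 n5)
  have k5 : 0 ≤ (S * h ^ 2 + 1) * ‖s - s'‖ := mul_nonneg hB5 n6
  show ‖MvPolynomial.aeval p (r i) - MvPolynomial.aeval q (r i)‖ ≤ _
  calc ‖MvPolynomial.aeval p (r i) - MvPolynomial.aeval q (r i)‖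
      ≤ C i * (‖p‖ + ‖q‖) * ‖p - q‖ + C i * ‖s - s'‖ := key
    _ ≤ S * (h * N) * (h * ‖x - x'‖ + ‖s - s'‖) + S * ‖s - s'‖ := add_le_add k1 k2
    _ ≤ (S * (h ^ 2 + 4 * h + 1) + 1) * N * ‖x - x'‖ +
      (S * (h ^ 2 + 4 * h + 1) + 1) * ‖s - s'‖ := exists_est_aux k3 k4 k5

theorem Rop_zero (H : 𝓑 →L[ℝ] 𝓑) {r : Fin c → MvPolynomial ((Fin c ⊕ Fin c) ⊕ Unit) ℝ}
    (hr : Adm r) : Rop H r 0 0 = 0 := by
  funext i
  show MvPolynomial.aeval (pt (0 : Fin c → 𝓑) (fun j => H ((0 : Fin c → 𝓑) j)) 0) (r i) = 0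
  have e : pt (0 : Fin c → 𝓑) (fun j => H ((0 : Fin c → 𝓑) j)) 0 = 0 := by
    funext a
    rcases a with (j | j) | u
    · rfl
    · show H 0 = 0
      exact map_zero H
    · rfl
  rw [e, MvPolynomial.aeval_zero, MvPolynomial.constantCoeff_eq, hr.1 i, map_zero]

theorem exists_fix {E : Type} [NormedAddCommGroup E] [CompleteSpace E] (T : E → E) {ρ : ℝ}
    (hρ : 0 ≤ ρ) (h0 : ‖T 0‖ ≤ ρ / 2)
    (hT : ∀ x y, ‖x‖ ≤ ρ → ‖y‖ ≤ ρ → ‖T x - T y‖ ≤ 1 / 2 * ‖x - y‖) :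
    ∃ x, ‖x‖ ≤ ρ ∧ T x = x := by
  have hmaps : MapsTo T (closedBall 0 ρ) (closedBall 0 ρ) := by
    intro x hx
    rw [mem_closedBall_zero_iff] at hx ⊢
    have h1 := hT x 0 hx (by rw [norm_zero]; exact hρ)
    rw [sub_zero] at h1
    have h2 : ‖T x‖ ≤ ‖T x - T 0‖ + ‖T 0‖ := by
      have := norm_add_le (T x - T 0) (T 0)
      rwa [sub_add_cancel] at this
    linarith only [h0, hx, h1, h2]
  have hcontr : ContractingWith (1 / 2) (hmaps.restrict T (closedBall 0 ρ) (closedBall 0 ρ)) := by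
    refine ⟨?_, LipschitzWith.of_dist_le_mul fun x y => ?_⟩
    · rw [← NNReal.coe_lt_coe]
      norm_num
    · have hx := mem_closedBall_zero_iff.mp x.2
      have hy := mem_closedBall_zero_iff.mp y.2
      have h1 := hT x.1 y.1 hx hy
      rw [Subtype.dist_eq, Subtype.dist_eq, dist_eq_norm, dist_eq_norm]
      simpa using h1
  have hc : IsComplete (closedBall (0 : E) ρ) := isClosed_closedBall.isComplete
  obtain ⟨x, hx, hfx, _⟩ := hcontr.exists_fixedPoint' hc hmaps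
    (mem_closedBall_self hρ) (edist_ne_top _ _)
  exact ⟨x, mem_closedBall_zero_iff.mp hx, hfx⟩

/-- the radius in which the equation is solved -/
noncomputable def rho (A : ℝ) : ℝ := 1 / (8 * A + 8)

theorem rho_pos {A : ℝ} (hA : 0 < A) : 0 < rho A := by
  unfold rho
  positivity

theorem rho_le {A : ℝ} (hA : 0 < A) : rho A ≤ 1 := by
  unfold rho
  rw [div_le_one (by positivity)]
  linarith only [hA]

theorem A_rho {A : ℝ} (hA : 0 < A) : A * (4 * rho A) ≤ 1 / 2 := by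
  unfold rho
  have h : 0 < 8 * A + 8 := by positivity
  rw [mul_one_div, ← mul_div_assoc, div_le_div_iff₀ h (by norm_num)]
  linarith only

theorem exists_sol [CompleteSpace 𝓑] {H : 𝓑 →L[ℝ] 𝓑}
    {r : Fin c → MvPolynomial ((Fin c ⊕ Fin c) ⊕ Unit) ℝ}
    (hr : Adm r) {A : ℝ} (hA : 0 < A) (hE : Est H r A) (s : 𝓑) (b : Fin c → 𝓑)
    (hs : ‖s‖ ≤ rho A) (hs' : A * ‖s‖ ≤ rho A / 4) (hb : ‖b‖ ≤ rho A / 4) :
    ∃ x, ‖x‖ ≤ rho A ∧ x + Rop H r x s = b := by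
  have hρ := rho_pos hA
  have hρ1 := rho_le hA
  have hAρ := A_rho hA
  obtain ⟨x, hx, hfx⟩ := exists_fix (fun x => b - Rop H r x s) (ρ := rho A) hρ.le
    (by
      have h1 := hE 0 0 s 0 (by rw [norm_zero]; exact zero_le_one)
        (by rw [norm_zero]; exact zero_le_one) (hs.trans hρ1) (by rw [norm_zero]; exact zero_le_one)
      rw [Rop_zero H hr, sub_zero, sub_zero, sub_zero, norm_zero, mul_zero, zero_add] at h1
      have h2 := norm_sub_le b (Rop H r 0 s)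
      show ‖b - Rop H r 0 s‖ ≤ rho A / 2
      linarith only [hs', hb, h1, h2])
    (by
      intro x y hx hy
      have h1 := hE y x s s (hy.trans hρ1) (hx.trans hρ1) (hs.trans hρ1) (hs.trans hρ1)
      rw [sub_self, norm_zero, mul_zero, add_zero] at h1
      have e1 : b - Rop H r x s - (b - Rop H r y s) = Rop H r y s - Rop H r x s := by abel
      show ‖b - Rop H r x s - (b - Rop H r y s)‖ ≤ _
      rw [e1]
      refine h1.trans ?_
      rw [norm_sub_rev y x]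
      apply mul_le_mul_of_nonneg_right _ (norm_nonneg _)
      refine le_trans ?_ hAρ
      apply mul_le_mul_of_nonneg_left _ hA.le
      linarith only [hs, hx, hy])
  have h2 : b - Rop H r x s = x := hfx
  exact ⟨x, hx, (sub_eq_iff_eq_add.mp h2).symm⟩

theorem stab0 {H : 𝓑 →L[ℝ] 𝓑} {r : Fin c → MvPolynomial ((Fin c ⊕ Fin c) ⊕ Unit) ℝ}
    {A : ℝ} (hA : 0 < A) (hE : Est H r A) {x x' : Fin c → 𝓑} {s s' : 𝓑} {b b' : Fin c → 𝓑}
    (hx : ‖x‖ ≤ rho A) (hx' : ‖x'‖ ≤ rho A) (hs : ‖s‖ ≤ rho A) (hs' : ‖s'‖ ≤ rho A)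
    (e : x + Rop H r x s = b) (e' : x' + Rop H r x' s' = b') :
    ‖(x - x') - (b - b')‖ ≤ A * (‖x‖ + ‖x'‖ + ‖s‖ + ‖s'‖) * ‖x - x'‖ + A * ‖s - s'‖ := by
  have hρ1 := rho_le hA
  have h1 := hE x x' s s' (hx.trans hρ1) (hx'.trans hρ1) (hs.trans hρ1) (hs'.trans hρ1)
  have e1 : (x - x') - (b - b') = -(Rop H r x s - Rop H r x' s') := by
    rw [← e, ← e']
    abel
  rw [e1, norm_neg]
  exact h1

theorem stab {H : 𝓑 →L[ℝ] 𝓑} {r : Fin c → MvPolynomial ((Fin c ⊕ Fin c) ⊕ Unit) ℝ}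
    {A : ℝ} (hA : 0 < A) (hE : Est H r A) {x x' : Fin c → 𝓑} {s s' : 𝓑} {b b' : Fin c → 𝓑}
    (hx : ‖x‖ ≤ rho A) (hx' : ‖x'‖ ≤ rho A) (hs : ‖s‖ ≤ rho A) (hs' : ‖s'‖ ≤ rho A)
    (e : x + Rop H r x s = b) (e' : x' + Rop H r x' s' = b') :
    ‖x - x'‖ ≤ 2 * ‖b - b'‖ + 2 * A * ‖s - s'‖ := by
  have h1 := stab0 hA hE hx hx' hs hs' e e'
  have hAρ := A_rho hA
  have h2 : A * (‖x‖ + ‖x'‖ + ‖s‖ + ‖s'‖) ≤ 1 / 2 := by
    refine le_trans ?_ hAρ
    apply mul_le_mul_of_nonneg_left _ hA.le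
    linarith only [hx, hx', hs, hs']
  have h3 : A * (‖x‖ + ‖x'‖ + ‖s‖ + ‖s'‖) * ‖x - x'‖ ≤ 1 / 2 * ‖x - x'‖ :=
    mul_le_mul_of_nonneg_right h2 (norm_nonneg _)
  have h4 : ‖x - x'‖ ≤ ‖(x - x') - (b - b')‖ + ‖b - b'‖ := by
    have := norm_add_le ((x - x') - (b - b')) (b - b')
    rwa [sub_add_cancel] at this
  linarith only [h1, h3, h4]

end sol

section disc

variable {𝓐 : Type} [NormedCommRing 𝓐] [NormedAlgebra ℂ 𝓐] (CA : CircAlg 𝓐)

/-- conjugation as a homomorphism of real algebras -/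
noncomputable def stH : 𝓐 →ₐ[ℝ] 𝓐 := AlgHom.ofLinearMap CA.st.toLinearMap CA.st_one CA.st_mul

/-- evaluation as a homomorphism of real algebras -/
noncomputable def evH {ζ : ℂ} (hζ : ‖ζ‖ = 1) : 𝓐 →ₐ[ℝ] ℂ :=
  AlgHom.ofLinearMap ((CA.ev ζ).restrictScalars ℝ).toLinearMap (CA.ev_one ζ hζ) (CA.ev_mul ζ hζ)

theorem stH_apply (a : 𝓐) : stH CA a = CA.st a := rfl

theorem evH_apply {ζ : ℂ} (hζ : ‖ζ‖ = 1) (a : 𝓐) : evH CA hζ a = CA.ev ζ a := rfl

/-- the conjugation operator as a real linear operator -/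
noncomputable def HR : 𝓐 →L[ℝ] 𝓐 := CA.Hil.restrictScalars ℝ

theorem HR_apply (a : 𝓐) : HR CA a = CA.Hil a := rfl

/-- the function `|1 - ζ|^2 / 4` -/
noncomputable def uu : 𝓐 := (1 / 4 : ℂ) • (2 - CA.z - CA.zi)

/-- the parameter -/
noncomputable def Sp (s0 l : ℝ) : 𝓐 := s0 • ((1 - l) • (1 : 𝓐) + l • uu CA)

theorem st_uu : CA.st (uu CA) = uu CA := by
  unfold uu
  have h1 : CA.st CA.zi = CA.z := by rw [← CA.st_z, CA.st_st]
  have h2 : CA.st (2 : 𝓐) = 2 := by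
    have := map_ofNat (stH CA) 2
    exact this
  rw [CA.st_smul, map_sub, map_sub, h1, CA.st_z, h2]
  have h3 : (starRingEnd ℂ) (1 / 4 : ℂ) = 1 / 4 := by
    rw [map_div₀, map_one]
    congr 1
    exact map_ofNat _ 4
  rw [h3, sub_right_comm]

theorem st_Sp (s0 l : ℝ) : CA.st (Sp CA s0 l) = Sp CA s0 l := by
  unfold Sp
  rw [map_smul, map_add, map_smul, map_smul, CA.st_one, st_uu]

theorem ev_uu {ζ : ℂ} (hζ : ‖ζ‖ = 1) : CA.ev ζ (uu CA) = ((‖1 - ζ‖ ^ 2 / 4 : ℝ) : ℂ) := by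
  unfold uu
  have h2 : CA.ev ζ (2 : 𝓐) = 2 := by
    have := map_ofNat (evH CA hζ) 2
    exact this
  rw [map_smul, map_sub, map_sub, h2, CA.ev_z ζ hζ, CA.ev_zi ζ hζ, Complex.inv_eq_conj hζ]
  have h3 : ((‖1 - ζ‖ ^ 2 : ℝ) : ℂ) = (starRingEnd ℂ) (1 - ζ) * (1 - ζ) := by
    rw [Complex.conj_mul']
    push_cast
    rfl
  have h4 : (starRingEnd ℂ) ζ * ζ = 1 := by
    rw [Complex.conj_mul', hζ]
    norm_num
  push_cast at h3 ⊢
  rw [h3, map_sub, map_one, smul_eq_mul]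
  linear_combination (-1 / 4) * h4

theorem ev_Sp {ζ : ℂ} (hζ : ‖ζ‖ = 1) (s0 l : ℝ) : CA.ev ζ (Sp CA s0 l) = ((sl s0 l ζ : ℝ) : ℂ) := by
  rw [← evH_apply CA hζ]
  unfold Sp sl
  rw [map_smul, map_add, map_smul, map_smul, map_one, evH_apply, ev_uu CA hζ]
  simp only [Complex.real_smul]
  push_cast
  ring

theorem stH_Rop {c : ℕ} (r : Fin c → MvPolynomial ((Fin c ⊕ Fin c) ⊕ Unit) ℝ) (x : Fin c → 𝓐)
    (s : 𝓐) (i : Fin c) :
    CA.st (Rop (HR CA) r x s i) = Rop (HR CA) r (fun j => CA.st (x j)) (CA.st s) i := by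
  rw [← stH_apply]
  unfold Rop
  have h := congrArg (fun f => f (r i))
    (MvPolynomial.comp_aeval (stH CA) (f := pt x (fun j => HR CA (x j)) s))
  rw [show stH CA (MvPolynomial.aeval (pt x (fun j => HR CA (x j)) s) (r i)) =
    ((stH CA).comp (MvPolynomial.aeval (pt x (fun j => HR CA (x j)) s))) (r i) from rfl]
  refine h.trans ?_
  congr 2
  funext a
  rcases a with (j | j) | u
  · rfl
  · exact CA.st_Hil (x j)
  · rfl

theorem evH_Rop {c : ℕ} (r : Fin c → MvPolynomial ((Fin c ⊕ Fin c) ⊕ Unit) ℝ) (x : Fin c → 𝓐)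
    (s : 𝓐) (i : Fin c) {ζ : ℂ} (hζ : ‖ζ‖ = 1) (ξ η : Fin c → ℝ) (t : ℝ)
    (hx : ∀ j, CA.ev ζ (x j) = ((ξ j : ℝ) : ℂ)) (hy : ∀ j, CA.ev ζ (CA.Hil (x j)) = ((η j : ℝ) : ℂ))
    (ht : CA.ev ζ s = ((t : ℝ) : ℂ)) :
    CA.ev ζ (Rop (HR CA) r x s i) = ((MvPolynomial.eval (pt ξ η t) (r i) : ℝ) : ℂ) := by
  rw [← evH_apply CA hζ]
  unfold Rop
  have h := congrArg (fun f => f (r i))
    (MvPolynomial.comp_aeval (evH CA hζ) (f := pt x (fun j => HR CA (x j)) s))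
  rw [show evH CA hζ (MvPolynomial.aeval (pt x (fun j => HR CA (x j)) s) (r i)) =
    ((evH CA hζ).comp (MvPolynomial.aeval (pt x (fun j => HR CA (x j)) s))) (r i) from rfl]
  refine h.trans ?_
  have h2 := MvPolynomial.aeval_algebraMap_apply (R := ℝ) (A := ℝ) ℂ (pt ξ η t) (r i)
  have h3 : MvPolynomial.aeval (pt ξ η t) (r i) = MvPolynomial.eval (pt ξ η t) (r i) := by
    rw [← MvPolynomial.coe_aeval_eq_eval]
    rfl
  rw [h3] at h2
  refine Eq.trans ?_ h2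
  congr 2
  funext a
  rcases a with (j | j) | u
  · exact hx j
  · exact hy j
  · exact ht

/-- the right hand side -/
noncomputable def bb {c : ℕ} (v : Fin c → ℝ) (s : 𝓐) (m : ℕ) : Fin c → 𝓐 := fun i => v i • s ^ m

theorem norm_Sp {s0 l : ℝ} (hs : 0 ≤ s0) (hl : l ∈ Icc (0 : ℝ) 1) :
    ‖Sp CA s0 l‖ ≤ s0 * (‖(1 : 𝓐)‖ + ‖uu CA‖) := by
  unfold Sp
  rw [norm_smul, Real.norm_eq_abs, abs_of_nonneg hs]
  apply mul_le_mul_of_nonneg_left _ hs
  refine (norm_add_le _ _).trans ?_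
  rw [norm_smul, norm_smul, Real.norm_eq_abs, Real.norm_eq_abs, abs_of_nonneg hl.1,
    abs_of_nonneg (sub_nonneg.mpr hl.2)]
  have h1 : (1 - l) * ‖(1 : 𝓐)‖ ≤ 1 * ‖(1 : 𝓐)‖ :=
    mul_le_mul_of_nonneg_right (by linarith only [hl.1]) (norm_nonneg _)
  have h2 : l * ‖uu CA‖ ≤ 1 * ‖uu CA‖ := mul_le_mul_of_nonneg_right hl.2 (norm_nonneg _)
  linarith only [h1, h2]

theorem norm_bb {c m : ℕ} (hm : 0 < m) {v : Fin c → ℝ} {κ e : ℝ} (hκ : 0 ≤ κ) (hv : ‖v‖ ≤ κ)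
    {s : 𝓐} (hs : ‖s‖ ≤ e) (he : e ≤ 1) : ‖bb v s m‖ ≤ κ * e := by
  have he0 : 0 ≤ e := (norm_nonneg s).trans hs
  rw [pi_norm_le_iff_of_nonneg (mul_nonneg hκ he0)]
  intro i
  show ‖v i • s ^ m‖ ≤ κ * e
  rw [norm_smul]
  have h1 : ‖v i‖ ≤ κ := (norm_le_pi_norm v i).trans hv
  have h2 : ‖s ^ m‖ ≤ e := by
    calc ‖s ^ m‖ ≤ ‖s‖ ^ m := norm_pow_le' s hm
      _ ≤ e ^ m := pow_le_pow_left₀ (norm_nonneg _) hs m
      _ ≤ e ^ 1 := pow_le_pow_of_le_one he0 he hm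
      _ = e := pow_one e
  exact mul_le_mul h1 h2 (norm_nonneg _) hκ

variable {CA}

theorem sol_real {c m : ℕ} {r : Fin c → MvPolynomial ((Fin c ⊕ Fin c) ⊕ Unit) ℝ}
    {A : ℝ} (hA : 0 < A) (hE : Est (HR CA) r A) {v : Fin c → ℝ} {s0 l : ℝ}
    {x : Fin c → 𝓐} (hx : ‖x‖ ≤ rho A) (hx' : ‖CA.st‖ * ‖x‖ ≤ rho A)
    (hs : ‖Sp CA s0 l‖ ≤ rho A)
    (e : x + Rop (HR CA) r x (Sp CA s0 l) = bb v (Sp CA s0 l) m) (i : Fin c) :
    CA.st (x i) = x i := by
  set x' : Fin c → 𝓐 := fun j => CA.st (x j) with hx'def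
  have hn : ‖x'‖ ≤ rho A := by
    refine le_trans ?_ hx'
    rw [pi_norm_le_iff_of_nonneg (by positivity)]
    intro j
    exact (CA.st.le_opNorm _).trans (mul_le_mul_of_nonneg_left (norm_le_pi_norm x j)
      (norm_nonneg _))
  have e' : x' + Rop (HR CA) r x' (Sp CA s0 l) = bb v (Sp CA s0 l) m := by
    funext j
    have h1 : x j + Rop (HR CA) r x (Sp CA s0 l) j = v j • Sp CA s0 l ^ m := congrFun e j
    have h2 := congrArg CA.st h1
    rw [map_add, stH_Rop, st_Sp, map_smul] at h2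
    have h3 : CA.st (Sp CA s0 l ^ m) = Sp CA s0 l ^ m := by
      have h4 := map_pow (stH CA) (Sp CA s0 l) m
      rw [stH_apply, stH_apply, st_Sp] at h4
      exact h4
    rw [h3] at h2
    exact h2
  have h5 := stab hA hE hx hn hs hs e e'
  rw [sub_self, sub_self, norm_zero, norm_zero, mul_zero, mul_zero, add_zero] at h5
  have h6 : x - x' = 0 := norm_le_zero_iff.mp h5
  exact (congrFun (sub_eq_zero.mp h6) i).symm

theorem ev_real {a : 𝓐} (ha : CA.st a = a) {ζ : ℂ} (hζ : ‖ζ‖ = 1) :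
    CA.ev ζ a = (((CA.ev ζ a).re : ℝ) : ℂ) := by
  have h := CA.ev_st ζ hζ a
  rw [ha] at h
  exact (Complex.conj_eq_iff_re.mp h.symm).symm

theorem Wf_re {a : 𝓐} (ha : CA.st a = a) {ζ : ℂ} (hζ : ‖ζ‖ = 1) :
    CA.ev ζ a = (((CA.Wf ζ a).re : ℝ) : ℂ) ∧ CA.ev ζ (CA.Hil a) = (((CA.Wf ζ a).im : ℝ) : ℂ) := by
  have h1 := ev_real ha hζ
  have ha' : CA.st (CA.Hil a) = CA.Hil a := by rw [CA.st_Hil, ha]
  have h2 := ev_real ha' hζ
  have h3 := CA.Wf_circle ζ hζ a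
  rw [h1, h2] at h3
  have h4 : (CA.Wf ζ a).re = (CA.ev ζ a).re := by
    rw [h3]
    simp
  have h5 : (CA.Wf ζ a).im = (CA.ev ζ (CA.Hil a)).re := by
    rw [h3]
    simp
  rw [h4, h5]
  exact ⟨h1, h2⟩

/-- the equation on the circle -/
theorem circle_eq {c m : ℕ} {r : Fin c → MvPolynomial ((Fin c ⊕ Fin c) ⊕ Unit) ℝ}
    {v : Fin c → ℝ} {s0 l : ℝ} {x : Fin c → 𝓐} (hst : ∀ i, CA.st (x i) = x i)
    (e : x + Rop (HR CA) r x (Sp CA s0 l) = bb v (Sp CA s0 l) m) {ζ : ℂ} (hζ : ‖ζ‖ = 1)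
    (i : Fin c) :
    (CA.Wf ζ (x i)).re + MvPolynomial.eval (pt (fun j => (CA.Wf ζ (x j)).re)
      (fun j => (CA.Wf ζ (x j)).im) (sl s0 l ζ)) (r i) = sl s0 l ζ ^ m * v i := by
  have h1 : x i + Rop (HR CA) r x (Sp CA s0 l) i = v i • Sp CA s0 l ^ m := congrFun e i
  have h2 := congrArg (CA.ev ζ) h1
  have h3 := evH_Rop CA r x (Sp CA s0 l) i hζ (fun j => (CA.Wf ζ (x j)).re)
    (fun j => (CA.Wf ζ (x j)).im) (sl s0 l ζ) (fun j => (Wf_re (hst j) hζ).1)
    (fun j => (Wf_re (hst j) hζ).2) (ev_Sp CA hζ s0 l)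
  have h4 : CA.ev ζ (v i • Sp CA s0 l ^ m) = ((sl s0 l ζ ^ m * v i : ℝ) : ℂ) := by
    rw [← evH_apply CA hζ, map_smul, map_pow, evH_apply, ev_Sp CA hζ, Complex.real_smul]
    push_cast
    ring
  rw [map_add, h3, h4, (Wf_re (hst i) hζ).1] at h2
  exact_mod_cast h2

theorem sl_one (s0 l : ℝ) : sl s0 l 1 = s0 * (1 - l) := by
  unfold sl
  simp

/-- the value at `1` -/
theorem Wf_at_one {a : 𝓐} (ha : CA.st a = a) :
    CA.Wf 1 a = (((CA.Wf 1 a).re : ℝ) : ℂ) ∧ (CA.Wf 1 a).im = 0 := by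
  have h1 := CA.Wf_circle 1 norm_one a
  rw [CA.ev_Hil a, mul_zero, add_zero] at h1
  have h2 := ev_real ha (ζ := 1) norm_one
  rw [← h1] at h2
  refine ⟨h2, ?_⟩
  rw [h2, Complex.ofReal_im]

theorem norm_at_one {c m : ℕ} (hm : 0 < m)
    {r : Fin c → MvPolynomial ((Fin c ⊕ Fin c) ⊕ Unit) ℝ} (hr : Adm r)
    {A' : ℝ} (hA' : 0 < A') (hE' : Est (0 : ℝ →L[ℝ] ℝ) r A')
    {v : Fin c → ℝ} {κ : ℝ} (hκ : 0 ≤ κ) (hv : ‖v‖ ≤ κ) {s0 l : ℝ} (hs0 : 0 ≤ s0)
    (hs1 : s0 ≤ rho A') (hl : l ∈ Icc (0 : ℝ) 1)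
    {x : Fin c → 𝓐} (hx : CA.K * ‖x‖ ≤ rho A') (hst : ∀ i, CA.st (x i) = x i)
    (e : x + Rop (HR CA) r x (Sp CA s0 l) = bb v (Sp CA s0 l) m) :
    ‖(fun i => CA.Wf 1 (x i))‖ ≤ (2 * κ + 2 * A') * (s0 * (1 - l)) := by
  have hK := CA.K_pos
  have h1l : 0 ≤ 1 - l := sub_nonneg.mpr hl.2
  have hsl0 : 0 ≤ s0 * (1 - l) := mul_nonneg hs0 h1l
  have hsl1 : s0 * (1 - l) ≤ s0 := by nlinarith only [hs0, hl.1]
  have hρ1 := rho_le hA'
  have hρ := rho_pos hA'
  set ξ : Fin c → ℝ := fun j => (CA.Wf 1 (x j)).re with hξ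
  have hW : ∀ j, CA.Wf 1 (x j) = ((ξ j : ℝ) : ℂ) := fun j => (Wf_at_one (hst j)).1
  have hξn : ‖ξ‖ ≤ rho A' := by
    refine le_trans ?_ hx
    rw [pi_norm_le_iff_of_nonneg (by (clear * - hK; positivity))]
    intro j
    have h1 := CA.Wf_bound 1 (by simp) (x j)
    rw [hW j, Complex.norm_real] at h1
    exact h1.trans (mul_le_mul_of_nonneg_left (norm_le_pi_norm x j) hK.le)
  have e1 : ξ + Rop (0 : ℝ →L[ℝ] ℝ) r ξ (s0 * (1 - l)) =
      fun i => (s0 * (1 - l)) ^ m * v i := by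
    funext i
    have h1 := circle_eq hst e (ζ := 1) norm_one i
    rw [sl_one] at h1
    have h2 : (fun j => (CA.Wf 1 (x j)).im) = fun _ => (0 : ℝ) := by
      funext j
      exact (Wf_at_one (hst j)).2
    rw [h2] at h1
    have h3 : Rop (0 : ℝ →L[ℝ] ℝ) r ξ (s0 * (1 - l)) i =
        MvPolynomial.eval (pt ξ (fun _ => (0 : ℝ)) (s0 * (1 - l))) (r i) := by
      unfold Rop
      rw [← MvPolynomial.coe_aeval_eq_eval]
      rfl
    show ξ i + Rop (0 : ℝ →L[ℝ] ℝ) r ξ (s0 * (1 - l)) i = _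
    rw [h3]
    exact h1
  have e2 : (0 : Fin c → ℝ) + Rop (0 : ℝ →L[ℝ] ℝ) r 0 0 = 0 := by
    rw [Rop_zero _ hr, add_zero]
  have h4 := stab hA' hE' hξn (by rw [norm_zero]; exact hρ.le)
    (by rw [Real.norm_eq_abs, abs_of_nonneg hsl0]; exact hsl1.trans hs1)
    (by rw [norm_zero]; exact hρ.le) e1 e2
  rw [sub_zero, sub_zero, sub_zero, Real.norm_eq_abs, abs_of_nonneg hsl0] at h4
  have h5 : ‖(fun i => (s0 * (1 - l)) ^ m * v i : Fin c → ℝ)‖ ≤ κ * (s0 * (1 - l)) := by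
    rw [pi_norm_le_iff_of_nonneg (by (clear * - hκ hs0 h1l; positivity))]
    intro i
    rw [norm_mul, Real.norm_eq_abs, abs_of_nonneg (pow_nonneg hsl0 m), mul_comm]
    have h6 : (s0 * (1 - l)) ^ m ≤ s0 * (1 - l) := by
      calc (s0 * (1 - l)) ^ m ≤ (s0 * (1 - l)) ^ 1 :=
            pow_le_pow_of_le_one hsl0 (hsl1.trans (hs1.trans hρ1)) hm
        _ = _ := pow_one _
    exact mul_le_mul ((norm_le_pi_norm v i).trans hv) h6 (pow_nonneg hsl0 m) hκ
  have h7 : ‖(fun i => CA.Wf 1 (x i))‖ ≤ ‖ξ‖ := by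
    rw [pi_norm_le_iff_of_nonneg (norm_nonneg _)]
    intro i
    rw [hW i, Complex.norm_real]
    exact norm_le_pi_norm ξ i
  linarith only [h4, h5, h7]

theorem Sp_zero (s0 : ℝ) : Sp CA s0 0 = algebraMap ℝ 𝓐 s0 := by
  unfold Sp
  rw [sub_zero, one_smul, zero_smul, add_zero, Algebra.algebraMap_eq_smul_one]

theorem Rop_const {c : ℕ} (r : Fin c → MvPolynomial ((Fin c ⊕ Fin c) ⊕ Unit) ℝ)
    (ξ : Fin c → ℝ) (t : ℝ) (i : Fin c) :
    Rop (HR CA) r (fun j => algebraMap ℝ 𝓐 (ξ j)) (algebraMap ℝ 𝓐 t) i =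
      algebraMap ℝ 𝓐 (Rop (0 : ℝ →L[ℝ] ℝ) r ξ t i) := by
  unfold Rop
  rw [← MvPolynomial.aeval_algebraMap_apply]
  congr 2
  funext a
  rcases a with (j | j) | u
  · rfl
  · show CA.Hil (algebraMap ℝ 𝓐 (ξ j)) = algebraMap ℝ 𝓐 ((0 : ℝ →L[ℝ] ℝ) (ξ j))
    have h1 : HR CA (algebraMap ℝ 𝓐 (ξ j)) = 0 := by
      rw [Algebra.algebraMap_eq_smul_one, map_smul, HR_apply, CA.Hil_one, smul_zero]
    rw [← HR_apply, h1]
    simp
  · rfl

/-- for `l = 0` the disc is constant -/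
theorem const_zero {c m : ℕ} (hm : 0 < m)
    {r : Fin c → MvPolynomial ((Fin c ⊕ Fin c) ⊕ Unit) ℝ} (hr : Adm r)
    {A A' : ℝ} (hA : 0 < A) (hE : Est (HR CA) r A)
    (hA' : 0 < A') (hE' : Est (0 : ℝ →L[ℝ] ℝ) r A')
    {v : Fin c → ℝ} {κ : ℝ} (hκ : 0 ≤ κ) (hv : ‖v‖ ≤ κ) {s0 : ℝ} (hs0 : 0 ≤ s0)
    (hs1 : s0 ≤ rho A') (hs2 : A' * s0 ≤ rho A' / 4) (hs3 : κ * s0 ≤ rho A' / 4)
    (hs4 : ‖(1 : 𝓐)‖ * ((2 * κ + 2 * A') * s0) ≤ rho A)
    (hs : ‖Sp CA s0 0‖ ≤ rho A)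
    {x : Fin c → 𝓐} (hx : ‖x‖ ≤ rho A)
    (e : x + Rop (HR CA) r x (Sp CA s0 0) = bb v (Sp CA s0 0) m) :
    ∀ ζ ∈ closedBall (0 : ℂ) 1, (fun i => CA.Wf ζ (x i)) = fun i => CA.Wf 1 (x i) := by
  have hρ1 := rho_le hA'
  have hρ := rho_pos hA'
  have hb : ‖(fun i => s0 ^ m * v i : Fin c → ℝ)‖ ≤ κ * s0 := by
    rw [pi_norm_le_iff_of_nonneg (by (clear * - hκ hs0; positivity))]
    intro i
    rw [norm_mul, Real.norm_eq_abs, abs_of_nonneg (pow_nonneg hs0 m), mul_comm]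
    have h6 : s0 ^ m ≤ s0 := by
      calc s0 ^ m ≤ s0 ^ 1 := pow_le_pow_of_le_one hs0 (hs1.trans hρ1) hm
        _ = _ := pow_one _
    exact mul_le_mul ((norm_le_pi_norm v i).trans hv) h6 (pow_nonneg hs0 m) hκ
  have hs0n : ‖s0‖ = s0 := by rw [Real.norm_eq_abs, abs_of_nonneg hs0]
  obtain ⟨ξ, hξ, eξ⟩ := exists_sol hr hA' hE' s0 (fun i => s0 ^ m * v i)
    (by rw [hs0n]; exact hs1) (by rw [hs0n]; exact hs2) (hb.trans hs3)
  have e2 : (0 : Fin c → ℝ) + Rop (0 : ℝ →L[ℝ] ℝ) r 0 0 = 0 := by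
    rw [Rop_zero _ hr, add_zero]
  have h4 := stab hA' hE' hξ (by rw [norm_zero]; exact hρ.le)
    (by rw [hs0n]; exact hs1) (by rw [norm_zero]; exact hρ.le) eξ e2
  rw [sub_zero, sub_zero, sub_zero, hs0n] at h4
  have hξn : ‖ξ‖ ≤ (2 * κ + 2 * A') * s0 := by linarith only [hb, h4]
  set x' : Fin c → 𝓐 := fun j => algebraMap ℝ 𝓐 (ξ j) with hx'def
  have hx' : ‖x'‖ ≤ rho A := by
    refine le_trans ?_ hs4
    rw [pi_norm_le_iff_of_nonneg (by (clear * - hA' hκ hs0; positivity))]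
    intro j
    show ‖algebraMap ℝ 𝓐 (ξ j)‖ ≤ _
    rw [Algebra.algebraMap_eq_smul_one, norm_smul, mul_comm]
    exact mul_le_mul_of_nonneg_left ((norm_le_pi_norm ξ j).trans hξn) (norm_nonneg _)
  have e' : x' + Rop (HR CA) r x' (Sp CA s0 0) = bb v (Sp CA s0 0) m := by
    funext j
    have h1 : ξ j + Rop (0 : ℝ →L[ℝ] ℝ) r ξ s0 j = s0 ^ m * v j := congrFun eξ j
    show algebraMap ℝ 𝓐 (ξ j) + Rop (HR CA) r x' (Sp CA s0 0) j = v j • Sp CA s0 0 ^ m
    rw [Sp_zero, Rop_const, ← map_add, h1, map_mul, map_pow, Algebra.smul_def, mul_comm]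
  have h5 := stab hA hE hx hx' hs hs e e'
  rw [sub_self, sub_self, norm_zero, norm_zero, mul_zero, mul_zero, add_zero] at h5
  have h6 : x = x' := sub_eq_zero.mp (norm_le_zero_iff.mp h5)
  have hcirc : ∀ ζ : ℂ, ‖ζ‖ = 1 → ∀ i, CA.Wf ζ (x i) = ((ξ i : ℝ) : ℂ) := by
    intro ζ hζ i
    have h7 : HR CA (algebraMap ℝ 𝓐 (ξ i)) = 0 := by
      rw [Algebra.algebraMap_eq_smul_one, map_smul, HR_apply, CA.Hil_one, smul_zero]
    rw [h6, CA.Wf_circle ζ hζ]
    show CA.ev ζ (algebraMap ℝ 𝓐 (ξ i)) + Complex.I * CA.ev ζ (CA.Hil (algebraMap ℝ 𝓐 (ξ i))) = _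
    rw [← HR_apply, h7, map_zero, mul_zero, add_zero, ← evH_apply CA hζ, AlgHom.commutes]
    rfl
  intro ζ hζ
  funext i
  have hd : DiffContOnCl ℂ (fun ζ => CA.Wf ζ (x i)) (ball 0 1) := by
    apply DifferentiableOn.diffContOnCl
    apply (CA.Wf_diff (x i)).mono
    rw [closure_ball (0 : ℂ) one_ne_zero]
    exact closedBall_subset_ball (by norm_num)
  have hc : DiffContOnCl ℂ (fun _ : ℂ => CA.Wf 1 (x i)) (ball 0 1) := diffContOnCl_const
  have hfr : EqOn (fun ζ => CA.Wf ζ (x i)) (fun _ : ℂ => CA.Wf 1 (x i))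
      (frontier (ball (0 : ℂ) 1)) := by
    intro w hw
    rw [frontier_ball (0 : ℂ) one_ne_zero, mem_sphere_zero_iff_norm] at hw
    show CA.Wf w (x i) = CA.Wf 1 (x i)
    rw [hcirc w hw i, hcirc 1 norm_one i]
  have h8 := Complex.eqOn_closure_of_eqOn_frontier isBounded_ball hd hc hfr
  rw [closure_ball (0 : ℂ) one_ne_zero] at h8
  exact h8 hζ

/-- joint continuity -/
theorem cont_family {c m : ℕ} {r : Fin c → MvPolynomial ((Fin c ⊕ Fin c) ⊕ Unit) ℝ}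
    {A : ℝ} (hA : 0 < A) (hE : Est (HR CA) r A) {v : Fin c → ℝ} {s0 : ℝ}
    {x : ℝ → Fin c → 𝓐} (hx : ∀ l ∈ Icc (0 : ℝ) 1, ‖x l‖ ≤ rho A)
    (hs : ∀ l ∈ Icc (0 : ℝ) 1, ‖Sp CA s0 l‖ ≤ rho A)
    (e : ∀ l ∈ Icc (0 : ℝ) 1,
      x l + Rop (HR CA) r (x l) (Sp CA s0 l) = bb v (Sp CA s0 l) m) :
    ContinuousOn (fun p : ℝ × ℂ => fun i => CA.Wf p.2 (x p.1 i))
      (Icc 0 1 ×ˢ closedBall 0 1) := by
  have hK := CA.K_pos
  have hcS : Continuous fun l : ℝ => Sp CA s0 l := by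
    unfold Sp
    fun_prop
  have hcb : Continuous fun l : ℝ => bb v (Sp CA s0 l) m := by
    apply continuous_pi
    intro i
    exact (hcS.pow m).const_smul (v i)
  rintro ⟨l0, ζ0⟩ ⟨hl0, hζ0⟩
  have hl0' : l0 ∈ Icc (0 : ℝ) 1 := hl0
  have hζ0' : ζ0 ∈ closedBall (0 : ℂ) 1 := hζ0
  set g : ℝ × ℂ → ℝ := fun p => CA.K * (2 * ‖bb v (Sp CA s0 p.1) m - bb v (Sp CA s0 l0) m‖ +
    2 * A * ‖Sp CA s0 p.1 - Sp CA s0 l0‖) + CA.K * ‖x l0‖ * ‖p.2 - ζ0‖ with hg
  have hgc : Continuous g := by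
    have h1 : Continuous fun p : ℝ × ℂ => bb v (Sp CA s0 p.1) m := hcb.comp continuous_fst
    have h2 : Continuous fun p : ℝ × ℂ => Sp CA s0 p.1 := hcS.comp continuous_fst
    rw [hg]
    fun_prop
  have hg0 : g (l0, ζ0) = 0 := by
    rw [hg]
    simp
  have hgt : Filter.Tendsto g (nhdsWithin (l0, ζ0) (Icc 0 1 ×ˢ closedBall 0 1)) (nhds 0) := by
    rw [← hg0]
    exact hgc.continuousAt.mono_left nhdsWithin_le_nhds
  rw [ContinuousWithinAt, tendsto_iff_norm_sub_tendsto_zero]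
  refine squeeze_zero' (Filter.Eventually.of_forall fun _ => norm_nonneg _) ?_ hgt
  filter_upwards [self_mem_nhdsWithin] with p hp
  have hp1 : p.1 ∈ Icc (0 : ℝ) 1 := hp.1
  have hp2 : p.2 ∈ closedBall (0 : ℂ) 1 := hp.2
  have h1 := stab hA hE (hx p.1 hp1) (hx l0 hl0') (hs p.1 hp1) (hs l0 hl0') (e p.1 hp1)
    (e l0 hl0')
  have hgn : 0 ≤ g p := by
    rw [hg]
    (clear * - hA hK; positivity)
  rw [pi_norm_le_iff_of_nonneg hgn]
  intro i
  show ‖CA.Wf p.2 (x p.1 i) - CA.Wf ζ0 (x l0 i)‖ ≤ g p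
  have e1 : CA.Wf p.2 (x p.1 i) - CA.Wf ζ0 (x l0 i) =
      CA.Wf p.2 (x p.1 i - x l0 i) + (CA.Wf p.2 (x l0 i) - CA.Wf ζ0 (x l0 i)) := by
    rw [map_sub]
    ring
  rw [e1]
  have h2 := CA.Wf_bound p.2 hp2 (x p.1 i - x l0 i)
  have h3 := CA.Wf_lip p.2 hp2 ζ0 hζ0' (x l0 i)
  have h4 : ‖x p.1 i - x l0 i‖ ≤ ‖x p.1 - x l0‖ := norm_le_pi_norm (x p.1 - x l0) i
  have h5 : ‖x l0 i‖ ≤ ‖x l0‖ := norm_le_pi_norm (x l0) i
  calc ‖CA.Wf p.2 (x p.1 i - x l0 i) + (CA.Wf p.2 (x l0 i) - CA.Wf ζ0 (x l0 i))‖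
      ≤ CA.K * ‖x p.1 i - x l0 i‖ + CA.K * ‖x l0 i‖ * ‖p.2 - ζ0‖ :=
        (norm_add_le _ _).trans (add_le_add h2 h3)
    _ ≤ CA.K * (2 * ‖bb v (Sp CA s0 p.1) m - bb v (Sp CA s0 l0) m‖ +
        2 * A * ‖Sp CA s0 p.1 - Sp CA s0 l0‖) + CA.K * ‖x l0‖ * ‖p.2 - ζ0‖ := by
        apply add_le_add
        · exact mul_le_mul_of_nonneg_left (h4.trans h1) hK.le
        · exact mul_le_mul_of_nonneg_right (mul_le_mul_of_nonneg_left h5 hK.le) (norm_nonneg _)

theorem surj_ball {c : ℕ} (F : (Fin c → ℝ) → (Fin c → ℝ)) {D κ : ℝ} (hD : D ≠ 0) (hκ : 0 ≤ κ)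
    (hF : ∀ v v', ‖v‖ ≤ κ → ‖v'‖ ≤ κ → ‖F v - F v' - D • (v - v')‖ ≤ |D| / 2 * ‖v - v'‖)
    (y : Fin c → ℝ) (hy : ‖y - F 0‖ ≤ |D| * κ / 2) : ∃ v, ‖v‖ ≤ κ ∧ F v = y := by
  have hD' : 0 < |D| := abs_pos.mpr hD
  obtain ⟨v, hv, hTv⟩ := exists_fix (fun v => D⁻¹ • (y - F v) + v) (ρ := κ) hκ
    (by
      show ‖D⁻¹ • (y - F 0) + 0‖ ≤ κ / 2
      rw [add_zero, norm_smul, norm_inv, Real.norm_eq_abs, inv_mul_le_iff₀ hD']
      linarith only [hy])
    (by
      intro v v' hv hv'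
      have e1 : D⁻¹ • (y - F v) + v - (D⁻¹ • (y - F v') + v') =
          -(D⁻¹ • (F v - F v' - D • (v - v'))) := by
        rw [smul_sub D⁻¹ (F v - F v'), smul_smul, inv_mul_cancel₀ hD, one_smul, smul_sub, smul_sub,
          smul_sub]
        abel
      show ‖D⁻¹ • (y - F v) + v - (D⁻¹ • (y - F v') + v')‖ ≤ 1 / 2 * ‖v - v'‖
      rw [e1, norm_neg, norm_smul, norm_inv, Real.norm_eq_abs, inv_mul_le_iff₀ hD']
      have := hF v v' hv hv'
      linarith only [this])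
  refine ⟨v, hv, ?_⟩
  have h1 : D⁻¹ • (y - F v) + v = v := hTv
  have h2 : D⁻¹ • (y - F v) = 0 := by
    have := congrArg (fun w => w - v) h1
    simpa using this
  have h3 : y - F v = 0 := (smul_eq_zero.mp h2).resolve_left (inv_ne_zero hD)
  exact (sub_eq_zero.mp h3).symm

/-- the map to the derivatives at `1` -/
theorem deriv_est {c m : ℕ} {r : Fin c → MvPolynomial ((Fin c ⊕ Fin c) ⊕ Unit) ℝ}
    {A : ℝ} (hA : 0 < A) (hE : Est (HR CA) r A) {v v' : Fin c → ℝ} {s0 B μ : ℝ} (hs0 : 0 ≤ s0)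
    {x x' : Fin c → 𝓐} (hx : ‖x‖ ≤ rho A) (hx' : ‖x'‖ ≤ rho A)
    (hs : ‖Sp CA s0 1‖ ≤ rho A) (hxB : ‖x‖ ≤ B * s0) (hxB' : ‖x'‖ ≤ B * s0)
    (hsμ : ‖Sp CA s0 1‖ ≤ s0 * μ)
    (hsm : ‖CA.D1‖ * (2 * (A * (2 * B + 2 * μ))) * ‖uu CA ^ m‖ * s0 ≤
      |(CA.D1 (uu CA ^ m)).re| / 2)
    (e : x + Rop (HR CA) r x (Sp CA s0 1) = bb v (Sp CA s0 1) m)
    (e' : x' + Rop (HR CA) r x' (Sp CA s0 1) = bb v' (Sp CA s0 1) m) :
    ‖(fun i => (CA.D1 (x i)).re) - (fun i => (CA.D1 (x' i)).re) -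
      (s0 ^ m * (CA.D1 (uu CA ^ m)).re) • (v - v')‖ ≤
      |s0 ^ m * (CA.D1 (uu CA ^ m)).re| / 2 * ‖v - v'‖ := by
  have h0 := stab0 hA hE hx hx' hs hs e e'
  have h1 := stab hA hE hx hx' hs hs e e'
  rw [sub_self, norm_zero, mul_zero, add_zero] at h0 h1
  have hS1 : Sp CA s0 1 ^ m = s0 ^ m • uu CA ^ m := by
    unfold Sp
    rw [sub_self, zero_smul, one_smul, zero_add, smul_pow]
  have hsm0 : 0 ≤ s0 ^ m := pow_nonneg hs0 m
  have hb : ‖bb v (Sp CA s0 1) m - bb v' (Sp CA s0 1) m‖ ≤ s0 ^ m * ‖uu CA ^ m‖ * ‖v - v'‖ := by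
    rw [pi_norm_le_iff_of_nonneg (by (clear * - hs0; positivity))]
    intro i
    show ‖v i • Sp CA s0 1 ^ m - v' i • Sp CA s0 1 ^ m‖ ≤ _
    rw [← sub_smul, norm_smul, hS1, norm_smul, Real.norm_eq_abs (s0 ^ m), abs_of_nonneg hsm0,
      mul_comm]
    exact mul_le_mul_of_nonneg_left (norm_le_pi_norm (v - v') i) (by (clear * - hs0; positivity))
  have hδ : A * (‖x‖ + ‖x'‖ + ‖Sp CA s0 1‖ + ‖Sp CA s0 1‖) ≤ A * ((2 * B + 2 * μ) * s0) := by
    apply mul_le_mul_of_nonneg_left _ hA.le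
    linarith only [hxB, hxB', hsμ]
  have hδ0 : 0 ≤ A * ((2 * B + 2 * μ) * s0) := le_trans (by (clear * - hA; positivity)) hδ
  have h2 : ‖(x - x') - (bb v (Sp CA s0 1) m - bb v' (Sp CA s0 1) m)‖ ≤
      A * ((2 * B + 2 * μ) * s0) * (2 * (s0 ^ m * ‖uu CA ^ m‖ * ‖v - v'‖)) :=
    h0.trans (mul_le_mul hδ (h1.trans (mul_le_mul_of_nonneg_left hb (by norm_num)))
      (norm_nonneg _) hδ0)
  rw [abs_mul, abs_of_nonneg hsm0]
  have hrhs : 0 ≤ s0 ^ m * |(CA.D1 (uu CA ^ m)).re| / 2 * ‖v - v'‖ := by (clear * - hs0; positivity)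
  rw [pi_norm_le_iff_of_nonneg hrhs]
  intro i
  have e3 : ((fun i => (CA.D1 (x i)).re) - (fun i => (CA.D1 (x' i)).re) -
      (s0 ^ m * (CA.D1 (uu CA ^ m)).re) • (v - v')) i =
      (CA.D1 (((x - x') - (bb v (Sp CA s0 1) m - bb v' (Sp CA s0 1) m)) i)).re := by
    show (CA.D1 (x i)).re - (CA.D1 (x' i)).re - (s0 ^ m * (CA.D1 (uu CA ^ m)).re) * (v i - v' i) =
      (CA.D1 ((x i - x' i) - (v i • Sp CA s0 1 ^ m - v' i • Sp CA s0 1 ^ m))).re
    have h3 : ∀ (t : ℝ) (a : 𝓐), CA.D1 (t • a) = t • CA.D1 a := fun t a =>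
      ((CA.D1).restrictScalars ℝ).map_smul t a
    rw [hS1, map_sub, map_sub, map_sub]
    simp only [h3, Complex.sub_re, Complex.smul_re, smul_eq_mul]
    ring
  rw [e3]
  calc ‖(CA.D1 (((x - x') - (bb v (Sp CA s0 1) m - bb v' (Sp CA s0 1) m)) i)).re‖
      ≤ ‖CA.D1 (((x - x') - (bb v (Sp CA s0 1) m - bb v' (Sp CA s0 1) m)) i)‖ :=
        Complex.abs_re_le_norm _
    _ ≤ ‖CA.D1‖ * ‖((x - x') - (bb v (Sp CA s0 1) m - bb v' (Sp CA s0 1) m)) i‖ :=
        CA.D1.le_opNorm _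
    _ ≤ ‖CA.D1‖ * (A * ((2 * B + 2 * μ) * s0) * (2 * (s0 ^ m * ‖uu CA ^ m‖ * ‖v - v'‖))) :=
        mul_le_mul_of_nonneg_left ((norm_le_pi_norm _ i).trans h2) (norm_nonneg _)
    _ = (‖CA.D1‖ * (2 * (A * (2 * B + 2 * μ))) * ‖uu CA ^ m‖ * s0) * (s0 ^ m * ‖v - v'‖) := by
        ring
    _ ≤ (|(CA.D1 (uu CA ^ m)).re| / 2) * (s0 ^ m * ‖v - v'‖) :=
        mul_le_mul_of_nonneg_right hsm (by (clear * - hs0; positivity))
    _ = s0 ^ m * |(CA.D1 (uu CA ^ m)).re| / 2 * ‖v - v'‖ := by ring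

theorem main {c : ℕ} [CompleteSpace 𝓐] (CA : CircAlg 𝓐)
    {r : Fin c → MvPolynomial ((Fin c ⊕ Fin c) ⊕ Unit) ℝ} (hr : Adm r)
    {m : ℕ} (hm : 0 < m) {κ : ℝ} (hκ : 0 < κ)
    {A A' : ℝ} (hA : 0 < A) (hE : Est (HR CA) r A)
    (hA' : 0 < A') (hE' : Est (0 : ℝ →L[ℝ] ℝ) r A')
    {μ B B' s0 : ℝ} (hμ : μ = ‖(1 : 𝓐)‖ + ‖uu CA‖) (hB : B = 2 * κ * μ + 2 * A * μ)
    (hB' : B' = 2 * κ + 2 * A') (hs0 : 0 < s0)
    (c1 : μ * s0 ≤ rho A / 4) (c2 : A * μ * s0 ≤ rho A / 4) (c3 : κ * μ * s0 ≤ rho A / 4)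
    (c4 : ‖CA.st‖ * B * s0 ≤ rho A) (c5 : CA.K * B * s0 ≤ rho A' / 4) (c6 : s0 ≤ rho A' / 4)
    (c7 : A' * s0 ≤ rho A' / 4) (c8 : κ * s0 ≤ rho A' / 4)
    (c9 : ‖(1 : 𝓐)‖ * B' * s0 ≤ rho A)
    (c10 : ‖CA.D1‖ * (2 * (A * (2 * B + 2 * μ))) * ‖uu CA ^ m‖ * s0 ≤
      |(CA.D1 (uu CA ^ m)).re| / 2) :
    ∃ (w : (Fin c → ℝ) → ℝ → ℂ → (Fin c → ℂ)) (Dw : (Fin c → ℝ) → (Fin c → ℂ)),
        (∀ v ∈ closedBall (0 : Fin c → ℝ) κ,
          (∀ l ∈ Icc (0 : ℝ) 1, DifferentiableOn ℂ (w v l) (ball 0 2)) ∧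
          ContinuousOn (fun p : ℝ × ℂ => w v p.1 p.2) (Icc 0 1 ×ˢ closedBall 0 1) ∧
          (∀ l ∈ Icc (0 : ℝ) 1, ∀ ζ : ℂ, ‖ζ‖ = 1 → ∀ i,
            (w v l ζ i).re + MvPolynomial.eval (pt (fun j => (w v l ζ j).re)
              (fun j => (w v l ζ j).im) (sl s0 l ζ)) (r i) = sl s0 l ζ ^ m * v i) ∧
          (∀ l ∈ Icc (0 : ℝ) 1, ∀ ζ ∈ closedBall (0 : ℂ) 1,
            ‖w v l ζ‖ ≤ (CA.K * B + B' + 1) * s0 * (‖ζ - 1‖ + (1 - l))) ∧
          (∀ ζ ∈ closedBall (0 : ℂ) 1, w v 0 ζ = w v 0 1) ∧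
          w v 1 1 = 0 ∧ HasDerivAt (w v 1) (Dw v) 1) ∧
        (interior ((fun v => fun i => (Dw v i).re) '' closedBall (0 : Fin c → ℝ) κ)).Nonempty := by
  have hρ := rho_pos hA
  have hρ1 := rho_le hA
  have hρ' := rho_pos hA'
  have hρ1' := rho_le hA'
  have hK := CA.K_pos
  have hμ0 : 0 ≤ μ := by rw [hμ]; (clear * -; positivity)
  have hB0 : 0 ≤ B := by rw [hB]; (clear * - hκ hA hμ0; positivity)
  have hB'0 : 0 ≤ B' := by rw [hB']; (clear * - hκ hA'; positivity)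
  have hSμ : ∀ l ∈ Icc (0 : ℝ) 1, ‖Sp CA s0 l‖ ≤ s0 * μ := by
    intro l hl
    rw [hμ]
    exact norm_Sp CA hs0.le hl
  have hSρ : ∀ l ∈ Icc (0 : ℝ) 1, ‖Sp CA s0 l‖ ≤ rho A := fun l hl => by
    have := hSμ l hl
    linarith only [c1, hρ, this]
  have hbn : ∀ v ∈ closedBall (0 : Fin c → ℝ) κ, ∀ l ∈ Icc (0 : ℝ) 1,
      ‖bb v (Sp CA s0 l) m‖ ≤ κ * (s0 * μ) := by
    intro v hv l hl
    exact norm_bb hm hκ.le (mem_closedBall_zero_iff.mp hv) (hSμ l hl) (by linarith only [hs0, c1, c6, hρ1, hρ1'])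
  have hex : ∀ (v : Fin c → ℝ) (l : ℝ), ∃ x : Fin c → 𝓐,
      v ∈ closedBall (0 : Fin c → ℝ) κ → l ∈ Icc (0 : ℝ) 1 →
        ‖x‖ ≤ rho A ∧ x + Rop (HR CA) r x (Sp CA s0 l) = bb v (Sp CA s0 l) m := by
    intro v l
    by_cases hv : v ∈ closedBall (0 : Fin c → ℝ) κ
    · by_cases hl : l ∈ Icc (0 : ℝ) 1
      · have h1 := hSμ l hl
        obtain ⟨x, hx⟩ := exists_sol hr hA hE (Sp CA s0 l) (bb v (Sp CA s0 l) m) (hSρ l hl)
          (by
            have := mul_le_mul_of_nonneg_left h1 hA.le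
            linarith only [c2, this])
          (by
            have := hbn v hv l hl
            linarith only [c3, this])
        exact ⟨x, fun _ _ => hx⟩
      · exact ⟨0, fun _ h => absurd h hl⟩
    · exact ⟨0, fun h => absurd h hv⟩
  choose xs hxs using hex
  have e00 : (0 : Fin c → 𝓐) + Rop (HR CA) r 0 0 = 0 := by
    rw [Rop_zero _ hr, add_zero]
  have hxB : ∀ v ∈ closedBall (0 : Fin c → ℝ) κ, ∀ l ∈ Icc (0 : ℝ) 1, ‖xs v l‖ ≤ B * s0 := by
    intro v hv l hl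
    obtain ⟨h1, h2⟩ := hxs v l hv hl
    have h3 := stab hA hE h1 (by rw [norm_zero]; exact hρ.le) (hSρ l hl)
      (by rw [norm_zero]; exact hρ.le) h2 e00
    rw [sub_zero, sub_zero, sub_zero] at h3
    have h4 := hbn v hv l hl
    have h5 := mul_le_mul_of_nonneg_left (hSμ l hl) hA.le
    rw [hB]
    linarith only [h3, h4, h5]
  have hst : ∀ v ∈ closedBall (0 : Fin c → ℝ) κ, ∀ l ∈ Icc (0 : ℝ) 1, ∀ i,
      CA.st (xs v l i) = xs v l i := by
    intro v hv l hl i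
    obtain ⟨h1, h2⟩ := hxs v l hv hl
    refine sol_real hA hE h1 ?_ (hSρ l hl) h2 i
    have h3 := mul_le_mul_of_nonneg_left (hxB v hv l hl) (norm_nonneg CA.st)
    linarith only [c4, h3]
  have h01 : (0 : ℝ) ∈ Icc (0 : ℝ) 1 := ⟨le_rfl, zero_le_one⟩
  have h11 : (1 : ℝ) ∈ Icc (0 : ℝ) 1 := ⟨zero_le_one, le_rfl⟩
  -- the bound
  have hbound : ∀ v ∈ closedBall (0 : Fin c → ℝ) κ, ∀ l ∈ Icc (0 : ℝ) 1,
      ∀ ζ ∈ closedBall (0 : ℂ) 1, ‖(fun i => CA.Wf ζ (xs v l i))‖ ≤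
        (CA.K * B + B' + 1) * s0 * (‖ζ - 1‖ + (1 - l)) := by
    intro v hv l hl ζ hζ
    obtain ⟨h1, h2⟩ := hxs v l hv hl
    have hx := hxB v hv l hl
    have h1l : 0 ≤ 1 - l := sub_nonneg.mpr hl.2
    have h3 := norm_at_one hm hr hA' hE' hκ.le (mem_closedBall_zero_iff.mp hv) hs0.le
      (by linarith only [hs0, c6]) hl (by
        have := mul_le_mul_of_nonneg_left hx hK.le
        linarith only [hs0, c5, c6, this]) (hst v hv l hl) h2
    rw [← hB'] at h3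
    have hrhs : 0 ≤ (CA.K * B + B' + 1) * s0 * (‖ζ - 1‖ + (1 - l)) := by (clear * - hs0 hK hB0 hB'0 h1l; positivity)
    rw [pi_norm_le_iff_of_nonneg hrhs]
    intro i
    have h4 := CA.Wf_lip ζ hζ 1 (by simp) (xs v l i)
    have h5 : ‖CA.Wf 1 (xs v l i)‖ ≤ B' * (s0 * (1 - l)) :=
      (norm_le_pi_norm (fun i => CA.Wf 1 (xs v l i)) i).trans h3
    have h6 : ‖xs v l i‖ ≤ B * s0 := (norm_le_pi_norm (xs v l) i).trans hx
    have h7 : CA.K * ‖xs v l i‖ * ‖ζ - 1‖ ≤ CA.K * (B * s0) * ‖ζ - 1‖ :=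
      mul_le_mul_of_nonneg_right (mul_le_mul_of_nonneg_left h6 hK.le) (norm_nonneg _)
    have h8 : ‖CA.Wf ζ (xs v l i)‖ ≤ ‖CA.Wf ζ (xs v l i) - CA.Wf 1 (xs v l i)‖ +
        ‖CA.Wf 1 (xs v l i)‖ := by
      have := norm_add_le (CA.Wf ζ (xs v l i) - CA.Wf 1 (xs v l i)) (CA.Wf 1 (xs v l i))
      rwa [sub_add_cancel] at this
    have h9 : 0 ≤ (B' + 1) * s0 * ‖ζ - 1‖ := by (clear * - hs0 hB'0; positivity)
    have h10 : 0 ≤ (CA.K * B + 1) * s0 * (1 - l) := by (clear * - hs0 hK hB0 h1l; positivity)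
    show ‖CA.Wf ζ (xs v l i)‖ ≤ _
    calc ‖CA.Wf ζ (xs v l i)‖ ≤ CA.K * (B * s0) * ‖ζ - 1‖ + B' * (s0 * (1 - l)) := by linarith only [h4, h5, h7, h8]
      _ ≤ CA.K * (B * s0) * ‖ζ - 1‖ + B' * (s0 * (1 - l)) + (B' + 1) * s0 * ‖ζ - 1‖ +
          (CA.K * B + 1) * s0 * (1 - l) := by linarith only [h9, h10]
      _ = (CA.K * B + B' + 1) * s0 * (‖ζ - 1‖ + (1 - l)) := by ring
  refine ⟨fun v l ζ i => CA.Wf ζ (xs v l i), fun v i => CA.D1 (xs v 1 i), ?_, ?_⟩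
  · intro v hv
    refine ⟨?_, ?_, ?_, ?_, ?_, ?_, ?_⟩
    · intro l _
      rw [differentiableOn_pi]
      intro i
      exact CA.Wf_diff (xs v l i)
    · exact cont_family hA hE (fun l hl => (hxs v l hv hl).1) hSρ (fun l hl => (hxs v l hv hl).2)
    · intro l hl ζ hζ i
      exact circle_eq (hst v hv l hl) (hxs v l hv hl).2 hζ i
    · intro l hl ζ hζ
      exact hbound v hv l hl ζ hζ
    · intro ζ hζ
      obtain ⟨h1, h2⟩ := hxs v 0 hv h01
      exact const_zero hm hr hA hE hA' hE' hκ.le (mem_closedBall_zero_iff.mp hv) hs0.le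
        (by linarith only [hs0, c6]) c7 c8 (by rw [← hB', ← mul_assoc]; exact c9) (hSρ 0 h01) h1 h2 ζ hζ
    · have h1 := hbound v hv 1 h11 1 (by simp)
      rw [sub_self, sub_self, norm_zero, add_zero, mul_zero] at h1
      exact norm_le_zero_iff.mp h1
    · rw [hasDerivAt_pi]
      intro i
      exact CA.hasDerivAt_D1 (xs v 1 i)
  · have hd0 : (CA.D1 (uu CA ^ m)).re ≠ 0 := CA.D1_ne m hm
    have hD : s0 ^ m * (CA.D1 (uu CA ^ m)).re ≠ 0 := mul_ne_zero (pow_ne_zero _ hs0.ne') hd0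
    set D := s0 ^ m * (CA.D1 (uu CA ^ m)).re with hDdef
    have hF : ∀ v v' : Fin c → ℝ, ‖v‖ ≤ κ → ‖v'‖ ≤ κ →
        ‖(fun i => (CA.D1 (xs v 1 i)).re) - (fun i => (CA.D1 (xs v' 1 i)).re) - D • (v - v')‖ ≤
          |D| / 2 * ‖v - v'‖ := by
      intro v v' hv hv'
      have hv1 : v ∈ closedBall (0 : Fin c → ℝ) κ := mem_closedBall_zero_iff.mpr hv
      have hv1' : v' ∈ closedBall (0 : Fin c → ℝ) κ := mem_closedBall_zero_iff.mpr hv'
      exact deriv_est hA hE hs0.le (hxs v 1 hv1 h11).1 (hxs v' 1 hv1' h11).1 (hSρ 1 h11)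
        (hxB v hv1 1 h11) (hxB v' hv1' 1 h11) (hSμ 1 h11) c10 (hxs v 1 hv1 h11).2
        (hxs v' 1 hv1' h11).2
    have hD' : 0 < |D| := abs_pos.mpr hD
    refine ⟨fun i => (CA.D1 (xs 0 1 i)).re, ?_⟩
    rw [mem_interior]
    refine ⟨ball (fun i => (CA.D1 (xs 0 1 i)).re) (|D| * κ / 2), ?_, isOpen_ball,
      mem_ball_self (by (clear * - hκ hs0 hd0; positivity))⟩
    intro y hy
    rw [mem_ball_iff_norm] at hy
    obtain ⟨v, hv, hFv⟩ := surj_ball (fun v => fun i => (CA.D1 (xs v 1 i)).re) hD hκ.le hF y hy.le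
    exact ⟨v, mem_closedBall_zero_iff.mpr hv, hFv⟩

end disc

end Bishop

open Bishop in
/-- Bishop discs. -/
theorem exists_bishop {c : ℕ} (r : Fin c → MvPolynomial ((Fin c ⊕ Fin c) ⊕ Unit) ℝ)
    (h0 : ∀ i, MvPolynomial.coeff 0 (r i) = 0)
    (h1 : ∀ i j, MvPolynomial.coeff (Finsupp.single (Sum.inl j) 1) (r i) = 0)
    (m : ℕ) (hm : 0 < m) (κ : ℝ) (hκ : 0 < κ) :
    ∃ C > 0, ∃ s1 > 0, ∀ s0, 0 < s0 → s0 < s1 →
      ∃ (w : (Fin c → ℝ) → ℝ → ℂ → (Fin c → ℂ)) (Dw : (Fin c → ℝ) → (Fin c → ℂ)),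
        (∀ v ∈ closedBall (0 : Fin c → ℝ) κ,
          (∀ l ∈ Icc (0 : ℝ) 1, DifferentiableOn ℂ (w v l) (ball 0 2)) ∧
          ContinuousOn (fun p : ℝ × ℂ => w v p.1 p.2) (Icc 0 1 ×ˢ closedBall 0 1) ∧
          (∀ l ∈ Icc (0 : ℝ) 1, ∀ ζ : ℂ, ‖ζ‖ = 1 → ∀ i,
            (w v l ζ i).re + MvPolynomial.eval (pt (fun j => (w v l ζ j).re)
              (fun j => (w v l ζ j).im) (sl s0 l ζ)) (r i) = sl s0 l ζ ^ m * v i) ∧
          (∀ l ∈ Icc (0 : ℝ) 1, ∀ ζ ∈ closedBall (0 : ℂ) 1,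
            ‖w v l ζ‖ ≤ C * s0 * (‖ζ - 1‖ + (1 - l))) ∧
          (∀ ζ ∈ closedBall (0 : ℂ) 1, w v 0 ζ = w v 0 1) ∧
          w v 1 1 = 0 ∧ HasDerivAt (w v 1) (Dw v) 1) ∧
        (interior ((fun v => fun i => (Dw v i).re) '' closedBall (0 : Fin c → ℝ) κ)).Nonempty := by
  obtain ⟨𝓐, _, _, _, ⟨CA⟩⟩ := exists_circAlg
  have hr : Adm r := ⟨h0, h1⟩
  obtain ⟨A, hA, hE⟩ := exists_est (HR CA) hr
  obtain ⟨A', hA', hE'⟩ := exists_est (0 : ℝ →L[ℝ] ℝ) hr
  have hρ := rho_pos hA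
  have hρ' := rho_pos hA'
  have hK := CA.K_pos
  have hd : 0 < |(CA.D1 (uu CA ^ m)).re| := abs_pos.mpr (CA.D1_ne m hm)
  obtain ⟨μ, hμ⟩ : ∃ μ, μ = ‖(1 : 𝓐)‖ + ‖uu CA‖ := ⟨_, rfl⟩
  obtain ⟨B, hB⟩ : ∃ B, B = 2 * κ * μ + 2 * A * μ := ⟨_, rfl⟩
  obtain ⟨B', hB'⟩ : ∃ B', B' = 2 * κ + 2 * A' := ⟨_, rfl⟩
  have hμ0 : 0 ≤ μ := by rw [hμ]; (clear * -; positivity)
  have hB0 : 0 ≤ B := by rw [hB]; (clear * - hκ hA hμ0; positivity)
  have hB'0 : 0 ≤ B' := by rw [hB']; (clear * - hκ hA'; positivity)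
  -- the smallness conditions
  have k1 : 0 ≤ μ := hμ0
  have k2 : 0 ≤ A * μ := by (clear * - hA hμ0; positivity)
  have k3 : 0 ≤ κ * μ := by (clear * - hκ hμ0; positivity)
  have k4 : 0 ≤ ‖CA.st‖ * B := by (clear * - hB0; positivity)
  have k5 : 0 ≤ CA.K * B := by (clear * - hK hB0; positivity)
  have k6 : (0 : ℝ) ≤ 1 := zero_le_one
  have k7 : 0 ≤ A' := hA'.le
  have k8 : 0 ≤ κ := hκ.le
  have k9 : 0 ≤ ‖(1 : 𝓐)‖ * B' := by (clear * - hB'0; positivity)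
  have k10 : 0 ≤ ‖CA.D1‖ * (2 * (A * (2 * B + 2 * μ))) * ‖uu CA ^ m‖ := by (clear * - hA hμ0 hB0; positivity)
  obtain ⟨α, hα⟩ : ∃ α, α = min (rho A / 4) (min (rho A' / 4) (|(CA.D1 (uu CA ^ m)).re| / 2)) :=
    ⟨_, rfl⟩
  have hα0 : 0 < α := by
    rw [hα]
    exact lt_min (by (clear * - hρ; positivity)) (lt_min (by (clear * - hρ'; positivity)) (by (clear * - hd; positivity)))
  have a1 : α ≤ rho A / 4 := by rw [hα]; exact min_le_left _ _
  have a2 : α ≤ rho A' / 4 := by rw [hα]; exact (min_le_right _ _).trans (min_le_left _ _)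
  have a3 : α ≤ |(CA.D1 (uu CA ^ m)).re| / 2 := by
    rw [hα]; exact (min_le_right _ _).trans (min_le_right _ _)
  obtain ⟨β, hβ⟩ : ∃ β, β = μ + A * μ + κ * μ + ‖CA.st‖ * B + CA.K * B + 1 + A' + κ +
    ‖(1 : 𝓐)‖ * B' + ‖CA.D1‖ * (2 * (A * (2 * B + 2 * μ))) * ‖uu CA ^ m‖ := ⟨_, rfl⟩
  have hβ0 : 0 < β := by rw [hβ]; linarith only [hκ, hA', hB, hμ0, hB0, k4, k5, k9, k10]
  refine ⟨CA.K * B + B' + 1, by (clear * - hK hB0 hB'0; positivity), α / β, by (clear * - hα0 hβ0; positivity), fun s0 hs0 hs1 => ?_⟩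
  have hs2 : β * s0 ≤ α := by
    rw [lt_div_iff₀ hβ0] at hs1
    linarith only [hs1]
  have key : ∀ b, b ≤ β → b * s0 ≤ α := fun b hb =>
    (mul_le_mul_of_nonneg_right hb hs0.le).trans hs2
  refine main CA hr hm hκ hA hE hA' hE' hμ hB hB' hs0 ?_ ?_ ?_ ?_ ?_ ?_ ?_ ?_ ?_ ?_
  · exact (key _ (by rw [hβ]; linarith only [hκ, hA', hB, hB0, k4, k5, k9, k10])).trans a1
  · exact (key _ (by rw [hβ]; linarith only [hκ, hA', hμ0, k3, k4, k5, k9, k10])).trans a1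
  · exact (key _ (by rw [hβ]; linarith only [hκ, hA', hμ0, k2, k4, k5, k9, k10])).trans a1
  · exact (key _ (by rw [hβ]; linarith only [hκ, hA', hB, hμ0, hB0, k5, k9, k10])).trans (a1.trans (by linarith only [hα0, a1]))
  · exact (key _ (by rw [hβ]; linarith only [hκ, hA', hB, hμ0, hB0, k4, k9, k10])).trans a2
  · have := (key 1 (by rw [hβ]; linarith only [hκ, hA', hB, hμ0, hB0, k4, k5, k9, k10])).trans a2
    linarith only [this]
  · exact (key _ (by rw [hβ]; linarith only [hκ, hB, hμ0, hB0, k4, k5, k9, k10])).trans a2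
  · exact (key _ (by rw [hβ]; linarith only [hA', hB, hμ0, hB0, k4, k5, k9, k10])).trans a2
  · exact (key _ (by rw [hβ]; linarith only [hκ, hA', hB, hμ0, hB0, k4, k5, k10])).trans (a1.trans (by linarith only [hα0, a1]))
  · exact (key _ (by rw [hβ]; linarith only [hκ, hA', hB, hμ0, hB0, k4, k5, k9])).trans a3

end Vale.Agent.P274.H
end
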