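import Mathlib
import Vale.Agent.P274.BSDDefs
import Vale.Agent.P274.Z.HolDefs
import Vale.Agent.P274.Bdl.B1
import Vale.Agent.P274.Z.VarDefs

set_option linter.all false

namespace AFastb73c11x8a
@[reducible] noncomputable def a0.{u1} {x1 : Type u1} [x2 : NormedAddCommGroup x1] {x3 : ℕ} [x4 : NormedSpace ℂ x1] : Module ℝ (x1 →L[ℝ] Fin x3 → ℝ) := inferInstance
@[reducible] noncomputable def a1.{u1} {x1 : Type u1} [x2 : NormedAddCommGroup x1] {x3 : ℕ} [x4 : NormedSpace ℂ x1] : TopologicalSpace (x1 →L[ℝ] Fin x3 → ℝ) := inferInstance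
@[reducible] def a2 {x1 : ℕ} : Module ℂ (Fin x1 → ℂ) := inferInstance
theorem a3 {x1 : ℕ} : ContinuousConstSMul ℝ (Fin x1 → ℝ) := inferInstance
@[reducible] noncomputable def a4.{u1} {x1 : Type u1} [x2 : NormedAddCommGroup x1] {x3 : ℕ} [x4 : NormedSpace ℂ x1] : AddCommMonoid (x1 →L[ℝ] Fin x3 → ℝ) := inferInstance
@[reducible] noncomputable def a5 : DistribMulAction ℝ ℂ := inferInstance
@[reducible] noncomputable def a6 {x1 : ℕ} : SMulZeroClass ℝ (Fin x1 → ℂ) := inferInstance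
theorem a7 : CovariantClass ℝ ℝ (Function.swap fun x1 x2 => x1 + x2) fun x1 x2 => x1 ≤ x2 := inferInstance
theorem a8 {x1 : ℕ} : ContinuousAdd (Fin x1 → ℝ) := inferInstance
theorem a9 : CharZero ℝ := inferInstance
theorem a10 : AddRightStrictMono ℝ := inferInstance
theorem a11 {x1 : ℕ} : SMulCommClass ℝ ℝ (Fin x1 → ℝ) := inferInstance
@[reducible] noncomputable def a12 : DistribSMul ℝ ℂ := inferInstance
theorem a13 : IsRightCancelAdd ℝ := inferInstance
theorem a14 : SeparatelyContinuousMul ℝ := inferInstance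
theorem a15 : ContinuousAdd ℝ := inferInstance
@[reducible] def a16 : Monoid ℂ := inferInstance
theorem a17 : AddRightReflectLE ℝ := inferInstance
theorem a18 : IsSemitopologicalSemiring ℂ := inferInstance
theorem a19 : IsSemitopologicalRing ℂ := inferInstance
@[reducible] noncomputable def a20.{u1} {x1 : Type u1} [x2 : NormedAddCommGroup x1] [x3 : NormedSpace ℂ x1] : TopologicalSpace (x1 →L[ℂ] x1) := inferInstance
theorem a21 : PosMulReflectLT ℝ := inferInstance
theorem a22 : IsTopologicalRing ℂ := inferInstance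
theorem a23 : ContinuousAdd ℂ := inferInstance
@[reducible] noncomputable def a24.{u1} {x1 : Type u1} [x2 : NormedAddCommGroup x1] {x3 : ℕ} [x4 : NormedSpace ℂ x1] : NormedSpace ℝ (x1 →L[ℝ] Fin x3 → ℝ) := inferInstance
theorem a25 : PosMulReflectLE ℝ := inferInstance
@[reducible] def a26 {x1 : ℕ} : SMulZeroClass ℝ (Fin x1 → ℝ) := inferInstance
theorem a27 : AddLeftReflectLE ℝ := inferInstance
@[reducible] def a28 {x1 : ℕ} : DistribSMul ℝ (Fin x1 → ℝ) := inferInstance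
theorem a29 : AddLeftMono ℝ := inferInstance
theorem a30 : PosMulStrictMono ℝ := inferInstance
@[reducible] noncomputable def a31 {x1 : ℕ} : DistribSMul ℝ (Fin x1 → ℂ) := inferInstance
@[reducible] noncomputable def a32.{u1} {x1 : Type u1} [x2 : NormedAddCommGroup x1] {x3 : ℕ} [x4 : NormedSpace ℂ x1] : SeminormedAddCommGroup (x1 →L[ℝ] Fin x3 → ℝ) := inferInstance
theorem a33 : IsLeftCancelAdd ℝ := inferInstance
@[reducible] noncomputable def a34.{u1} {x1 : Type u1} [x2 : NormedAddCommGroup x1] {x3 : ℕ} [x4 : NormedSpace ℂ x1] : SMul ℝ (x1 →L[ℝ] Fin x3 → ℝ) := inferInstance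
theorem a35 : ContinuousSub ℝ := inferInstance
theorem a36 {x1 : ℕ} : ContinuousSMul ℂ (Fin x1 → ℂ) := inferInstance
theorem a37 : ContravariantClass ℝ ℝ (fun x1 x2 => x1 + x2) fun x1 x2 => x1 < x2 := inferInstance
theorem a38 : IsModuleTopology ℂ ℂ := inferInstance
theorem a39 : ExistsAddOfLE ℝ := inferInstance
theorem a40 : SeparatelyContinuousMul ℂ := inferInstance
@[reducible] def a41.{u1} {x1 : Type u1} {x2 : Set x1} [x3 : NormedAddCommGroup x1] : TopologicalSpace { x // x ∈ x2 } := inferInstance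
@[reducible] noncomputable def a42 : MulAction ℚ≥0 ℝ := inferInstance
@[reducible] noncomputable def a43 : MulAction ℚ ℝ := inferInstance
theorem a44 : IsTopologicalSemiring ℂ := inferInstance
theorem a45 : IsTopologicalDivisionRing ℂ := inferInstance
end AFastb73c11x8a
attribute [local instance] AFastb73c11x8a.a0 AFastb73c11x8a.a1 AFastb73c11x8a.a2 AFastb73c11x8a.a3
  AFastb73c11x8a.a4 AFastb73c11x8a.a5 AFastb73c11x8a.a6 AFastb73c11x8a.a7 AFastb73c11x8a.a8
  AFastb73c11x8a.a9 AFastb73c11x8a.a10 AFastb73c11x8a.a11 AFastb73c11x8a.a12 AFastb73c11x8a.a13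
  AFastb73c11x8a.a14 AFastb73c11x8a.a15 AFastb73c11x8a.a16 AFastb73c11x8a.a17 AFastb73c11x8a.a18
  AFastb73c11x8a.a19 AFastb73c11x8a.a20 AFastb73c11x8a.a21 AFastb73c11x8a.a22 AFastb73c11x8a.a23
  AFastb73c11x8a.a24 AFastb73c11x8a.a25 AFastb73c11x8a.a26 AFastb73c11x8a.a27 AFastb73c11x8a.a28
  AFastb73c11x8a.a29 AFastb73c11x8a.a30 AFastb73c11x8a.a31 AFastb73c11x8a.a32 AFastb73c11x8a.a33
  AFastb73c11x8a.a34 AFastb73c11x8a.a35 AFastb73c11x8a.a36 AFastb73c11x8a.a37 AFastb73c11x8a.a38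
  AFastb73c11x8a.a39 AFastb73c11x8a.a40 AFastb73c11x8a.a41 AFastb73c11x8a.a42 AFastb73c11x8a.a43
  AFastb73c11x8a.a44 AFastb73c11x8a.a45
namespace AFastb73c11x8b
theorem a0.{u1} {x1 : Type u1} [x2 : NormedAddCommGroup x1] {x3 : ℕ} [x4 : NormedSpace ℂ x1] : SemilinearMapClass (x1 →L[ℝ] x1 →L[ℝ] Fin x3 → ℝ) (RingHom.id ℝ) x1 (x1 →L[ℝ] Fin x3 → ℝ) := inferInstance
theorem a1.{u1} {x1 : Type u1} [x2 : NormedAddCommGroup x1] {x3 : ℕ} [x4 : NormedSpace ℂ x1] : MulActionSemiHomClass (x1 →L[ℝ] x1 →L[ℝ] Fin x3 → ℝ) (⇑(RingHom.id ℝ)) x1 (x1 →L[ℝ] Fin x3 → ℝ) := inferInstance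
theorem a2.{u1} {x1 : Type u1} [x2 : NormedAddCommGroup x1] {x3 : ℕ} [x4 : NormedSpace ℂ x1] : AddHomClass (x1 →L[ℝ] x1 →L[ℝ] Fin x3 → ℝ) x1 (x1 →L[ℝ] Fin x3 → ℝ) := inferInstance
theorem a3.{u1} {x1 : Type u1} [x2 : NormedAddCommGroup x1] {x3 : ℕ} [x4 : NormedSpace ℂ x1] : AddMonoidHomClass (x1 →L[ℝ] x1 →L[ℝ] Fin x3 → ℝ) x1 (x1 →L[ℝ] Fin x3 → ℝ) := inferInstance
theorem a4.{u1} {x1 : Type u1} [x2 : NormedAddCommGroup x1] {x3 : ℕ} [x4 : NormedSpace ℂ x1] : DistribMulActionSemiHomClass (x1 →L[ℝ] x1 →L[ℝ] Fin x3 → ℝ) (⇑(RingHom.id ℝ)) x1 (x1 →L[ℝ] Fin x3 → ℝ) := inferInstance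
theorem a5.{u1} {x1 : Type u1} [x2 : NormedAddCommGroup x1] {x3 : ℕ} [x4 : NormedSpace ℂ x1] : AddHomClass (x1 →L[ℝ] Fin x3 → ℝ) x1 (Fin x3 → ℝ) := inferInstance
theorem a6.{u1} {x1 : Type u1} [x2 : NormedAddCommGroup x1] {x3 : ℕ} [x4 : NormedSpace ℂ x1] : SemilinearMapClass (x1 →L[ℝ] Fin x3 → ℝ) (RingHom.id ℝ) x1 (Fin x3 → ℝ) := inferInstance
theorem a7.{u1} {x1 : Type u1} [x2 : NormedAddCommGroup x1] {x3 : ℕ} [x4 : NormedSpace ℂ x1] : SemilinearMapClass (x1 →L[ℂ] Fin x3 → ℂ) (RingHom.id ℂ) x1 (Fin x3 → ℂ) := inferInstance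
theorem a8.{u1, u2} {x1 : Type u1} [x2 : NormedAddCommGroup x1] {x3 : Type u2} [x4 : NormedAddCommGroup x3] [x5 : NormedSpace ℂ x1] [x6 : NormedSpace ℂ x3] : SemilinearMapClass (x1 ≃L[ℂ] x3) (RingHom.id ℂ) x1 x3 := inferInstance
theorem a9.{u1} {x1 : Type u1} [x2 : NormedAddCommGroup x1] {x3 : ℕ} [x4 : NormedSpace ℂ x1] : MulActionSemiHomClass (x1 →L[ℝ] Fin x3 → ℝ) (⇑(RingHom.id ℝ)) x1 (Fin x3 → ℝ) := inferInstance
@[reducible] noncomputable def a10.{u1} {x1 : Type u1} [x2 : NormedAddCommGroup x1] {x3 : ℕ} [x4 : NormedSpace ℂ x1] : Norm (x1 →L[ℝ] x1 →L[ℝ] Fin x3 → ℝ) := inferInstance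
theorem a11.{u1} {x1 : Type u1} [x2 : NormedAddCommGroup x1] [x3 : NormedSpace ℂ x1] : SemilinearMapClass (x1 →L[ℂ] x1) (RingHom.id ℂ) x1 x1 := inferInstance
@[reducible] noncomputable def a12 : Module ℝ ℂ := inferInstance
theorem a13.{u1} {x1 : Type u1} [x2 : NormedAddCommGroup x1] [x3 : NormedSpace ℂ x1] : AddHomClass (x1 →L[ℂ] x1) x1 x1 := inferInstance
theorem a14.{u1} {x1 : Type u1} [x2 : NormedAddCommGroup x1] {x3 : ℕ} [x4 : NormedSpace ℂ x1] : AddHomClass (x1 →L[ℂ] Fin x3 → ℂ) x1 (Fin x3 → ℂ) := inferInstance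
theorem a15.{u1} {x1 : ℕ} {x2 : Type u1} [x3 : NormedAddCommGroup x2] [x4 : NormedSpace ℂ x2] : SemilinearMapClass ((Fin x1 → ℂ) →L[ℂ] x2) (RingHom.id ℂ) (Fin x1 → ℂ) x2 := inferInstance
theorem a16.{u1} {x1 : ℕ} {x2 : Type u1} [x3 : NormedAddCommGroup x2] [x4 : NormedSpace ℂ x2] : ZeroHomClass ((Fin x1 → ℂ) →L[ℂ] x2) (Fin x1 → ℂ) x2 := inferInstance
theorem a17.{u1} {x1 : ℕ} {x2 : Type u1} [x3 : NormedAddCommGroup x2] [x4 : NormedSpace ℂ x2] : AddMonoidHomClass ((Fin x1 → ℂ) →L[ℂ] x2) (Fin x1 → ℂ) x2 := inferInstance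
theorem a18.{u1, u2} {x1 : Type u1} [x2 : NormedAddCommGroup x1] {x3 : Type u2} [x4 : NormedAddCommGroup x3] [x5 : NormedSpace ℂ x1] [x6 : NormedSpace ℂ x3] : AddMonoidHomClass (x1 ≃L[ℂ] x3) x1 x3 := inferInstance
theorem a19.{u1} {x1 : ℕ} {x2 : Type u1} [x3 : NormedAddCommGroup x2] [x4 : NormedSpace ℂ x2] : DistribMulActionSemiHomClass ((Fin x1 → ℂ) →L[ℂ] x2) (⇑(RingHom.id ℂ)) (Fin x1 → ℂ) x2 := inferInstance
theorem a20.{u1, u2} {x1 : Type u1} [x2 : NormedAddCommGroup x1] {x3 : Type u2} [x4 : NormedAddCommGroup x3] [x5 : NormedSpace ℂ x1] [x6 : NormedSpace ℂ x3] : DistribMulActionSemiHomClass (x1 ≃L[ℂ] x3) (⇑(RingHom.id ℂ)) x1 x3 := inferInstance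
theorem a21 : ContinuousSMul ℚ≥0 ℝ := inferInstance
theorem a22.{u1} {x1 : Type u1} [x2 : NormedAddCommGroup x1] {x3 : ℕ} [x4 : NormedSpace ℂ x1] : AddMonoidHomClass (x1 →L[ℂ] Fin x3 → ℂ) x1 (Fin x3 → ℂ) := inferInstance
theorem a23.{u1, u2} {x1 : Type u1} [x2 : NormedAddCommGroup x1] {x3 : Type u2} [x4 : NormedAddCommGroup x3] [x5 : NormedSpace ℂ x1] [x6 : NormedSpace ℂ x3] : ContinuousSemilinearMapClass (x1 ≃L[ℂ] x3) (RingHom.id ℂ) x1 x3 := inferInstance
theorem a24.{u1} {x1 : Type u1} [x2 : NormedAddCommGroup x1] {x3 : ℕ} [x4 : NormedSpace ℂ x1] : DistribMulActionSemiHomClass (x1 →L[ℂ] Fin x3 → ℂ) (⇑(RingHom.id ℂ)) x1 (Fin x3 → ℂ) := inferInstance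
theorem a25.{u1, u2} {x1 : Type u1} [x2 : NormedAddCommGroup x1] {x3 : Type u2} [x4 : NormedAddCommGroup x3] [x5 : NormedSpace ℂ x1] [x6 : NormedSpace ℂ x3] : MulActionSemiHomClass (x1 ≃L[ℂ] x3) (⇑(RingHom.id ℂ)) x1 x3 := inferInstance
theorem a26.{u1} {x1 : Type u1} [x2 : NormedAddCommGroup x1] {x3 : ℕ} [x4 : NormedSpace ℂ x1] : MulActionSemiHomClass (x1 →L[ℂ] Fin x3 → ℂ) (⇑(RingHom.id ℂ)) x1 (Fin x3 → ℂ) := inferInstance
theorem a27 : IsScalarTower ℚ≥0 ℚ ℝ := inferInstance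
@[reducible] noncomputable def a28 : Module ℚ ℝ := inferInstance
end AFastb73c11x8b
attribute [local instance] AFastb73c11x8b.a0 AFastb73c11x8b.a1 AFastb73c11x8b.a2 AFastb73c11x8b.a3
  AFastb73c11x8b.a4 AFastb73c11x8b.a5 AFastb73c11x8b.a6 AFastb73c11x8b.a7 AFastb73c11x8b.a8
  AFastb73c11x8b.a9 AFastb73c11x8b.a10 AFastb73c11x8b.a11 AFastb73c11x8b.a12 AFastb73c11x8b.a13
  AFastb73c11x8b.a14 AFastb73c11x8b.a15 AFastb73c11x8b.a16 AFastb73c11x8b.a17 AFastb73c11x8b.a18
  AFastb73c11x8b.a19 AFastb73c11x8b.a20 AFastb73c11x8b.a21 AFastb73c11x8b.a22 AFastb73c11x8b.a23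
  AFastb73c11x8b.a24 AFastb73c11x8b.a25 AFastb73c11x8b.a26 AFastb73c11x8b.a27 AFastb73c11x8b.a28
section

/-! Holomorphic maps between arbitrary subsets of complex vector spaces (reduced complex spaces),
manifold points, equicontinuity of bounded holomorphic functions. -/

open Filter Metric Set Topology

namespace Vale.Agent.P274.Z

variable {X Y T E : Type*} [NormedAddCommGroup X] [NormedSpace ℂ X]
  [NormedAddCommGroup Y] [NormedSpace ℂ Y] [NormedAddCommGroup T] [NormedSpace ℂ T]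
  [NormedAddCommGroup E] [NormedSpace ℂ E]

/-- Every point of `U` is moved into `K` by a biholomorphic automorphism of `U`. -/
def CocompactHol (U K : Set X) : Prop :=
  ∀ x ∈ U, ∃ g g' : X → X, IsBihol U U g g' ∧ g' x ∈ K

/-- `σ` is a holomorphic parametrization of `Z ∩ W` by the unit ball of `E`, whose inverse is the
restriction of a holomorphic map `π` defined on the open subset `W` of the ambient space. -/
structure Par (Z : Set X) (σ : E → X) (π : X → E) (W : Set X) : Prop where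
  isOpen : IsOpen W
  diffσ : DifferentiableOn ℂ σ (ball 0 1)
  diffπ : DifferentiableOn ℂ π W
  mapsσ : MapsTo σ (ball 0 1) (Z ∩ W)
  mapsπ : MapsTo π (Z ∩ W) (ball 0 1)
  left : ∀ e ∈ ball (0 : E) 1, π (σ e) = e
  right : ∀ z ∈ Z ∩ W, σ (π z) = z

/-- `x` is a manifold point of `Z`, with model space `E`. -/
def ManPt (E : Type*) [NormedAddCommGroup E] [NormedSpace ℂ E] (Z : Set X) (x : X) : Prop :=
  ∃ (σ : E → X) (π : X → E) (W : Set X), Par Z σ π W ∧ σ 0 = x

/-- The holomorphic functions on `U` bounded by one are equicontinuous at `x0`. -/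
def EquiHol (U : Set X) (x0 : X) : Prop :=
  ∀ ε > 0, ∃ δ > 0, ∀ f : X → ℂ, HolOn f U → (∀ x ∈ U, ‖f x‖ ≤ 1) →
    ∀ x ∈ U, dist x x0 < δ → ‖f x - f x0‖ ≤ ε

/-! ### Basic facts -/

theorem HolOn.mono {f : X → Y} {U V : Set X} (h : HolOn f U) (hVU : V ⊆ U) : HolOn f V := by
  intro x hx
  obtain ⟨W, hW, hxW, g, hg, hfg⟩ := h x (hVU hx)
  exact ⟨W, hW, hxW, g, hg, fun y hy => hfg y ⟨hVU hy.1, hy.2⟩⟩

theorem HolOn.of_diffOn {f : X → Y} {U W : Set X} (hW : IsOpen W) (hUW : U ⊆ W)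
    (h : DifferentiableOn ℂ f W) : HolOn f U :=
  fun _ hx => ⟨W, hW, hUW hx, f, h, fun _ _ => rfl⟩

theorem HolOn.congr {f f' : X → Y} {U : Set X} (h : HolOn f U) (hff : ∀ x ∈ U, f' x = f x) :
    HolOn f' U := by
  intro x hx
  obtain ⟨W, hW, hxW, g, hg, hfg⟩ := h x hx
  exact ⟨W, hW, hxW, g, hg, fun y hy => (hff y hy.1).trans (hfg y hy)⟩

theorem HolOn.continuousWithinAt {f : X → Y} {U : Set X} (h : HolOn f U) {x : X} (hx : x ∈ U) :
    ContinuousWithinAt f U x := by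
  obtain ⟨W, hW, hxW, g, hg, hfg⟩ := h x hx
  have h1 : ContinuousWithinAt g (U ∩ W) x :=
    ((hg.differentiableAt (hW.mem_nhds hxW)).continuousAt).continuousWithinAt
  have h2 : ContinuousWithinAt f (U ∩ W) x := h1.congr hfg (hfg x ⟨hx, hxW⟩)
  exact (continuousWithinAt_inter (hW.mem_nhds hxW)).1 h2

theorem HolOn.continuousOn {f : X → Y} {U : Set X} (h : HolOn f U) : ContinuousOn f U :=
  fun _ hx => h.continuousWithinAt hx

theorem HolOn.comp {g : Y → T} {f : X → Y} {U : Set X} {V : Set Y} (hg : HolOn g V)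
    (hf : HolOn f U) (hfV : MapsTo f U V) : HolOn (fun x => g (f x)) U := by
  intro x hx
  obtain ⟨W, hW, hxW, f1, hf1, hff⟩ := hf x hx
  obtain ⟨W', hW', hxW', g1, hg1, hgg⟩ := hg (f x) (hfV hx)
  have hc : ContinuousOn f1 W := hf1.continuousOn
  have hxW2 : f1 x ∈ W' := by rw [← hff x ⟨hx, hxW⟩]; exact hxW'
  refine ⟨W ∩ f1 ⁻¹' W', hc.isOpen_inter_preimage hW hW', ⟨hxW, hxW2⟩, fun y => g1 (f1 y), ?_, ?_⟩
  · exact hg1.comp (hf1.mono inter_subset_left) fun y hy => hy.2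
  · intro y hy
    have h1 := hff y ⟨hy.1, hy.2.1⟩
    change g (f y) = g1 (f1 y)
    rw [← h1]
    exact hgg (f y) ⟨hfV hy.1, by rw [h1]; exact hy.2.2⟩

/-- Composition with a map differentiable on an arbitrary set of another space. -/
theorem HolOn.comp_diffOn {g : X → Y} {U : Set X} (hg : HolOn g U) {f : T → X} {S : Set T}
    (hS : IsOpen S) (hf : DifferentiableOn ℂ f S) (hfU : MapsTo f S U) :
    DifferentiableOn ℂ (fun x => g (f x)) S := by
  intro x hx
  obtain ⟨W, hW, hxW, g1, hg1, hgg⟩ := hg (f x) (hfU hx)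
  have hfx : DifferentiableAt ℂ f x := hf.differentiableAt (hS.mem_nhds hx)
  have h1 : DifferentiableAt ℂ (fun y => g1 (f y)) x :=
    (hg1.differentiableAt (hW.mem_nhds hxW)).comp x hfx
  have h2 : (fun y => g (f y)) =ᶠ[𝓝 x] fun y => g1 (f y) := by
    filter_upwards [hS.mem_nhds hx, hfx.continuousAt (hW.mem_nhds hxW)] with y hy1 hy2
    exact hgg (f y) ⟨hfU hy1, hy2⟩
  exact (h1.congr_of_eventuallyEq h2).differentiableWithinAt

theorem holOn_iff_of_isOpen {f : X → Y} {U : Set X} (hU : IsOpen U) :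
    HolOn f U ↔ DifferentiableOn ℂ f U := by
  refine ⟨fun h => ?_, fun h => HolOn.of_diffOn hU Subset.rfl h⟩
  exact h.comp_diffOn hU differentiableOn_id (mapsTo_id U)

theorem IsBihol.symm {U : Set X} {V : Set Y} {f : X → Y} {g : Y → X} (h : IsBihol U V f g) :
    IsBihol V U g f :=
  ⟨h.hol_inv, h.hol, h.mapsTo_inv, h.mapsTo, h.right_inv, h.left_inv⟩

theorem IsBihol.trans {U : Set X} {V : Set Y} {V' : Set T} {f : X → Y} {g : Y → X} {f' : Y → T}
    {g' : T → Y} (h : IsBihol U V f g) (h' : IsBihol V V' f' g') :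
    IsBihol U V' (fun x => f' (f x)) (fun x => g (g' x)) where
  hol := h'.hol.comp h.hol h.mapsTo
  hol_inv := h.hol_inv.comp h'.hol_inv h'.mapsTo_inv
  mapsTo := fun _ hx => h'.mapsTo (h.mapsTo hx)
  mapsTo_inv := fun _ hx => h.mapsTo_inv (h'.mapsTo_inv hx)
  left_inv := fun x hx => by rw [h'.left_inv _ (h.mapsTo hx), h.left_inv _ hx]
  right_inv := fun y hy => by rw [h.right_inv _ (h'.mapsTo_inv hy), h'.right_inv _ hy]

theorem Bihol.trans {U : Set X} {V : Set Y} {V' : Set T} (h : Bihol U V) (h' : Bihol V V') :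
    Bihol U V' := by
  obtain ⟨f, g, h⟩ := h
  obtain ⟨f', g', h'⟩ := h'
  exact ⟨_, _, h.trans h'⟩

/-- For open sets the two notions of biholomorphic map agree. -/
theorem isBihol_iff {U : Set X} {V : Set Y} (hU : IsOpen U) (hV : IsOpen V) {f : X → Y}
    {g : Y → X} : IsBihol U V f g ↔ IsBiholo U V f g :=
  ⟨fun h => ⟨(holOn_iff_of_isOpen hU).1 h.hol, (holOn_iff_of_isOpen hV).1 h.hol_inv, h.mapsTo,
    h.mapsTo_inv, h.left_inv, h.right_inv⟩, fun h => ⟨(holOn_iff_of_isOpen hU).2 h.diffOn,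
    (holOn_iff_of_isOpen hV).2 h.diffOn_inv, h.mapsTo, h.mapsTo_inv, h.left_inv, h.right_inv⟩⟩

/-- Equicontinuity for vector valued maps. -/
theorem EquiHol.vector {U : Set X} {x0 : X} (h : EquiHol U x0) (C : ℝ) {ε : ℝ} (hε : 0 < ε) :
    ∃ δ > 0, ∀ f : X → Y, HolOn f U → (∀ x ∈ U, ‖f x‖ ≤ C) →
      ∀ x ∈ U, dist x x0 < δ → ‖f x - f x0‖ ≤ ε := by
  set C1 : ℝ := max C 1 with hC1
  have hC0 : 0 < C1 := lt_max_of_lt_right one_pos
  obtain ⟨δ, hδ, h1⟩ := h (ε / C1) (by positivity)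
  refine ⟨δ, hδ, fun f hf hfC x hx hxd => ?_⟩
  obtain ⟨φ, hφ, hφx⟩ := exists_dual_vector'' ℂ (f x - f x0)
  have hfC1 : ∀ y ∈ U, ‖f y‖ ≤ C1 := fun y hy => (hfC y hy).trans (le_max_left _ _)
  have h2 := h1 (fun y => ((C1⁻¹ : ℝ) : ℂ) * φ (f y)) ?_ (fun y hy => ?_) x hx hxd
  · rw [← mul_sub, ← map_sub, hφx, norm_mul, Complex.norm_real, norm_inv,
      Real.norm_of_nonneg hC0.le] at h2
    have h3 : ‖((‖f x - f x0‖ : ℝ) : ℂ)‖ = ‖f x - f x0‖ := by simp
    have h4 : C1⁻¹ * ‖f x - f x0‖ ≤ ε / C1 := by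
      rw [← h3]
      exact h2
    rw [inv_mul_le_iff₀ hC0] at h4
    calc ‖f x - f x0‖ ≤ C1 * (ε / C1) := h4
      _ = ε := by field_simp
  · have h3 : DifferentiableOn ℂ (fun v : Y => ((C1⁻¹ : ℝ) : ℂ) * φ v) univ := by
      have : Differentiable ℂ (fun v : Y => ((C1⁻¹ : ℝ) : ℂ) * φ v) :=
        φ.differentiable.const_mul _
      exact this.differentiableOn
    exact (HolOn.of_diffOn isOpen_univ (subset_univ univ) h3).comp hf (mapsTo_univ _ _)
  · rw [norm_mul, Complex.norm_real, norm_inv, Real.norm_of_nonneg hC0.le,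
      inv_mul_le_iff₀ hC0, mul_one]
    refine (φ.le_opNorm _).trans ?_
    calc ‖φ‖ * ‖f y‖ ≤ 1 * C1 := by gcongr; exact hfC1 y hy
      _ = C1 := one_mul _

namespace Par

variable {Z : Set X} {σ : E → X} {π : X → E} {W : Set X}

theorem contσ (h : Par Z σ π W) : ContinuousOn σ (ball 0 1) := h.diffσ.continuousOn

theorem contπ (h : Par Z σ π W) : ContinuousOn π W := h.diffπ.continuousOn

/-- The preimage in the parameter ball of an open subset of `X`. -/
theorem isOpen_preimage (h : Par Z σ π W) {O : Set X} (hO : IsOpen O) :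
    IsOpen {e | e ∈ ball (0 : E) 1 ∧ σ e ∈ O} :=
  h.contσ.isOpen_inter_preimage isOpen_ball hO

/-- For `U = Z ∩ O` with `O` open, the preimage of `U` is open. -/
theorem isOpen_dom (h : Par Z σ π W) {O U : Set X} (hO : IsOpen O) (hU : U = Z ∩ O) :
    IsOpen {e | e ∈ ball (0 : E) 1 ∧ σ e ∈ U} := by
  have h1 : {e | e ∈ ball (0 : E) 1 ∧ σ e ∈ U} = {e | e ∈ ball (0 : E) 1 ∧ σ e ∈ O} := by
    ext e
    constructor
    · rintro ⟨h1, h2⟩
      rw [hU] at h2
      exact ⟨h1, h2.2⟩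
    · rintro ⟨h1, h2⟩
      refine ⟨h1, ?_⟩
      rw [hU]
      exact ⟨(h.mapsσ h1).1, h2⟩
  rw [h1]
  exact h.isOpen_preimage hO

end Par

end Vale.Agent.P274.Z
end

section

/-! Manifold points (TASK Z5). -/

open Filter Metric Set Topology

namespace Vale.Agent.P274.Z

variable {X Y T E : Type*} [NormedAddCommGroup X] [NormedSpace ℂ X]
  [NormedAddCommGroup Y] [NormedSpace ℂ Y] [NormedAddCommGroup T] [NormedSpace ℂ T]
  [NormedAddCommGroup E] [NormedSpace ℂ E]

/-- Affine change of the parameter. -/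
theorem Par.affine {Z : Set X} {σ : E → X} {π : X → E} {W : Set X} (h : Par Z σ π W) {e : E}
    {r : ℝ} (hr : 0 < r) (hb : ball e r ⊆ ball (0 : E) 1) :
    Par Z (fun x => σ (e + (r : ℂ) • x)) (fun z => ((r : ℂ)⁻¹) • (π z - e))
      (W ∩ π ⁻¹' ball e r) := by
  have hrc : (r : ℂ) ≠ 0 := by exact_mod_cast hr.ne'
  have hm : ∀ x ∈ ball (0 : E) 1, e + (r : ℂ) • x ∈ ball e r := by
    intro x hx
    rw [mem_ball_zero_iff] at hx
    rw [mem_ball, dist_eq_norm, add_sub_cancel_left, norm_smul, Complex.norm_real,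
      Real.norm_of_nonneg hr.le]
    calc r * ‖x‖ < r * 1 := mul_lt_mul_of_pos_left hx hr
      _ = r := mul_one r
  constructor
  · exact h.contπ.isOpen_inter_preimage h.isOpen isOpen_ball
  · have h1 : Differentiable ℂ (fun x : E => e + (r : ℂ) • x) :=
      (differentiable_id.const_smul (r : ℂ)).const_add e
    exact h.diffσ.comp h1.differentiableOn fun x hx => hb (hm x hx)
  · exact ((h.diffπ.mono inter_subset_left).sub_const e).const_smul _
  · intro x hx
    have h1 := hb (hm x hx)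
    have h2 := h.mapsσ h1
    refine ⟨h2.1, h2.2, ?_⟩
    change π (σ (e + (r : ℂ) • x)) ∈ ball e r
    rw [h.left _ h1]
    exact hm x hx
  · intro z hz
    have h1 : π z ∈ ball e r := hz.2.2
    rw [mem_ball, dist_eq_norm] at h1
    rw [mem_ball_zero_iff, norm_smul, norm_inv, Complex.norm_real, Real.norm_of_nonneg hr.le,
      inv_mul_lt_iff₀ hr, mul_one]
    exact h1
  · intro x hx
    have h1 := hb (hm x hx)
    change ((r : ℂ)⁻¹) • (π (σ (e + (r : ℂ) • x)) - e) = x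
    rw [h.left _ h1, add_sub_cancel_left, smul_smul, inv_mul_cancel₀ hrc, one_smul]
  · intro z hz
    change σ (e + (r : ℂ) • (((r : ℂ)⁻¹) • (π z - e))) = z
    rw [smul_smul, mul_inv_cancel₀ hrc, one_smul, add_sub_cancel]
    exact h.right z ⟨hz.1, hz.2.1⟩

/-- Shrinking a parametrization around its centre into an open set. -/
theorem Par.shrink {Z : Set X} {σ : E → X} {π : X → E} {W : Set X} (h : Par Z σ π W)
    {S : Set E} (hS : IsOpen S) (h0 : (0 : E) ∈ S) :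
    ∃ (σ' : E → X) (π' : X → E) (W' : Set X), Par Z σ' π' W' ∧ σ' 0 = σ 0 ∧
      ∀ e ∈ ball (0 : E) 1, ∃ e' ∈ S ∩ ball (0 : E) 1, σ' e = σ e' := by
  obtain ⟨r, hr, hb⟩ := Metric.isOpen_iff.1 (hS.inter isOpen_ball) 0
    ⟨h0, mem_ball_self (x := (0 : E)) one_pos⟩
  refine ⟨_, _, _, h.affine hr (fun x hx => (hb hx).2), by simp, fun e he => ?_⟩
  refine ⟨0 + (r : ℂ) • e, hb ?_, rfl⟩
  rw [zero_add, mem_ball_zero_iff, norm_smul, Complex.norm_real, Real.norm_of_nonneg hr.le]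
  rw [mem_ball_zero_iff] at he
  calc r * ‖e‖ < r * 1 := mul_lt_mul_of_pos_left he hr
    _ = r := mul_one r

/-- Recentering a parametrization. -/
theorem Par.manPt {Z : Set X} {σ : E → X} {π : X → E} {W : Set X} (h : Par Z σ π W) {e : E}
    (he : e ∈ ball (0 : E) 1) : ManPt E Z (σ e) := by
  obtain ⟨r, hr, hb⟩ := Metric.isOpen_iff.1 (isOpen_ball (x := (0 : E)) (ε := 1)) e he
  exact ⟨_, _, _, h.affine hr hb, by simp⟩

/-- Being a manifold point is an open condition. -/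
theorem ManPt.eventually {Z : Set X} {x : X} (h : ManPt E Z x) :
    ∀ᶠ y in 𝓝 x, y ∈ Z → ManPt E Z y := by
  obtain ⟨σ, π, W, h, hx⟩ := h
  have h0 : x ∈ Z ∩ W := by
    rw [← hx]
    exact h.mapsσ (mem_ball_self one_pos)
  filter_upwards [h.isOpen.mem_nhds h0.2] with y hy hyZ
  rw [← h.right y ⟨hyZ, hy⟩]
  exact h.manPt (h.mapsπ ⟨hyZ, hy⟩)

theorem ManPt.inter_open {Z O : Set X} (hO : IsOpen O) {x : X} (hx : x ∈ O)
    (h : ManPt E Z x) : ManPt E (Z ∩ O) x := by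
  obtain ⟨σ, π, W, h, hσ⟩ := h
  obtain ⟨σ', π', W', h', h0, hs⟩ := h.shrink (h.isOpen_preimage hO)
    ⟨mem_ball_self one_pos, by rw [hσ]; exact hx⟩
  have hsO : ∀ e ∈ ball (0 : E) 1, σ' e ∈ O := by
    intro e he
    obtain ⟨e', he', h1⟩ := hs e he
    rw [h1]
    exact he'.1.2
  refine ⟨σ', π', W', ⟨h'.isOpen, h'.diffσ, h'.diffπ, ?_, ?_, h'.left, ?_⟩, h0.trans hσ⟩
  · exact fun e he => ⟨⟨(h'.mapsσ he).1, hsO e he⟩, (h'.mapsσ he).2⟩
  · exact fun z hz => h'.mapsπ ⟨hz.1.1, hz.2⟩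
  · exact fun z hz => h'.right z ⟨hz.1.1, hz.2⟩

theorem ManPt.of_inter_open {Z O : Set X} (hO : IsOpen O) {x : X}
    (h : ManPt E (Z ∩ O) x) : ManPt E Z x := by
  obtain ⟨σ, π, W, h, hσ⟩ := h
  refine ⟨σ, π, W ∩ O, ⟨h.isOpen.inter hO, h.diffσ, h.diffπ.mono inter_subset_left, ?_, ?_,
    h.left, ?_⟩, hσ⟩
  · exact fun e he => ⟨(h.mapsσ he).1.1, (h.mapsσ he).2, (h.mapsσ he).1.2⟩
  · exact fun z hz => h.mapsπ ⟨⟨hz.1, hz.2.2⟩, hz.2.1⟩
  · exact fun z hz => h.right z ⟨⟨hz.1, hz.2.2⟩, hz.2.1⟩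

/-- Manifold points are invariant under biholomorphic maps. -/
theorem IsBihol.manPt {U : Set X} {V : Set Y} {f : X → Y} {g : Y → X} (h : IsBihol U V f g)
    {x : X} (hx : x ∈ U) (hm : ManPt E U x) : ManPt E V (f x) := by
  obtain ⟨σ, π, W, hp, hσ⟩ := hm
  obtain ⟨W1, hW1, hyW1, g1, hg1, hgg⟩ := h.hol_inv (f x) (h.mapsTo hx)
  have hfσ : DifferentiableOn ℂ (fun e => f (σ e)) (ball (0 : E) 1) :=
    h.hol.comp_diffOn isOpen_ball hp.diffσ fun e he => (hp.mapsσ he).1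
  have hS : IsOpen (ball (0 : E) 1 ∩ (fun e => f (σ e)) ⁻¹' W1) :=
    hfσ.continuousOn.isOpen_inter_preimage isOpen_ball hW1
  obtain ⟨σ', π', W', h', h0, hs⟩ := hp.shrink hS
    ⟨mem_ball_self one_pos, by change f (σ 0) ∈ W1; rw [hσ]; exact hyW1⟩
  have hsW : ∀ e ∈ ball (0 : E) 1, f (σ' e) ∈ W1 := by
    intro e he
    obtain ⟨e', he', h1⟩ := hs e he
    rw [h1]
    exact he'.1.2
  have hgf : ∀ e ∈ ball (0 : E) 1, g1 (f (σ' e)) = σ' e := by
    intro e he
    have h1 : σ' e ∈ U := (h'.mapsσ he).1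
    rw [← hgg (f (σ' e)) ⟨h.mapsTo h1, hsW e he⟩, h.left_inv _ h1]
  have hfσ' : DifferentiableOn ℂ (fun e => f (σ' e)) (ball (0 : E) 1) :=
    h.hol.comp_diffOn isOpen_ball h'.diffσ fun e he => (h'.mapsσ he).1
  refine ⟨fun e => f (σ' e), fun w => π' (g1 w), W1 ∩ g1 ⁻¹' W',
    ⟨hg1.continuousOn.isOpen_inter_preimage hW1 h'.isOpen, hfσ', ?_, ?_, ?_, ?_, ?_⟩, ?_⟩
  · exact h'.diffπ.comp (hg1.mono inter_subset_left) fun w hw => hw.2
  · intro e he
    refine ⟨h.mapsTo (h'.mapsσ he).1, hsW e he, ?_⟩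
    change g1 (f (σ' e)) ∈ W'
    rw [hgf e he]
    exact (h'.mapsσ he).2
  · intro w hw
    have h1 := hgg w ⟨hw.1, hw.2.1⟩
    refine h'.mapsπ ⟨?_, hw.2.2⟩
    rw [← h1]
    exact h.mapsTo_inv hw.1
  · intro e he
    change π' (g1 (f (σ' e))) = e
    rw [hgf e he, h'.left e he]
  · intro w hw
    have h1 := hgg w ⟨hw.1, hw.2.1⟩
    have h2 : g1 w ∈ U ∩ W' := ⟨by rw [← h1]; exact h.mapsTo_inv hw.1, hw.2.2⟩
    change f (σ' (π' (g1 w))) = w
    rw [h'.right _ h2, ← h1, h.right_inv w hw.1]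
  · change f (σ' 0) = f x
    rw [h0, hσ]

/-- Transport of manifold points and equicontinuity under linear isomorphisms. -/
theorem ManPt.of_equiv {E' : Type*} [NormedAddCommGroup E'] [NormedSpace ℂ E']
    [FiniteDimensional ℂ E] (A : X ≃L[ℂ] Y) (B : E ≃L[ℂ] E') {Z : Set X} {x : X} (h : ManPt E Z x) :
    ManPt E' (A '' Z) (A x) := by
  obtain ⟨σ, π, W, h, hσ⟩ := h
  set M : ℝ := ‖(B.symm : E' →L[ℂ] E)‖ + 1 with hM
  have hM0 : 0 < M := by positivity
  have hMc : (M : ℂ) ≠ 0 := by exact_mod_cast hM0.ne'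
  have hBs : ∀ e ∈ ball (0 : E') 1, ((M : ℂ)⁻¹) • B.symm e ∈ ball (0 : E) 1 := by
    intro e he
    rw [mem_ball_zero_iff] at he ⊢
    rw [norm_smul, norm_inv, Complex.norm_real, Real.norm_of_nonneg hM0.le,
      inv_mul_lt_iff₀ hM0, mul_one]
    calc ‖B.symm e‖ ≤ ‖(B.symm : E' →L[ℂ] E)‖ * ‖e‖ := (B.symm : E' →L[ℂ] E).le_opNorm e
      _ ≤ ‖(B.symm : E' →L[ℂ] E)‖ * 1 := by gcongr
      _ < M := by rw [mul_one, hM]; linarith
  have hAm : ∀ {S : Set X} {y : Y}, y ∈ A '' S → A.symm y ∈ S := by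
    rintro S y ⟨z, hz, rfl⟩
    rwa [A.symm_apply_apply]
  refine ⟨fun e => A (σ (((M : ℂ)⁻¹) • B.symm e)), fun y => (M : ℂ) • B (π (A.symm y)),
    (A.symm ⁻¹' W) ∩ {y | (M : ℂ) • B (π (A.symm y)) ∈ ball (0 : E') 1}, ?_, ?_⟩
  · have hd : DifferentiableOn ℂ (fun y => (M : ℂ) • B (π (A.symm y))) (A.symm ⁻¹' W) := by
      have h1 : DifferentiableOn ℂ (fun y => π (A.symm y)) (A.symm ⁻¹' W) :=
        h.diffπ.comp A.symm.differentiable.differentiableOn fun y hy => hy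
      exact (B.differentiable.comp_differentiableOn h1).const_smul _
    constructor
    · exact hd.continuousOn.isOpen_inter_preimage (h.isOpen.preimage A.symm.continuous)
        isOpen_ball
    · have h1 : Differentiable ℂ (fun e : E' => ((M : ℂ)⁻¹) • B.symm e) :=
        B.symm.differentiable.const_smul _
      exact A.differentiable.comp_differentiableOn
        (h.diffσ.comp h1.differentiableOn fun e he => hBs e he)
    · exact hd.mono inter_subset_left
    · intro e he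
      have h1 := h.mapsσ (hBs e he)
      refine ⟨mem_image_of_mem _ h1.1, ?_, ?_⟩
      · change A.symm (A (σ _)) ∈ W
        rw [A.symm_apply_apply]
        exact h1.2
      · change (M : ℂ) • B (π (A.symm (A (σ (((M : ℂ)⁻¹) • B.symm e))))) ∈ ball (0 : E') 1
        rw [A.symm_apply_apply, h.left _ (hBs e he), map_smul, B.apply_symm_apply, smul_smul,
          mul_inv_cancel₀ hMc, one_smul]
        exact he
    · intro y hy
      exact hy.2.2
    · intro e he
      change (M : ℂ) • B (π (A.symm (A (σ (((M : ℂ)⁻¹) • B.symm e))))) = e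
      rw [A.symm_apply_apply, h.left _ (hBs e he), map_smul, B.apply_symm_apply, smul_smul,
        mul_inv_cancel₀ hMc, one_smul]
    · intro y hy
      change A (σ (((M : ℂ)⁻¹) • B.symm ((M : ℂ) • B (π (A.symm y))))) = y
      rw [map_smul, B.symm_apply_apply, smul_smul, inv_mul_cancel₀ hMc, one_smul,
        h.right _ ⟨hAm hy.1, hy.2.1⟩, A.apply_symm_apply]
  · simp [hσ]

theorem EquiHol.of_equiv (A : X ≃L[ℂ] Y) {U : Set X} {x : X} (h : EquiHol U x) :
    EquiHol (A '' U) (A x) := by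
  intro ε hε
  obtain ⟨δ, hδ, h1⟩ := h ε hε
  set M : ℝ := ‖(A.symm : Y →L[ℂ] X)‖ + 1 with hM
  have hM0 : 0 < M := by positivity
  refine ⟨δ / M, by positivity, fun F hF hF1 y hy hyd => ?_⟩
  obtain ⟨z, hz, rfl⟩ := hy
  have hhol : HolOn (fun z => F (A z)) U :=
    hF.comp (HolOn.of_diffOn isOpen_univ (subset_univ _) A.differentiable.differentiableOn)
      fun z hz => mem_image_of_mem _ hz
  refine h1 (fun z => F (A z)) hhol (fun z hz => hF1 _ (mem_image_of_mem _ hz)) z hz ?_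
  rw [dist_eq_norm] at hyd ⊢
  have h2 : z - x = A.symm (A z - A x) := by
    rw [map_sub, A.symm_apply_apply, A.symm_apply_apply]
  rw [h2]
  calc ‖A.symm (A z - A x)‖ ≤ ‖(A.symm : Y →L[ℂ] X)‖ * ‖A z - A x‖ :=
        (A.symm : Y →L[ℂ] X).le_opNorm _
    _ ≤ M * ‖A z - A x‖ := by gcongr; rw [hM]; linarith
    _ < M * (δ / M) := mul_lt_mul_of_pos_left hyd hM0
    _ = δ := by field_simp

/-- A family of maps which is, eventually along `𝒰`, holomorphic and bounded near every point of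
`U`. -/
def LocBddZ {ι : Type*} (l : Filter ι) (f : ι → X → Y) (U : Set X) : Prop :=
  ∀ x ∈ U, ∃ W : Set X, IsOpen W ∧ x ∈ W ∧ ∃ C : ℝ, ∀ᶠ j in l,
    HolOn (f j) (U ∩ W) ∧ ∀ y ∈ U ∩ W, ‖f j y‖ ≤ C

end Vale.Agent.P274.Z
end

section

open Filter Metric Set Topology

namespace Vale.Agent.P274

variable {ι : Type*} {E F : Type*} [NormedAddCommGroup E] [NormedSpace ℂ E]
  [NormedAddCommGroup F] [NormedSpace ℂ F]

/-- (I) -/
theorem core_im_const {V : Set E} (hV : IsOpen V) (hVc : IsPreconnected V) {G : E → ℂ}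
    (hG : DifferentiableOn ℂ G V) (h0 : ∀ y ∈ V, 0 ≤ (G y).im) {a : E} (ha : a ∈ V)
    (hGa : (G a).im = 0) : ∀ y ∈ V, G y = G a := by
  have hne : ∀ y ∈ V, G y + Complex.I ≠ 0 := by
    intro y hy h
    have h1 := congrArg Complex.im h
    simp only [Complex.add_im, Complex.I_im, Complex.zero_im] at h1
    linarith only [h1, h0 y hy]
  set φ : E → ℂ := fun y => (G y - Complex.I) / (G y + Complex.I) with hφ
  have hd : DifferentiableOn ℂ φ V := by
    have h1 : DifferentiableOn ℂ (fun y => (G y + Complex.I)⁻¹) V :=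
      DifferentiableOn.inv (hG.add_const _) hne
    simp only [hφ, div_eq_mul_inv]
    exact (hG.sub_const _).mul h1
  have hle : ∀ y ∈ V, ‖φ y‖ ≤ 1 := by
    intro y hy
    simp only [hφ, norm_div]
    rw [div_le_one (norm_pos_iff.2 (hne y hy))]
    rw [← sq_le_sq₀ (norm_nonneg _) (norm_nonneg _), Complex.sq_norm, Complex.sq_norm,
      Complex.normSq_apply, Complex.normSq_apply]
    simp only [Complex.sub_re, Complex.sub_im, Complex.add_re, Complex.add_im, Complex.I_re,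
      Complex.I_im]
    linarith only [h0 y hy]
  have heq : ‖φ a‖ = 1 := by
    simp only [hφ, norm_div]
    rw [div_eq_one_iff_eq (norm_pos_iff.2 (hne a ha)).ne']
    rw [← sq_eq_sq₀ (norm_nonneg _) (norm_nonneg _), Complex.sq_norm, Complex.sq_norm,
      Complex.normSq_apply, Complex.normSq_apply]
    simp only [Complex.sub_re, Complex.sub_im, Complex.add_re, Complex.add_im, Complex.I_re,
      Complex.I_im, hGa]
    ring
  have hmax : IsMaxOn (norm ∘ φ) V a := by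
    intro y hy
    simp only [mem_ofPred_eq, Function.comp_apply, heq]
    exact hle y hy
  have hconst := Complex.eqOn_of_isPreconnected_of_isMaxOn_norm hVc hV hd ha hmax
  intro y hy
  have h1 := hconst hy
  simp only [hφ, Function.const_apply] at h1
  rw [div_eq_div_iff (hne y hy) (hne a ha)] at h1
  have h2 : (2 * Complex.I) * (G y - G a) = 0 := by linear_combination h1
  have h3 : (2 * Complex.I) ≠ 0 := by simp
  exact sub_eq_zero.1 ((mul_eq_zero.1 h2).resolve_left h3)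

end Vale.Agent.P274
end

section

/-! Automorphisms moving a compact set to a peak point: the limit is constant, and the space is a
manifold. -/

open Filter Metric Set Topology

namespace Vale.Agent.P274.Z

variable {ι : Type*} {X E : Type*} [NormedAddCommGroup X] [NormedSpace ℂ X]
  [NormedAddCommGroup E] [NormedSpace ℂ E]

/-- Induction along a connected set. -/
theorem preconnected_induction {X : Type*} [TopologicalSpace X] {U Good : Set X}
    (hU : IsPreconnected U) (hne : (U ∩ Good).Nonempty)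
    (hopen : ∀ x ∈ U, x ∈ Good → ∀ᶠ y in 𝓝[U] x, y ∈ Good)
    (hclosed : ∀ x ∈ U, (∃ᶠ y in 𝓝[U] x, y ∈ Good) → x ∈ Good) : U ⊆ Good := by
  set A : Set X := {x | ∀ᶠ y in 𝓝 x, y ∈ U → y ∈ Good} with hA
  set B : Set X := {x | ∀ᶠ y in 𝓝 x, y ∈ U → y ∉ Good} with hB
  have hAo : IsOpen A := isOpen_iff_mem_nhds.2 fun x hx => eventually_eventually_nhds.2 hx
  have hBo : IsOpen B := isOpen_iff_mem_nhds.2 fun x hx => eventually_eventually_nhds.2 hx
  have hUAB : U ⊆ A ∪ B := by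
    intro x hx
    by_cases hxG : x ∈ Good
    · exact Or.inl (eventually_nhdsWithin_iff.1 (hopen x hx hxG))
    · refine Or.inr (eventually_nhdsWithin_iff.1 ?_)
      by_contra hcon
      exact hxG (hclosed x hx (by
        rw [Filter.Frequently]
        exact hcon))
  obtain ⟨x0, hx0U, hx0G⟩ := hne
  have hx0A : x0 ∈ A := eventually_nhdsWithin_iff.1 (hopen x0 hx0U hx0G)
  intro x hx
  rcases hUAB hx with h | h
  · exact h.self_of_nhds hx
  · exfalso
    obtain ⟨y, hyU, hyA, hyB⟩ := hU A B hAo hBo hUAB ⟨x0, hx0U, hx0A⟩ ⟨x, hx, h⟩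
    exact hyB.self_of_nhds hyU (hyA.self_of_nhds hyU)

/-- The standing assumptions on `U = Z ∩ O`. -/
structure USet (Z O U K : Set X) : Prop where
  closed : IsClosed Z
  open_ : IsOpen O
  eq : U = Z ∩ O
  conn : IsPreconnected U
  bdd : Bornology.IsBounded U
  cpt : IsCompact K
  sub : K ⊆ U
  co : CocompactHol U K
  equi : ∀ x ∈ U, EquiHol U x

theorem USet.limit [ProperSpace X] [ProperSpace E] {Z O U K : Set X} (hU : USet Z O U K)
    {τ : E → X} {π : X → E} {W : Set X} (hp : Par Z τ π W) {q : E} (hq : q ∈ ball (0 : E) 1)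
    {r0 c : ℝ} (hr0 : 0 < r0) (hc : 0 < c) {P : E → ℂ} (hP : DifferentiableOn ℂ P (ball q r0))
    (hPq : P q = 0)
    (hPre : ∀ z, z ∈ ball (0 : E) 1 → τ z ∈ U → z ∈ ball q r0 → c * ‖z - q‖ ^ 2 ≤ (P z).re)
    (𝒰 : Ultrafilter ι) {g g' : ι → X → X} {kk : ι → X}
    (hg : ∀ᶠ j in (𝒰 : Filter ι), IsBihol U U (g j) (g' j) ∧ kk j ∈ K)
    (hlim : Tendsto (fun j => g j (kk j)) 𝒰 (𝓝 (τ q))) :
    (∀ x ∈ U, ManPt E U x) ∧ ∀ x ∈ U, ∀ ε > 0, ∃ δ > 0, ∀ᶠ j in (𝒰 : Filter ι),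
      ∀ y ∈ U, dist y x < δ → dist (g j y) (τ q) < ε := by
  obtain ⟨R, hR⟩ := hU.bdd.subset_closedBall (0 : X)
  obtain ⟨k0, hk0K, hk0⟩ := hU.cpt.ultrafilter_le_nhds (𝒰.map kk) (by
    rw [le_principal_iff]
    exact hg.mono fun j hj => hj.2)
  have hk : Tendsto kk 𝒰 (𝓝 k0) := hk0
  have hk0U : k0 ∈ U := hU.sub hk0K
  -- equicontinuity
  have heq : ∀ x ∈ U, ∀ ε > 0, ∃ δ > 0, ∀ᶠ j in (𝒰 : Filter ι), ∀ y ∈ U, dist y x < δ →
      dist (g j y) (g j x) ≤ ε := by
    intro x hx ε hε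
    obtain ⟨δ, hδ, h1⟩ := (hU.equi x hx).vector (Y := X) R hε
    refine ⟨δ, hδ, hg.mono fun j hj y hy hyx => ?_⟩
    rw [dist_eq_norm]
    exact h1 (g j) hj.1.hol (fun z hz => by simpa using hR (hj.1.mapsTo hz)) y hy hyx
  -- values near `τ q`
  have hτq : τ q ∈ Z ∩ W := hp.mapsσ hq
  have hUZ : U ⊆ Z := by rw [hU.eq]; exact inter_subset_left
  have hclZ : closure U ⊆ Z := closure_minimal hUZ hU.closed
  set Good : Set X := {x | x ∈ U ∧ Tendsto (fun j => g j x) 𝒰 (𝓝 (τ q))} with hGood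
  have hman : ∀ x ∈ Good, ManPt E U x := by
    rintro x ⟨hx, hxl⟩
    have h1 : ∀ᶠ j in (𝒰 : Filter ι), g j x ∈ Z → ManPt E Z (g j x) :=
      hxl.eventually (hp.manPt hq).eventually
    obtain ⟨j, h2, h3⟩ := (h1.and hg).exists
    have h4 : g j x ∈ U := h3.1.mapsTo hx
    have h5 : ManPt E U (g j x) := by
      have h6 := h4
      rw [hU.eq] at h6
      have h7 := (h2 h6.1).inter_open hU.open_ h6.2
      rwa [← hU.eq] at h7
    have h6 := h3.1.symm.manPt h4 h5
    rwa [h3.1.left_inv x hx] at h6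
  -- closedness
  have hclosed : ∀ x ∈ U, (∃ᶠ y in 𝓝[U] x, y ∈ Good) → x ∈ Good := by
    intro x hx hxc
    refine ⟨hx, Metric.tendsto_nhds.2 fun ε hε => ?_⟩
    obtain ⟨δ, hδ, h1⟩ := heq x hx (ε / 2) (by positivity)
    obtain ⟨y, hyG, hy⟩ := (hxc.and_eventually
      (mem_nhdsWithin_of_mem_nhds (ball_mem_nhds x hδ))).exists
    have h2 := Metric.tendsto_nhds.1 hyG.2 (ε / 2) (by positivity)
    filter_upwards [h1, h2] with j h3 h4
    have h5 := h3 y hyG.1 hy
    have h6 := dist_triangle_left (g j x) (τ q) (g j y)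
    linarith
  have hk0G : k0 ∈ Good := by
    refine ⟨hk0U, Metric.tendsto_nhds.2 fun ε hε => ?_⟩
    obtain ⟨δ, hδ, h1⟩ := heq k0 hk0U (ε / 2) (by positivity)
    have h2 := Metric.tendsto_nhds.1 hlim (ε / 2) (by positivity)
    have h3 := hk.eventually (ball_mem_nhds k0 hδ)
    filter_upwards [h1, h2, h3, hg] with j h4 h5 h6 h7
    have h8 := h4 (kk j) (hU.sub h7.2) h6
    have h9 := dist_triangle_left (g j k0) (τ q) (g j (kk j))
    linarith
  -- openness
  have hopen : ∀ x ∈ Good, ∃ V : Set X, IsOpen V ∧ x ∈ V ∧ U ∩ V ⊆ Good := by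
    intro x hxG
    obtain ⟨σ, ρ, V, hpx, hσ0⟩ := hman x hxG
    have hxV : x ∈ V := by
      rw [← hσ0]; exact (hpx.mapsσ (mem_ball_self one_pos)).2
    refine ⟨V, hpx.isOpen, hxV, ?_⟩
    -- the maps in the chart
    set Fj : ι → E → X := fun j e => g j (σ e) with hFj
    have hLB : LocBdd (𝒰 : Filter ι) Fj (ball (0 : E) 1) := by
      intro e he
      obtain ⟨r, hr, hrb⟩ := Metric.isOpen_iff.1 isOpen_ball e he
      refine ⟨r, hr, R, hg.mono fun j hj => ⟨?_, fun y hy => ?_⟩⟩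
      · exact (hj.1.hol.comp_diffOn isOpen_ball hpx.diffσ
          fun e he => (hpx.mapsσ he).1).mono hrb
      · simpa using hR (hj.1.mapsTo (hpx.mapsσ (hrb hy)).1)
    obtain ⟨F, hFd, hFc⟩ := montel 𝒰 isOpen_ball hLB
    have hFpt : ∀ e ∈ ball (0 : E) 1, Tendsto (fun j => g j (σ e)) 𝒰 (𝓝 (F e)) :=
      fun e he => hFc e he (fun _ => e) tendsto_const_nhds
    have hF0 : F 0 = τ q := by
      refine tendsto_nhds_unique (hFpt 0 (mem_ball_self one_pos)) ?_
      rw [hσ0]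
      exact hxG.2
    have hFcl : ∀ e ∈ ball (0 : E) 1, F e ∈ closure U := fun e he =>
      mem_closure_of_tendsto (hFpt e he) (hg.mono fun j hj => hj.1.mapsTo (hpx.mapsσ he).1)
    have hFc0 : ContinuousAt F 0 :=
      (hFd.differentiableAt (ball_mem_nhds _ one_pos)).continuousAt
    have hπF : ContinuousAt (fun e => π (F e)) 0 := by
      have h1 : ContinuousAt π (F 0) := by
        rw [hF0]
        exact (hp.diffπ.differentiableAt (hp.isOpen.mem_nhds hτq.2)).continuousAt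
      exact ContinuousAt.comp (g := π) (f := F) h1 hFc0
    have hev : ∀ᶠ e in 𝓝 (0 : E), F e ∈ W ∧ π (F e) ∈ ball q r0 ∧ e ∈ ball (0 : E) 1 := by
      refine (hFc0.eventually_mem (by rw [hF0]; exact hp.isOpen.mem_nhds hτq.2)).and
        ((hπF.eventually_mem ?_).and (ball_mem_nhds _ one_pos))
      rw [hF0, hp.left q hq]
      exact ball_mem_nhds q hr0
    obtain ⟨t, ht, htb⟩ := Metric.eventually_nhds_iff_ball.1 hev
    have hπd : DifferentiableOn ℂ (fun e => π (F e)) (ball 0 t) :=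
      hp.diffπ.comp (hFd.mono fun e he => (htb e he).2.2) fun e he => (htb e he).1
    have hre : ∀ e ∈ ball (0 : E) t, c * ‖π (F e) - q‖ ^ 2 ≤ (P (π (F e))).re := by
      intro e he
      obtain ⟨h1, h2, h3⟩ := htb e he
      have h4 : Tendsto (fun j => π (g j (σ e))) 𝒰 (𝓝 (π (F e))) :=
        ((hp.diffπ.differentiableAt (hp.isOpen.mem_nhds h1)).continuousAt.tendsto).comp
          (hFpt e h3)
      have hPc : ContinuousAt P (π (F e)) :=
        (hP.differentiableAt (isOpen_ball.mem_nhds h2)).continuousAt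
      have h5 : Tendsto (fun j => (P (π (g j (σ e)))).re - c * ‖π (g j (σ e)) - q‖ ^ 2) 𝒰
          (𝓝 ((P (π (F e))).re - c * ‖π (F e) - q‖ ^ 2)) :=
        ((Complex.continuous_re.tendsto _).comp (hPc.tendsto.comp h4)).sub
          (((h4.sub_const q).norm.pow 2).const_mul c)
      have h6 : 0 ≤ (P (π (F e))).re - c * ‖π (F e) - q‖ ^ 2 := by
        refine ge_of_tendsto h5 ?_
        filter_upwards [hg, (hFpt e h3).eventually (hp.isOpen.mem_nhds h1),
          h4.eventually (isOpen_ball.mem_nhds h2)] with j h7 h8 h9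
        have h10 : g j (σ e) ∈ U := h7.1.mapsTo (hpx.mapsσ h3).1
        have h11 : g j (σ e) ∈ Z ∩ W := ⟨hUZ h10, h8⟩
        have h12 := hPre (π (g j (σ e))) (hp.mapsπ h11) (by rw [hp.right _ h11]; exact h10) h9
        linarith
      linarith
    have hGd : DifferentiableOn ℂ (fun e => Complex.I * P (π (F e))) (ball 0 t) :=
      (hP.comp hπd fun e he => (htb e he).2.1).const_mul _
    have hπ0 : π (F 0) = q := by rw [hF0, hp.left q hq]
    have h6 := core_im_const isOpen_ball (convex_ball (0 : E) t).isPreconnected hGd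
      (fun y hy => by
        have h1 := hre y hy
        have h7 : 0 ≤ c * ‖π (F y) - q‖ ^ 2 := by (clear * - hc; positivity)
        simp only [Complex.mul_im, Complex.I_re, Complex.I_im]
        linarith) (mem_ball_self ht) (by rw [hπ0, hPq]; simp)
    have hFq : ∀ e ∈ ball (0 : E) t, F e = τ q := by
      intro e he
      have h8 := h6 e he
      simp only [hπ0, hPq, mul_zero, mul_eq_zero, Complex.I_ne_zero, false_or] at h8
      have h9 := hre e he
      rw [h8, Complex.zero_re] at h9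
      have h10 : ‖π (F e) - q‖ ^ 2 ≤ 0 := by
        by_contra hcon
        push Not at hcon
        linarith only [mul_pos (sub_pos.2 hc) (sub_pos.2 hcon), h9]
      have h11 : π (F e) = q := by
        have := sq_nonneg ‖π (F e) - q‖
        exact sub_eq_zero.1 (norm_eq_zero.1
          (pow_eq_zero_iff two_ne_zero |>.1 (le_antisymm h10 this)))
      obtain ⟨h1, h2, h3⟩ := htb e he
      have h12 := hp.right (F e) ⟨hclZ (hFcl e h3), h1⟩
      rw [← h12, h11]
    have h7 := eqOn_of_eventuallyEq isOpen_ball (convex_ball (0 : E) 1).isPreconnected hFd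
      (differentiableOn_const (τ q)) (mem_ball_self one_pos)
      (eventually_of_mem (ball_mem_nhds 0 ht) hFq)
    rintro y ⟨hyU, hyV⟩
    refine ⟨hyU, ?_⟩
    have h8 : π (σ 0) = π (σ 0) := rfl
    have h9 := hpx.mapsπ ⟨hyU, hyV⟩
    have h10 := hFpt _ h9
    rw [hpx.right y ⟨hyU, hyV⟩] at h10
    have h11 : F (ρ y) = τ q := h7 h9
    rwa [h11] at h10
  -- connectedness
  have hall : U ⊆ Good := by
    refine preconnected_induction hU.conn ⟨k0, hk0U, hk0G⟩ (fun x hx hxG => ?_) hclosed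
    obtain ⟨V, hV, hxV, hVG⟩ := hopen x hxG
    filter_upwards [self_mem_nhdsWithin, mem_nhdsWithin_of_mem_nhds (hV.mem_nhds hxV)] with
      y hy1 hy2
    exact hVG ⟨hy1, hy2⟩
  refine ⟨fun x hx => hman x (hall hx), fun x hx ε hε => ?_⟩
  obtain ⟨δ, hδ, h1⟩ := heq x hx (ε / 2) (by positivity)
  refine ⟨δ, hδ, ?_⟩
  have h2 := Metric.tendsto_nhds.1 (hall hx).2 (ε / 2) (by positivity)
  filter_upwards [h1, h2] with j h3 h4 y hy hyx
  have h5 := h3 y hy hyx
  have h6 := dist_triangle (g j y) (g j x) (τ q)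
  linarith

end Vale.Agent.P274.Z
end

section

open Filter Metric Set Topology Asymptotics

namespace Vale.Agent.P274

open Complex

variable {E : Type*} [NormedAddCommGroup E] [NormedSpace ℂ E] {k : ℕ}

variable (D : E →L[ℝ] (Fin k → ℝ)) (B : E →L[ℝ] E →L[ℝ] (Fin k → ℝ))
  (σ : (Fin k → ℂ) →L[ℂ] E)

/-- Projection onto the complex kernel of `D` along the range of `σ`. -/
noncomputable def prj : E →L[ℂ] E := ContinuousLinearMap.id ℂ E - σ.comp (Lam D)

/-- Inverse anisotropic dilation. -/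
noncomputable def Th (s : ℝ) (y : E) : E :=
  (s ^ 2) • σ (Lam D y - Qf B (prj D σ y)) + s • prj D σ y

/-- Anisotropic dilation. -/
noncomputable def Ps (s : ℝ) (x : E) : E :=
  σ ((s ^ 2)⁻¹ • (Lam D x + Qf B (prj D σ x))) + s⁻¹ • prj D σ x

variable {D B σ}

theorem prj_apply (x : E) : prj D σ x = x - σ (Lam D x) := rfl

theorem Lam_smul_real (r : ℝ) (x : E) : Lam D (r • x) = r • Lam D x := by
  have : (r • x : E) = (r : ℂ) • x := rfl
  rw [this, map_smul]; rfl

theorem prj_smul_real (r : ℝ) (x : E) : prj D σ (r • x) = r • prj D σ x := by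
  have : (r • x : E) = (r : ℂ) • x := rfl
  rw [this, map_smul]; rfl

theorem σ_smul_real (r : ℝ) (w : Fin k → ℂ) : σ (r • w) = r • σ w := by
  have : (r • w : Fin k → ℂ) = (r : ℂ) • w := rfl
  rw [this, map_smul]; rfl

section
variable (hσ : ∀ w, Lam D (σ w) = w)
include hσ

theorem Lam_prj (x : E) : Lam D (prj D σ x) = 0 := by
  rw [prj_apply, map_sub, hσ, sub_self]

theorem prj_σ (w : Fin k → ℂ) : prj D σ (σ w) = 0 := by
  rw [prj_apply, hσ, sub_self]

theorem prj_prj (x : E) : prj D σ (prj D σ x) = prj D σ x := by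
  conv_lhs => rw [prj_apply, Lam_prj hσ, map_zero, sub_zero]

theorem D_prj (x : E) : D (prj D σ x) = 0 := by
  ext j
  rw [← Lam_re, Lam_prj hσ]; simp

theorem D_σ (w : Fin k → ℂ) (j : Fin k) : D (σ w) j = (w j).re := by
  rw [← Lam_re, hσ]

theorem Lam_Th (s : ℝ) (y : E) :
    Lam D (Th D B σ s y) = (s ^ 2) • (Lam D y - Qf B (prj D σ y)) := by
  rw [Th, map_add, Lam_smul_real, Lam_smul_real, hσ, Lam_prj hσ, smul_zero, add_zero]

theorem prj_Th (s : ℝ) (y : E) : prj D σ (Th D B σ s y) = s • prj D σ y := by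
  rw [Th, map_add, prj_smul_real, prj_smul_real, prj_σ hσ, prj_prj hσ, smul_zero, zero_add]

theorem Lam_Ps (s : ℝ) (x : E) :
    Lam D (Ps D B σ s x) = (s ^ 2)⁻¹ • (Lam D x + Qf B (prj D σ x)) := by
  rw [Ps, map_add, Lam_smul_real, hσ, Lam_prj hσ, smul_zero, add_zero]

theorem prj_Ps (s : ℝ) (x : E) : prj D σ (Ps D B σ s x) = s⁻¹ • prj D σ x := by
  rw [Ps, map_add, prj_smul_real, prj_σ hσ, prj_prj hσ, zero_add]

theorem Ps_Th {s : ℝ} (hs : s ≠ 0) (y : E) : Ps D B σ s (Th D B σ s y) = y := by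
  rw [Ps, Lam_Th hσ, prj_Th hσ, Qf_smul, ← smul_add, smul_smul, smul_smul,
    inv_mul_cancel₀ (pow_ne_zero 2 hs), inv_mul_cancel₀ hs, one_smul, one_smul, sub_add_cancel,
    prj_apply]
  abel

theorem Th_Ps {s : ℝ} (hs : s ≠ 0) (x : E) : Th D B σ s (Ps D B σ s x) = x := by
  rw [Th, Lam_Ps hσ, prj_Ps hσ, Qf_smul, inv_pow, ← smul_sub, add_sub_cancel_right,
    σ_smul_real, smul_smul, smul_smul, mul_inv_cancel₀ (pow_ne_zero 2 hs),
    mul_inv_cancel₀ hs, one_smul, one_smul, prj_apply]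
  abel

end

theorem differentiable_Th [FiniteDimensional ℂ E] (s : ℝ) :
    Differentiable ℂ (Th D B σ s) := by
  have h1 : Th D B σ s = fun y => ((s ^ 2 : ℝ) : ℂ) • σ (Lam D y - Qf B (prj D σ y)) +
      (s : ℂ) • prj D σ y := rfl
  rw [h1]
  have h2 := differentiable_Qf (E := E) B
  have h3 : Differentiable ℂ (fun y => Qf B (prj D σ y)) := h2.comp (prj D σ).differentiable
  fun_prop

theorem differentiable_Ps [FiniteDimensional ℂ E] (s : ℝ) :
    Differentiable ℂ (Ps D B σ s) := by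
  have h1 : Ps D B σ s = fun x => σ ((((s ^ 2)⁻¹ : ℝ) : ℂ) • (Lam D x + Qf B (prj D σ x))) +
      ((s⁻¹ : ℝ) : ℂ) • prj D σ x := rfl
  rw [h1]
  have h2 := differentiable_Qf (E := E) B
  have h3 : Differentiable ℂ (fun y => Qf B (prj D σ y)) := h2.comp (prj D σ).differentiable
  fun_prop

theorem taylor_scaled_aux2 {ε η : ℝ} (t : ℝ) (hη : η = ε / (2 * (t ^ 2 + 1))) :
    η * (t ^ 2 + 1) = ε / 2 := by
  have h : t ^ 2 + 1 ≠ 0 := by positivity
  rw [hη]; field_simp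

/-- Uniform convergence of the rescaled defining functions. -/
theorem taylor_scaled [FiniteDimensional ℂ E] (hσ : ∀ w, Lam D (σ w) = w)
    {ρ : E → (Fin k → ℝ)}
    (hρ : (fun x => ρ x - D x - (1 / 2 : ℝ) • B x x) =o[𝓝 0] fun x => ‖x‖ ^ 2)
    (R : ℝ) {ε : ℝ} (hε : 0 < ε) :
    ∀ᶠ s in 𝓝[>] (0 : ℝ), ∀ y ∈ closedBall (0 : E) R,
      ‖(s ^ 2)⁻¹ • ρ (Th D B σ s y) - (D y + Lev B (prj D σ y))‖ ≤ ε := by
  have : ProperSpace E := FiniteDimensional.proper_rclike ℂ E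
  have hQc : Continuous (Qf B) := (differentiable_Qf B).continuous
  obtain ⟨A, hA⟩ := (isCompact_closedBall (0 : E) R).exists_bound_of_continuousOn
    (f := fun y => σ (Lam D y - Qf B (prj D σ y))) (by fun_prop)
  obtain ⟨Z, hZ⟩ := (isCompact_closedBall (0 : E) R).exists_bound_of_continuousOn
    (f := fun y => prj D σ y) (by fun_prop)
  set A' : ℝ := max A 0 with hA'
  set Z' : ℝ := max Z 0 with hZ'
  have hA0 : 0 ≤ A' := le_max_right _ _
  have hZ0 : 0 ≤ Z' := le_max_right _ _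
  set η : ℝ := ε / (2 * ((A' + Z') ^ 2 + 1)) with hη
  have hη0 : 0 < η := by (clear * - hε; positivity)
  obtain ⟨δ, hδ, hδr⟩ := Metric.eventually_nhds_iff.1 (hρ.def hη0)
  set M : ℝ := ‖B‖ * A' * A' + 2 * (‖B‖ * A' * Z') with hM
  have hM0 : 0 ≤ M := by (clear * -; (clear * -; positivity))
  have hs1 : ∀ᶠ s in 𝓝[>] (0 : ℝ), s ∈ Ioo (0 : ℝ)
      (min 1 (min (δ / (A' + Z' + 1)) (ε / (M + 1)))) :=
    Ioo_mem_nhdsGT (by (clear * - hε hδ; (clear * - hδ hε; positivity)))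
  filter_upwards [hs1] with s hs y hy
  obtain ⟨hs0, hs1⟩ := hs
  have hsle1 : s < 1 := hs1.trans_le (min_le_left _ _)
  have hsδ : s < δ / (A' + Z' + 1) := hs1.trans_le ((min_le_right _ _).trans (min_le_left _ _))
  have hsM : s < ε / (M + 1) := hs1.trans_le ((min_le_right _ _).trans (min_le_right _ _))
  have hss : s ^ 2 ≤ s := pow_le_of_le_one hs0.le hsle1.le two_ne_zero
  have hs20 : 0 ≤ s ^ 2 := sq_nonneg s
  have hsi0 : 0 ≤ (s ^ 2)⁻¹ := inv_nonneg.2 hs20
  have hAZ0 : 0 ≤ A' + Z' := add_nonneg hA0 hZ0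
  set a : E := σ (Lam D y - Qf B (prj D σ y)) with ha
  set z : E := prj D σ y with hz
  have haA : ‖a‖ ≤ A' := (hA y hy).trans (le_max_left _ _)
  have hzZ : ‖z‖ ≤ Z' := (hZ y hy).trans (le_max_left _ _)
  set x : E := Th D B σ s y with hx
  have hxe : x = (s ^ 2) • a + s • z := rfl
  have hxn : ‖x‖ ≤ s * (A' + Z') := by
    rw [hxe]
    refine (norm_add_le _ _).trans ?_
    rw [norm_smul, norm_smul, Real.norm_of_nonneg hs20, Real.norm_of_nonneg hs0.le, mul_add]
    exact add_le_add (mul_le_mul hss haA (norm_nonneg _) hs0.le)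
      (mul_le_mul_of_nonneg_left hzZ hs0.le)
  have hxδ : dist x 0 < δ := by
    rw [dist_zero_right]
    refine hxn.trans_lt ?_
    have h2 : s * (A' + Z' + 1) < δ :=
      (lt_div_iff₀ (lt_of_le_of_lt hAZ0 (lt_add_one _))).1 hsδ
    exact (mul_le_mul_of_nonneg_left (le_add_of_nonneg_right zero_le_one) hs0.le).trans_lt h2
  have hr := hδr hxδ
  set r : Fin k → ℝ := ρ x - D x - (1 / 2 : ℝ) • B x x with hr'
  have hrn : ‖(s ^ 2)⁻¹ • r‖ ≤ ε / 2 := by
    rw [norm_smul, Real.norm_of_nonneg hsi0]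
    have h1 : ‖r‖ ≤ η * (s * (A' + Z')) ^ 2 := by
      refine hr.trans ?_
      rw [Real.norm_of_nonneg (sq_nonneg _)]
      exact mul_le_mul_of_nonneg_left (pow_le_pow_left₀ (norm_nonneg _) hxn 2) hη0.le
    calc (s ^ 2)⁻¹ * ‖r‖ ≤ (s ^ 2)⁻¹ * (η * (s * (A' + Z')) ^ 2) :=
          mul_le_mul_of_nonneg_left h1 hsi0
      _ = η * (A' + Z') ^ 2 := by
          rw [mul_pow, mul_left_comm, inv_mul_cancel_left₀ (pow_ne_zero 2 hs0.ne')]
      _ ≤ η * ((A' + Z') ^ 2 + 1) :=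
          mul_le_mul_of_nonneg_left (le_add_of_nonneg_right zero_le_one) hη0.le
      _ = ε / 2 := taylor_scaled_aux2 _ hη
  have hDx : D x = (s ^ 2) • D a := by
    rw [hxe, map_add, map_smul, map_smul, hz, D_prj hσ, smul_zero, add_zero]
  have hBx : B x x = ((s ^ 2) ^ 2) • B a a + (s ^ 3) • (B a z + B z a) + (s ^ 2) • B z z := by
    rw [hxe]
    simp only [map_add, map_smul, add_apply, smul_apply, smul_add, smul_smul]
    ring_nf
  have hkey : (s ^ 2)⁻¹ • ρ x - (D y + Lev B z) =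
      (s ^ 2)⁻¹ • r + (1 / 2 : ℝ) • ((s ^ 2) • B a a + s • (B a z + B z a)) := by
    have h1 : ρ x = r + D x + (1 / 2 : ℝ) • B x x := by rw [hr']; abel
    rw [h1, hDx, hBx]
    ext j
    have h2 : D a j = D y j - (Qf B z j).re := by
      rw [ha, D_σ hσ, Pi.sub_apply, sub_re, Lam_re]
    have h3 := half_B B z j
    simp only [Pi.sub_apply, Pi.add_apply, Pi.smul_apply, smul_eq_mul]
    rw [h2]
    field_simp
    linear_combination (2 * s ^ 2) * h3
  rw [hkey]
  refine (norm_add_le _ _).trans ?_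
  have hlast : ‖(1 / 2 : ℝ) • ((s ^ 2) • B a a + s • (B a z + B z a))‖ ≤ ε / 2 := by
    have hB0 : 0 ≤ ‖B‖ := norm_nonneg B
    have hBA0 : 0 ≤ ‖B‖ * A' := mul_nonneg hB0 hA0
    have hBa : ‖B‖ * ‖a‖ ≤ ‖B‖ * A' := mul_le_mul_of_nonneg_left haA hB0
    have b1 : ‖B a a‖ ≤ ‖B‖ * A' * A' :=
      (B.le_opNorm₂ a a).trans (mul_le_mul hBa haA (norm_nonneg _) hBA0)
    have b2 : ‖B a z‖ ≤ ‖B‖ * A' * Z' :=
      (B.le_opNorm₂ a z).trans (mul_le_mul hBa hzZ (norm_nonneg _) hBA0)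
    have b3 : ‖B z a‖ ≤ ‖B‖ * A' * Z' :=
      (B.le_opNorm₂ z a).trans ((mul_right_comm _ _ _).trans_le
        (mul_le_mul hBa hzZ (norm_nonneg _) hBA0))
    rw [norm_smul, Real.norm_of_nonneg one_half_pos.le]
    have h1 : ‖(s ^ 2) • B a a + s • (B a z + B z a)‖ ≤ s * M := by
      refine (norm_add_le _ _).trans ?_
      rw [norm_smul, norm_smul, Real.norm_of_nonneg hs20, Real.norm_of_nonneg hs0.le]
      have h2 : ‖B a z + B z a‖ ≤ 2 * (‖B‖ * A' * Z') :=
        (norm_add_le _ _).trans ((add_le_add b2 b3).trans_eq (two_mul _).symm)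
      have h3 : s ^ 2 * ‖B a a‖ ≤ s * (‖B‖ * A' * A') :=
        mul_le_mul hss b1 (norm_nonneg _) hs0.le
      have h4 : s * ‖B a z + B z a‖ ≤ s * (2 * (‖B‖ * A' * Z')) :=
        mul_le_mul_of_nonneg_left h2 hs0.le
      exact (add_le_add h3 h4).trans_eq (mul_add _ _ _).symm
    have h5 : s * M ≤ ε :=
      ((mul_le_mul_of_nonneg_left (le_add_of_nonneg_right zero_le_one) hs0.le).trans_lt
        ((lt_div_iff₀ (lt_of_le_of_lt hM0 (lt_add_one _))).1 hsM)).le
    exact (mul_le_mul_of_nonneg_left (h1.trans h5) one_half_pos.le).trans_eq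
      (one_div_mul_eq_div 2 ε)
  exact (add_le_add hrn hlast).trans_eq (add_halves ε)

end Vale.Agent.P274
end

section

/-! A domain of the form `{y | D y + Lev B (prj y) ∈ Ω}` which is biholomorphic to a bounded
domain with cocompact automorphism group is convex. -/

set_option linter.unusedSectionVars false

namespace Vale.Agent.P274

open Filter Metric Set Topology

section transfer

variable {ι : Type*} {E E' F : Type*} [NormedAddCommGroup E] [NormedSpace ℂ E]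
  [NormedAddCommGroup E'] [NormedSpace ℂ E'] [NormedAddCommGroup F] [NormedSpace ℂ F]

/-- Tautness is invariant under biholomorphisms. -/
theorem taut_transfer [ProperSpace E] [ProperSpace F] {U K : Set E} (hU : IsOpen U)
    (hb : Bornology.IsBounded U) (hK : IsCompact K) (hKU : K ⊆ U) (hco : CocompactAut U K)
    {S : Set E'} (hSo : IsOpen S) (hbi : Biholomorphic U S) (𝒰 : Ultrafilter ι)
    {T : Set F} (hTo : IsOpen T) (hT : IsPreconnected T) {H : ι → F → E'}
    (hH : ∀ s ∈ T, ∃ r > 0, ∀ᶠ j in (𝒰 : Filter ι),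
      DifferentiableOn ℂ (H j) (ball s r) ∧ MapsTo (H j) (ball s r) S)
    {H0 : F → E'} (hlim : ∀ s ∈ T, Tendsto (fun j => H j s) 𝒰 (𝓝 (H0 s)))
    {s0 : F} (hs0 : s0 ∈ T) (h0 : H0 s0 ∈ S) : ∀ s ∈ T, H0 s ∈ S := by
  obtain ⟨f, g, hfg⟩ := hbi
  obtain ⟨R, hR⟩ := hb.subset_closedBall (0 : E)
  have hG : ∀ s ∈ T, ∃ r > 0, ∀ᶠ j in (𝒰 : Filter ι),
      DifferentiableOn ℂ (g ∘ H j) (ball s r) ∧ MapsTo (g ∘ H j) (ball s r) U := by
    intro s hs
    obtain ⟨r, hr, h⟩ := hH s hs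
    refine ⟨r, hr, h.mono fun j hj => ⟨hfg.diffOn_inv.comp hj.1 hj.2, fun x hx => 
      hfg.mapsTo_inv (hj.2 hx)⟩⟩
  have hLB : LocBdd (𝒰 : Filter ι) (fun j => g ∘ H j) T := by
    intro s hs
    obtain ⟨r, hr, h⟩ := hG s hs
    refine ⟨r, hr, R, h.mono fun j hj => ⟨hj.1, fun y hy => ?_⟩⟩
    simpa using hR (hj.2 hy)
  obtain ⟨h, -, hhc⟩ := montel 𝒰 hTo hLB
  have hgc : ContinuousAt g (H0 s0) := 
    (hfg.diffOn_inv.differentiableAt (hSo.mem_nhds h0)).continuousAt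
  have h1 : h s0 = g (H0 s0) := tendsto_nhds_unique (hhc s0 hs0 (fun _ => s0) tendsto_const_nhds) 
    (hgc.tendsto.comp (hlim s0 hs0))
  have h2 : ∀ s ∈ T, h s ∈ U := taut hU hb hK hKU hco 𝒰 hTo hT hG
    (fun s hs => hhc s hs (fun _ => s) tendsto_const_nhds) hs0 (by
      rw [h1]; exact hfg.mapsTo_inv h0)
  intro s hs
  have hfc : ContinuousAt f (h s) := 
    (hfg.diffOn.differentiableAt (hU.mem_nhds (h2 s hs))).continuousAt
  have h3 : Tendsto (fun j => f (g (H j s))) 𝒰 (𝓝 (f (h s))) := 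
    hfc.tendsto.comp (hhc s hs (fun _ => s) tendsto_const_nhds)
  have h4 : Tendsto (fun j => H j s) 𝒰 (𝓝 (f (h s))) := by
    refine h3.congr' ?_
    obtain ⟨r, hr, hev⟩ := hH s hs
    filter_upwards [hev] with j hj
    exact hfg.right_inv _ (hj.2 (mem_ball_self hr))
  rw [tendsto_nhds_unique (hlim s hs) h4]
  exact hfg.mapsTo (h2 s hs)

end transfer

section siegel

open Complex

variable {E E' : Type*} [NormedAddCommGroup E] [NormedSpace ℂ E] [NormedAddCommGroup E'] 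
  [NormedSpace ℂ E'] {k : ℕ}
  {D : E →L[ℝ] (Fin k → ℝ)} {B : E →L[ℝ] E →L[ℝ] (Fin k → ℝ)} {σ : (Fin k → ℂ) →L[ℂ] E}

lemma Lev_smul (B : E →L[ℝ] E →L[ℝ] (Fin k → ℝ)) (c : ℂ) (z : E) : 
    Lev B (c • z) = (Complex.normSq c) • Lev B z := by
  ext j
  have h1 : (I : ℂ) • (c • z) = (-c.im : ℝ) • z + (c.re : ℝ) • (I • z) := by
    rw [smul_eq_re_im c z, smul_add, I_smul_smul_real, I_smul_smul_real, I_smul_I_smul]
    module
  have h0 := smul_eq_re_im c z
  rw [Lev_apply, h1, h0]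
  simp only [Lev_apply, map_add, map_smul, add_apply,
    smul_apply, Pi.add_apply, Pi.smul_apply, smul_eq_mul, Complex.normSq_apply]
  ring

lemma Lev_comb (B : E →L[ℝ] E →L[ℝ] (Fin k → ℝ)) (z w : E) {a b : ℝ} (hab : a + b = 1) : 
    Lev B (a • z + b • w) = a • Lev B z + b • Lev B w - (a * b) • Lev B (z - w) := by
  ext j
  have hb : b = 1 - a := by linarith only [hab]
  subst hb
  simp only [Lev_apply, smul_add, smul_sub, I_smul_smul_real, map_add, map_sub, map_smul, 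
    add_apply, sub_apply, smul_apply, Pi.add_apply, Pi.sub_apply, Pi.smul_apply, smul_eq_mul]
  ring

lemma Lev_zero (B : E →L[ℝ] E →L[ℝ] (Fin k → ℝ)) : Lev B 0 = 0 := by
  ext j
  simp [Lev_apply]

lemma continuous_Lev (B : E →L[ℝ] E →L[ℝ] (Fin k → ℝ)) : Continuous (Lev B) := by
  unfold Lev
  fun_prop

lemma isOpen_siegel {Ω : Set (Fin k → ℝ)} (hΩ : IsOpen Ω) : 
    IsOpen {y : E | D y + Lev B (prj D σ y) ∈ Ω} := by
  refine hΩ.preimage ?_
  have := continuous_Lev B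
  fun_prop

/-- The convexity theorem. -/
theorem siegel_convex [ProperSpace E'] (hσ : ∀ w, Lam D (σ w) = w)
    {U K : Set E'} (hU : IsOpen U) (hb : Bornology.IsBounded U) (hK : IsCompact K) (hKU : K ⊆ U)
    (hco : CocompactAut U K) {Ω : Set (Fin k → ℝ)} (hΩ : IsOpen Ω) (hΩc : IsPreconnected Ω)
    (hbi : Biholomorphic U {y : E | D y + Lev B (prj D σ y) ∈ Ω}) :
    Convex ℝ {y : E | D y + Lev B (prj D σ y) ∈ Ω} := by
  set S : Set E := {y : E | D y + Lev B (prj D σ y) ∈ Ω} with hS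
  have hSo : IsOpen S := isOpen_siegel hΩ
  set 𝒰 : Ultrafilter ℕ := hyperfilter ℕ with h𝒰
  have hle : (𝒰 : Filter ℕ) ≤ atTop := by
    rw [h𝒰, ← Nat.cofinite_eq_atTop]; exact hyperfilter_le_cofinite
  have hr1 : ∀ (w : Fin k → ℂ) (u : E), Lam D u = 0 → 
      D (σ w + u) + Lev B (prj D σ (σ w + u)) = (fun j => (w j).re) + Lev B u := by
    intro w u hu
    have h1 : D (σ w + u) = fun j => (w j).re := by
      ext j
      rw [← Lam_re, map_add, hσ, hu, add_zero]
    have h2 : prj D σ (σ w + u) = u := by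
      rw [map_add, prj_σ hσ, zero_add, prj_apply, hu, map_zero, sub_zero]
    rw [h1, h2]
  -- segments
  have hseg : ∀ a ∈ Ω, ∀ c ∈ Ω, segment ℝ a c ⊆ Ω := by
    intro a ha
    set A : Set (Fin k → ℝ) := {c | segment ℝ a c ⊆ Ω} with hA
    have hAo : IsOpen A := by
      rw [Metric.isOpen_iff]
      intro c hc
      have hcomp : IsCompact (segment ℝ a c) := by
        rw [segment_eq_image ℝ a c]
        exact isCompact_Icc.image (by fun_prop)
      obtain ⟨ε, hε, hεΩ⟩ := hcomp.exists_thickening_subset_open hΩ hc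
      refine ⟨ε, hε, fun c' hc' => ?_⟩
      rintro x ⟨s, t, hs, ht, hst, rfl⟩
      apply hεΩ
      rw [mem_thickening_iff]
      refine ⟨s • a + t • c, ⟨s, t, hs, ht, hst, rfl⟩, ?_⟩
      rw [dist_eq_norm]
      have h1 : s • a + t • c' - (s • a + t • c) = t • (c' - c) := by
        rw [smul_sub]; abel
      rw [h1, norm_smul, Real.norm_eq_abs, abs_of_nonneg ht]
      rw [mem_ball, dist_eq_norm] at hc'
      have h2 : t ≤ 1 := by linarith only [hs, hst]
      calc t * ‖c' - c‖ ≤ 1 * ‖c' - c‖ := mul_le_mul_of_nonneg_right h2 (norm_nonneg _)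
        _ < ε := by linarith only [hc']
    have hsub : Ω ⊆ A := by
      refine hΩc.subset_of_closure_inter_subset hAo ⟨a, ha, ?_⟩ ?_
      · change segment ℝ a a ⊆ Ω
        rw [segment_same]; exact singleton_subset_iff.2 ha
      rintro c ⟨hcA, hcΩ⟩
      obtain ⟨x, hxA, hxc⟩ := mem_closure_iff_seq_limit.1 hcA
      set T : Set ℂ := {ζ | 0 < ζ.re ∧ ζ.re < 1} with hT
      have hTo : IsOpen T := (isOpen_lt continuous_const Complex.continuous_re).inter 
        (isOpen_lt Complex.continuous_re continuous_const)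
      have hTc : IsPreconnected T := by
        refine Convex.isPreconnected ?_
        intro x hx y hy s t hs ht hst
        have h1 : (s • x + t • y).re = s * x.re + t * y.re := by simp
        constructor
        · rw [h1]
          rcases hs.eq_or_lt with h | h
          · have : t = 1 := by linarith only [hs, hst, h]
            rw [← h, this]; simpa using hy.1
          · linarith only [ht, h, hx.1, hy.1, mul_pos h hx.1, mul_nonneg ht hy.1.le]
        · rw [h1]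
          rcases hs.eq_or_lt with h | h
          · have : t = 1 := by linarith only [hs, hst, h]
            rw [← h, this]; simpa using hy.2
          · linarith only [mul_nonneg ht (sub_pos.2 hy.2).le, mul_pos h (sub_pos.2 hx.2), hst]
      set H : ℕ → ℂ → E := fun j ζ => σ (fun i => (a i : ℂ) + ζ * ((x j i : ℂ) - a i)) with hH
      set H0 : ℂ → E := fun ζ => σ (fun i => (a i : ℂ) + ζ * ((c i : ℂ) - a i)) with hH0
      have hmem : ∀ (y : Fin k → ℝ) (ζ : ℂ), 
          (σ (fun i => (a i : ℂ) + ζ * ((y i : ℂ) - a i)) ∈ S ↔ a + ζ.re • (y - a) ∈ Ω) := by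
        intro y ζ
        have h1 := hr1 (fun i => (a i : ℂ) + ζ * ((y i : ℂ) - a i)) 0 (map_zero _)
        rw [add_zero, Lev_zero, add_zero] at h1
        change D _ + Lev B _ ∈ Ω ↔ _
        rw [h1]
        have h2 : (fun j => ((a j : ℂ) + ζ * ((y j : ℂ) - a j)).re) = a + ζ.re • (y - a) := by
          ext j
          simp
        rw [h2]
      have hloc : ∀ s ∈ T, ∃ r > 0, ∀ᶠ j in (𝒰 : Filter ℕ),
          DifferentiableOn ℂ (H j) (ball s r) ∧ MapsTo (H j) (ball s r) S := by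
        intro s hs
        obtain ⟨r, hr, hrT⟩ := Metric.isOpen_iff.1 hTo s hs
        refine ⟨r, hr, Eventually.of_forall fun j => ⟨?_, ?_⟩⟩
        · refine (σ.differentiable.comp ?_).differentiableOn
          refine differentiable_pi.2 fun i => ?_
          fun_prop
        · intro ζ hζ
          have h1 := hrT hζ
          refine (hmem _ _).2 (hxA j ?_)
          refine ⟨1 - ζ.re, ζ.re, by linarith only [h1.2], h1.1.le, by ring, ?_⟩
          module
      have hlim : ∀ s ∈ T, Tendsto (fun j => H j s) 𝒰 (𝓝 (H0 s)) := by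
        intro s hs
        have h1 : Tendsto x 𝒰 (𝓝 c) := hxc.mono_left hle
        refine (σ.continuous.tendsto _).comp ?_
        rw [tendsto_pi_nhds]
        intro i
        have h2 : Tendsto (fun j => x j i) 𝒰 (𝓝 (c i)) := (tendsto_pi_nhds.1 h1) i
        have h3 : Tendsto (fun j => ((x j i : ℝ) : ℂ)) 𝒰 (𝓝 ((c i : ℝ) : ℂ)) := 
          (Complex.continuous_ofReal.tendsto _).comp h2
        exact ((h3.sub_const _).const_mul s).const_add _
      -- a point of the limit strip near `a`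
      obtain ⟨δ, hδ, hδΩ⟩ := Metric.isOpen_iff.1 hΩ a ha
      obtain ⟨t0, ht0, ht01, ht0δ⟩ : ∃ t0 : ℝ, 0 < t0 ∧ t0 < 1 ∧ t0 * ‖c - a‖ < δ := by
        refine ⟨min (1 / 2) (δ / (2 * (‖c - a‖ + 1))), by (clear * - hδ; positivity), ?_, ?_⟩
        · exact (min_le_left _ _).trans_lt (by norm_num)
        · calc min (1 / 2) (δ / (2 * (‖c - a‖ + 1))) * ‖c - a‖ 
              ≤ δ / (2 * (‖c - a‖ + 1)) * ‖c - a‖ := 
                mul_le_mul_of_nonneg_right (min_le_right _ _) (norm_nonneg _)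
            _ < δ := by
              rw [div_mul_eq_mul_div, div_lt_iff₀ (by (clear * -; positivity))]
              linarith only [mul_nonneg (le_of_lt (sub_pos.2 hδ)) (sub_nonneg.2 (norm_nonneg (c - a))), hδ]
      have hpt : H0 (t0 : ℂ) ∈ S := by
        refine (hmem c _).2 (hδΩ ?_)
        rw [mem_ball, dist_eq_norm, add_sub_cancel_left, norm_smul, Complex.ofReal_re, 
          Real.norm_eq_abs, abs_of_pos ht0]
        exact ht0δ
      have hall := taut_transfer hU hb hK hKU hco hSo hbi 𝒰 hTo hTc hloc hlim 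
        (s0 := (t0 : ℂ)) ⟨by simpa using ht0, by simpa using ht01⟩ hpt
      rintro y ⟨s, t, hs, ht, hst, rfl⟩
      rcases ht.eq_or_lt with h | h
      · have : s = 1 := by linarith only [ht, hst, h]
        rw [← h, this]; simpa using ha
      rcases hs.eq_or_lt with h' | h'
      · have : t = 1 := by linarith only [hs, hst, h']
        rw [← h', this]; simpa using hcΩ
      have h1 := (hmem c (t : ℂ)).1 (hall (t : ℂ) ⟨by simpa using h, by simp; linarith only [hst, h']⟩)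
      rw [Complex.ofReal_re] at h1
      have h2 : s • a + t • c = a + t • (c - a) := by
        have : s = 1 - t := by linarith only [hst]
        rw [this]; module
      rw [h2]; exact h1
    exact fun c hc => hsub hc
  -- recession directions
  have hrec : ∀ u : E, Lam D u = 0 → ∀ ν ∈ Ω, ∀ s : ℝ, 0 ≤ s → ν - s • Lev B u ∈ Ω := by
    intro u hu ν hν
    by_contra hcon
    push Not at hcon
    obtain ⟨s1, hs1, hs1Ω⟩ := hcon
    set Q : Set ℝ := {s | 0 ≤ s ∧ ν - s • Lev B u ∉ Ω} with hQ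
    have hQc : IsClosed Q := by
      refine IsClosed.inter isClosed_Ici ?_
      exact hΩ.isClosed_compl.preimage (by fun_prop : Continuous fun s : ℝ => ν - s • Lev B u)
    have hQne : Q.Nonempty := ⟨s1, hs1, hs1Ω⟩
    have hQb : BddBelow Q := ⟨0, fun s hs => hs.1⟩
    set s0 : ℝ := sInf Q with hs0
    have hs0Q : s0 ∈ Q := hQc.csInf_mem hQne hQb
    have hlt : ∀ s, 0 ≤ s → s < s0 → ν - s • Lev B u ∈ Ω := by
      intro s hs hss
      by_contra h
      exact absurd (csInf_le hQb ⟨hs, h⟩) (not_le.2 hss)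
    have hs0pos : 0 < s0 := by
      rcases hs0Q.1.eq_or_lt with h | h
      · exfalso
        have := hs0Q.2
        rw [← h, zero_smul, sub_zero] at this
        exact this hν
      · exact h
    set x : ℕ → ℝ := fun j => s0 * (1 - 1 / ((j : ℝ) + 1)) with hx
    have hxlt : ∀ j, 0 ≤ x j ∧ x j < s0 := by
      intro j
      have h1 : (0 : ℝ) < 1 / ((j : ℝ) + 1) := by (clear * -; positivity)
      have h2 : 1 / ((j : ℝ) + 1) ≤ 1 := by
        rw [div_le_one (by (clear * -; positivity))]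
        have : (0 : ℝ) ≤ j := by (clear * -; positivity)
        linarith only
      constructor
      · exact mul_nonneg hs0pos.le (by linarith only [h2])
      · simp only [hx]; nlinarith only [hs0pos, h1]
    have hxlim : Tendsto x 𝒰 (𝓝 s0) := by
      have h1 : Tendsto x atTop (𝓝 (s0 * (1 - 0))) := 
        (tendsto_one_div_add_atTop_nhds_zero_nat.const_sub 1).const_mul s0
      rw [sub_zero, mul_one] at h1
      exact h1.mono_left hle
    set T : Set ℂ := ball 0 (Real.sqrt s0) with hT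
    set H : ℕ → ℂ → E := fun j ζ => σ (fun i => ((ν - x j • Lev B u) i : ℂ)) + ζ • u with hH
    set H0 : ℂ → E := fun ζ => σ (fun i => ((ν - s0 • Lev B u) i : ℂ)) + ζ • u with hH0
    have hmem : ∀ (s : ℝ) (ζ : ℂ), (σ (fun i => ((ν - s • Lev B u) i : ℂ)) + ζ • u ∈ S ↔ 
        ν - (s - Complex.normSq ζ) • Lev B u ∈ Ω) := by
      intro s ζ
      have h1 := hr1 (fun i => ((ν - s • Lev B u) i : ℂ)) (ζ • u) (by rw [map_smul, hu, smul_zero])
      rw [Lev_smul] at h1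
      change D _ + Lev B _ ∈ Ω ↔ _
      rw [h1]
      have h2 : ((fun j => (((ν - s • Lev B u) j : ℝ) : ℂ).re) + Complex.normSq ζ • Lev B u) = 
          ν - (s - Complex.normSq ζ) • Lev B u := by
        ext j
        simp only [Complex.ofReal_re, Pi.add_apply, Pi.sub_apply, Pi.smul_apply, smul_eq_mul]
        ring
      rw [h2]
    have hnsq : ∀ ζ : ℂ, Complex.normSq ζ = ‖ζ‖ ^ 2 := fun ζ => (Complex.sq_norm ζ).symm
    have hloc : ∀ ζ0 ∈ T, ∃ r > 0, ∀ᶠ j in (𝒰 : Filter ℕ),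
          DifferentiableOn ℂ (H j) (ball ζ0 r) ∧ MapsTo (H j) (ball ζ0 r) S := by
        intro ζ0 hζ0
        rw [mem_ball_zero_iff] at hζ0
        set r : ℝ := (Real.sqrt s0 - ‖ζ0‖) / 2 with hr
        have hrpos : 0 < r := by rw [hr]; linarith only [hζ0]
        refine ⟨r, hrpos, ?_⟩
        have hlt2 : (‖ζ0‖ + r) ^ 2 < s0 := by
          have h1 : ‖ζ0‖ + r < Real.sqrt s0 := by rw [hr]; linarith only [hζ0]
          calc (‖ζ0‖ + r) ^ 2 < (Real.sqrt s0) ^ 2 := by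
                have : 0 ≤ ‖ζ0‖ + r := by (clear * - hζ0; positivity)
                (clear * - hζ0 h1; gcongr)
            _ = s0 := Real.sq_sqrt hs0pos.le
        filter_upwards [hxlim.eventually (lt_mem_nhds hlt2)] with j hj
        constructor
        · simp only [hH]
          fun_prop
        · intro ζ hζ
          refine (hmem _ _).2 (hlt _ ?_ ?_)
          · rw [hnsq]
            have h1 : ‖ζ‖ ≤ ‖ζ0‖ + r := by
              rw [mem_ball, dist_eq_norm] at hζ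
              calc ‖ζ‖ = ‖ζ0 + (ζ - ζ0)‖ := by congr 1; abel
                _ ≤ ‖ζ0‖ + ‖ζ - ζ0‖ := norm_add_le _ _
                _ ≤ _ := by linarith only [hζ]
            have h2 : ‖ζ‖ ^ 2 ≤ (‖ζ0‖ + r) ^ 2 := by (clear * - h1; gcongr)
            linarith only [hj, h2]
          · have := Complex.normSq_nonneg ζ
            linarith only [this, (hxlt j).2]
    have hlim : ∀ ζ ∈ T, Tendsto (fun j => H j ζ) 𝒰 (𝓝 (H0 ζ)) := by
        intro ζ _
        refine Tendsto.add_const _ ?_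
        refine (σ.continuous.tendsto _).comp ?_
        rw [tendsto_pi_nhds]
        intro i
        refine (Complex.continuous_ofReal.tendsto _).comp ?_
        have h2 : Tendsto (fun j => ν - x j • Lev B u) 𝒰 (𝓝 (ν - s0 • Lev B u)) := 
          (hxlim.smul_const _).const_sub _
        exact (tendsto_pi_nhds.1 h2) i
    have hpt : H0 ((Real.sqrt s0 / 2 : ℝ) : ℂ) ∈ S := by
      refine (hmem s0 _).2 ?_
      have h1 : Complex.normSq ((Real.sqrt s0 / 2 : ℝ) : ℂ) = s0 / 4 := by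
        rw [Complex.normSq_ofReal]
        have := Real.mul_self_sqrt hs0pos.le
        linear_combination this / 4
      rw [h1]
      exact hlt _ (by linarith only [hs0pos]) (by linarith only [hs0pos])
    have hsq : 0 < Real.sqrt s0 := Real.sqrt_pos.2 hs0pos
    have h0 := taut_transfer hU hb hK hKU hco hSo hbi 𝒰 isOpen_ball 
      (convex_ball (0 : ℂ) (Real.sqrt s0)).isPreconnected hloc hlim 
      (s0 := ((Real.sqrt s0 / 2 : ℝ) : ℂ)) (by
      rw [mem_ball_zero_iff, Complex.norm_real, Real.norm_eq_abs, abs_of_pos (by (clear * - hs0pos; positivity))]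
      linarith only [hsq]) hpt 0 (mem_ball_self hsq)
    have h1 := (hmem s0 0).1 h0
    rw [Complex.normSq_zero, sub_zero] at h1
    exact hs0Q.2 h1
  -- convexity
  intro y hy y' hy' a b ha hb' hab
  have h1 : D (a • y + b • y') + Lev B (prj D σ (a • y + b • y')) = 
      (a • (D y + Lev B (prj D σ y)) + b • (D y' + Lev B (prj D σ y'))) - 
        (a * b) • Lev B (prj D σ y - prj D σ y') := by
    rw [map_add, map_smul, map_smul, map_add, prj_smul_real, prj_smul_real, Lev_comb _ _ _ hab]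
    module
  change D (a • y + b • y') + Lev B (prj D σ (a • y + b • y')) ∈ Ω
  rw [h1]
  refine hrec _ ?_ _ (hseg _ hy _ hy' ⟨a, b, ha, hb', hab, rfl⟩) _ (mul_nonneg ha hb')
  rw [map_sub, Lam_prj hσ, Lam_prj hσ, sub_zero]

end siegel

end Vale.Agent.P274
end

section

/-! The structure of the kernel of the rescaled domains. -/

set_option linter.unusedSectionVars false

namespace Vale.Agent.P274

open Filter Metric Set Topology Complex

lemma preconnected_dichotomy {X : Type*} [TopologicalSpace X] {s t : Set X}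
    (hs : IsPreconnected s) (h : Disjoint s (frontier t)) : s ⊆ t ∨ Disjoint s t := by
  have h1 : s ⊆ interior t ∪ (closure t)ᶜ := by
    intro x hx
    by_cases h2 : x ∈ interior t
    · exact Or.inl h2
    · refine Or.inr fun h3 => ?_
      exact Set.disjoint_left.1 h hx ⟨h3, h2⟩
  rcases hs.subset_or_subset isOpen_interior isClosed_closure.isOpen_compl
    (Set.disjoint_left.2 fun x hx hx' => hx' (subset_closure (interior_subset hx))) h1 with h2 | h2
  · exact Or.inl (h2.trans interior_subset)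
  · exact Or.inr (Set.disjoint_left.2 fun x hx hx' => h2 hx (subset_closure hx'))

variable {E : Type*} [NormedAddCommGroup E] [NormedSpace ℂ E] [FiniteDimensional ℂ E] {k : ℕ}

/-- The model defining map. -/
noncomputable def rr (D : E →L[ℝ] (Fin k → ℝ)) (B : E →L[ℝ] E →L[ℝ] (Fin k → ℝ))
    (σ : (Fin k → ℂ) →L[ℂ] E) (y : E) : Fin k → ℝ := D y + Lev B (prj D σ y)

/-- Parametrization of the fibers of the model defining map. -/
noncomputable def jn (D : E →L[ℝ] (Fin k → ℝ)) (B : E →L[ℝ] E →L[ℝ] (Fin k → ℝ))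
    (σ : (Fin k → ℂ) →L[ℂ] E) (ρ v : Fin k → ℝ) (x : E) : E :=
  σ (fun j => ((ρ j - Lev B (prj D σ x) j : ℝ) : ℂ) + (v j : ℂ) * I) + prj D σ x

variable {D : E →L[ℝ] (Fin k → ℝ)} {B : E →L[ℝ] E →L[ℝ] (Fin k → ℝ)}
  {σ : (Fin k → ℂ) →L[ℂ] E}

lemma continuous_rr : Continuous (rr D B σ) := by
  have := continuous_Lev B
  unfold rr
  fun_prop

lemma rr_add_σ (hσ : ∀ w, Lam D (σ w) = w) (y : E) (w : Fin k → ℂ) :
    rr D B σ (y + σ w) = rr D B σ y + fun j => (w j).re := by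
  have h1 : prj D σ (y + σ w) = prj D σ y := by rw [map_add, prj_σ hσ, add_zero]
  have h2 : D (y + σ w) = D y + fun j => (w j).re := by
    rw [map_add]
    congr 1
    ext j
    exact D_σ hσ w j
  rw [rr, rr, h1, h2]
  abel

lemma rr_jn (hσ : ∀ w, Lam D (σ w) = w) (ρ v : Fin k → ℝ) (x : E) :
    rr D B σ (jn D B σ ρ v x) = ρ := by
  rw [jn, add_comm, rr_add_σ hσ, rr, D_prj hσ, prj_prj hσ]
  ext j
  simp

lemma jn_self (_hσ : ∀ w, Lam D (σ w) = w) (y : E) :
    jn D B σ (rr D B σ y) (fun j => (Lam D y j).im) y = y := by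
  have h1 : (fun j => ((rr D B σ y j - Lev B (prj D σ y) j : ℝ) : ℂ) +
      (((Lam D y j).im : ℝ) : ℂ) * I) = Lam D y := by
    ext j
    rw [rr, Pi.add_apply, add_sub_cancel_right, ← Lam_re]
    exact re_add_im _
  rw [jn, h1, prj_apply]
  abel

lemma continuous_jn : Continuous (fun p : (Fin k → ℝ) × (Fin k → ℝ) × E =>
    jn D B σ p.1 p.2.1 p.2.2) := by
  have := continuous_Lev B
  unfold jn
  fun_prop

lemma isPreconnected_rr_preimage (hσ : ∀ w, Lam D (σ w) = w) {Ω : Set (Fin k → ℝ)}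
    (hΩ : IsPreconnected Ω) : IsPreconnected (rr D B σ ⁻¹' Ω) := by
  have h1 : rr D B σ ⁻¹' Ω = (fun p : (Fin k → ℝ) × (Fin k → ℝ) × E =>
      jn D B σ p.1 p.2.1 p.2.2) '' (Ω ×ˢ (univ : Set ((Fin k → ℝ) × E))) := by
    ext y
    constructor
    · intro hy
      exact ⟨⟨rr D B σ y, fun j => (Lam D y j).im, y⟩, ⟨hy, mem_univ _⟩, jn_self hσ y⟩
    · rintro ⟨⟨ρ, v, x⟩, ⟨h1, -⟩, rfl⟩
      change rr D B σ (jn D B σ ρ v x) ∈ Ω
      rw [rr_jn hσ]
      exact h1
  rw [h1]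
  exact (hΩ.prod isPreconnected_univ).image _ continuous_jn.continuousOn

lemma isOpenMap_rr (hσ : ∀ w, Lam D (σ w) = w) : IsOpenMap (rr D B σ) := by
  rw [isOpenMap_iff_nhds_le]
  intro y
  have h1 : Tendsto (fun ρ : Fin k → ℝ => jn D B σ ρ (fun j => (Lam D y j).im) y)
      (𝓝 (rr D B σ y)) (𝓝 y) := by
    have h2 : Continuous (fun ρ : Fin k → ℝ => jn D B σ ρ (fun j => (Lam D y j).im) y) :=
      continuous_jn.comp (by fun_prop : Continuous fun ρ : Fin k → ℝ =>
        (ρ, (fun j => (Lam D y j).im), y))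
    have h3 := h2.tendsto (rr D B σ y)
    rwa [jn_self hσ] at h3
  intro s hs
  rw [mem_map] at hs
  filter_upwards [h1 hs] with ρ hρ
  change rr D B σ _ ∈ s at hρ
  rwa [rr_jn hσ] at hρ

variable {ι : Type*}

/-- Points which have a neighbourhood eventually contained in the sets `V j`. -/
def InS (𝒰 : Ultrafilter ι) (V : ι → Set E) : Set E :=
  {y | ∃ r > 0, ∀ᶠ j in (𝒰 : Filter ι), ball y r ⊆ V j}

/-- Points which have a neighbourhood eventually disjoint from the sets `V j`. -/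
def OutS (𝒰 : Ultrafilter ι) (V : ι → Set E) : Set E :=
  {y | ∃ r > 0, ∀ᶠ j in (𝒰 : Filter ι), Disjoint (ball y r) (V j)}

lemma isOpen_InS (𝒰 : Ultrafilter ι) (V : ι → Set E) : IsOpen (InS 𝒰 V) := by
  rw [Metric.isOpen_iff]
  rintro y ⟨r, hr, h⟩
  refine ⟨r / 2, by positivity, fun z hz => ⟨r / 2, by positivity, ?_⟩⟩
  filter_upwards [h] with j hj
  refine Subset.trans (fun w hw => ?_) hj
  rw [mem_ball] at *
  have := dist_triangle w z y
  linarith only [hz, hw, this]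

lemma isOpen_OutS (𝒰 : Ultrafilter ι) (V : ι → Set E) : IsOpen (OutS 𝒰 V) := by
  rw [Metric.isOpen_iff]
  rintro y ⟨r, hr, h⟩
  refine ⟨r / 2, by positivity, fun z hz => ⟨r / 2, by positivity, ?_⟩⟩
  filter_upwards [h] with j hj
  refine hj.mono_left (fun w hw => ?_)
  rw [mem_ball] at *
  have := dist_triangle w z y
  linarith only [hz, hw, this]

lemma disjoint_InS_OutS (𝒰 : Ultrafilter ι) (V : ι → Set E) :
    Disjoint (InS 𝒰 V) (OutS 𝒰 V) := by
  rw [Set.disjoint_left]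
  rintro y ⟨r, hr, h⟩ ⟨r', hr', h'⟩
  obtain ⟨j, h1, h2⟩ := (h.and h').exists
  exact Set.disjoint_left.1 h2 (mem_ball_self hr') (h1 (mem_ball_self hr))

lemma InS_or_OutS (𝒰 : Ultrafilter ι) {V : ι → Set E} {y : E} {r : ℝ} (hr : 0 < r)
    (h : ∀ᶠ j in (𝒰 : Filter ι), Disjoint (ball y r) (frontier (V j))) :
    y ∈ InS 𝒰 V ∨ y ∈ OutS 𝒰 V := by
  have h1 : ∀ᶠ j in (𝒰 : Filter ι), ball y r ⊆ V j ∨ Disjoint (ball y r) (V j) := by
    filter_upwards [h] with j hj
    exact preconnected_dichotomy (convex_ball y r).isPreconnected hj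
  rcases Ultrafilter.eventually_or.1 h1 with h2 | h2
  · exact Or.inl ⟨r, hr, h2⟩
  · exact Or.inr ⟨r, hr, h2⟩

end Vale.Agent.P274
end

section

/-! The continuity principle for domains with taut behaviour. -/

open Filter Metric Set Topology

namespace Vale.Agent.P274.H

variable {E : Type*} [NormedAddCommGroup E] [NormedSpace ℂ E]

/-- Limits of holomorphic discs in `U` near `q` which meet `U` are in `U`. -/
def Kont (U : Set E) (q : E) (δ : ℝ) : Prop :=
  ∀ (H : ℕ → ℂ → E) (H0 : ℂ → E),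
    (∀ j, DifferentiableOn ℂ (H j) (ball 0 1) ∧ MapsTo (H j) (ball 0 1) (U ∩ ball q δ)) →
    (∀ ζ ∈ ball (0 : ℂ) 1, Tendsto (fun j => H j ζ) atTop (𝓝 (H0 ζ))) →
    MapsTo H0 (ball 0 1) (ball q δ) → (∃ ζ ∈ ball (0 : ℂ) 1, H0 ζ ∈ U) →
    ∀ ζ ∈ ball (0 : ℂ) 1, H0 ζ ∈ U

/-- closedness step -/
theorem Kont.limit {U : Set E} (hU : IsOpen U) {q : E} {δ : ℝ} (hK : Kont U q δ)
    {w : ℝ → ℂ → E} {a b : ℝ}
    (hd : ∀ l ∈ Icc a b, DifferentiableOn ℂ (w l) (ball 0 1))
    (hc : ContinuousOn (fun p : ℝ × ℂ => w p.1 p.2) (Icc a b ×ˢ closedBall 0 1))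
    (hsm : ∀ l ∈ Icc a b, ∀ ζ ∈ closedBall (0 : ℂ) 1, w l ζ ∈ ball q δ)
    {l : ℝ} (hl : l ∈ Icc a b) {x : ℕ → ℝ} (hx : ∀ n, x n ∈ Icc a b)
    (hxl : Tendsto x atTop (𝓝 l)) (hxU : ∀ n, ∀ ζ ∈ closedBall (0 : ℂ) 1, w (x n) ζ ∈ U)
    (hbd : ∃ ζ : ℂ, ‖ζ‖ = 1 ∧ w l ζ ∈ U) : ∀ ζ ∈ ball (0 : ℂ) 1, w l ζ ∈ U := by
  have hcl : ContinuousOn (w l) (closedBall 0 1) := by
    have h1 : ContinuousOn (fun ζ : ℂ => ((l, ζ) : ℝ × ℂ)) (closedBall 0 1) := by fun_prop
    exact hc.comp h1 fun ζ hζ => ⟨hl, hζ⟩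
  refine hK (fun n => w (x n)) (w l) (fun n => ⟨hd _ (hx n), fun z hz =>
    ⟨hxU n z (ball_subset_closedBall hz), hsm _ (hx n) z (ball_subset_closedBall hz)⟩⟩)
    (fun ζ hζ => ?_) (fun ζ hζ => hsm l hl ζ (ball_subset_closedBall hζ)) ?_
  · have hζ' := ball_subset_closedBall hζ
    have h1 : ContinuousWithinAt (fun p : ℝ × ℂ => w p.1 p.2) (Icc a b ×ˢ closedBall 0 1) (l, ζ) :=
      hc (l, ζ) ⟨hl, hζ'⟩
    have h2 : Tendsto (fun n => ((x n, ζ) : ℝ × ℂ)) atTop
        (𝓝[Icc a b ×ˢ closedBall 0 1] (l, ζ)) := by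
      refine tendsto_nhdsWithin_iff.2 ⟨?_, Eventually.of_forall fun n => ⟨hx n, hζ'⟩⟩
      exact hxl.prodMk_nhds tendsto_const_nhds
    exact h1.tendsto.comp h2
  · obtain ⟨ζ, hζ, hζU⟩ := hbd
    have hζ' : ζ ∈ closedBall (0 : ℂ) 1 := by simp [hζ]
    have h1 := (hcl ζ hζ').tendsto.eventually (hU.mem_nhds hζU)
    have h2 : ζ ∈ closure (ball (0 : ℂ) 1) := by
      rw [closure_ball _ one_ne_zero]; exact hζ'
    have h3 : ∃ᶠ z in 𝓝 ζ, z ∈ ball (0 : ℂ) 1 := mem_closure_iff_frequently.1 h2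
    rw [eventually_nhdsWithin_iff] at h1
    obtain ⟨z, hz1, hz2⟩ := (h3.and_eventually h1).exists
    exact ⟨z, hz1, hz2 (ball_subset_closedBall hz1)⟩

/-- The continuity principle. -/
theorem Kont.family {U : Set E} (hU : IsOpen U) {q : E} {δ : ℝ} (hK : Kont U q δ)
    {w : ℝ → ℂ → E} (hd : ∀ l ∈ Icc (0 : ℝ) 1, DifferentiableOn ℂ (w l) (ball 0 1))
    (hc : ContinuousOn (fun p : ℝ × ℂ => w p.1 p.2) (Icc 0 1 ×ˢ closedBall 0 1))
    (hsm : ∀ l ∈ Icc (0 : ℝ) 1, ∀ ζ ∈ closedBall (0 : ℂ) 1, w l ζ ∈ ball q δ)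
    (hbd : ∀ l ∈ Ico (0 : ℝ) 1, ∀ ζ : ℂ, ‖ζ‖ = 1 → w l ζ ∈ U)
    (h0 : ∀ ζ ∈ closedBall (0 : ℂ) 1, w 0 ζ ∈ U) (h1 : ∃ ζ : ℂ, ‖ζ‖ = 1 ∧ w 1 ζ ∈ U) :
    ∀ ζ ∈ ball (0 : ℂ) 1, w 1 ζ ∈ U := by
  set S : Set ℝ := {l | ∀ ζ ∈ closedBall (0 : ℂ) 1, w l ζ ∈ U} with hS
  have hsplit : ∀ l ∈ Ico (0 : ℝ) 1, (∀ ζ ∈ ball (0 : ℂ) 1, w l ζ ∈ U) → l ∈ S := by
    intro l hl h ζ hζ
    rcases eq_or_lt_of_le (mem_closedBall_zero_iff.1 hζ) with h2 | h2
    · exact hbd l hl ζ h2
    · exact h ζ (mem_ball_zero_iff.2 h2)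
  have hkey : ∀ b ∈ Ico (0 : ℝ) 1, Icc 0 b ⊆ S := by
    intro b hb
    have hbsub : Icc (0 : ℝ) b ⊆ Icc 0 1 := Icc_subset_Icc_right hb.2.le
    have hclosed : IsClosed (S ∩ Icc 0 b) := by
      refine IsSeqClosed.isClosed fun x l hx hxl => ?_
      have hl : l ∈ Icc (0 : ℝ) b := isClosed_Icc.mem_of_tendsto hxl
        (Eventually.of_forall fun n => (hx n).2)
      have hl1 : l ∈ Ico (0 : ℝ) 1 := ⟨hl.1, hl.2.trans_lt hb.2⟩
      refine ⟨hsplit l hl1 ?_, hl⟩
      exact hK.limit hU hd hc hsm (hbsub hl) (fun n => hbsub (hx n).2) hxl (fun n => (hx n).1)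
        ⟨1, by simp, hbd l hl1 1 (by simp)⟩
    refine hclosed.Icc_subset_of_forall_mem_nhdsWithin h0 fun l hl => ?_
    -- openness
    have hl1 : l ∈ Icc (0 : ℝ) 1 := hbsub ⟨hl.2.1, hl.2.2.le⟩
    have h2 : ∀ᶠ l' in 𝓝[Icc (0 : ℝ) 1] l, ∀ ζ ∈ closedBall (0 : ℂ) 1, w l' ζ ∈ U := by
      have hcomp : IsCompact (closedBall (0 : ℂ) 1) := isCompact_closedBall _ _
      have h3 : ∀ ζ ∈ closedBall (0 : ℂ) 1, ∀ᶠ p in 𝓝[Icc (0 : ℝ) 1] l ×ˢ 𝓝[closedBall 0 1] ζ,
          w p.1 p.2 ∈ U := by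
        intro ζ hζ
        rw [← nhdsWithin_prod_eq]
        exact (hc (l, ζ) ⟨hl1, hζ⟩).tendsto.eventually (hU.mem_nhds (hl.1 ζ hζ))
      by_contra hcon
      rw [not_eventually] at hcon
      push Not at hcon
      obtain ⟨ns, hns1, hns2⟩ := exists_seq_forall_of_frequently hcon
      choose z hz hzU using hns2
      obtain ⟨ζ, hζ, φ, hφ, hφlim⟩ := hcomp.tendsto_subseq hz
      have h4 := h3 ζ hζ
      have h5 : Tendsto (fun n => ((ns (φ n), z (φ n)) : ℝ × ℂ)) atTop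
          (𝓝[Icc (0 : ℝ) 1] l ×ˢ 𝓝[closedBall 0 1] ζ) := by
        refine (hns1.comp hφ.tendsto_atTop).prodMk ?_
        exact tendsto_nhdsWithin_iff.2 ⟨hφlim, Eventually.of_forall fun n => hz _⟩
      obtain ⟨n, hn⟩ := (h5.eventually h4).exists
      exact hzU _ hn
    have h3 : 𝓝[>] l ≤ 𝓝[Icc (0 : ℝ) 1] l := by
      refine nhdsWithin_le_iff.2 ?_
      have : Icc (0 : ℝ) 1 ∈ 𝓝 l ∨ l = 0 := by
        rcases eq_or_lt_of_le hl1.1 with h | h
        · exact Or.inr h.symm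
        · exact Or.inl (Icc_mem_nhds h (hl.2.2.trans hb.2))
      rcases this with h | h
      · exact mem_nhdsWithin_of_mem_nhds h
      · rw [h]
        refine mem_of_superset (Ioo_mem_nhdsGT (one_pos : (0 : ℝ) < 1)) ?_
        exact Ioo_subset_Icc_self
    exact h3 h2
  have hIco : ∀ l ∈ Ico (0 : ℝ) 1, l ∈ S := fun l hl => hkey l hl ⟨hl.1, le_rfl⟩
  refine hK.limit hU hd hc hsm (l := 1) (x := fun n : ℕ => 1 - 1 / ((n : ℝ) + 1))
    ⟨zero_le_one, le_rfl⟩ (fun n => ?_) ?_ (fun n => ?_) h1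
  · have h2 : (0 : ℝ) < 1 / ((n : ℝ) + 1) := Nat.one_div_pos_of_nat
    have h3 : 1 / ((n : ℝ) + 1) ≤ 1 := by
      rw [div_le_one (by positivity)]
      linarith [(Nat.cast_nonneg n : (0 : ℝ) ≤ n)]
    constructor <;> linarith
  · have := (tendsto_one_div_add_atTop_nhds_zero_nat (𝕜 := ℝ)).const_sub 1
    simpa using this
  · refine hIco _ ?_
    have h2 : (0 : ℝ) < 1 / ((n : ℝ) + 1) := Nat.one_div_pos_of_nat
    have h3 : 1 / ((n : ℝ) + 1) ≤ 1 := by
      rw [div_le_one (by positivity)]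
      linarith [(Nat.cast_nonneg n : (0 : ℝ) ≤ n)]
    constructor <;> linarith

end Vale.Agent.P274.H
end

section

/-! Normality of maps into sets with a global model peak function. -/

set_option linter.unusedSectionVars false

open Filter Metric Set Topology

namespace Vale.Agent.P274

open Complex

variable {E : Type*} [NormedAddCommGroup E] [NormedSpace ℂ E] [FiniteDimensional ℂ E] {k : ℕ}
  {D : E →L[ℝ] (Fin k → ℝ)} {B : E →L[ℝ] E →L[ℝ] (Fin k → ℝ)} {σ : (Fin k → ℂ) →L[ℂ] E}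
  {ι : Type*}

theorem normality2 (hσ : ∀ w, Lam D (σ w) = w) {U K : Set E} (hU : IsOpen U)
    (hUc : IsPreconnected U) (hK : IsCompact K) (hKU : K ⊆ U) {c : ℝ} (hc : 0 < c)
    {Q : E → ℂ} (hQd : Differentiable ℂ Q) {C : Set E}
    (hQ : ∀ y ∈ C, c * (‖prj D σ y‖ ^ 2 + ‖D (σ (Lam D y - Qf B (prj D σ y)))‖) ≤ (Q y).re)
    (𝒰 : Ultrafilter ι) {φ : ι → E → E} {kk : ι → E} {s0 : E}
    (hφ : ∀ᶠ j in (𝒰 : Filter ι), DifferentiableOn ℂ (φ j) U ∧ MapsTo (φ j) U C ∧ kk j ∈ K ∧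
      φ j (kk j) = s0) :
    LocBdd (𝒰 : Filter ι) φ U := by
  have hps : ProperSpace E := FiniteDimensional.proper ℂ E
  obtain ⟨k0, hk0K, hk0⟩ := hK.ultrafilter_le_nhds (𝒰.map kk) (by
    rw [le_principal_iff]
    exact hφ.mono fun j hj => hj.2.2.1)
  have hk : Tendsto kk 𝒰 (𝓝 k0) := hk0
  have hk0U : k0 ∈ U := hKU hk0K
  set h : ι → E → ℂ := fun j x => Q (φ j x) with hh
  set W : E → (Fin k → ℂ) := fun y => Lam D y - Qf B (prj D σ y) with hW
  have hWd : Differentiable ℂ W := by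
    have h3 : Differentiable ℂ (fun y : E => Qf B (prj D σ y)) :=
      (differentiable_Qf B).comp (prj D σ).differentiable
    simp only [hW]
    measurability
  set L : Fin k → ι → E → ℂ := fun i j x => W (φ j x) i + ((c⁻¹ : ℝ) : ℂ) * h j x with hL
  have hhLB : LocBdd (𝒰 : Filter ι) h U := by
    refine locBdd_of_re_nonneg 𝒰 hUc (fun y hy => ?_) hk0U hk (C := ‖Q s0‖) ?_
    · obtain ⟨t, ht, htU⟩ := Metric.isOpen_iff.1 hU y hy
      refine ⟨t, ht, ?_⟩
      filter_upwards [hφ] with j h2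
      refine ⟨hQd.comp_differentiableOn (h2.1.mono htU), fun z hz => ?_⟩
      have h4 := hQ _ (h2.2.1 (htU hz))
      have h5 : 0 ≤ c * (‖prj D σ (φ j z)‖ ^ 2 +
        ‖D (σ (Lam D (φ j z) - Qf B (prj D σ (φ j z))))‖) := by (clear * - hc; positivity)
      exact h5.trans h4
    · filter_upwards [hφ] with j h1
      simp only [hh]
      rw [h1.2.2.2]
  have hLLB : ∀ i, LocBdd (𝒰 : Filter ι) (L i) U := by
    intro i
    refine locBdd_of_re_nonneg 𝒰 hUc (fun y hy => ?_) hk0U hk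
      (C := ‖W s0 i + ((c⁻¹ : ℝ) : ℂ) * Q s0‖) ?_
    · obtain ⟨t, ht, htU⟩ := Metric.isOpen_iff.1 hU y hy
      refine ⟨t, ht, ?_⟩
      filter_upwards [hφ] with j h2
      have h2d := h2.1.mono htU
      refine ⟨(((differentiable_pi.1 hWd) i).comp_differentiableOn h2d).add
        ((hQd.comp_differentiableOn h2d).const_mul _), fun z hz => ?_⟩
      simp only [hL, add_re, re_ofReal_mul, hh]
      have h4 := hQ _ (h2.2.1 (htU hz))
      set y' := φ j z with hy'
      have h6 : D (σ (W y')) i = (W y' i).re := D_σ hσ _ i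
      have h7 : -‖D (σ (W y'))‖ ≤ (W y' i).re := by
        rw [← h6]
        have := norm_le_pi_norm (D (σ (W y'))) i
        rw [Real.norm_eq_abs] at this
        exact (abs_le.1 this).1.trans' (by linarith only)
      have h8 : ‖D (σ (W y'))‖ ≤ c⁻¹ * (Q y').re := by
        rw [le_inv_mul_iff₀ hc]
        have h9 : c * ‖D (σ (W y'))‖ ≤ c * (‖prj D σ y'‖ ^ 2 + ‖D (σ (W y'))‖) := by
          gcongr
          linarith only [sq_nonneg ‖prj D σ y'‖]
        exact h9.trans h4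
      linarith only [h7, h8]
    · filter_upwards [hφ] with j h1
      simp only [hL, hh]
      rw [h1.2.2.2]
  -- conclusion
  intro y hy
  obtain ⟨t, ht, htU⟩ := Metric.isOpen_iff.1 hU y hy
  obtain ⟨t1, ht1, C2, hC2⟩ := hhLB y hy
  have h1 : ∀ i, ∃ t > 0, ∃ C : ℝ, ∀ᶠ j in (𝒰 : Filter ι),
      DifferentiableOn ℂ (L i j) (ball y t) ∧ ∀ z ∈ ball y t, ‖L i j z‖ ≤ C := fun i => hLLB i y hy
  choose t2 ht2 C3 hC3 using h1
  have hQc : Continuous (Qf B) := (differentiable_Qf B).continuous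
  obtain ⟨C4, hC4⟩ := (isCompact_closedBall (0 : E)
    (max C2 0 / c + 1)).exists_bound_of_continuousOn hQc.continuousOn
  obtain ⟨t3, ht3, ht3t⟩ : ∃ t3 > 0, ∀ i, t3 ≤ t2 i := by
    rcases isEmpty_or_nonempty (Fin k) with he | hne
    · exact ⟨1, one_pos, fun i => (he.false i).elim⟩
    · obtain ⟨i0, hi0⟩ := Finite.exists_min t2
      exact ⟨t2 i0, ht2 i0, hi0⟩
  obtain ⟨C5, hC5⟩ : ∃ C5, ∀ i, C3 i ≤ C5 := by
    obtain ⟨C5, hC5⟩ := (Set.finite_range C3).bddAbove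
    exact ⟨C5, fun i => hC5 (mem_range_self i)⟩
  refine ⟨min t (min t1 t3), by (clear * - ht ht1 ht3; positivity),
    ‖σ‖ * ((max C5 0 + c⁻¹ * max C2 0) + max C4 0) + (max C2 0 / c + 1), ?_⟩
  have hC3' : ∀ᶠ j in (𝒰 : Filter ι), ∀ i, DifferentiableOn ℂ (L i j) (ball y (t2 i)) ∧
      ∀ z ∈ ball y (t2 i), ‖L i j z‖ ≤ C3 i := eventually_all.2 hC3
  filter_upwards [hC2, hC3', hφ] with j hj2 hj3 hj4
  refine ⟨hj4.1.mono ((ball_subset_ball (min_le_left _ _)).trans htU), fun z hz => ?_⟩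
  have hz1 : z ∈ ball y t := ball_subset_ball (min_le_left _ _) hz
  have hz2 : z ∈ ball y t1 := ball_subset_ball ((min_le_right _ _).trans (min_le_left _ _)) hz
  have hz3 : ∀ i, z ∈ ball y (t2 i) := fun i =>
    ball_subset_ball (((min_le_right _ _).trans (min_le_right _ _)).trans (ht3t i)) hz
  have hb1 : ‖Q (φ j z)‖ ≤ max C2 0 := (hj2.2 z hz2).trans (le_max_left _ _)
  have h4 := hQ _ (hj4.2.1 (htU hz1))
  set x := φ j z with hx
  have hb2 : (Q x).re ≤ max C2 0 := (re_le_norm _).trans hb1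
  have hprj : ‖prj D σ x‖ ≤ max C2 0 / c + 1 := by
    have e1 : ‖prj D σ x‖ ^ 2 ≤ max C2 0 / c := by
      rw [le_div_iff₀ hc]
      have e2 : 0 ≤ c * ‖D (σ (Lam D x - Qf B (prj D σ x)))‖ := by (clear * - hc; positivity)
      linarith only [h4, hb2, e2]
    have e2 : 0 ≤ max C2 0 / c := by (clear * - hc; positivity)
    nlinarith only [e1, norm_nonneg (prj D σ x)]
  have hQb : ‖Qf B (prj D σ x)‖ ≤ max C4 0 :=
    (hC4 _ (by rw [mem_closedBall_zero_iff]; exact hprj)).trans (le_max_left _ _)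
  have hWb : ‖W x‖ ≤ max C5 0 + c⁻¹ * max C2 0 := by
    rw [pi_norm_le_iff_of_nonneg (by (clear * - hc; positivity))]
    intro i
    have e1 := (hj3 i).2 z (hz3 i)
    have e2 : W x i = L i j z - ((c⁻¹ : ℝ) : ℂ) * Q x := by
      simp only [hL, hh]
      ring
    rw [e2]
    refine (norm_sub_le _ _).trans ?_
    rw [norm_mul, norm_real, Real.norm_of_nonneg (by (clear * - hc; positivity) : (0 : ℝ) ≤ c⁻¹)]
    have e3 : ‖L i j z‖ ≤ max C5 0 := e1.trans ((hC5 i).trans (le_max_left _ _))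
    have e4 : c⁻¹ * ‖Q x‖ ≤ c⁻¹ * max C2 0 := by (clear * - hc hb1; gcongr)
    linarith only [e3, e4]
  have hxe : x = σ (W x + Qf B (prj D σ x)) + prj D σ x := by
    simp only [hW, sub_add_cancel]
    rw [prj_apply]
    abel
  rw [hxe]
  refine (norm_add_le _ _).trans (add_le_add ?_ ?_)
  · refine (σ.le_opNorm _).trans ?_
    gcongr
    exact (norm_add_le _ _).trans (add_le_add hWb hQb)
  · exact hprj

end Vale.Agent.P274
end

section

/-! Transport of group actions by biholomorphisms. -/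

open Filter Metric Set Topology

namespace Vale.Agent.P274

variable {E F : Type*} [NormedAddCommGroup E] [NormedSpace ℂ E] [NormedAddCommGroup F]
  [NormedSpace ℂ F]

end Vale.Agent.P274
end

section

/-! Group actions on subsets of affine varieties. -/

open Filter Metric Set Topology

namespace Vale.Agent.P274

open Z

variable {X E : Type*} [NormedAddCommGroup X] [NormedSpace ℂ X]
  [NormedAddCommGroup E] [NormedSpace ℂ E]

theorem ActsHol.continuousConstSMul {Γ : Type*} [Group Γ] {U : Set X}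
    [MulAction Γ U] (h : ActsHol Γ U) : ContinuousConstSMul Γ U := by
  constructor
  intro γ
  obtain ⟨f, hf, hf2⟩ := h γ
  rw [continuous_induced_rng]
  have h1 : Continuous (fun x : U => f x) :=
    continuousOn_iff_continuous_domRestrict.1 hf.continuousOn
  have h2 : (Subtype.val ∘ fun x : U => γ • x) = fun x : U => f x := by
    funext x
    exact (hf2 x).symm
  rw [h2]
  exact h1

/-- A cocompact holomorphic action gives a compact set meeting every orbit of the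
automorphism group. -/
theorem exists_cocompactHol [ProperSpace X] {Γ : Type*} [Group Γ] {Z O U : Set X}
    (hZ : IsClosed Z) (hO : IsOpen O) (hU : U = Z ∩ O)
    [MulAction Γ U] (h : ActsHol Γ U)
    [hcomp : CompactSpace (MulAction.orbitRel.Quotient Γ U)] :
    ∃ K : Set X, IsCompact K ∧ K ⊆ U ∧ CocompactHol U K := by
  have := h.continuousConstSMul
  have hlc : LocallyCompactSpace U := by
    have h1 : IsLocallyClosed U := by
      rw [hU]
      exact hZ.isLocallyClosed.inter hO.isLocallyClosed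
    exact h1.locallyCompactSpace
  have hN : ∀ x : U, ∃ N : Set U, IsCompact N ∧ N ∈ 𝓝 x := fun x => exists_compact_mem_nhds x
  choose N hNc hNx using hN
  let π : U → MulAction.orbitRel.Quotient Γ U := Quotient.mk _
  have hπ : IsOpenMap π := isOpenMap_quotient_mk'_mul
  obtain ⟨t, ht⟩ := isCompact_univ.elim_finite_subcover (fun x : U => π '' interior (N x))
    (fun x => hπ _ isOpen_interior) (by
      rintro y -
      obtain ⟨x, rfl⟩ := Quotient.exists_rep y
      exact mem_iUnion.2 ⟨x, x, mem_interior_iff_mem_nhds.2 (hNx x), rfl⟩)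
  refine ⟨Subtype.val '' (⋃ x ∈ t, N x), ?_, ?_, ?_⟩
  · exact (t.isCompact_biUnion fun x _ => hNc x).image continuous_subtype_val
  · rintro _ ⟨x, -, rfl⟩
    exact x.2
  · intro x hx
    obtain ⟨y, hyt, z, hz, hzx⟩ : ∃ y ∈ t, ∃ z ∈ interior (N y), π z = π ⟨x, hx⟩ := by
      have := ht (mem_univ (π ⟨x, hx⟩))
      simpa only [mem_iUnion, mem_image, exists_prop] using this
    obtain ⟨γ, hγ⟩ : ∃ γ : Γ, γ • (⟨x, hx⟩ : U) = z := by
      have h1 := Quotient.exact hzx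
      exact (MulAction.orbitRel_apply.1 h1)
    obtain ⟨f, hf, hf2⟩ := h γ
    obtain ⟨f', hf', hf'2⟩ := h γ⁻¹
    refine ⟨f', f, ⟨hf', hf, ?_, ?_, ?_, ?_⟩, ?_⟩
    · intro a ha
      rw [hf'2 ⟨a, ha⟩]
      exact Subtype.property _
    · intro a ha
      rw [hf2 ⟨a, ha⟩]
      exact Subtype.property _
    · intro a ha
      rw [hf'2 ⟨a, ha⟩, hf2, smul_inv_smul]
    · intro a ha
      rw [hf2 ⟨a, ha⟩, hf'2, inv_smul_smul]
    · refine ⟨z, ?_, ?_⟩
      · exact mem_biUnion hyt (interior_subset hz)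
      · rw [← hγ, hf2 ⟨x, hx⟩]

/-- The homeomorphism underlying a biholomorphic map. -/
def Z.IsBihol.homeo {U : Set X} {V : Set E} {f : X → E} {g : E → X} (h : IsBihol U V f g) :
    U ≃ₜ V where
  toFun x := ⟨f x, h.mapsTo x.2⟩
  invFun y := ⟨g y, h.mapsTo_inv y.2⟩
  left_inv x := Subtype.ext (h.left_inv x x.2)
  right_inv y := Subtype.ext (h.right_inv y y.2)
  continuous_toFun := by
    refine Continuous.subtype_mk ?_ _
    exact continuousOn_iff_continuous_domRestrict.1 h.hol.continuousOn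
  continuous_invFun := by
    refine Continuous.subtype_mk ?_ _
    exact continuousOn_iff_continuous_domRestrict.1 h.hol_inv.continuousOn

/-- The transported action. -/
@[reducible] def Z.IsBihol.mulAction {U : Set X} {V : Set E} {f : X → E} {g : E → X}
    (h : IsBihol U V f g) (Γ : Type*) [Group Γ] [MulAction Γ U] : MulAction Γ V where
  smul γ y := h.homeo (γ • h.homeo.symm y)
  one_smul y := by
    change h.homeo ((1 : Γ) • h.homeo.symm y) = y
    rw [one_smul, Homeomorph.apply_symm_apply]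
  mul_smul a b y := by
    change h.homeo ((a * b) • h.homeo.symm y) =
      h.homeo (a • h.homeo.symm (h.homeo (b • h.homeo.symm y)))
    rw [Homeomorph.symm_apply_apply, mul_smul]

theorem Z.IsBihol.transport {U : Set X} {V : Set E} {f : X → E} {g : E → X} (hV : IsOpen V)
    (h : IsBihol U V f g) {Γ : Type*} [Group Γ] [MulAction Γ U] (hΓ : ActsHol Γ U) :
    @ActsHolomorphically E _ _ Γ _ V (h.mulAction Γ) := by
  intro γ
  obtain ⟨φ, hφ, hφ2⟩ := hΓ γ
  refine ⟨fun y => f (φ (g y)), ?_, fun y => ?_⟩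
  · refine (holOn_iff_of_isOpen hV).1 ?_
    refine h.hol.comp (hφ.comp h.hol_inv h.mapsTo_inv) fun y hy => ?_
    have := hφ2 ⟨g y, h.mapsTo_inv hy⟩
    change φ (g y) ∈ U
    rw [this]
    exact Subtype.property _
  · change f (φ (g y)) = f ((γ • (⟨g y, h.mapsTo_inv y.2⟩ : U) : U) : X)
    rw [← hφ2]

theorem Z.IsBihol.transport_compact {U : Set X} {V : Set E} {f : X → E} {g : E → X}
    (h : IsBihol U V f g) {Γ : Type*} [Group Γ] [MulAction Γ U]
    (hc : CompactSpace (MulAction.orbitRel.Quotient Γ U)) :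
    CompactSpace (@MulAction.orbitRel.Quotient Γ V _ (h.mulAction Γ)) := by
  letI := h.mulAction Γ
  have hrel : ∀ a b : U, (MulAction.orbitRel Γ U) a b →
      (MulAction.orbitRel Γ V) (h.homeo a) (h.homeo b) := by
    intro a b hab
    rw [MulAction.orbitRel_apply, MulAction.mem_orbit_iff] at hab ⊢
    obtain ⟨γ, hγ⟩ := hab
    refine ⟨γ, ?_⟩
    change h.homeo (γ • h.homeo.symm (h.homeo b)) = h.homeo a
    rw [Homeomorph.symm_apply_apply, hγ]
  let φ : MulAction.orbitRel.Quotient Γ U → MulAction.orbitRel.Quotient Γ V :=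
    Quotient.map' h.homeo hrel
  have hφ : Continuous φ := by
    refine Continuous.quotient_map' h.homeo.continuous hrel
  have hs : Function.Surjective φ := by
    intro y
    obtain ⟨y, rfl⟩ := Quotient.exists_rep y
    refine ⟨Quotient.mk _ (h.homeo.symm y), ?_⟩
    change Quotient.mk _ (h.homeo (h.homeo.symm y)) = _
    rw [Homeomorph.apply_symm_apply]
  exact hs.compactSpace hφ

theorem Z.IsBihol.transport_proper {U : Set X} {V : Set E} {f : X → E} {g : E → X}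
    (h : IsBihol U V f g) {Γ : Type*} [Group Γ] [MulAction Γ U]
    (hp : ProperlyDiscontinuousSMul Γ U) :
    @ProperlyDiscontinuousSMul Γ V _ (h.mulAction Γ).toSMul := by
  letI := h.mulAction Γ
  refine ⟨fun {K L} hK hL => ?_⟩
  refine (hp.finite_disjoint_inter_image (hK.image h.homeo.symm.continuous)
    (hL.image h.homeo.symm.continuous)).subset ?_
  rintro γ ⟨_, ⟨y, hy, rfl⟩, hyL⟩
  refine ⟨γ • h.homeo.symm y, ⟨_, ⟨y, hy, rfl⟩, rfl⟩, ?_⟩
  refine ⟨γ • y, hyL, ?_⟩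
  change h.homeo.symm (h.homeo (γ • h.homeo.symm y)) = _
  rw [Homeomorph.symm_apply_apply]

end Vale.Agent.P274
end
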