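import Mathlib
import Vale.Agent.P274.Bdl.B1
import Vale.Agent.P274.Bdl.B2
import Vale.Agent.P268.Hol

set_option linter.all false

namespace AFastc6663ex7a
@[reducible] noncomputable def a0 {x1 : Type} [x2 : NormedAddCommGroup x1] {x3 : Type} [x4 : NormedAddCommGroup x3] [x5 : NormedSpace ℝ x1] [x6 : NormedSpace ℝ x3] : NormedSpace ℝ (x1 →L[ℝ] x3) := inferInstance
@[reducible] noncomputable def a1 : Module ℝ ℂ := inferInstance
@[reducible] noncomputable def a2 : DistribMulAction ℝ ℂ := inferInstance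
theorem a3 : IsTopologicalAddGroup ℂ := inferInstance
@[reducible] noncomputable def a4 : DistribSMul ℝ ℂ := inferInstance
theorem a5 : CovariantClass ℝ ℝ (Function.swap fun x1 x2 => x1 + x2) fun x1 x2 => x1 ≤ x2 := inferInstance
theorem a6 {x1 : Type} [x2 : NormedAddCommGroup x1] [x3 : NormedSpace ℝ x1] : ContinuousConstSMul ℝ (ℝ × x1) := inferInstance
@[reducible] noncomputable def a7.{u1} {x1 : Type u1} [x2 : MeasurableSpace x1] {x3 : MeasureTheory.Measure x1} {x4 : Set x1} : AddZero ↥(MeasureTheory.Lp ℂ 2 (x3.restrict x4)) := inferInstance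
@[reducible] noncomputable def a8.{u1} {x1 : Type u1} [x2 : MeasurableSpace x1] {x3 : MeasureTheory.Measure x1} {x4 : Set x1} : AddGroup (x1 →ₘ[x3.restrict x4] ℂ) := inferInstance
@[reducible] noncomputable def a9.{u1} {x1 : Type u1} [x2 : MeasurableSpace x1] {x3 : MeasureTheory.Measure x1} {x4 : Set x1} : AddZeroClass ↥(MeasureTheory.Lp ℂ 2 (x3.restrict x4)) := inferInstance
@[reducible] noncomputable def a10 : SMulZeroClass ℝ ℂ := inferInstance
@[reducible] noncomputable def a11.{u1} {x1 : Type u1} [x2 : MeasurableSpace x1] {x3 : MeasureTheory.Measure x1} {x4 : Set x1} : AddMonoid ↥(MeasureTheory.Lp ℂ 2 (x3.restrict x4)) := inferInstance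
theorem a12 {x1 : Type} [x2 : NormedAddCommGroup x1] : ContinuousAdd (ℝ × x1) := inferInstance
@[reducible] noncomputable def a13.{u1} {x1 : Type u1} [x2 : MeasurableSpace x1] {x3 : MeasureTheory.Measure x1} {x4 : Set x1} : Module ℂ ↥(MeasureTheory.Lp ℂ 2 (x3.restrict x4)) := inferInstance
theorem a14 : ContinuousSMul ℝ ℂ := inferInstance
theorem a15 : ContinuousSMul ℂ ℂ := inferInstance
theorem a16 : IsTopologicalRing ℂ := inferInstance
theorem a17 : CharZero ℝ := inferInstance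
theorem a18 : LocallyCompactSpace ℂ := inferInstance
theorem a19 : ContinuousAdd ℂ := inferInstance
theorem a20 : IsSemitopologicalSemiring ℂ := inferInstance
theorem a21 : IsSemitopologicalRing ℂ := inferInstance
@[reducible] def a22 {x1 : Type} [x2 : NormedAddCommGroup x1] [x3 : NormedSpace ℝ x1] : Module ℝ (ℝ × x1) := inferInstance
theorem a23 : ClosedIicTopology ℝ := inferInstance
@[reducible] def a24 {x1 : Type} [x2 : NormedAddCommGroup x1] {x3 : Type} [x4 : NormedAddCommGroup x3] [x5 : NormedSpace ℝ x1] [x6 : NormedSpace ℝ x3] : AddCommMonoid (x1 →L[ℝ] x3) := inferInstance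
@[reducible] noncomputable def a25 {x1 : Type} [x2 : NormedAddCommGroup x1] {x3 : Type} [x4 : NormedAddCommGroup x3] [x5 : NormedSpace ℝ x1] [x6 : NormedSpace ℝ x3] : TopologicalSpace (x1 →L[ℝ] x3) := inferInstance
@[reducible] def a26.{u1} {x1 : Type u1} [x2 : NormedAddCommGroup x1] [x3 : NormedSpace ℂ x1] : Module ℂ (x1 × ℂ) := inferInstance
end AFastc6663ex7a
attribute [local instance] AFastc6663ex7a.a0 AFastc6663ex7a.a1 AFastc6663ex7a.a2 AFastc6663ex7a.a3
  AFastc6663ex7a.a4 AFastc6663ex7a.a5 AFastc6663ex7a.a6 AFastc6663ex7a.a7 AFastc6663ex7a.a8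
  AFastc6663ex7a.a9 AFastc6663ex7a.a10 AFastc6663ex7a.a11 AFastc6663ex7a.a12 AFastc6663ex7a.a13
  AFastc6663ex7a.a14 AFastc6663ex7a.a15 AFastc6663ex7a.a16 AFastc6663ex7a.a17 AFastc6663ex7a.a18
  AFastc6663ex7a.a19 AFastc6663ex7a.a20 AFastc6663ex7a.a21 AFastc6663ex7a.a22 AFastc6663ex7a.a23
  AFastc6663ex7a.a24 AFastc6663ex7a.a25 AFastc6663ex7a.a26
namespace AFastc6663ex7b
@[reducible] noncomputable def a0.{u1} {x1 : Type u1} [x2 : MeasurableSpace x1] {x3 : MeasureTheory.Measure x1} {x4 : Set x1} : SMulZeroClass ℂ ↥(MeasureTheory.Lp ℂ 2 (x3.restrict x4)) := inferInstance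
@[reducible] noncomputable def a1.{u1} {x1 : Type u1} [x2 : MeasurableSpace x1] {x3 : MeasureTheory.Measure x1} {x4 : Set x1} : AddCommMonoid ↥(MeasureTheory.Lp ℂ 2 (x3.restrict x4)) := inferInstance
@[reducible] noncomputable def a2.{u1} {x1 : Type u1} [x2 : MeasurableSpace x1] {x3 : MeasureTheory.Measure x1} {x4 : Set x1} : DistribSMul ℂ ↥(MeasureTheory.Lp ℂ 2 (x3.restrict x4)) := inferInstance
@[reducible] noncomputable def a3.{u1} {x1 : Type u1} [x2 : MeasurableSpace x1] {x3 : MeasureTheory.Measure x1} {x4 : Set x1} : SMul ℂ ↥(MeasureTheory.Lp ℂ 2 (x3.restrict x4)) := inferInstance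
@[reducible] noncomputable def a4.{u1} {x1 : Type u1} [x2 : MeasurableSpace x1] {x3 : MeasureTheory.Measure x1} {x4 : Set x1} : DistribMulAction ℂ ↥(MeasureTheory.Lp ℂ 2 (x3.restrict x4)) := inferInstance
@[reducible] noncomputable def a5.{u1} {x1 : Type u1} [x2 : NormedAddCommGroup x1] [x3 : NormedSpace ℂ x1] : Module ℝ (x1 →L[ℝ] ℂ) := inferInstance
@[reducible] def a6 {x1 : Type} [x2 : NormedAddCommGroup x1] {x3 : Type} [x4 : NormedAddCommGroup x3] [x5 : NormedSpace ℝ x1] [x6 : NormedSpace ℝ x3] : Module ℝ (x1 →L[ℝ] x3) := inferInstance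
@[reducible] def a7 {x1 : Type} [x2 : NormedAddCommGroup x1] {x3 : Type} [x4 : NormedAddCommGroup x3] [x5 : NormedSpace ℝ x1] [x6 : NormedSpace ℝ x3] : SMul ℝ (x1 →L[ℝ] x3) := inferInstance
theorem a8 : SMulCommClass ℝ ℝ ℂ := inferInstance
@[reducible] noncomputable def a9.{u1} {x1 : Type u1} [x2 : NormedAddCommGroup x1] [x3 : NormedSpace ℂ x1] : Module ℝ (x1 →L[ℝ] x1 →L[ℝ] ℂ) := inferInstance
@[reducible] def a10.{u1, u2} {x1 : ℕ} {x2 : Type u1} {x3 : Type u2} [x4 : NormedAddCommGroup x2] [x5 : NormedAddCommGroup x3] [x6 : NormedSpace ℂ x2] [x7 : NormedSpace ℂ x3] : Module ℂ (x2 [×x1]→L[ℂ] x3) := inferInstance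
@[reducible] noncomputable def a11.{u1} {x1 : Type u1} [x2 : NormedAddCommGroup x1] [x3 : NormedSpace ℂ x1] : NormedSpace ℝ (x1 →L[ℝ] ℂ) := inferInstance
@[reducible] def a12 {x1 : Type} [x2 : NormedAddCommGroup x1] {x3 : Type} [x4 : NormedAddCommGroup x3] [x5 : NormedSpace ℝ x1] [x6 : NormedSpace ℝ x3] : SMulZeroClass ℝ (x1 →L[ℝ] x3) := inferInstance
theorem a13.{u1} {x1 : Type u1} [x2 : NormedAddCommGroup x1] [x3 : NormedSpace ℂ x1] : ZeroHomClass (x1 →L[ℝ] x1 →L[ℝ] ℂ) x1 (x1 →L[ℝ] ℂ) := inferInstance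
theorem a14.{u1} {x1 : Type u1} [x2 : NormedAddCommGroup x1] [x3 : NormedSpace ℂ x1] : AddMonoidHomClass (x1 →L[ℝ] x1 →L[ℝ] ℂ) x1 (x1 →L[ℝ] ℂ) := inferInstance
theorem a15.{u1} {x1 : Type u1} [x2 : NormedAddCommGroup x1] [x3 : NormedSpace ℂ x1] : DistribMulActionSemiHomClass (x1 →L[ℝ] x1 →L[ℝ] ℂ) (⇑(RingHom.id ℝ)) x1 (x1 →L[ℝ] ℂ) := inferInstance
@[reducible] def a16 {x1 : Type} [x2 : NormedAddCommGroup x1] {x3 : Type} [x4 : NormedAddCommGroup x3] [x5 : NormedSpace ℝ x1] [x6 : NormedSpace ℝ x3] : DistribSMul ℝ (x1 →L[ℝ] x3) := inferInstance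
@[reducible] noncomputable def a17.{u1} {x1 : Type u1} [x2 : NormedAddCommGroup x1] [x3 : NormedSpace ℂ x1] : NormedSpace ℝ (x1 →L[ℝ] x1 →L[ℝ] ℂ) := inferInstance
theorem a18 {x1 : Type} [x2 : NormedAddCommGroup x1] {x3 : Type} [x4 : NormedAddCommGroup x3] [x5 : NormedSpace ℝ x1] [x6 : NormedSpace ℝ x3] : ContinuousAdd (x1 →L[ℝ] x3) := inferInstance
theorem a19.{u1} {x1 : Type u1} [x2 : NormedAddCommGroup x1] [x3 : NormedSpace ℂ x1] : SemilinearMapClass (x1 →L[ℝ] x1 →L[ℝ] ℂ) (RingHom.id ℝ) x1 (x1 →L[ℝ] ℂ) := inferInstance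
@[reducible] def a20 {x1 : Type} [x2 : NormedAddCommGroup x1] {x3 : Type} [x4 : NormedAddCommGroup x3] [x5 : NormedSpace ℝ x1] [x6 : NormedSpace ℝ x3] : DistribMulAction ℝ (x1 →L[ℝ] x3) := inferInstance
theorem a21.{u1} {x1 : Type u1} [x2 : NormedAddCommGroup x1] [x3 : NormedSpace ℂ x1] : SMulCommClass ℝ ℝ (x1 →L[ℝ] ℂ) := inferInstance
theorem a22 {x1 : Type} [x2 : NormedAddCommGroup x1] {x3 : Type} [x4 : NormedAddCommGroup x3] [x5 : NormedSpace ℝ x1] [x6 : NormedSpace ℝ x3] [x7 : CompleteSpace x3] : CompleteSpace (x1 →L[ℝ] x3) := inferInstance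
end AFastc6663ex7b
attribute [local instance] AFastc6663ex7b.a0 AFastc6663ex7b.a1 AFastc6663ex7b.a2 AFastc6663ex7b.a3
  AFastc6663ex7b.a4 AFastc6663ex7b.a5 AFastc6663ex7b.a6 AFastc6663ex7b.a7 AFastc6663ex7b.a8
  AFastc6663ex7b.a9 AFastc6663ex7b.a10 AFastc6663ex7b.a11 AFastc6663ex7b.a12 AFastc6663ex7b.a13
  AFastc6663ex7b.a14 AFastc6663ex7b.a15 AFastc6663ex7b.a16 AFastc6663ex7b.a17 AFastc6663ex7b.a18
  AFastc6663ex7b.a19 AFastc6663ex7b.a20 AFastc6663ex7b.a21 AFastc6663ex7b.a22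
section

/-! Derivatives of holomorphic maps and of their limits. -/

set_option linter.unusedSectionVars false

namespace Vale.Agent.P274

open Filter Metric Set Topology

variable {ι : Type*} {E F : Type*} [NormedAddCommGroup E] [NormedSpace ℂ E]
  [NormedAddCommGroup F] [NormedSpace ℂ F]

/-- Cauchy estimate. -/
lemma norm_fderiv_le_of_bdd {f : E → F} {x : E} {r C : ℝ} (hr : 0 < r)
    (hd : DifferentiableOn ℂ f (ball x r)) (hC : ∀ y ∈ ball x r, ‖f y‖ ≤ C) {y : E}
    (hy : y ∈ ball x (r / 2)) : ‖fderiv ℂ f y‖ ≤ 4 * C / r := by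
  have hyb : ball y (r / 2) ⊆ ball x r := by
    intro w hw
    rw [mem_ball] at *
    have := dist_triangle w y x
    linarith only [hy, hw, this]
  have hm : MapsTo f (ball y (r / 2)) (closedBall (f y) (2 * C)) := by
    intro w hw
    have h1 := hC w (hyb hw)
    have h2 := hC y (hyb (mem_ball_self (by positivity)))
    rw [mem_closedBall, dist_eq_norm]
    have := norm_sub_le (f w) (f y)
    linarith only [h1, h2, this]
  have h1 := Complex.norm_fderiv_le_div_of_mapsTo_ball (hd.mono hyb) hm (by positivity)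
  have h3 : 2 * C / (r / 2) = 4 * C / r := by field_simp; ring
  rwa [h3] at h1

/-- Directional derivatives of holomorphic maps are holomorphic. -/
theorem differentiableOn_fderiv_apply [ProperSpace E] [ProperSpace F] {U : Set E}
    (hU : IsOpen U) {f : E → F} (hf : DifferentiableOn ℂ f U) (v : E) :
    DifferentiableOn ℂ (fun x => fderiv ℂ f x v) U := by
  intro x0 hx0
  obtain ⟨r0, hr0, hr0U⟩ := Metric.isOpen_iff.1 hU x0 hx0
  have hc : ContinuousAt f x0 := (hf.differentiableAt (hU.mem_nhds hx0)).continuousAt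
  obtain ⟨r1, hr1, hr1b⟩ := Metric.continuousAt_iff.1 hc 1 one_pos
  set r : ℝ := min r0 r1 with hr
  have hrpos : 0 < r := lt_min hr0 hr1
  have hrU : ball x0 r ⊆ U := (ball_subset_ball (min_le_left _ _)).trans hr0U
  have hfd : DifferentiableOn ℂ f (ball x0 r) := hf.mono hrU
  have hfb : ∀ y ∈ ball x0 r, ‖f y‖ ≤ ‖f x0‖ + 1 := by
    intro y hy
    have h1 := hr1b (ball_subset_ball (min_le_right _ _) hy)
    rw [dist_eq_norm] at h1
    calc ‖f y‖ = ‖f x0 + (f y - f x0)‖ := by congr 1; abel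
      _ ≤ ‖f x0‖ + ‖f y - f x0‖ := norm_add_le _ _
      _ ≤ _ := by linarith only [h1]
  set C : ℝ := ‖f x0‖ + 1 with hC
  have hC0 : 0 ≤ C := by (clear * -; positivity)
  set 𝒰 : Ultrafilter ℕ := hyperfilter ℕ with h𝒰
  have hle : (𝒰 : Filter ℕ) ≤ atTop := by
    rw [h𝒰, ← Nat.cofinite_eq_atTop]; exact hyperfilter_le_cofinite
  set q : ℕ → E → F := fun m x => ((m : ℝ) + 1) • (f (x + (1 / ((m : ℝ) + 1)) • v) - f x) with hq
  have hlarge : ∀ᶠ m : ℕ in (𝒰 : Filter ℕ), ‖(1 / ((m : ℝ) + 1)) • v‖ < r / 8 := by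
    refine hle ?_
    have h1 : Tendsto (fun m : ℕ => (1 / ((m : ℝ) + 1)) • v) atTop (𝓝 ((0 : ℝ) • v)) :=
      (tendsto_one_div_add_atTop_nhds_zero_nat).smul_const v
    rw [zero_smul] at h1
    have h2 := h1.norm
    rw [norm_zero] at h2
    exact h2.eventually (gt_mem_nhds (by (clear * - hr0 hr1; positivity)))
  have hshift : ∀ m : ℕ, ‖(1 / ((m : ℝ) + 1)) • v‖ < r / 8 → ∀ x ∈ ball x0 (r / 8),
      x + (1 / ((m : ℝ) + 1)) • v ∈ ball x0 (r / 4) := by
    intro m hm x hx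
    rw [mem_ball, dist_eq_norm] at *
    calc ‖x + (1 / ((m : ℝ) + 1)) • v - x0‖ = ‖(x - x0) + (1 / ((m : ℝ) + 1)) • v‖ := by
          congr 1; abel
      _ ≤ ‖x - x0‖ + ‖(1 / ((m : ℝ) + 1)) • v‖ := norm_add_le _ _
      _ < _ := by linarith only [hx, hm]
  have hLB : LocBdd (𝒰 : Filter ℕ) q (ball x0 (r / 16)) := by
    intro x hx
    refine ⟨r / 16, by (clear * - hr0 hr1; positivity), 4 * C / r * ‖v‖, ?_⟩
    have hsub : ball x (r / 16) ⊆ ball x0 (r / 8) := by
      intro y hy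
      rw [mem_ball] at *
      have := dist_triangle y x x0
      linarith only [this, hy, hx]
    filter_upwards [hlarge] with m hm
    have hm0 : (0 : ℝ) < (m : ℝ) + 1 := by (clear * -; positivity)
    constructor
    · have h1 : DifferentiableOn ℂ (fun x => f (x + (1 / ((m : ℝ) + 1)) • v)) (ball x (r / 16)) := by
        refine hfd.comp (by fun_prop) ?_
        intro y hy
        exact ball_subset_ball (by linarith only [hrpos]) (hshift m hm y (hsub hy))
      have h2 : DifferentiableOn ℂ f (ball x (r / 16)) :=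
        hfd.mono (hsub.trans (ball_subset_ball (by linarith only [hrpos])))
      exact (h1.sub h2).const_smul ((m : ℝ) + 1)
    · intro y hy
      have h1 := lip_of_bdd hrpos hfd hfb (y := y) (z := y + (1 / ((m : ℝ) + 1)) • v)
        (ball_subset_ball (by linarith only [hrpos]) (hsub hy)) (hshift m hm y (hsub hy))
      rw [dist_eq_norm, dist_eq_norm, add_sub_cancel_left, norm_smul, Real.norm_eq_abs,
        abs_of_pos (by (clear * -; positivity))] at h1
      simp only [hq]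
      rw [norm_smul, Real.norm_eq_abs, abs_of_pos hm0]
      calc ((m : ℝ) + 1) * ‖f (y + (1 / ((m : ℝ) + 1)) • v) - f y‖ 
          ≤ ((m : ℝ) + 1) * (4 * C / r * (1 / ((m : ℝ) + 1) * ‖v‖)) := by (clear * - h1; gcongr)
        _ = 4 * C / r * ‖v‖ := by field_simp
  obtain ⟨g, hgd, hgc⟩ := montel 𝒰 isOpen_ball hLB
  have heq : ∀ x ∈ ball x0 (r / 16), g x = fderiv ℂ f x v := by
    intro x hx
    have h1 := hgc x hx (fun _ => x) tendsto_const_nhds
    have hxr : x ∈ ball x0 r := ball_subset_ball (by linarith only [hrpos]) hx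
    have hfx : HasFDerivAt f (fderiv ℂ f x) x :=
      (hfd.differentiableAt (isOpen_ball.mem_nhds hxr)).hasFDerivAt
    have h2 : Tendsto (fun m : ℕ => q m x) 𝒰 (𝓝 (fderiv ℂ f x v)) := by
      have h3 : HasDerivAt (fun t : ℝ => f (x + t • v)) (fderiv ℂ f x v) 0 := by
        have h4 : HasFDerivAt f ((fderiv ℂ f x).restrictScalars ℝ) (x + (0 : ℝ) • v) := by
          rw [zero_smul, add_zero]; exact hfx.restrictScalars ℝ
        have h5 : HasDerivAt (fun t : ℝ => x + t • v) v 0 := by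
          simpa using ((hasDerivAt_id (0 : ℝ)).smul_const v).const_add x
        exact h4.comp_hasDerivAt 0 h5
      rw [hasDerivAt_iff_tendsto_slope] at h3
      have h4 : Tendsto (fun m : ℕ => 1 / ((m : ℝ) + 1)) 𝒰 (𝓝[≠] (0 : ℝ)) := by
        refine tendsto_nhdsWithin_iff.2 ⟨tendsto_one_div_add_atTop_nhds_zero_nat.mono_left hle, ?_⟩
        refine Eventually.of_forall fun m => ?_
        have : (0 : ℝ) < 1 / ((m : ℝ) + 1) := by (clear * -; positivity)
        exact this.ne'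
      have h5 := h3.comp h4
      refine h5.congr fun m => ?_
      simp only [Function.comp_apply, slope, vsub_eq_sub, sub_zero, zero_smul, add_zero, hq]
      congr 1
      field_simp
    exact tendsto_nhds_unique h1 h2
  have h1 : DifferentiableWithinAt ℂ g (ball x0 (r / 16)) x0 :=
    hgd x0 (mem_ball_self (by (clear * - hr0 hr1; positivity)))
  have h2 : DifferentiableAt ℂ g x0 := h1.differentiableAt (ball_mem_nhds x0 (by (clear * - hr0 hr1; positivity)))
  refine DifferentiableAt.differentiableWithinAt ?_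
  refine h2.congr_of_eventuallyEq ?_
  filter_upwards [ball_mem_nhds x0 (show 0 < r / 16 by (clear * - hr0 hr1; positivity))] with x hx
  exact (heq x hx).symm

/-- The derivative of a bounded holomorphic map is Lipschitz. -/
lemma fderiv_lip [ProperSpace E] [ProperSpace F] {f : E → F} {x : E} {r C : ℝ} (hr : 0 < r)
    (hC0 : 0 ≤ C) (hd : DifferentiableOn ℂ f (ball x r)) (hC : ∀ y ∈ ball x r, ‖f y‖ ≤ C) {y : E}
    (hy : y ∈ ball x (r / 8)) : ‖fderiv ℂ f y - fderiv ℂ f x‖ ≤ 32 * C / r ^ 2 * dist y x := by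
  refine ContinuousLinearMap.opNorm_le_bound _ (by positivity) fun v => ?_
  have h1 : DifferentiableOn ℂ (fun z => fderiv ℂ f z v) (ball x (r / 2)) :=
    differentiableOn_fderiv_apply isOpen_ball (hd.mono (ball_subset_ball (by linarith only [hr]))) v
  have h2 : ∀ z ∈ ball x (r / 2), ‖fderiv ℂ f z v‖ ≤ 4 * C / r * ‖v‖ := fun z hz =>
    ((fderiv ℂ f z).le_opNorm v).trans
      (mul_le_mul_of_nonneg_right (norm_fderiv_le_of_bdd hr hd hC hz) (norm_nonneg _))
  have h3 := lip_of_bdd (half_pos hr) h1 h2 (y := x) (z := y)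
    (mem_ball_self (by positivity)) (ball_subset_ball (by linarith only) hy)
  rw [dist_eq_norm] at h3
  have h4 : 4 * (4 * C / r * ‖v‖) / (r / 2) * dist y x = 32 * C / r ^ 2 * dist y x * ‖v‖ := by
    field_simp; ring
  rw [h4] at h3
  simpa using h3

/-- Convergence of derivatives for limits of locally bounded families. -/
theorem tendsto_fderiv [ProperSpace E] [ProperSpace F] (𝒰 : Ultrafilter ι) {f : ι → E → F}
    {U : Set E} (hU : IsOpen U) (hf : LocBdd (𝒰 : Filter ι) f U) {g : E → F}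
    (hg : DifferentiableOn ℂ g U) (hfg : TendstoLocallyUniformlyOn f g (𝒰 : Filter ι) U)
    {x : E} (hx : x ∈ U) {u : ι → E} (hu : Tendsto u 𝒰 (𝓝 x)) :
    Tendsto (fun j => fderiv ℂ (f j) (u j)) 𝒰 (𝓝 (fderiv ℂ g x)) := by
  -- convergence at `x`
  have h1 : Tendsto (fun j => fderiv ℂ (f j) x) 𝒰 (𝓝 (fderiv ℂ g x)) := by
    obtain ⟨r, hr, C, hC⟩ := hf x hx
    obtain ⟨r1, hr1, hr1U⟩ := Metric.isOpen_iff.1 hU x hx
    rw [Metric.tendstoLocallyUniformlyOn_iff] at hfg
    rw [Metric.tendsto_nhds]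
    intro ε hε
    -- a fixed ball with uniform convergence for every accuracy
    have hball : ∃ ρ > 0, ρ ≤ r ∧ ρ ≤ r1 ∧ ∀ δ > 0, ∀ᶠ j in (𝒰 : Filter ι), ∀ y ∈ ball x ρ,
        dist (g y) (f j y) < δ := by
      set ρ : ℝ := min r r1 / 2 with hρ
      have hρ0 : 0 < ρ := by (clear * - hr hr1; positivity)
      have hρ1 : ρ < r1 := by
        have := min_le_right r r1
        have : 0 < min r r1 := lt_min hr hr1
        linarith
      have hρ2 : ρ ≤ r := by
        have := min_le_left r r1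
        have : 0 < min r r1 := lt_min hr hr1
        linarith
      refine ⟨ρ, hρ0, hρ2, hρ1.le, fun δ hδ => ?_⟩
      have hcomp : IsCompact (closedBall x ρ) := isCompact_closedBall x ρ
      have hsub : closedBall x ρ ⊆ U := (closedBall_subset_ball hρ1).trans hr1U
      have h2 : TendstoUniformlyOn f g (𝒰 : Filter ι) (closedBall x ρ) := by
        have h3 : TendstoLocallyUniformlyOn f g (𝒰 : Filter ι) U := by
          rw [Metric.tendstoLocallyUniformlyOn_iff]; exact hfg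
        exact (tendstoLocallyUniformlyOn_iff_tendstoUniformlyOn_of_compact hcomp).1 (h3.mono hsub)
      rw [Metric.tendstoUniformlyOn_iff] at h2
      filter_upwards [h2 δ hδ] with j hj y hy
      exact hj y (ball_subset_closedBall hy)
    obtain ⟨ρ, hρ, hρr, hρr1, hball⟩ := hball
    filter_upwards [hball (ε * ρ / 8) (by (clear * - hε hρ; positivity)), hC] with j hj hj2
    have hd1 : DifferentiableOn ℂ (f j) (ball x ρ) := hj2.1.mono (ball_subset_ball hρr)
    have hd2 : DifferentiableOn ℂ g (ball x ρ) := hg.mono ((ball_subset_ball hρr1).trans hr1U)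
    have hb : ∀ y ∈ ball x ρ, ‖(f j - g) y‖ ≤ ε * ρ / 8 := by
      intro y hy
      have := hj y hy
      rw [dist_comm, dist_eq_norm] at this
      exact this.le
    have h2 := norm_fderiv_le_of_bdd hρ (hd1.sub hd2) hb (mem_ball_self (half_pos hρ))
    rw [fderiv_sub (hd1.differentiableAt (ball_mem_nhds x hρ))
      (hd2.differentiableAt (ball_mem_nhds x hρ))] at h2
    rw [dist_eq_norm]
    have h3 : 4 * (ε * ρ / 8) / ρ = ε / 2 := by field_simp; ring
    rw [h3] at h2
    linarith only [hε, h2]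
  obtain ⟨r, hr, C, hC⟩ := hf x hx
  have h2 : Tendsto (fun j => fderiv ℂ (f j) (u j) - fderiv ℂ (f j) x) 𝒰 (𝓝 0) := by
    rw [tendsto_zero_iff_norm_tendsto_zero]
    have h3 : Tendsto (fun j => 32 * |C| / r ^ 2 * dist (u j) x) 𝒰 (𝓝 0) := by
      have : Tendsto (fun j => dist (u j) x) 𝒰 (𝓝 0) := tendsto_iff_dist_tendsto_zero.1 hu
      simpa using this.const_mul (32 * |C| / r ^ 2)
    refine squeeze_zero' (Eventually.of_forall fun j => norm_nonneg _) ?_ h3
    filter_upwards [hC, hu (ball_mem_nhds x (show 0 < r / 8 by positivity))] with j hj hj2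
    exact fderiv_lip hr (abs_nonneg C) hj.1 (fun y hy => (hj.2 y hy).trans (le_abs_self C)) hj2
  have h3 := h1.add h2
  rw [add_zero] at h3
  refine h3.congr fun j => ?_
  abel

end Vale.Agent.P274
end

section

/-! The general scaling theorem: no convexity of the limit domain is needed. -/

set_option linter.unusedSectionVars false

namespace Vale.Agent.P274

open Filter Metric Set Topology Module

variable {ι : Type*} {E : Type*} [NormedAddCommGroup E] [NormedSpace ℂ E] [FiniteDimensional ℂ E]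

/-- The Jacobian determinant is holomorphic. -/
lemma differentiableOn_det {U : Set E} (hU : IsOpen U) {f : E → E} (hf : DifferentiableOn ℂ f U) :
    DifferentiableOn ℂ (fun x => (fderiv ℂ f x).det) U := by
  have hps : ProperSpace E := FiniteDimensional.proper ℂ E
  set b := finBasis ℂ E with hb
  have h1 : ∀ x, (fderiv ℂ f x).det = Matrix.det (Matrix.of fun i j => b.repr (fderiv ℂ f x (b j)) i) := by
    intro x
    have h2 : (fderiv ℂ f x).det = LinearMap.det ((fderiv ℂ f x : E →L[ℂ] E) : E →ₗ[ℂ] E) := rfl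
    rw [h2, ← LinearMap.det_toMatrix b]
    congr 1
    ext i j
    rw [LinearMap.toMatrix_apply]
    rfl
  have h2 : (fun x => (fderiv ℂ f x).det) = 
      fun x => Matrix.det (Matrix.of fun i j => b.repr (fderiv ℂ f x (b j)) i) := funext h1
  rw [h2]
  have h3 : ∀ i j, DifferentiableOn ℂ (fun x => b.repr (fderiv ℂ f x (b j)) i) U := by
    intro i j
    have h4 := differentiableOn_fderiv_apply hU hf (b j)
    have h5 : Differentiable ℂ (fun y : E => b.repr y i) := by
      have : (fun y : E => b.repr y i) = fun y => (LinearMap.toContinuousLinearMap (b.coord i)) y := by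
        funext y; rfl
      rw [this]
      exact ContinuousLinearMap.differentiable _
    exact h5.comp_differentiableOn h4
  simp only [Matrix.det_apply, Matrix.of_apply]
  refine DifferentiableOn.fun_sum fun σ _ => ?_
  refine DifferentiableOn.const_smul ?_ _
  intro x hx
  classical
  exact (HasFDerivWithinAt.finsetProd (u := Finset.univ) 
    (fun i _ => (h3 (σ i) i x hx).hasFDerivWithinAt)).differentiableWithinAt

/-- Hurwitz: nonvanishing of the Jacobian passes to nondegenerate limits. -/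
theorem hurwitz_det (𝒰 : Ultrafilter ι) {f : ι → E → E}
    {U : Set E} (hU : IsOpen U) (hUc : IsPreconnected U) (hf : LocBdd (𝒰 : Filter ι) f U) {g : E → E}
    (hg : DifferentiableOn ℂ g U) (hfg : TendstoLocallyUniformlyOn f g (𝒰 : Filter ι) U)
    (hne : ∀ᶠ j in (𝒰 : Filter ι), DifferentiableOn ℂ (f j) U ∧ ∀ x ∈ U, (fderiv ℂ (f j) x).det ≠ 0)
    {k : E} (hk : k ∈ U) (hk0 : (fderiv ℂ g k).det ≠ 0) : ∀ x ∈ U, (fderiv ℂ g x).det ≠ 0 := by
  have hps : ProperSpace E := FiniteDimensional.proper ℂ E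
  have hJ : DifferentiableOn ℂ (fun x => (fderiv ℂ g x).det) U := differentiableOn_det hU hg
  have hJc : ∀ x ∈ U, ∀ u : ι → E, Tendsto u 𝒰 (𝓝 x) → 
      Tendsto (fun j => (fderiv ℂ (f j) (u j)).det) 𝒰 (𝓝 (fderiv ℂ g x).det) := by
    intro x hx u hu
    exact (ContinuousLinearMap.continuous_det.tendsto _).comp (tendsto_fderiv 𝒰 hU hf hg hfg hx hu)
  set N : Set E := {x | x ∈ U ∧ (fderiv ℂ g x).det ≠ 0} with hN
  have hNo : IsOpen N := by
    rw [isOpen_iff_mem_nhds]
    rintro x ⟨hx, hx0⟩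
    have h1 : ContinuousAt (fun x => (fderiv ℂ g x).det) x := 
      (hJ.differentiableAt (hU.mem_nhds hx)).continuousAt
    filter_upwards [hU.mem_nhds hx, h1.eventually_ne hx0] with y hy hy0
    exact ⟨hy, hy0⟩
  have hsub : U ⊆ N := by
    refine hUc.subset_of_closure_inter_subset hNo ⟨k, hk, hk, hk0⟩ ?_
    rintro x0 ⟨hx0c, hx0⟩
    refine ⟨hx0, fun hzero => ?_⟩
    obtain ⟨ρ, hρ, hρU⟩ := Metric.isOpen_iff.1 hU x0 hx0
    obtain ⟨y, hyN, hyd⟩ := Metric.mem_closure_iff.1 hx0c (ρ / 2) (half_pos hρ)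
    have hyn : ‖y - x0‖ < ρ / 2 := by rwa [dist_comm, dist_eq_norm] at hyd
    set L : ℂ → E := fun ζ => x0 + ζ • (y - x0) with hL
    have hLd : Differentiable ℂ L := by
      simp only [hL]; fun_prop
    have hLm : ∀ ζ ∈ ball (0 : ℂ) 2, L ζ ∈ U := by
      intro ζ hζ
      apply hρU
      rw [mem_ball, dist_eq_norm]
      simp only [hL, add_sub_cancel_left]
      rw [norm_smul]
      rw [mem_ball_zero_iff] at hζ
      nlinarith only [hρ, hyn, hζ, norm_nonneg (y - x0), norm_nonneg ζ]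
    set φ : ℂ → ℂ := fun ζ => (fderiv ℂ g (L ζ)).det with hφ
    have hφd : DifferentiableOn ℂ φ (ball 0 2) := hJ.comp hLd.differentiableOn hLm
    have hφa : AnalyticOnNhd ℂ φ (ball 0 2) := hφd.analyticOnNhd isOpen_ball
    have hφ0 : φ 0 = 0 := by simp [hφ, hL, hzero]
    have hφ1 : φ 1 ≠ 0 := by
      simp only [hφ, hL, one_smul, add_sub_cancel]
      exact hyN.2
    have hiso : ∀ᶠ ζ in 𝓝[≠] (0 : ℂ), φ ζ ≠ 0 := by
      rcases (hφa 0 (mem_ball_self two_pos)).eventually_eq_zero_or_eventually_ne_zero with h | h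
      · exfalso
        have h2 := hφa.eqOn_zero_of_preconnected_of_eventuallyEq_zero 
          (convex_ball _ _).isPreconnected (mem_ball_self two_pos) h
        exact hφ1 (h2 (by rw [mem_ball_zero_iff, norm_one]; norm_num))
      · exact h
    rw [eventually_nhdsWithin_iff, Metric.eventually_nhds_iff] at hiso
    obtain ⟨t0, ht0, ht⟩ := hiso
    set t : ℝ := min (t0 / 2) 1 with htdef
    have htpos : 0 < t := by (clear * - ht0; positivity)
    have ht1 : t ≤ 1 := min_le_right _ _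
    have htt0 : t < t0 := (min_le_left _ _).trans_lt (by linarith only [ht0])
    have hsphere : ∀ ζ ∈ sphere (0 : ℂ) t, φ ζ ≠ 0 := by
      intro ζ hζ
      rw [mem_sphere] at hζ
      refine ht (by rw [hζ]; exact htt0) ?_
      intro h
      rw [mem_singleton_iff.1 h] at hζ
      simp at hζ
      linarith only [htpos, hζ]
    have hsb : sphere (0 : ℂ) t ⊆ ball 0 2 := by
      intro ζ hζ
      rw [mem_sphere] at hζ
      rw [mem_ball, hζ]
      linarith only [ht1]
    have hcomp : IsCompact (sphere (0 : ℂ) t) := isCompact_sphere _ _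
    have hsne : (sphere (0 : ℂ) t).Nonempty := NormedSpace.sphere_nonempty.2 htpos.le
    obtain ⟨ζ0, hζ0, hmin⟩ := hcomp.exists_isMinOn hsne 
      ((hφa.continuousOn.mono hsb).norm)
    set m : ℝ := ‖φ ζ0‖ with hm
    have hmpos : 0 < m := norm_pos_iff.2 (hsphere ζ0 hζ0)
    have hev : ∀ᶠ j in (𝒰 : Filter ι), ∀ ζ ∈ sphere (0 : ℂ) t, m / 2 ≤ ‖(fderiv ℂ (f j) (L ζ)).det‖ := by
      by_contra hcon
      rw [← Ultrafilter.eventually_not] at hcon
      have h3 : ∃ u : ι → ℂ, ∀ᶠ j in (𝒰 : Filter ι), u j ∈ sphere (0 : ℂ) t ∧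
          ‖(fderiv ℂ (f j) (L (u j))).det‖ < m / 2 := by
        classical
        refine ⟨fun j => if h : ∃ ζ, ζ ∈ sphere (0 : ℂ) t ∧ ‖(fderiv ℂ (f j) (L ζ)).det‖ < m / 2
          then h.choose else 0, ?_⟩
        filter_upwards [hcon] with j hj
        push Not at hj
        have hj' : ∃ ζ, ζ ∈ sphere (0 : ℂ) t ∧ ‖(fderiv ℂ (f j) (L ζ)).det‖ < m / 2 := hj
        simp only [hj', dite_true]
        exact hj'.choose_spec
      obtain ⟨u, hu⟩ := h3
      obtain ⟨ζ, hζ, hζ2⟩ := hcomp.ultrafilter_le_nhds (𝒰.map u) (by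
          rw [le_principal_iff]
          exact hu.mono fun j hj => hj.1)
      have hu2 : Tendsto u 𝒰 (𝓝 ζ) := hζ2
      have h4 := hJc (L ζ) (hLm ζ (hsb hζ)) (fun j => L (u j)) ((hLd.continuous.tendsto ζ).comp hu2)
      have h5 : ‖φ ζ‖ ≤ m / 2 := le_of_tendsto h4.norm (hu.mono fun j hj => hj.2.le)
      have h6 : m ≤ ‖φ ζ‖ := hmin hζ
      linarith only [hmpos, h5, h6]
    have hev2 : ∀ᶠ j in (𝒰 : Filter ι), m / 2 ≤ ‖(fderiv ℂ (f j) x0).det‖ := by
      filter_upwards [hev, hne] with j hj hj2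
      have hd : DifferentiableOn ℂ (fun ζ => (fderiv ℂ (f j) (L ζ)).det) (ball 0 2) :=
        (differentiableOn_det hU hj2.1).comp hLd.differentiableOn hLm
      have hnz : ∀ ζ ∈ ball (0 : ℂ) 2, (fderiv ℂ (f j) (L ζ)).det ≠ 0 := fun ζ hζ => 
        hj2.2 _ (hLm ζ hζ)
      have hd2 : DifferentiableOn ℂ (fun ζ => ((fderiv ℂ (f j) (L ζ)).det)⁻¹) (ball 0 2) :=
        hd.fun_inv hnz
      have hcb : closedBall (0 : ℂ) t ⊆ ball 0 2 := closedBall_subset_ball (by linarith only [ht1])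
      have hdc : DiffContOnCl ℂ (fun ζ => ((fderiv ℂ (f j) (L ζ)).det)⁻¹) (ball 0 t) := by
        refine DifferentiableOn.diffContOnCl ?_
        rw [closure_ball _ htpos.ne']
        exact hd2.mono hcb
      have h6 := Complex.norm_le_of_forall_mem_frontier_norm_le (C := 2 / m) isBounded_ball hdc (by
        intro ζ hζ
        rw [frontier_ball _ htpos.ne'] at hζ
        rw [norm_inv]
        have h7 := hj ζ hζ
        rw [inv_le_comm₀ (by linarith only [hmpos, h7]) (by (clear * - hmpos; positivity))]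
        rw [inv_div]
        exact h7) (subset_closure (mem_ball_self htpos))
      have h8 : L 0 = x0 := by simp [hL]
      rw [norm_inv, h8, inv_le_comm₀ (by
        rw [norm_pos_iff]; exact hj2.2 x0 hx0) (by (clear * - hmpos; positivity)), inv_div] at h6
      exact h6
    have h9 : m / 2 ≤ ‖(fderiv ℂ g x0).det‖ := 
      ge_of_tendsto (hJc x0 hx0 (fun _ => x0) tendsto_const_nhds).norm hev2
    rw [hzero, norm_zero] at h9
    linarith only [hmpos, h9]
  exact fun x hx => (hsub hx).2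

/-- Limits with nonvanishing Jacobian are locally onto, uniformly. -/
theorem eventually_ball_subset_image (𝒰 : Ultrafilter ι) {f : ι → E → E}
    {U : Set E} (hU : IsOpen U) (hf : LocBdd (𝒰 : Filter ι) f U) {g : E → E}
    (hg : DifferentiableOn ℂ g U) (hfg : TendstoLocallyUniformlyOn f g (𝒰 : Filter ι) U)
    {x : E} (hx : x ∈ U) (hx0 : (fderiv ℂ g x).det ≠ 0) : 
    ∃ r > 0, ∀ᶠ j in (𝒰 : Filter ι), ball (g x) r ⊆ f j '' U := by
  have hps : ProperSpace E := FiniteDimensional.proper ℂ E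
  set T : E ≃L[ℂ] E := (fderiv ℂ g x).toContinuousLinearEquivOfDetNeZero hx0 with hT
  have hTc : (T : E →L[ℂ] E) = fderiv ℂ g x := 
    ContinuousLinearMap.coe_toContinuousLinearEquivOfDetNeZero _ _
  rcases subsingleton_or_nontrivial E with hsub | hnt
  · refine ⟨1, one_pos, Eventually.of_forall fun j y _ => ⟨x, hx, Subsingleton.elim _ _⟩⟩
  obtain ⟨r, hr, C, hC⟩ := hf x hx
  obtain ⟨r1, hr1, hr1U⟩ := Metric.isOpen_iff.1 hU x hx
  have hTs : 0 < ‖(T.symm : E →L[ℂ] E)‖ := T.norm_symm_pos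
  set c : ℝ := ‖(T.symm : E →L[ℂ] E)‖⁻¹ / 2 with hc
  have hcpos : 0 < c := by (clear * - hTs; positivity)
  set M : ℝ := 32 * |C| / r ^ 2 + 1 with hM
  have hMpos : 0 < M := by (clear * - hr; positivity)
  obtain ⟨ε, hε, hε1, hε2, hε3⟩ : ∃ ε > 0, ε < r / 8 ∧ ε < r1 ∧ M * ε ≤ c / 2 := by
    refine ⟨min (min (r / 8) r1) (c / (2 * M)) / 2, by (clear * - hr hr1 hTs; positivity), ?_, ?_, ?_⟩
    · have h1 : min (min (r / 8) r1) (c / (2 * M)) ≤ r / 8 := (min_le_left _ _).trans (min_le_left _ _)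
      have h2 : 0 < min (min (r / 8) r1) (c / (2 * M)) := by (clear * - hr hr1 hTs; positivity)
      linarith only [h1, h2]
    · have h1 : min (min (r / 8) r1) (c / (2 * M)) ≤ r1 := (min_le_left _ _).trans (min_le_right _ _)
      have h2 : 0 < min (min (r / 8) r1) (c / (2 * M)) := by (clear * - hr hr1 hTs; (clear * - hr hr1 hTs; positivity))
      linarith only [hr1, h1]
    · have h1 : min (min (r / 8) r1) (c / (2 * M)) ≤ c / (2 * M) := min_le_right _ _
      have h2 : 0 < min (min (r / 8) r1) (c / (2 * M)) := by (clear * - hr hr1 hTs; positivity)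
      calc M * (min (min (r / 8) r1) (c / (2 * M)) / 2) ≤ M * (c / (2 * M)) := by
            refine mul_le_mul_of_nonneg_left ?_ hMpos.le
            linarith only [h1, h2]
        _ = c / 2 := by field_simp
  have h1 : ∀ᶠ j in (𝒰 : Filter ι), ‖fderiv ℂ (f j) x - fderiv ℂ g x‖ < c / 2 := by
    have h2 := tendsto_fderiv 𝒰 hU hf hg hfg hx (u := fun _ => x) tendsto_const_nhds
    have h3 := Metric.tendsto_nhds.1 h2 (c / 2) (half_pos hcpos)
    filter_upwards [h3] with j hj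
    rwa [dist_eq_norm] at hj
  have h2 : ∀ᶠ j in (𝒰 : Filter ι), ApproximatesLinearOn (f j) (T : E →L[ℂ] E) (ball x ε) 
      (⟨c, hcpos.le⟩ : NNReal) := by
    filter_upwards [h1, hC] with j hj hj2
    have hderiv : ∀ y ∈ ball x ε, HasFDerivWithinAt (f j) (fderiv ℂ (f j) y) (ball x ε) y := by
      intro y hy
      have hy2 : y ∈ ball x r := ball_subset_ball (by linarith only [hε, hε1]) hy
      exact (hj2.1.differentiableAt (isOpen_ball.mem_nhds hy2)).hasFDerivAt.hasFDerivWithinAt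
    have hbound : ∀ y ∈ ball x ε, ‖fderiv ℂ (f j) y - fderiv ℂ g x‖ ≤ c := by
      intro y hy
      have h3 := fderiv_lip hr (abs_nonneg C) hj2.1 (fun y hy => (hj2.2 y hy).trans (le_abs_self C)) 
        (y := y) (ball_subset_ball hε1.le hy)
      have h4 : 32 * |C| / r ^ 2 * dist y x ≤ M * ε := by
        have h5 : dist y x ≤ ε := (mem_ball.1 hy).le
        have h6 : 32 * |C| / r ^ 2 ≤ M := by rw [hM]; linarith only
        exact mul_le_mul h6 h5 dist_nonneg hMpos.le
      calc ‖fderiv ℂ (f j) y - fderiv ℂ g x‖ 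
          = ‖(fderiv ℂ (f j) y - fderiv ℂ (f j) x) + (fderiv ℂ (f j) x - fderiv ℂ g x)‖ := by
            congr 1; abel
        _ ≤ _ := norm_add_le _ _
        _ ≤ c := by linarith only [h4, h3, hj, hε3]
    intro y hy z hz
    have h5 := (convex_ball x ε).norm_image_sub_le_of_norm_hasFDerivWithin_le' hderiv hbound hz hy
    rw [hTc]
    exact h5
  have h3 : ∀ᶠ j in (𝒰 : Filter ι), dist (f j x) (g x) < c * ε / 4 := by
    have h4 : Tendsto (fun j => f j x) 𝒰 (𝓝 (g x)) := by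
      rw [Metric.tendstoLocallyUniformlyOn_iff] at hfg
      rw [Metric.tendsto_nhds]
      intro δ hδ
      obtain ⟨t, ht, ht2⟩ := hfg δ hδ x hx
      filter_upwards [ht2] with j hj
      rw [dist_comm]
      exact hj x (mem_of_mem_nhdsWithin hx ht)
    exact Metric.tendsto_nhds.1 h4 _ (by (clear * - hTs hε; positivity))
  refine ⟨c * ε / 4, by (clear * - hTs hε; positivity), ?_⟩
  filter_upwards [h2, h3] with j hj hj3
  have h4 := hj.surjOn_closedBall_of_nonlinearRightInverse 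
    (T.toNonlinearRightInverse) (ε := ε / 2) (b := x) (half_pos hε).le 
    (closedBall_subset_ball (by linarith only [hε]))
  have h5 : ((((T.toNonlinearRightInverse).nnnorm : ℝ)⁻¹ - ((⟨c, hcpos.le⟩ : NNReal) : ℝ)) * (ε / 2)) 
      = c * ε / 2 := by
    have h6 : ((T.toNonlinearRightInverse).nnnorm : ℝ) = ‖(T.symm : E →L[ℂ] E)‖ := rfl
    rw [h6]
    have h7 : ‖(T.symm : E →L[ℂ] E)‖⁻¹ = 2 * c := by rw [hc]; ring
    rw [h7]
    simp only [NNReal.coe_mk]
    ring
  intro y hy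
  have h6 : y ∈ closedBall (f j x) ((((T.toNonlinearRightInverse).nnnorm : ℝ)⁻¹ - 
      ((⟨c, hcpos.le⟩ : NNReal) : ℝ)) * (ε / 2)) := by
    rw [h5, mem_closedBall]
    rw [mem_ball] at hy
    have := dist_triangle y (g x) (f j x)
    rw [dist_comm (g x)] at this
    linarith only [hj3, hy, this]
  obtain ⟨z, hz, hzy⟩ := h4 h6
  refine ⟨z, hr1U ?_, hzy⟩
  rw [mem_closedBall] at hz
  rw [mem_ball]
  linarith only [hε, hε2, hz]

/-- The general scaling theorem: `U` is biholomorphic to a connected component of the kernel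
of the rescaled domains. -/
theorem scaling_general {U K : Set E} (hU : IsOpen U)
    (hUc : IsPreconnected U) (hb : Bornology.IsBounded U)
    (hK : IsCompact K) (hKU : K ⊆ U) (hco : CocompactAut U K) (𝒰 : Ultrafilter ι)
    {S : Set E} (hSo : IsOpen S) (hSc : IsPreconnected S) {s0 : E} (hs0 : s0 ∈ S)
    {V : ι → Set E} {Ψ : ι → E → E} {Θ : ι → E → E}
    (hΨ : ∀ᶠ j in (𝒰 : Filter ι), IsBiholo U (V j) (Ψ j) (Θ j))
    (hV : ∀ s ∈ S, ∃ r > 0, ∀ᶠ j in (𝒰 : Filter ι), ball s r ⊆ V j)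
    (hmax : ∀ s ∈ closure S, (∃ r > 0, ∀ᶠ j in (𝒰 : Filter ι), ball s r ⊆ V j) → s ∈ S)
    (hbdd : ∀ g g' : ι → E → E, ∀ k : ι → E, (∀ᶠ j in (𝒰 : Filter ι),
      IsBiholo U U (g j) (g' j) ∧ k j ∈ K ∧ Ψ j (g j (k j)) = s0) →
      LocBdd (𝒰 : Filter ι) (fun j => Ψ j ∘ g j) U) :
    Biholomorphic U S := by
  have hps : ProperSpace E := FiniteDimensional.proper ℂ E
  -- choose the automorphisms
  have h1 : ∀ j, ∃ g g' : E → E, Θ j s0 ∈ U → IsBiholo U U g g' ∧ g' (Θ j s0) ∈ K := by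
    intro j
    by_cases h : Θ j s0 ∈ U
    · obtain ⟨g, g', h1, h2⟩ := hco _ h
      exact ⟨g, g', fun _ => ⟨h1, h2⟩⟩
    · exact ⟨id, id, fun h' => absurd h' h⟩
  choose g g' hg using h1
  set k : ι → E := fun j => g' j (Θ j s0) with hk
  obtain ⟨r0, hr0, hr0V⟩ := hV s0 hs0
  have hgood : ∀ᶠ j in (𝒰 : Filter ι), IsBiholo U (V j) (Ψ j) (Θ j) ∧
      IsBiholo U U (g j) (g' j) ∧ k j ∈ K ∧ Ψ j (g j (k j)) = s0 := by
    filter_upwards [hΨ, hr0V] with j h1 h2
    have h3 : s0 ∈ V j := h2 (mem_ball_self hr0)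
    have h4 : Θ j s0 ∈ U := h1.mapsTo_inv h3
    obtain ⟨h5, h6⟩ := hg j h4
    refine ⟨h1, h5, h6, ?_⟩
    simp only [hk]
    rw [h5.right_inv _ h4, h1.right_inv _ h3]
  have hLB := hbdd g g' k (hgood.mono fun j hj => hj.2)
  obtain ⟨f, hfd, hfu, hfc⟩ := montel_full 𝒰 hU hLB
  -- the limit of `k`
  obtain ⟨k0, hk0K, hk0⟩ := hK.ultrafilter_le_nhds (𝒰.map k) (by
    rw [le_principal_iff]
    exact hgood.mono fun j hj => hj.2.2.1)
  have hk0' : Tendsto k 𝒰 (𝓝 k0) := hk0
  have hk0U := hKU hk0K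
  have hfk : f k0 = s0 := by
    have h2 := hfc k0 hk0U k hk0'
    have h3 : Tendsto (fun j => (Ψ j ∘ g j) (k j)) 𝒰 (𝓝 s0) :=
      tendsto_const_nhds.congr' (hgood.mono fun j hj => hj.2.2.2.symm)
    exact tendsto_nhds_unique h2 h3
  -- the inverse maps
  set G : ι → E → E := fun j => g' j ∘ Θ j with hG
  have hG1 : ∀ s ∈ S, ∃ r > 0, ∀ᶠ j in (𝒰 : Filter ι),
      DifferentiableOn ℂ (G j) (ball s r) ∧ MapsTo (G j) (ball s r) U := by
    intro s hs
    obtain ⟨r, hr, hrV⟩ := hV s hs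
    refine ⟨r, hr, ?_⟩
    filter_upwards [hgood, hrV] with j h1 h2
    exact ⟨(h1.2.1.diffOn_inv.comp (h1.1.diffOn_inv.mono h2) fun x hx => h1.1.mapsTo_inv (h2 hx)),
      fun x hx => h1.2.1.mapsTo_inv (h1.1.mapsTo_inv (h2 hx))⟩
  obtain ⟨R, hR⟩ := hb.subset_closedBall (0 : E)
  have hGLB : LocBdd (𝒰 : Filter ι) G S := by
    intro s hs
    obtain ⟨r, hr, h⟩ := hG1 s hs
    refine ⟨r, hr, R, h.mono fun j hj => ⟨hj.1, fun y hy => ?_⟩⟩
    simpa using hR (hj.2 hy)
  obtain ⟨h, hhd, hhc⟩ := montel 𝒰 hSo hGLB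
  have hhs0 : h s0 = k0 :=
    tendsto_nhds_unique (hhc s0 hs0 (fun _ => s0) tendsto_const_nhds) hk0'
  have hhU : ∀ s ∈ S, h s ∈ U :=
    taut hU hb hK hKU hco 𝒰 hSo hSc hG1
      (fun s hs => hhc s hs (fun _ => s) tendsto_const_nhds) hs0 (hhs0 ▸ hk0U)
  have hfh : ∀ s ∈ S, f (h s) = s := by
    intro s hs
    have h2 := hfc _ (hhU s hs) _ (hhc s hs (fun _ => s) tendsto_const_nhds)
    obtain ⟨r, hr, hrV⟩ := hV s hs
    have h3 : Tendsto (fun j => (Ψ j ∘ g j) (G j s)) 𝒰 (𝓝 s) := by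
      refine tendsto_const_nhds.congr' ?_
      filter_upwards [hgood, hrV] with j hj hj2
      have h4 := hj2 (mem_ball_self hr)
      simp only [hG, Function.comp_apply]
      rw [hj.2.1.right_inv _ (hj.1.mapsTo_inv h4), hj.1.right_inv _ h4]
    exact tendsto_nhds_unique h2 h3
  -- the Jacobian of `f` does not vanish
  have hdet0 : (fderiv ℂ f k0).det ≠ 0 := by
    have hh : HasFDerivAt h (fderiv ℂ h s0) s0 := 
      (hhd.differentiableAt (hSo.mem_nhds hs0)).hasFDerivAt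
    have hff : HasFDerivAt f (fderiv ℂ f k0) (h s0) := by
      rw [hhs0]
      exact (hfd.differentiableAt (hU.mem_nhds hk0U)).hasFDerivAt
    have hcomp := hff.comp s0 hh
    have hid : HasFDerivAt (f ∘ h) (ContinuousLinearMap.id ℂ E) s0 := by
      refine (hasFDerivAt_id s0).congr_of_eventuallyEq ?_
      filter_upwards [hSo.mem_nhds hs0] with s hs
      exact hfh s hs
    have heq := hcomp.unique hid
    intro hz
    have h5 : ((fderiv ℂ f k0).comp (fderiv ℂ h s0)).det = 1 := by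
      rw [heq]
      exact LinearMap.det_id
    have h6 : ((fderiv ℂ f k0).comp (fderiv ℂ h s0)).det = 
        (fderiv ℂ f k0).det * (fderiv ℂ h s0).det := LinearMap.det_comp _ _
    rw [h6, hz, zero_mul] at h5
    exact zero_ne_one h5
  have hfdet : ∀ᶠ j in (𝒰 : Filter ι), DifferentiableOn ℂ (Ψ j ∘ g j) U ∧ 
      ∀ x ∈ U, (fderiv ℂ (Ψ j ∘ g j) x).det ≠ 0 := by
    filter_upwards [hgood] with j hj
    have hbi := hj.2.1.trans hj.1
    refine ⟨hbi.diffOn, fun x hx => ?_⟩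
    have h2 : HasFDerivWithinAt (Ψ j ∘ g j) (fderiv ℂ (Ψ j ∘ g j) x) U x := 
      (hbi.diffOn.differentiableAt (hU.mem_nhds hx)).hasFDerivAt.hasFDerivWithinAt
    have h3 : HasFDerivWithinAt (g' j ∘ Θ j) 
        (fderivWithin ℂ (g' j ∘ Θ j) (V j) ((Ψ j ∘ g j) x)) (V j) ((Ψ j ∘ g j) x) :=
      (hbi.diffOn_inv _ (hbi.mapsTo hx)).hasFDerivWithinAt
    have h4 := h3.comp x h2 hbi.mapsTo
    have h5 : HasFDerivWithinAt ((g' j ∘ Θ j) ∘ (Ψ j ∘ g j)) (ContinuousLinearMap.id ℂ E) U x := by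
      refine (hasFDerivWithinAt_id x U).congr ?_ ?_
      · intro y hy
        exact hbi.left_inv y hy
      · exact hbi.left_inv x hx
    have h6 := (hU.uniqueDiffWithinAt hx).eq h4 h5
    intro hz
    have h7 : ((fderivWithin ℂ (g' j ∘ Θ j) (V j) ((Ψ j ∘ g j) x)).comp 
        (fderiv ℂ (Ψ j ∘ g j) x)).det = 1 := by
      rw [h6]
      exact LinearMap.det_id
    have h8 : ((fderivWithin ℂ (g' j ∘ Θ j) (V j) ((Ψ j ∘ g j) x)).comp 
        (fderiv ℂ (Ψ j ∘ g j) x)).det = (fderivWithin ℂ (g' j ∘ Θ j) (V j) ((Ψ j ∘ g j) x)).det * 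
        (fderiv ℂ (Ψ j ∘ g j) x).det := LinearMap.det_comp _ _
    rw [h8, hz, mul_zero] at h7
    exact zero_ne_one h7
  have hdet : ∀ x ∈ U, (fderiv ℂ f x).det ≠ 0 := hurwitz_det 𝒰 hU hUc hLB hfd hfu hfdet hk0U hdet0
  have hball : ∀ x ∈ U, ∃ r > 0, ∀ᶠ j in (𝒰 : Filter ι), ball (f x) r ⊆ V j := by
    intro x hx
    obtain ⟨r, hr, h2⟩ := eventually_ball_subset_image 𝒰 hU hLB hfd hfu hx (hdet x hx)
    refine ⟨r, hr, ?_⟩
    filter_upwards [h2, hgood] with j hj hj2
    refine hj.trans ?_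
    rintro _ ⟨y, hy, rfl⟩
    exact hj2.1.mapsTo (hj2.2.1.mapsTo hy)
  have hfS : ∀ x ∈ U, f x ∈ S := by
    set N : Set E := {x | x ∈ U ∧ f x ∈ S} with hN
    have hNo : IsOpen N := hfd.continuousOn.isOpen_inter_preimage hU hSo
    have hsub : U ⊆ N := by
      refine hUc.subset_of_closure_inter_subset hNo ⟨k0, hk0U, hk0U, hfk ▸ hs0⟩ ?_
      rintro x ⟨hxc, hx⟩
      refine ⟨hx, hmax _ ?_ (hball x hx)⟩
      have hcx : ContinuousAt f x := (hfd.differentiableAt (hU.mem_nhds hx)).continuousAt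
      rw [mem_closure_iff_nhds]
      intro t ht
      obtain ⟨y, hy1, hy2⟩ := mem_closure_iff_nhds.1 hxc _ (hcx ht)
      exact ⟨f y, hy1, hy2.2⟩
    exact fun x hx => (hsub hx).2
  refine ⟨f, h, hfd, hhd, hfS, hhU, ?_, hfh⟩
  intro x hx
  have h2 := hhc _ (hfS x hx) _ (hfc x hx (fun _ => x) tendsto_const_nhds)
  have h3 : Tendsto (fun j => G j ((Ψ j ∘ g j) x)) 𝒰 (𝓝 x) := by
    refine tendsto_const_nhds.congr' (hgood.mono fun j hj => ?_)
    simp only [hG, Function.comp_apply]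
    rw [hj.1.left_inv _ (hj.2.1.mapsTo hx), hj.2.1.left_inv _ hx]
  exact tendsto_nhds_unique h2 h3

end Vale.Agent.P274
end

section

open Set Filter Metric Topology

namespace Vale.Agent.P274.HolOs

variable {E F : Type*} [NormedAddCommGroup E] [NormedSpace ℂ E]
  [NormedAddCommGroup F] [NormedSpace ℂ F]

/-- Cauchy estimate for the Frechet derivative. -/
theorem norm_fderiv_le_of_ball {f : E → F} {x : E} {r C : ℝ} (hr : 0 < r)
    (hf : DifferentiableOn ℂ f (ball x r)) (hC : ∀ y ∈ ball x r, ‖f y‖ ≤ C) :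
    ‖fderiv ℂ f x‖ ≤ C / r := by
  have hC0 : 0 ≤ C := (norm_nonneg _).trans (hC x (mem_ball_self hr))
  have hfx : DifferentiableAt ℂ f x := hf.differentiableAt (ball_mem_nhds x hr)
  refine ContinuousLinearMap.opNorm_le_bound _ (by positivity) fun v => ?_
  rcases eq_or_ne v 0 with rfl | hv
  · simp
  have hv' : 0 < ‖v‖ := norm_pos_iff.2 hv
  have hder : deriv (fun t : ℂ => f (x + t • v)) 0 = fderiv ℂ f x v := by
    have h1 : HasDerivAt (fun t : ℂ => x + t • v) v 0 := by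
      simpa using ((hasDerivAt_id (0 : ℂ)).smul_const v).const_add x
    have h2 : HasFDerivAt f (fderiv ℂ f x) (x + (0 : ℂ) • v) := by simpa using hfx.hasFDerivAt
    exact (h2.comp_hasDerivAt (0 : ℂ) h1).deriv
  have hmem : ∀ t ∈ ball (0 : ℂ) (r / ‖v‖), x + t • v ∈ ball x r := by
    intro t ht
    rw [mem_ball_zero_iff] at ht
    rw [mem_ball, dist_eq_norm, add_sub_cancel_left, norm_smul]
    exact (lt_div_iff₀ hv').1 ht
  have hd : DifferentiableOn ℂ (fun t : ℂ => f (x + t • v)) (ball 0 (r / ‖v‖)) := by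
    refine hf.comp ?_ hmem
    fun_prop
  rw [← hder]
  have key : ∀ s : ℝ, 0 < s → s < r / ‖v‖ → ‖deriv (fun t : ℂ => f (x + t • v)) 0‖ ≤ C / s := by
    intro s hs hs'
    apply Complex.norm_deriv_le_of_forall_mem_sphere_norm_le hs
    · exact (hd.mono (closedBall_subset_ball hs')).diffContOnCl_ball (le_refl _) |>.mono (le_refl _)
    · intro z hz
      exact hC _ (hmem z (by
        rw [mem_sphere_zero_iff_norm] at hz
        rw [mem_ball_zero_iff, hz]; exact hs'))
  have hlim : Tendsto (fun s : ℝ => C / s) (𝓝[<] (r / ‖v‖)) (𝓝 (C / (r / ‖v‖))) := by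
    apply tendsto_nhdsWithin_of_tendsto_nhds
    exact tendsto_const_nhds.div tendsto_id (by positivity)
  have hev : ∀ᶠ s : ℝ in 𝓝[<] (r / ‖v‖), ‖deriv (fun t : ℂ => f (x + t • v)) 0‖ ≤ C / s := by
    have : Ioo 0 (r / ‖v‖) ∈ 𝓝[<] (r / ‖v‖) := Ioo_mem_nhdsLT (by positivity)
    filter_upwards [this] with s hs using key s hs.1 hs.2
  have := ge_of_tendsto hlim hev
  calc _ ≤ C / (r / ‖v‖) := this
    _ = C / r * ‖v‖ := by field_simp

/-- The Frechet derivative of a holomorphic function is continuous. -/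
theorem continuousOn_fderiv_of_differentiableOn [FiniteDimensional ℂ E] {f : E → F} {U : Set E}
    (hU : IsOpen U) (hf : DifferentiableOn ℂ f U) : ContinuousOn (fderiv ℂ f) U := by
  have : ProperSpace E := FiniteDimensional.proper ℂ E
  intro x hx
  apply ContinuousAt.continuousWithinAt
  obtain ⟨r, hr, hrU⟩ : ∃ r > 0, closedBall x (2 * r) ⊆ U := by
    obtain ⟨r, hr, h⟩ := Metric.isOpen_iff.1 hU x hx
    exact ⟨r / 4, by positivity, (closedBall_subset_ball (by linarith)).trans h⟩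
  have hunif : UniformContinuousOn f (closedBall x (2 * r)) :=
    (isCompact_closedBall x (2 * r)).uniformContinuousOn_of_continuous (hf.continuousOn.mono hrU)
  rw [Metric.continuousAt_iff]
  intro ε hε
  obtain ⟨δ, hδ, hδf⟩ := Metric.uniformContinuousOn_iff.1 hunif (ε * r / 2) (by positivity)
  refine ⟨min δ r, by positivity, fun {y} hy => ?_⟩
  have hyδ : dist y x < δ := hy.trans_le (min_le_left _ _)
  have hyr : dist y x < r := hy.trans_le (min_le_right _ _)
  have hxm : ∀ h ∈ ball (0 : E) r, x + h ∈ closedBall x (2 * r) := by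
    intro h hh
    rw [mem_ball_zero_iff] at hh
    rw [mem_closedBall, dist_eq_norm, add_sub_cancel_left]; linarith
  have hym : ∀ h ∈ ball (0 : E) r, y + h ∈ closedBall x (2 * r) := by
    intro h hh
    rw [mem_ball_zero_iff] at hh
    rw [mem_closedBall, dist_eq_norm]
    calc ‖y + h - x‖ = ‖(y - x) + h‖ := by congr 1; abel
      _ ≤ ‖y - x‖ + ‖h‖ := norm_add_le _ _
      _ ≤ 2 * r := by rw [← dist_eq_norm]; linarith
  have hdx : DifferentiableAt ℂ f x := hf.differentiableAt (hU.mem_nhds hx)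
  have hyU : y ∈ U := hrU (by simpa using hym 0 (mem_ball_self hr))
  have hdy : DifferentiableAt ℂ f y := hf.differentiableAt (hU.mem_nhds hyU)
  have h1 : HasFDerivAt (fun h : E => f (y + h) - f (x + h)) (fderiv ℂ f y - fderiv ℂ f x) 0 := by
    have hy1 : HasFDerivAt (fun h : E => f (y + h)) (fderiv ℂ f y) 0 := by
      have := (show HasFDerivAt f (fderiv ℂ f y) (y + 0) by simpa using hdy.hasFDerivAt)
      have h3 := this.comp (0 : E) ((hasFDerivAt_id (0 : E)).const_add y)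
      rw [ContinuousLinearMap.comp_id] at h3
      exact h3
    have hx1 : HasFDerivAt (fun h : E => f (x + h)) (fderiv ℂ f x) 0 := by
      have := (show HasFDerivAt f (fderiv ℂ f x) (x + 0) by simpa using hdx.hasFDerivAt)
      have h3 := this.comp (0 : E) ((hasFDerivAt_id (0 : E)).const_add x)
      rw [ContinuousLinearMap.comp_id] at h3
      exact h3
    exact hy1.sub hx1
  have h2 : ‖fderiv ℂ (fun h : E => f (y + h) - f (x + h)) 0‖ ≤ (ε * r / 2) / r := by
    apply norm_fderiv_le_of_ball hr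
    · apply DifferentiableOn.sub
      · exact hf.comp (by fun_prop) fun h hh => hrU (hym h hh)
      · exact hf.comp (by fun_prop) fun h hh => hrU (hxm h hh)
    · intro h hh
      have := hδf (y + h) (hym h hh) (x + h) (hxm h hh) (by simpa using hyδ)
      rw [dist_eq_norm] at this
      exact this.le
  rw [h1.fderiv] at h2
  rw [dist_eq_norm]
  calc _ ≤ (ε * r / 2) / r := h2
    _ = ε / 2 := by field_simp
    _ < ε := by linarith

/-- Holomorphic dependence of circle integrals on parameters. -/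
theorem differentiableOn_circleIntegral [FiniteDimensional ℂ E] [CompleteSpace F]
    {G : E × ℂ → F} {U : Set E} {W : Set ℂ} {c : ℂ} {R : ℝ} (hR : 0 ≤ R)
    (hU : IsOpen U) (hW : IsOpen W) (hsW : sphere c R ⊆ W)
    (hG : DifferentiableOn ℂ G (U ×ˢ W)) :
    DifferentiableOn ℂ (fun x => ∮ t in C(c, R), G (x, t)) U := by
  have : ProperSpace E := FiniteDimensional.proper ℂ E
  intro x₀ hx₀
  apply DifferentiableAt.differentiableWithinAt
  have hUW : IsOpen (U ×ˢ W) := hU.prod hW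
  -- bound near `x₀`
  obtain ⟨r, hr, hrU⟩ : ∃ r > 0, closedBall x₀ (2 * r) ⊆ U := by
    obtain ⟨r, hr, h⟩ := Metric.isOpen_iff.1 hU x₀ hx₀
    exact ⟨r / 4, by positivity, (closedBall_subset_ball (by linarith)).trans h⟩
  have hcomp : IsCompact (closedBall x₀ (2 * r) ×ˢ sphere c R) :=
    (isCompact_closedBall _ _).prod (isCompact_sphere _ _)
  have hsub : closedBall x₀ (2 * r) ×ˢ sphere c R ⊆ U ×ˢ W := prod_mono hrU hsW
  obtain ⟨C, hC⟩ := hcomp.exists_bound_of_continuousOn (hG.continuousOn.mono hsub)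
  have hcirc : ∀ θ : ℝ, circleMap c R θ ∈ sphere c R := fun θ => circleMap_mem_sphere c hR θ
  have hdG : ∀ x ∈ ball x₀ (2 * r), ∀ t ∈ sphere c R,
      HasFDerivAt (fun x => G (x, t))
        ((fderiv ℂ G (x, t)).comp (ContinuousLinearMap.inl ℂ E ℂ)) x := by
    intro x hx t ht
    have h1 : DifferentiableAt ℂ G (x, t) :=
      hG.differentiableAt (hUW.mem_nhds ⟨hrU (ball_subset_closedBall hx), hsW ht⟩)
    have h2 : HasFDerivAt (fun x : E => (x, t)) (ContinuousLinearMap.inl ℂ E ℂ) x :=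
      hasFDerivAt_prodMk_left x t
    exact h1.hasFDerivAt.comp x h2
  have hbound : ∀ x ∈ ball x₀ r, ∀ t ∈ sphere c R,
      ‖(fderiv ℂ G (x, t)).comp (ContinuousLinearMap.inl ℂ E ℂ)‖ ≤ C / r := by
    intro x hx t ht
    have hxb : ball x r ⊆ ball x₀ (2 * r) := by
      intro y hy
      rw [mem_ball] at hx hy ⊢
      calc dist y x₀ ≤ dist y x + dist x x₀ := dist_triangle _ _ _
        _ < 2 * r := by linarith
    have hx2 : x ∈ ball x₀ (2 * r) := hxb (mem_ball_self hr)
    rw [← (hdG x hx2 t ht).fderiv]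
    apply norm_fderiv_le_of_ball hr
    · intro y hy
      exact (hdG y (hxb hy) t ht).differentiableAt.differentiableWithinAt
    · intro y hy
      exact hC (y, t) ⟨ball_subset_closedBall (hxb hy), ht⟩
  have hcontD : ContinuousOn (fderiv ℂ G) (U ×ˢ W) := continuousOn_fderiv_of_differentiableOn hUW hG
  have hcd : Continuous (deriv (circleMap c R)) := by
    have : deriv (circleMap c R) = fun θ => circleMap 0 R θ * Complex.I := by
      ext θ; exact deriv_circleMap c R θ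
    rw [this]
    exact (continuous_circleMap 0 R).mul continuous_const
  simp only [circleIntegral]
  have key := hasFDerivAt_integral_of_dominated_of_fderiv_le
    (μ := MeasureTheory.volume.restrict (Set.uIoc 0 (2 * Real.pi)))
    (F := fun (x : E) (θ : ℝ) => deriv (circleMap c R) θ • G (x, circleMap c R θ))
    (F' := fun (x : E) (θ : ℝ) => deriv (circleMap c R) θ •
      ((fderiv ℂ G (x, circleMap c R θ)).comp (ContinuousLinearMap.inl ℂ E ℂ)))
    (x₀ := x₀) (s := ball x₀ r) (bound := fun _ => |R| * (C / r)) (𝕜 := ℂ)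
    (ball_mem_nhds x₀ hr) ?_ ?_ ?_ ?_ ?_ ?_
  · have h0 : (0 : ℝ) ≤ 2 * Real.pi := by positivity
    simp only [intervalIntegral.integral_of_le h0, Set.uIoc_of_le h0] at key ⊢
    exact key.differentiableAt
  · filter_upwards [ball_mem_nhds x₀ hr] with x hx
    apply ContinuousOn.aestronglyMeasurable _ measurableSet_uIoc
    refine hcd.continuousOn.smul ?_
    · refine hG.continuousOn.comp (by fun_prop) fun θ _ => ?_
      exact ⟨hrU (ball_subset_closedBall (ball_subset_ball (by linarith) hx)), hsW (hcirc θ)⟩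
  · have hci : CircleIntegrable (fun t => G (x₀, t)) c R := by
      apply ContinuousOn.circleIntegrable hR
      refine hG.continuousOn.comp (by fun_prop) fun t ht => ?_
      exact ⟨hx₀, hsW ht⟩
    have := hci.out
    rw [intervalIntegrable_iff] at this
    exact this
  · apply ContinuousOn.aestronglyMeasurable _ measurableSet_uIoc
    refine hcd.continuousOn.smul ?_
    · have h1 : ContinuousOn (fun θ : ℝ => fderiv ℂ G (x₀, circleMap c R θ))
          (Set.uIoc 0 (2 * Real.pi)) := by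
        refine hcontD.comp (by fun_prop) fun θ _ => ?_
        exact ⟨hx₀, hsW (hcirc θ)⟩
      exact h1.clm_comp continuousOn_const
  · refine Eventually.of_forall fun θ x hx => ?_
    rw [norm_smul]
    have : ‖deriv (circleMap c R) θ‖ = |R| := by simp [deriv_circleMap]
    rw [this]
    exact mul_le_mul_of_nonneg_left (hbound x hx _ (hcirc θ)) (abs_nonneg R)
  · rw [Set.uIoc_of_le (by positivity)]
    exact MeasureTheory.integrable_const _
  · refine Eventually.of_forall fun θ x hx => ?_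
    exact (hdG x (ball_subset_ball (by linarith) hx) _ (hcirc θ)).const_smul _

/-- Directional derivatives of holomorphic functions are holomorphic. -/
theorem differentiableOn_fderiv_apply [FiniteDimensional ℂ E] [CompleteSpace F] {f : E → F}
    {U : Set E} (hU : IsOpen U) (hf : DifferentiableOn ℂ f U) (v : E) :
    DifferentiableOn ℂ (fun x => fderiv ℂ f x v) U := by
  have : ProperSpace E := FiniteDimensional.proper ℂ E
  intro x₀ hx₀
  apply DifferentiableAt.differentiableWithinAt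
  obtain ⟨r, hr, hrU⟩ : ∃ r > 0, ball x₀ (2 * r) ⊆ U := by
    obtain ⟨r, hr, h⟩ := Metric.isOpen_iff.1 hU x₀ hx₀
    exact ⟨r / 4, by positivity, (ball_subset_ball (by linarith)).trans h⟩
  -- radius for the scalar variable
  set s : ℝ := r / (‖v‖ + 1) / 2 with hs_def
  have hv1 : 0 < ‖v‖ + 1 := by positivity
  have hs : 0 < s := by positivity
  have hmem : ∀ x ∈ ball x₀ r, ∀ t ∈ ball (0 : ℂ) (2 * s), x + t • v ∈ ball x₀ (2 * r) := by
    intro x hx t ht
    rw [mem_ball_zero_iff] at ht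
    rw [mem_ball, dist_eq_norm] at hx ⊢
    have h1 : ‖t • v‖ ≤ r := by
      rw [norm_smul]
      calc ‖t‖ * ‖v‖ ≤ (2 * s) * (‖v‖ + 1) := by gcongr; linarith
        _ = r := by rw [hs_def]; field_simp
    calc ‖x + t • v - x₀‖ = ‖(x - x₀) + t • v‖ := by congr 1; abel
      _ ≤ ‖x - x₀‖ + ‖t • v‖ := norm_add_le _ _
      _ < 2 * r := by linarith
  have hG : DifferentiableOn ℂ (fun p : E × ℂ => (p.2 ^ 2)⁻¹ • f (p.1 + p.2 • v))
      (ball x₀ r ×ˢ (ball (0 : ℂ) (2 * s) \ {0})) := by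
    apply DifferentiableOn.smul
    · apply DifferentiableOn.inv
      · fun_prop
      · intro p hp
        exact pow_ne_zero 2 hp.2.2
    · refine hf.comp (by fun_prop) fun p hp => hrU (hmem p.1 hp.1 p.2 hp.2.1)
  have hsW : sphere (0 : ℂ) s ⊆ ball (0 : ℂ) (2 * s) \ {0} := by
    intro t ht
    rw [mem_sphere_zero_iff_norm] at ht
    refine ⟨by rw [mem_ball_zero_iff, ht]; linarith, fun h => ?_⟩
    rw [mem_singleton_iff] at h
    rw [h, norm_zero] at ht
    exact hs.ne ht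
  have key := differentiableOn_circleIntegral (c := 0) (R := s) hs.le isOpen_ball
    (isOpen_ball.sdiff isClosed_singleton) hsW hG
  have hEq : ∀ x ∈ ball x₀ r, fderiv ℂ f x v =
      (2 * Real.pi * Complex.I : ℂ)⁻¹ • ∮ t in C(0, s), (t ^ 2)⁻¹ • f (x + t • v) := by
    intro x hx
    have hfx : DifferentiableAt ℂ f x :=
      hf.differentiableAt (hU.mem_nhds (hrU (ball_subset_ball (by linarith) hx)))
    have hder : deriv (fun t : ℂ => f (x + t • v)) 0 = fderiv ℂ f x v := by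
      have h1 : HasDerivAt (fun t : ℂ => x + t • v) v 0 := by
        simpa using ((hasDerivAt_id (0 : ℂ)).smul_const v).const_add x
      have h2 : HasFDerivAt f (fderiv ℂ f x) (x + (0 : ℂ) • v) := by simpa using hfx.hasFDerivAt
      exact (h2.comp_hasDerivAt (0 : ℂ) h1).deriv
    rw [← hder]
    have hd : DiffContOnCl ℂ (fun t : ℂ => f (x + t • v)) (ball 0 s) := by
      have : DifferentiableOn ℂ (fun t : ℂ => f (x + t • v)) (ball 0 (2 * s)) :=
        hf.comp (by fun_prop) fun t ht => hrU (hmem x hx t ht)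
      exact (this.mono (closedBall_subset_ball (by linarith))).diffContOnCl_ball (le_refl _)
    have h3 := hd.deriv_eq_smul_circleIntegral hs
    simp only [sub_zero, one_div] at h3
    rw [h3, inv_smul_smul₀ Complex.two_pi_I_ne_zero]
  have h2 : DifferentiableAt ℂ (fun x => (2 * Real.pi * Complex.I : ℂ)⁻¹ •
      ∮ t in C(0, s), (t ^ 2)⁻¹ • f (x + t • v)) x₀ :=
    (key.differentiableAt (ball_mem_nhds x₀ hr)).const_smul _
  refine h2.congr_of_eventuallyEq ?_
  filter_upwards [ball_mem_nhds x₀ hr] with x hx using hEq x hx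

theorem contDiffOn_of_differentiableOn [FiniteDimensional ℂ E] [CompleteSpace F] {f : E → F}
    {U : Set E} (hU : IsOpen U) (hf : DifferentiableOn ℂ f U) (n : ℕ) :
    ContDiffOn ℂ n f U := by
  induction n generalizing f with
  | zero => exact_mod_cast contDiffOn_zero.2 hf.continuousOn
  | succ n ih =>
    rw [Nat.cast_add, Nat.cast_one, contDiffOn_succ_iff_fderiv_of_isOpen hU]
    refine ⟨hf, by simp, ?_⟩
    rw [contDiffOn_clm_apply]
    exact fun v => ih (differentiableOn_fderiv_apply hU hf v)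

/-- Iterated derivatives along a line. -/
theorem iteratedDeriv_line {f : E → F} {U : Set E} (hU : IsOpen U) {n : ℕ}
    (hf : ContDiffOn ℂ n f U) {x y : E} {t : ℂ} (ht : x + t • y ∈ U) :
    iteratedDeriv n (fun s : ℂ => f (x + s • y)) t =
      iteratedFDeriv ℂ n f (x + t • y) (fun _ => y) := by
  induction n generalizing t with
  | zero => simp
  | succ n ih =>
    have hf' : ContDiffOn ℂ n f U := hf.of_le (by exact_mod_cast Nat.le_succ n)
    have hline : Continuous (fun s : ℂ => x + s • y) := by fun_prop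
    have hev : ∀ᶠ s in 𝓝 t, x + s • y ∈ U := hline.continuousAt.eventually (hU.mem_nhds ht)
    rw [iteratedDeriv_succ]
    have h1 : iteratedDeriv n (fun s : ℂ => f (x + s • y)) =ᶠ[𝓝 t]
        fun s => iteratedFDeriv ℂ n f (x + s • y) (fun _ => y) := by
      filter_upwards [hev] with s hs using ih hf' hs
    rw [h1.deriv_eq]
    have hcd : ContDiffAt ℂ (n + 1 : ℕ) f (x + t • y) := hf.contDiffAt (hU.mem_nhds ht)
    have h2 : DifferentiableAt ℂ (iteratedFDeriv ℂ n f) (x + t • y) :=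
      hcd.differentiableAt_iteratedFDeriv (by exact_mod_cast Nat.lt_succ_self n)
    have h3 : HasDerivAt (fun s : ℂ => x + s • y) y t := by
      simpa using ((hasDerivAt_id t).smul_const y).const_add x
    have h4 : HasDerivAt (fun s : ℂ => iteratedFDeriv ℂ n f (x + s • y))
        (fderiv ℂ (iteratedFDeriv ℂ n f) (x + t • y) y) t := h2.hasFDerivAt.comp_hasDerivAt t h3
    have h5 : HasDerivAt (fun s : ℂ => iteratedFDeriv ℂ n f (x + s • y) (fun _ => y))
        ((fderiv ℂ (iteratedFDeriv ℂ n f) (x + t • y) y) (fun _ => y)) t :=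
      (ContinuousMultilinearMap.apply ℂ (fun _ : Fin n => E) F (fun _ => y)).hasFDerivAt.comp_hasDerivAt
        t h4
    rw [h5.deriv, iteratedFDeriv_succ_apply_left]
    rfl

/-- Osgood lemma: holomorphic functions on open sets of finite-dimensional spaces are analytic. -/
theorem analyticAt_of_differentiableOn [FiniteDimensional ℂ E] [CompleteSpace F] {f : E → F}
    {U : Set E} (hU : IsOpen U) (hf : DifferentiableOn ℂ f U) {x : E} (hx : x ∈ U) :
    AnalyticAt ℂ f x := by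
  have : ProperSpace E := FiniteDimensional.proper ℂ E
  obtain ⟨r, hr, hrU⟩ : ∃ r > 0, closedBall x r ⊆ U := by
    obtain ⟨r, hr, h⟩ := Metric.isOpen_iff.1 hU x hx
    exact ⟨r / 2, by positivity, (closedBall_subset_ball (by linarith)).trans h⟩
  obtain ⟨C, hC⟩ := (isCompact_closedBall x r).exists_bound_of_continuousOn
    (hf.continuousOn.mono hrU)
  have hC0 : 0 ≤ C := (norm_nonneg _).trans (hC x (mem_closedBall_self hr.le))
  have hcd : ∀ n : ℕ, ContDiffOn ℂ n f U := contDiffOn_of_differentiableOn hU hf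
  -- bounds for the iterated derivatives
  have hbd : ∀ (δ : ℝ), 0 < δ → ∀ k : ℕ, ∀ y, dist y x + k * δ ≤ r →
      ‖iteratedFDeriv ℂ k f y‖ ≤ C / δ ^ k := by
    intro δ hδ k
    induction k with
    | zero =>
      intro y hy
      simp only [CharP.cast_eq_zero, zero_mul, add_zero] at hy
      simpa using hC y hy
    | succ k ih =>
      intro y hy
      push_cast at hy
      rw [← norm_fderiv_iteratedFDeriv]
      have hb : ball y δ ⊆ ball x r := by
        intro z hz
        rw [mem_ball] at hz ⊢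
        have : dist z x ≤ dist z y + dist y x := dist_triangle _ _ _
        linarith only [mul_nonneg (Nat.cast_nonneg k : (0 : ℝ) ≤ k) hδ.le, this, hz, hy]
      have hd : DifferentiableOn ℂ (iteratedFDeriv ℂ k f) (ball y δ) := by
        intro z hz
        have hzU : z ∈ U := hrU (ball_subset_closedBall (hb hz))
        exact (((hcd (k + 1)).contDiffAt (hU.mem_nhds hzU)).differentiableAt_iteratedFDeriv
          (by exact_mod_cast Nat.lt_succ_self k)).differentiableWithinAt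
      have := norm_fderiv_le_of_ball hδ hd (C := C / δ ^ k) (by
        intro z hz
        apply ih
        rw [mem_ball] at hz
        have : dist z x ≤ dist z y + dist y x := dist_triangle _ _ _
        linarith)
      calc _ ≤ C / δ ^ k / δ := this
        _ = C / δ ^ (k + 1) := by rw [pow_succ, div_div]
  -- the power series
  let p : FormalMultilinearSeries ℂ E F := fun n => ((n.factorial : ℂ)⁻¹) • iteratedFDeriv ℂ n f x
  have hp : ∀ n, ‖p n‖ ≤ C * Real.exp 1 * (Real.exp 1 / r) ^ n := by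
    intro n
    have h1 : ‖iteratedFDeriv ℂ n f x‖ ≤ C / (r / (n + 1)) ^ n := by
      apply hbd (r / (n + 1)) (by positivity) n x
      rw [dist_self, zero_add]
      rw [mul_div_assoc', div_le_iff₀ (by positivity)]
      linarith only [hr]
    have h2 : ((n : ℝ) + 1) ^ n / n.factorial ≤ Real.exp (n + 1) :=
      Real.pow_div_factorial_le_exp _ (by positivity) n
    calc ‖p n‖ = ((n.factorial : ℝ))⁻¹ * ‖iteratedFDeriv ℂ n f x‖ := by
          simp only [p, norm_smul, norm_inv, Complex.norm_natCast]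
      _ ≤ ((n.factorial : ℝ))⁻¹ * (C / (r / (n + 1)) ^ n) := by gcongr
      _ = C * (((n : ℝ) + 1) ^ n / n.factorial) / r ^ n := by
          rw [div_pow]; field_simp
      _ ≤ C * Real.exp (n + 1) / r ^ n := by gcongr
      _ = C * Real.exp 1 * (Real.exp 1 / r) ^ n := by
          rw [Real.exp_add, div_pow, ← Real.exp_nat_mul]; ring_nf
  have hρ : 0 < r / Real.exp 1 := by positivity
  set ρ : NNReal := ⟨r / Real.exp 1, hρ.le⟩ with hρdef
  have hrad : (ρ : ENNReal) ≤ p.radius := by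
    apply p.le_radius_of_bound (C * Real.exp 1)
    intro n
    have : ((ρ : NNReal) : ℝ) = r / Real.exp 1 := rfl
    rw [this]
    calc ‖p n‖ * (r / Real.exp 1) ^ n ≤ (C * Real.exp 1 * (Real.exp 1 / r) ^ n) * (r / Real.exp 1) ^ n := by
          gcongr; exact hp n
      _ = C * Real.exp 1 := by
          rw [mul_assoc, ← mul_pow]
          have : Real.exp 1 / r * (r / Real.exp 1) = 1 := by field_simp
          rw [this, one_pow, mul_one]
  refine ⟨p, ρ, hrad, by exact_mod_cast hρ, ?_⟩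
  intro y hy
  have hy' : ‖y‖ < r / Real.exp 1 := by
    rw [mem_eball, edist_zero_right] at hy
    exact_mod_cast (show (‖y‖₊ : ENNReal) < (ρ : ENNReal) from hy)
  have hyr : ‖y‖ < r := by
    refine hy'.trans_le ?_
    apply div_le_self hr.le
    have := Real.add_one_le_exp 1
    linarith
  have hd : DifferentiableOn ℂ (fun t : ℂ => f (x + t • y)) (ball 0 (r / (‖y‖ + (r - ‖y‖) / 2))) := by
    refine hf.comp (by fun_prop) fun t ht => hrU ?_
    rw [mem_ball_zero_iff] at ht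
    rw [mem_closedBall, dist_eq_norm, add_sub_cancel_left, norm_smul]
    have hpos : 0 < ‖y‖ + (r - ‖y‖) / 2 := by linarith [norm_nonneg y]
    rw [lt_div_iff₀ hpos] at ht
    have : ‖t‖ * ‖y‖ ≤ ‖t‖ * (‖y‖ + (r - ‖y‖) / 2) := by
      apply mul_le_mul_of_nonneg_left _ (norm_nonneg _)
      linarith
    linarith
  have h1 : (1 : ℂ) ∈ ball (0 : ℂ) (r / (‖y‖ + (r - ‖y‖) / 2)) := by
    rw [mem_ball_zero_iff, norm_one]
    have hpos : 0 < ‖y‖ + (r - ‖y‖) / 2 := by linarith [norm_nonneg y]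
    rw [lt_div_iff₀ hpos]
    linarith
  have := Complex.hasSum_taylorSeries_on_ball hd h1
  simp only [sub_zero, one_pow, one_smul] at this
  convert this using 2 with n
  rw [iteratedDeriv_line hU (hcd n) (by simpa using hx)]
  simp [p]

theorem analyticOnNhd_of_differentiableOn [FiniteDimensional ℂ E] [CompleteSpace F] {f : E → F}
    {U : Set E} (hU : IsOpen U) (hf : DifferentiableOn ℂ f U) : AnalyticOnNhd ℂ f U :=
  fun _ hx => analyticAt_of_differentiableOn hU hf hx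

end Vale.Agent.P274.HolOs
end

section

open Filter Metric Set Topology Asymptotics

namespace Vale.Agent.P274

section defs

variable {E : Type} [NormedAddCommGroup E] [NormedSpace ℝ E]

/-- All derivatives of `G` of order `< b` vanish at `x`. -/
def Zo : ℕ → ∀ (F : Type) [NormedAddCommGroup F] [NormedSpace ℝ F], (E → F) → E → Prop
  | 0, _, _, _, _, _ => True
  | (b + 1), F, _, _, G, x => G x = 0 ∧ Zo b (E →L[ℝ] F) (fderiv ℝ G) x

theorem Zo_succ {b : ℕ} (F : Type) [NormedAddCommGroup F] [NormedSpace ℝ F] (G : E → F) (x : E) :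
    Zo (b + 1) F G x ↔ G x = 0 ∧ Zo b (E →L[ℝ] F) (fderiv ℝ G) x := Iff.rfl

theorem Zo_congr {b : ℕ} : ∀ (F : Type) [NormedAddCommGroup F] [NormedSpace ℝ F] (G G' : E → F)
    (x : E), G =ᶠ[𝓝 x] G' → Zo b F G x → Zo b F G' x := by
  induction b with
  | zero => intro F _ _ G G' x _ _; trivial
  | succ b ih =>
    intro F _ _ G G' x h hG
    exact ⟨by rw [← h.self_of_nhds]; exact hG.1, ih _ _ _ x h.fderiv hG.2⟩

theorem Zo_mono {b : ℕ} : ∀ (F : Type) [NormedAddCommGroup F] [NormedSpace ℝ F] (G : E → F)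
    (x : E), Zo (b + 1) F G x → Zo b F G x := by
  induction b with
  | zero => intro F _ _ G x _; trivial
  | succ b ih =>
    intro F _ _ G x hG
    exact ⟨hG.1, ih _ _ x hG.2⟩

theorem Zo_add {b : ℕ} : ∀ (F : Type) [NormedAddCommGroup F] [NormedSpace ℝ F] [CompleteSpace F]
    (G G' : E → F) (x : E), AnalyticAt ℝ G x → AnalyticAt ℝ G' x → Zo b F G x → Zo b F G' x →
    Zo b F (fun y => G y + G' y) x := by
  induction b with
  | zero => intro F _ _ _ G G' x _ _ _ _; trivial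
  | succ b ih =>
    intro F _ _ _ G G' x han han' hG hG'
    refine ⟨by simp only [hG.1, hG'.1, add_zero], ?_⟩
    refine Zo_congr _ (fun y => fderiv ℝ G y + fderiv ℝ G' y) _ x ?_
      (ih _ _ _ x han.fderiv han'.fderiv hG.2 hG'.2)
    filter_upwards [han.eventually_analyticAt, han'.eventually_analyticAt] with y h1 h2
    exact (fderiv_fun_add h1.differentiableAt h2.differentiableAt).symm

theorem an_bilin {F1 F2 F3 : Type} [NormedAddCommGroup F1] [NormedSpace ℝ F1]
    [NormedAddCommGroup F2] [NormedSpace ℝ F2] [NormedAddCommGroup F3] [NormedSpace ℝ F3]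
    (B : F1 →L[ℝ] F2 →L[ℝ] F3) {K : E → F1} {L : E → F2} {x : E} (hK : AnalyticAt ℝ K x)
    (hL : AnalyticAt ℝ L x) : AnalyticAt ℝ (fun y => B (K y) (L y)) x :=
  AnalyticAt.fun_comp (g := fun z : F1 × F2 => B z.1 z.2) (f := fun y => (K y, L y))
    (B.analyticAt_bilinear _) (hK.prod hL)

/-- Vanishing order of a bilinear expression. -/
theorem Zo_bilin {b : ℕ} : ∀ (F1 F2 F3 : Type) [NormedAddCommGroup F1] [NormedSpace ℝ F1]
    [NormedAddCommGroup F2] [NormedSpace ℝ F2] [NormedAddCommGroup F3] [NormedSpace ℝ F3]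
    [CompleteSpace F1] [CompleteSpace F2] [CompleteSpace F3]
    (B : F1 →L[ℝ] F2 →L[ℝ] F3) (K : E → F1) (L : E → F2) (x : E), AnalyticAt ℝ K x →
    AnalyticAt ℝ L x → Zo b F1 K x → Zo b F3 (fun y => B (K y) (L y)) x := by
  induction b with
  | zero => intros; trivial
  | succ b ih =>
    intro F1 F2 F3 _ _ _ _ _ _ _ _ _ B K L x hK hL hZ
    refine ⟨by simp only [hZ.1, map_zero, zero_apply], ?_⟩
    have h1 := ih (E →L[ℝ] F1) F2 (E →L[ℝ] F3) (B.precompL E) (fderiv ℝ K) L x hK.fderiv hL hZ.2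
    have h2 := ih F1 (E →L[ℝ] F2) (E →L[ℝ] F3) (B.precompR E) K (fderiv ℝ L) x hK hL.fderiv
      (Zo_mono _ _ _ hZ)
    have ha1 : AnalyticAt ℝ (fun y => (B.precompL E) (fderiv ℝ K y) (L y)) x :=
      an_bilin _ hK.fderiv hL
    have ha2 : AnalyticAt ℝ (fun y => (B.precompR E) (K y) (fderiv ℝ L y)) x :=
      an_bilin _ hK hL.fderiv
    refine Zo_congr _ _ _ x ?_ (Zo_add _ _ _ x ha2 ha1 h2 h1)
    filter_upwards [hK.eventually_analyticAt, hL.eventually_analyticAt] with y h3 h4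
    exact (B.hasFDerivAt_of_bilinear h3.differentiableAt.hasFDerivAt
      h4.differentiableAt.hasFDerivAt).fderiv.symm

/-- Vanishing order of a composition. -/
theorem Zo_comp [CompleteSpace E] {b : ℕ} : ∀ (F : Type) [NormedAddCommGroup F] [NormedSpace ℝ F]
    [CompleteSpace F] (G : E → F) (χ : E → E) (y : E), AnalyticAt ℝ G (χ y) → AnalyticAt ℝ χ y →
    Zo b F G (χ y) → Zo b F (fun z => G (χ z)) y := by
  induction b with
  | zero => intros; trivial
  | succ b ih =>
    intro F _ _ _ G χ y hG hχ hZ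
    refine ⟨hZ.1, ?_⟩
    have h1 := ih (E →L[ℝ] F) (fderiv ℝ G) χ y hG.fderiv hχ hZ.2
    have h2 := Zo_bilin (E →L[ℝ] F) (E →L[ℝ] E) (E →L[ℝ] F)
      (ContinuousLinearMap.compL ℝ E E F) (fun z => fderiv ℝ G (χ z)) (fderiv ℝ χ) y
      (AnalyticAt.fun_comp (g := fderiv ℝ G) hG.fderiv hχ) hχ.fderiv h1
    refine Zo_congr _ _ _ y ?_ h2
    filter_upwards [hχ.continuousAt.eventually hG.eventually_analyticAt,
      hχ.eventually_analyticAt] with z h3 h4
    have := fderiv_comp z (g := G) (f := χ) h3.differentiableAt h4.differentiableAt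
    exact this.symm

/-- Openness of non-vanishing. -/
theorem not_Zo_eventually {b : ℕ} : ∀ (F : Type) [NormedAddCommGroup F] [NormedSpace ℝ F]
    [CompleteSpace F] (G : E → F) (x : E), AnalyticAt ℝ G x → ¬ Zo b F G x →
    ∀ᶠ y in 𝓝 x, ¬ Zo b F G y := by
  induction b with
  | zero => intro F _ _ _ G x _ h; exact absurd trivial h
  | succ b ih =>
    intro F _ _ _ G x hG h
    rw [Zo_succ, not_and_or] at h
    rcases h with h | h
    · filter_upwards [hG.continuousAt.eventually_ne h] with y hy h2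
      exact hy h2.1
    · filter_upwards [ih _ _ x hG.fderiv h] with y hy h2
      exact hy h2.2

/-- Vanishing of all derivatives implies growth estimates. -/
theorem isBigO_of_Zo {b : ℕ} : ∀ (F : Type) [NormedAddCommGroup F] [NormedSpace ℝ F]
    [CompleteSpace F] (G : E → F), AnalyticAt ℝ G 0 → Zo b F G 0 →
    G =O[𝓝 0] fun y => ‖y‖ ^ b := by
  induction b with
  | zero =>
    intro F _ _ _ G hG _
    simp only [pow_zero]
    exact hG.continuousAt.tendsto.isBigO_one ℝ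
  | succ b ih =>
    intro F _ _ _ G hG h
    obtain ⟨C, hC0, hC⟩ := (ih _ (fderiv ℝ G) hG.fderiv h.2).exists_nonneg
    replace hC := hC.bound
    obtain ⟨r, hr, hrb⟩ := Metric.eventually_nhds_iff_ball.1 (hC.and hG.eventually_analyticAt)
    refine IsBigO.of_bound C ?_
    filter_upwards [ball_mem_nhds (0 : E) hr] with y hy
    have hy' : ‖y‖ < r := by simpa using hy
    have hsub : closedBall (0 : E) ‖y‖ ⊆ ball 0 r := closedBall_subset_ball hy'
    have h1 := (convex_closedBall (0 : E) ‖y‖).norm_image_sub_le_of_norm_fderiv_le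
      (f := G) (𝕜 := ℝ) (C := C * ‖y‖ ^ b) (x := 0) (y := y)
      (fun z hz => (hrb z (hsub hz)).2.differentiableAt) (fun z hz => by
        refine (hrb z (hsub hz)).1.trans ?_
        have h2 : ‖z‖ ≤ ‖y‖ := by simpa using hz
        rw [Real.norm_of_nonneg (by positivity)]
        gcongr)
      (mem_closedBall_self (norm_nonneg y)) (by simp)
    rw [h.1, sub_zero, sub_zero] at h1
    rw [Real.norm_of_nonneg (by positivity), pow_succ, ← mul_assoc]
    exact h1

/-- If all derivatives vanish at a point, the function vanishes near this point. -/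
theorem eventually_zero_of_Zo {F : Type} [NormedAddCommGroup F] [NormedSpace ℝ F]
    [CompleteSpace F] [CompleteSpace E] {G : E → F} {x : E} (hG : AnalyticAt ℝ G x)
    (h : ∀ b, Zo b F G x) : ∀ᶠ y in 𝓝 x, G y = 0 := by
  have htr : AnalyticAt ℝ (fun y : E => x + y) 0 := analyticAt_const.add analyticAt_id
  have hG0 : AnalyticAt ℝ G (x + 0) := by rwa [add_zero]
  have h1 : AnalyticAt ℝ (fun y => G (x + y)) 0 := AnalyticAt.fun_comp (g := G) hG0 htr
  have h2 : ∀ᶠ y in 𝓝 (0 : E), G (x + y) = 0 := by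
    refine eventually_zero_of_flat h1 fun N => isBigO_of_Zo _ _ h1 ?_
    refine Zo_comp (b := N) F G (fun y => x + y) 0 hG0 htr ?_
    simp only [add_zero]
    exact h N
  have h3 : Tendsto (fun y : E => y - x) (𝓝 x) (𝓝 0) := by
    have : Tendsto (fun y : E => y - x) (𝓝 x) (𝓝 (x - x)) :=
      (continuous_id.sub continuous_const).tendsto x
    rwa [sub_self] at this
  filter_upwards [h3.eventually h2] with y hy
  rwa [add_sub_cancel] at hy

end defs

end Vale.Agent.P274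
end

section

open Filter Metric Set Topology Asymptotics

namespace Vale.Agent.P274

section leading

variable {E : Type} [NormedAddCommGroup E] [NormedSpace ℝ E]

/-- Vanishing orders are transferred from `A` to the range of the projection `π`. -/
theorem Zo_transfer {A : Set E} (h0 : (0 : E) ∈ A) {π : E →L[ℝ] E} (hπ : ∀ x, π (π x) = π x)
    (hA : ∀ᶠ y in 𝓝 (0 : E), y ∈ A → π y = y)
    (hZ : ∀ᶠ y in 𝓝 (0 : E), y ∈ A → ∀ w : E → ℝ, AnalyticAt ℝ w y →
      (∀ᶠ x in 𝓝 y, x ∈ A → w x = 0) → ∀ v, fderiv ℝ w y (π v) = 0) (b : ℕ) :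
    ∀ (F : Type) [NormedAddCommGroup F] [NormedSpace ℝ F] [CompleteSpace F] (G : E → F),
      AnalyticAt ℝ G 0 → (∀ᶠ y in 𝓝 (0 : E), y ∈ A → Zo b F G y) →
      ∀ᶠ y in 𝓝 (0 : E), Zo b F G (π y) := by
  induction b with
  | zero => intro F _ _ _ G _ _; exact Eventually.of_forall fun _ => trivial
  | succ b ih =>
    intro F _ _ _ G hG h
    have h1 : ∀ᶠ y in 𝓝 (0 : E), G (π y) = 0 :=
      vanish_of_tangential_vec h0 hπ hA hZ hG (by
        filter_upwards [h] with y hy hyA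
        exact (hy hyA).1)
    have h2 : ∀ᶠ y in 𝓝 (0 : E), Zo b (E →L[ℝ] F) (fderiv ℝ G) (π y) :=
      ih _ _ hG.fderiv (by
        filter_upwards [h] with y hy hyA
        exact (hy hyA).2)
    filter_upwards [h1, h2] with y h3 h4
    exact ⟨h3, h4⟩

/-- Data of a leading term. -/
structure Lead (π : E →L[ℝ] E) (b : ℕ) (F : Type) [NormedAddCommGroup F] [NormedSpace ℝ F]
    (G Gs : E → F) : Prop where
  an : ∀ y, AnalyticAt ℝ Gs y
  hom : ∀ (t : ℝ) y, Gs (t • y) = t ^ b • Gs y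
  inv : ∀ y, Gs (y - π y) = Gs y
  lim : ∀ ε > 0, ∀ᶠ y in 𝓝 (0 : E), ‖G y - Gs y‖ ≤ ε * ‖y - π y‖ ^ b

theorem Lead.tendsto {π : E →L[ℝ] E} {b : ℕ} {F : Type} [NormedAddCommGroup F] [NormedSpace ℝ F]
    {G Gs : E → F} (h : Lead π b F G Gs) {R ε : ℝ} (hε : 0 < ε) :
    ∀ᶠ t in 𝓝[>] (0 : ℝ), ∀ y ∈ ball (0 : E) R, ‖(t ^ b)⁻¹ • G (t • y) - Gs y‖ ≤ ε := by
  set M : ℝ := (‖ContinuousLinearMap.id ℝ E - π‖ * (|R| + 1)) ^ b with hM
  have hM0 : 0 ≤ M := by positivity
  obtain ⟨δ, hδ, hδb⟩ := Metric.eventually_nhds_iff.1 (h.lim (ε / (M + 1)) (by positivity))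
  have h1 : ∀ᶠ t in 𝓝[>] (0 : ℝ), t ∈ Ioo (0 : ℝ) (δ / (|R| + 1)) :=
    Ioo_mem_nhdsGT (by positivity)
  filter_upwards [h1] with t ht y hy
  obtain ⟨ht0, ht1⟩ := ht
  have hyR : ‖y‖ < |R| + 1 := by
    have h2 : ‖y‖ < R := by simpa using hy
    have h3 := le_abs_self R
    linarith only [h2, h3]
  have h2 : dist (t • y) 0 < δ := by
    rw [dist_zero_right, norm_smul, Real.norm_of_nonneg ht0.le]
    rw [lt_div_iff₀ (by positivity)] at ht1
    have h3 : t * ‖y‖ ≤ t * (|R| + 1) := by gcongr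
    linarith only [ht1, h3]
  have h3 := hδb h2
  have h4 : ‖t • y - π (t • y)‖ ≤ t * (‖ContinuousLinearMap.id ℝ E - π‖ * (|R| + 1)) := by
    have h5 : t • y - π (t • y) = t • (ContinuousLinearMap.id ℝ E - π) y := by
      simp [smul_sub]
    rw [h5, norm_smul, Real.norm_of_nonneg ht0.le]
    have h6 := (ContinuousLinearMap.id ℝ E - π).le_opNorm y
    have h7 : ‖ContinuousLinearMap.id ℝ E - π‖ * ‖y‖ ≤
      ‖ContinuousLinearMap.id ℝ E - π‖ * (|R| + 1) := by (clear * - hyR; gcongr)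
    exact mul_le_mul_of_nonneg_left (h6.trans h7) ht0.le
  have htb : 0 < t ^ b := by (clear * - ht0; positivity)
  have h5 : (t ^ b)⁻¹ • G (t • y) - Gs y = (t ^ b)⁻¹ • (G (t • y) - Gs (t • y)) := by
    rw [h.hom, smul_sub, smul_smul, inv_mul_cancel₀ htb.ne', one_smul]
  rw [h5, norm_smul, norm_inv, Real.norm_of_nonneg htb.le]
  have h6 : ‖t • y - π (t • y)‖ ^ b ≤ t ^ b * M := by
    rw [hM, ← mul_pow]
    (clear * - h4; gcongr)
  calc (t ^ b)⁻¹ * ‖G (t • y) - Gs (t • y)‖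
      ≤ (t ^ b)⁻¹ * (ε / (M + 1) * (t ^ b * M)) := by
        gcongr
        refine h3.trans ?_
        (clear * - hε h6; gcongr)
    _ = ε * (M / (M + 1)) := by field_simp
    _ ≤ ε * 1 := by
        gcongr
        rw [div_le_one (by (clear * -; positivity))]
        linarith only
    _ = ε := mul_one ε

theorem exists_lead {π : E →L[ℝ] E} (hπ : ∀ x, π (π x) = π x) (b : ℕ) :
    ∀ (F : Type) [NormedAddCommGroup F] [NormedSpace ℝ F] [CompleteSpace F] (G : E → F),
      AnalyticAt ℝ G 0 → (∀ᶠ y in 𝓝 (0 : E), Zo b F G (π y)) →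
      ∃ Gs : E → F, Lead π b F G Gs ∧ ((∀ y, Gs y = 0) → Zo (b + 1) F G 0) := by
  induction b with
  | zero =>
    intro F _ _ _ G hG _
    refine ⟨fun _ => G 0, ⟨fun _ => analyticAt_const, fun t y => by simp, fun y => rfl,
      fun ε hε => ?_⟩, fun h => ⟨h 0, trivial⟩⟩
    have h1 := hG.continuousAt.eventually (Metric.closedBall_mem_nhds (G 0) hε)
    filter_upwards [h1] with y hy
    simpa [dist_eq_norm] using hy
  | succ b ih =>
    intro F _ _ _ G hG h
    obtain ⟨Gs', hL, hnz⟩ := ih (E →L[ℝ] F) (fderiv ℝ G) hG.fderiv (h.mono fun y hy => hy.2)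
    set Gs : E → F := fun y => ((b : ℝ) + 1)⁻¹ • Gs' y (y - π y) with hGs
    have hb : (0 : ℝ) < (b : ℝ) + 1 := by positivity
    have hlead : Lead π (b + 1) F G Gs := by
      refine ⟨fun y => ?_, fun t y => ?_, fun y => ?_, fun ε hε => ?_⟩
      · have h1 : AnalyticAt ℝ (fun y : E => y - π y) y := analyticAt_id.sub (π.analyticAt y)
        have h2 : AnalyticAt ℝ (fun y : E => Gs' y (y - π y)) y :=
          an_bilin (ContinuousLinearMap.id ℝ (E →L[ℝ] F)) (hL.an y) h1
        exact h2.const_smul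
      · simp only [hGs]
        rw [hL.hom, map_smul, ← smul_sub, map_smul, smul_apply, smul_smul, smul_smul,
          smul_smul, pow_succ]
        congr 1
        ring
      · simp only [hGs]
        have h2 : y - π y - π (y - π y) = y - π y := by
          rw [map_sub π y (π y), hπ, sub_self, sub_zero]
        rw [h2, hL.inv]
      · obtain ⟨r, hr, hrb⟩ := Metric.eventually_nhds_iff_ball.1 ((hL.lim ε hε).and
          (hG.eventually_analyticAt.and (h.mono fun y hy => hy.1)))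
        -- a neighbourhood such that the segment stays in the ball
        have h1 : ∀ᶠ y in 𝓝 (0 : E), ‖π y‖ + ‖y - π y‖ < r := by
          have hc : Continuous fun y : E => ‖π y‖ + ‖y - π y‖ := by fun_prop
          have := hc.tendsto 0
          simp only [map_zero, norm_zero, sub_self, add_zero] at this
          exact this.eventually (gt_mem_nhds hr)
        filter_upwards [h1] with y hy
        set v : E := y - π y with hv
        have hπv : π v = 0 := by rw [hv, map_sub, hπ, sub_self]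
        have hseg : ∀ t ∈ Icc (0 : ℝ) 1, π y + t • v ∈ ball (0 : E) r := by
          intro t ht
          rw [mem_ball_zero_iff]
          refine (norm_add_le _ _).trans_lt ?_
          rw [norm_smul, Real.norm_of_nonneg ht.1]
          have : t * ‖v‖ ≤ 1 * ‖v‖ := by
            gcongr
            exact ht.2
          linarith only [hy, this]
        have hπseg : ∀ t : ℝ, π y + t • v - π (π y + t • v) = t • v := by
          intro t
          rw [map_add, map_smul, hπv, hπ, smul_zero, add_zero]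
          abel
        have hGsv : ∀ t : ℝ, Gs' (π y + t • v) = t ^ b • Gs' y := by
          intro t
          rw [← hL.inv (π y + t • v), hπseg, hL.hom, hv, hL.inv]
        have hder : ∀ t ∈ Icc (0 : ℝ) 1, HasDerivWithinAt
            (fun t : ℝ => G (π y + t • v) - t ^ (b + 1) • Gs y)
            (fderiv ℝ G (π y + t • v) v - t ^ b • Gs' y v) (Icc 0 1) t := by
          intro t ht
          have hp : HasDerivAt (fun t : ℝ => π y + t • v) v t := by
            have h2 := (hasDerivAt_id t).smul_const v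
            have h3 := h2.const_add (π y)
            simpa using h3
          have h4 := ((hrb _ (hseg t ht)).2.1.differentiableAt.hasFDerivAt).comp_hasDerivAt t hp
          have h5 : HasDerivAt (fun t : ℝ => t ^ (b + 1) • Gs y)
              ((((b : ℝ) + 1) * t ^ b) • Gs y) t := by
            have h6 := (hasDerivAt_pow (b + 1) t).smul_const (Gs y)
            simpa using h6
          have h7 : (((b : ℝ) + 1) * t ^ b) • Gs y = t ^ b • Gs' y v := by
            simp only [hGs]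
            rw [smul_smul]
            congr 1
            field_simp
          rw [h7] at h5
          exact (h4.sub h5).hasDerivWithinAt
        have hbd : ∀ t ∈ Ico (0 : ℝ) 1,
            ‖fderiv ℝ G (π y + t • v) v - t ^ b • Gs' y v‖ ≤ ε * ‖v‖ ^ (b + 1) := by
          intro t ht
          have ht' : t ∈ Icc (0 : ℝ) 1 := ⟨ht.1, ht.2.le⟩
          have h2 := (hrb _ (hseg t ht')).1
          rw [hπseg, hGsv, norm_smul, Real.norm_of_nonneg ht.1] at h2
          have h3 : fderiv ℝ G (π y + t • v) v - t ^ b • Gs' y v =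
              (fderiv ℝ G (π y + t • v) - t ^ b • Gs' y) v := rfl
          rw [h3]
          have h4 := (fderiv ℝ G (π y + t • v) - t ^ b • Gs' y).le_opNorm v
          refine h4.trans ?_
          have h5 : (t * ‖v‖) ^ b ≤ ‖v‖ ^ b := by
            have h6 : t * ‖v‖ ≤ ‖v‖ := mul_le_of_le_one_left (norm_nonneg _) ht.2.le
            have h7 : 0 ≤ t * ‖v‖ := mul_nonneg ht.1 (norm_nonneg _)
            (clear * - h6 h7; gcongr)
          calc ‖fderiv ℝ G (π y + t • v) - t ^ b • Gs' y‖ * ‖v‖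
              ≤ (ε * (t * ‖v‖) ^ b) * ‖v‖ := by (clear * - h2; gcongr)
            _ ≤ (ε * ‖v‖ ^ b) * ‖v‖ := by (clear * - hε h5; gcongr)
            _ = ε * ‖v‖ ^ (b + 1) := by ring
        have h8 := norm_image_sub_le_of_norm_deriv_le_segment_01' hder hbd
        simp only [one_smul, one_pow, zero_smul, add_zero, ne_eq, Nat.add_eq_zero_iff, one_ne_zero,
          and_false, not_false_eq_true, zero_pow, sub_zero] at h8
        have h9 : G (π y) = 0 := by
          have h10 : y ∈ ball (0 : E) r := by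
            have := hseg 1 ⟨zero_le_one, le_rfl⟩
            rwa [one_smul, hv, add_sub_cancel] at this
          exact (hrb y h10).2.2
        rw [h9, sub_zero] at h8
        have h11 : π y + v = y := by rw [hv, add_sub_cancel]
        rwa [h11] at h8
    refine ⟨Gs, hlead, fun hz => ?_⟩
    have hG0 : G 0 = 0 := by
      have := h.self_of_nhds.1
      rwa [map_zero] at this
    refine ⟨hG0, hnz fun x => ?_⟩
    -- `Gs` has derivative `Gs' x`
    have hHas : HasFDerivAt Gs (Gs' x) x := by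
      refine hasFDerivAt_of_tendstoUniformlyOnFilter (l := 𝓝[>] (0 : ℝ))
        (f := fun t z => (t ^ (b + 1))⁻¹ • G (t • z))
        (f' := fun t z => (t ^ b)⁻¹ • fderiv ℝ G (t • z)) ?_ ?_ ?_
      · rw [Metric.tendstoUniformlyOnFilter_iff]
        intro ε hε
        have h1 := hL.tendsto (R := ‖x‖ + 1) (half_pos hε)
        have h2 : ∀ᶠ z in 𝓝 x, z ∈ ball (0 : E) (‖x‖ + 1) :=
          isOpen_ball.mem_nhds (by simp)
        filter_upwards [h1.prod_mk h2] with p hp
        rw [dist_comm, dist_eq_norm]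
        exact (hp.1 _ hp.2).trans_lt (half_lt_self hε)
      · obtain ⟨r, hr, hrb⟩ := Metric.eventually_nhds_iff_ball.1 hG.eventually_analyticAt
        have h1 : ∀ᶠ t in 𝓝[>] (0 : ℝ), t ∈ Ioo (0 : ℝ) (r / (‖x‖ + 1)) :=
          Ioo_mem_nhdsGT (by (clear * - hr; positivity))
        have h2 : ∀ᶠ z in 𝓝 x, z ∈ ball (0 : E) (‖x‖ + 1) :=
          isOpen_ball.mem_nhds (by simp)
        filter_upwards [h1.prod_mk h2] with p hp
        obtain ⟨⟨ht0, ht1⟩, hz⟩ := hp
        have hz' : ‖p.2‖ < ‖x‖ + 1 := by simpa using hz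
        have h3 : p.1 • p.2 ∈ ball (0 : E) r := by
          rw [mem_ball_zero_iff, norm_smul, Real.norm_of_nonneg ht0.le]
          rw [lt_div_iff₀ (by (clear * -; positivity))] at ht1
          have h4 : p.1 * ‖p.2‖ ≤ p.1 * (‖x‖ + 1) := by (clear * - ht0 hz'; gcongr)
          linarith only [ht1, h4]
        have h5 := (hrb _ h3).differentiableAt.hasFDerivAt
        have h6 : HasFDerivAt (fun z : E => p.1 • z) (p.1 • ContinuousLinearMap.id ℝ E) p.2 :=
          (hasFDerivAt_id p.2).const_smul p.1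
        have h7 := (h5.comp p.2 h6).const_smul (p.1 ^ (b + 1))⁻¹
        have h8 : (p.1 ^ (b + 1))⁻¹ • ((fderiv ℝ G (p.1 • p.2)).comp
            (p.1 • ContinuousLinearMap.id ℝ E)) = (p.1 ^ b)⁻¹ • fderiv ℝ G (p.1 • p.2) := by
          ext v
          simp only [smul_apply, ContinuousLinearMap.comp_apply, ContinuousLinearMap.id_apply,
            map_smul, smul_smul]
          congr 1
          field_simp
          ring
        rw [h8] at h7
        exact h7
      · have h2 : ∀ᶠ z in 𝓝 x, z ∈ ball (0 : E) (‖x‖ + 1) :=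
          isOpen_ball.mem_nhds (by simp)
        filter_upwards [h2] with z hz
        rw [Metric.tendsto_nhds]
        intro ε hε
        filter_upwards [hlead.tendsto (R := ‖x‖ + 1) (half_pos hε)] with t ht
        rw [dist_eq_norm]
        exact (ht z hz).trans_lt (half_lt_self hε)
    have h1 : Gs = fun _ => 0 := funext hz
    rw [h1] at hHas
    exact hHas.unique (hasFDerivAt_const (0 : F) x)

end leading

end Vale.Agent.P274
end

section

/-! TASK W6: Weierstrass preparation for real-analytic functions.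

The ring of power series in `x / ρ` acts on the space `A` of bounded sequences (coefficients of
`q`): `y ↦` (multiplication by `F(ρ ξ, y)`) is an analytic map `G` into the operators on `A`.
With the right shift `S` and the left shift `T`, `K y = T ^ b * G y` is invertible near `p0`,
`q y = (K y)⁻¹ 1` satisfies `q y * F(ρ ξ, y) = ξ ^ b + (polynomial of degree < b)`. -/

open Filter Topology Polynomial

namespace Vale.Agent.P274.W

namespace WP

open scoped BoundedContinuousFunction NNReal ENNReal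

/-- bounded sequences -/
def A : Type := ℕ →ᵇ ℝ

noncomputable instance : NormedAddCommGroup A := inferInstanceAs (NormedAddCommGroup (ℕ →ᵇ ℝ))

noncomputable instance : NormedSpace ℝ A := inferInstanceAs (NormedSpace ℝ (ℕ →ᵇ ℝ))

instance : CompleteSpace A := inferInstanceAs (CompleteSpace (ℕ →ᵇ ℝ))

instance : FunLike A ℕ ℝ := inferInstanceAs (FunLike (ℕ →ᵇ ℝ) ℕ ℝ)

theorem A_ext {f g : A} (h : ∀ n, f n = g n) : f = g := DFunLike.ext _ _ h

theorem A_norm_coe (f : A) (n : ℕ) : ‖f n‖ ≤ ‖f‖ :=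
  BoundedContinuousFunction.norm_coe_le_norm (f : ℕ →ᵇ ℝ) n

theorem A_norm_le {f : A} {C : ℝ} (hC : 0 ≤ C) (h : ∀ n, ‖f n‖ ≤ C) : ‖f‖ ≤ C :=
  (BoundedContinuousFunction.norm_le (f := (f : ℕ →ᵇ ℝ)) hC).2 h

@[simp] theorem A_add (f g : A) (n : ℕ) : (f + g) n = f n + g n := rfl

@[simp] theorem A_smul (c : ℝ) (f : A) (n : ℕ) : (c • f) n = c * f n := rfl

/-- sequences from bounded functions -/
noncomputable def mkA (f : ℕ → ℝ) (C : ℝ) (h : ∀ n, ‖f n‖ ≤ C) : A :=
  BoundedContinuousFunction.ofNormedAddCommGroupDiscrete f C h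

@[simp] theorem mkA_apply (f : ℕ → ℝ) (C : ℝ) (h : ∀ n, ‖f n‖ ≤ C) (n : ℕ) : mkA f C h n = f n :=
  rfl

/-- the coordinates as continuous functionals -/
noncomputable def cf (n : ℕ) : A →L[ℝ] ℝ :=
  LinearMap.mkContinuous
    { toFun := fun f => f n
      map_add' := fun _ _ => rfl
      map_smul' := fun _ _ => rfl } 1 (fun f => by
    rw [one_mul]
    exact A_norm_coe f n)

/-- the right shift -/
noncomputable def S : A →L[ℝ] A :=
  LinearMap.mkContinuous
    { toFun := fun f => mkA (fun n : ℕ => if n = 0 then 0 else f (n - 1)) ‖f‖ (fun n => by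
          split_ifs
          · simp
          · exact A_norm_coe f _)
      map_add' := fun f g => by
        refine A_ext fun n => ?_
        by_cases h : n = 0 <;> simp [h]
      map_smul' := fun c f => by
        refine A_ext fun n => ?_
        by_cases h : n = 0 <;> simp [h] } 1 (fun f => by
    rw [one_mul]
    refine A_norm_le (norm_nonneg _) fun n => ?_
    by_cases h : n = 0
    · simp [h]
    · simp only [LinearMap.coe_mk, AddHom.coe_mk, mkA_apply, h, if_false]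
      exact A_norm_coe f _)

@[simp] theorem S_zero (f : A) : S f 0 = 0 := by simp [S]

@[simp] theorem S_succ (f : A) (n : ℕ) : S f (n + 1) = f n := by simp [S]

theorem norm_S_le : ‖S‖ ≤ 1 := LinearMap.mkContinuous_norm_le _ zero_le_one _

theorem norm_S_pow_le (n : ℕ) : ‖S ^ n‖ ≤ 1 := by
  induction n with
  | zero =>
    rw [pow_zero]
    exact ContinuousLinearMap.norm_id_le
  | succ n ih =>
    rw [pow_succ]
    calc ‖S ^ n * S‖ ≤ ‖S ^ n‖ * ‖S‖ := norm_mul_le _ _
      _ ≤ 1 * 1 := mul_le_mul ih norm_S_le (ContinuousLinearMap.opNorm_nonneg _) zero_le_one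
      _ = 1 := one_mul 1

/-- the left shift -/
noncomputable def T : A →L[ℝ] A :=
  LinearMap.mkContinuous
    { toFun := fun f => mkA (fun n : ℕ => f (n + 1)) ‖f‖ (fun n => A_norm_coe f _)
      map_add' := fun f g => by
        refine A_ext fun n => ?_
        simp
      map_smul' := fun c f => by
        refine A_ext fun n => ?_
        simp } 1 (fun f => by
    rw [one_mul]
    refine A_norm_le (norm_nonneg _) fun n => ?_
    simp only [LinearMap.coe_mk, AddHom.coe_mk, mkA_apply]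
    exact A_norm_coe f _)

@[simp] theorem T_apply (f : A) (n : ℕ) : T f n = f (n + 1) := by simp [T]

theorem T_mul_S : T * S = 1 := by
  refine ContinuousLinearMap.ext fun f => A_ext fun n => ?_
  simp

theorem T_pow_mul_S_pow (b : ℕ) : T ^ b * S ^ b = 1 := by
  induction b with
  | zero => simp
  | succ b ih =>
    rw [pow_succ, pow_succ']
    calc T ^ b * T * (S * S ^ b) = T ^ b * (T * S) * S ^ b := by simp only [mul_assoc]
      _ = 1 := by rw [T_mul_S, mul_one, ih]

theorem T_pow_apply (b : ℕ) (f : A) (n : ℕ) : (T ^ b) f n = f (n + b) := by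
  induction b generalizing f n with
  | zero => simp
  | succ b ih =>
    rw [pow_succ]
    show (T ^ b) (T f) n = _
    rw [ih, T_apply, add_assoc]

theorem S_pow_apply_lt (b : ℕ) (f : A) {n : ℕ} (h : n < b) : (S ^ b) f n = 0 := by
  induction b generalizing n with
  | zero => omega
  | succ b ih =>
    rw [pow_succ']
    show S ((S ^ b) f) n = 0
    rcases n with _ | n
    · simp
    · rw [S_succ]
      exact ih (by omega)

theorem summable_ev (f : A) {ξ : ℝ} (hξ : |ξ| ≤ 1 / 2) : Summable fun n : ℕ => f n * ξ ^ n := by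
  refine Summable.of_norm_bounded (g := fun n : ℕ => ‖f‖ * (1 / 2 : ℝ) ^ n)
    ((summable_geometric_of_lt_one (by norm_num) (by norm_num)).mul_left _) fun n => ?_
  rw [norm_mul, norm_pow]
  exact mul_le_mul (A_norm_coe f _) (pow_le_pow_left₀ (norm_nonneg _) hξ n)
    (by positivity) (norm_nonneg _)

/-- the sum of the series with the coefficients `f` at the point `ξ` -/
noncomputable def ev (ξ : ℝ) (f : A) : ℝ := ∑' n : ℕ, f n * ξ ^ n

theorem ev_add {ξ : ℝ} (hξ : |ξ| ≤ 1 / 2) (f g : A) : ev ξ (f + g) = ev ξ f + ev ξ g := by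
  unfold ev
  rw [← (summable_ev f hξ).tsum_add (summable_ev g hξ)]
  congr 1
  funext n
  rw [A_add, add_mul]

theorem ev_smul (ξ c : ℝ) (f : A) : ev ξ (c • f) = c * ev ξ f := by
  unfold ev
  rw [← tsum_mul_left]
  congr 1
  funext n
  rw [A_smul, mul_assoc]

theorem abs_ev_le {ξ : ℝ} (hξ : |ξ| ≤ 1 / 2) (f : A) : |ev ξ f| ≤ 2 * ‖f‖ := by
  have h1 : HasSum (fun n : ℕ => ‖f‖ * (1 / 2 : ℝ) ^ n) (‖f‖ * 2) :=
    hasSum_geometric_two.mul_left _
  have h2 := tsum_of_norm_bounded (f := fun n : ℕ => f n * ξ ^ n) h1 fun n => by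
    rw [norm_mul, norm_pow]
    exact mul_le_mul (A_norm_coe f _) (pow_le_pow_left₀ (norm_nonneg _) hξ n)
      (by positivity) (norm_nonneg _)
  rw [mul_comm] at h2
  exact h2

/-- evaluation as a continuous linear functional -/
noncomputable def evL {ξ : ℝ} (hξ : |ξ| ≤ 1 / 2) : A →L[ℝ] ℝ :=
  LinearMap.mkContinuous
    { toFun := ev ξ
      map_add' := ev_add hξ
      map_smul' := fun c f => ev_smul ξ c f } 2 fun f => abs_ev_le hξ f

theorem evL_apply {ξ : ℝ} (hξ : |ξ| ≤ 1 / 2) (f : A) : evL hξ f = ev ξ f := rfl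

theorem ev_T {ξ : ℝ} (hξ : |ξ| ≤ 1 / 2) (f : A) : ev ξ f = f 0 + ξ * ev ξ (T f) := by
  unfold ev
  rw [(summable_ev f hξ).tsum_eq_zero_add, pow_zero, mul_one, ← tsum_mul_left]
  congr 2
  funext n
  rw [T_apply, pow_succ]
  ring

theorem ev_S {ξ : ℝ} (hξ : |ξ| ≤ 1 / 2) (f : A) : ev ξ (S f) = ξ * ev ξ f := by
  rw [ev_T hξ, S_zero, zero_add]
  have h : T (S f) = f := by
    have := T_mul_S
    calc T (S f) = (T * S) f := rfl
      _ = f := by rw [T_mul_S]; rfl
  rw [h]

theorem ev_S_pow {ξ : ℝ} (hξ : |ξ| ≤ 1 / 2) (n : ℕ) (f : A) :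
    ev ξ ((S ^ n) f) = ξ ^ n * ev ξ f := by
  induction n with
  | zero => simp
  | succ n ih =>
    rw [pow_succ']
    show ev ξ (S ((S ^ n) f)) = _
    rw [ev_S hξ, ih, pow_succ']
    ring

theorem ev_inj {f : A} (h : ∀ ξ : ℝ, ξ ≠ 0 → |ξ| ≤ 1 / 2 → ev ξ f = 0) : f = 0 := by
  have key : ∀ n : ℕ, ∀ f : A, (∀ ξ : ℝ, ξ ≠ 0 → |ξ| ≤ 1 / 2 → ev ξ f = 0) → f n = 0 := by
    intro n
    induction n with
    | zero =>
      intro f hf
      by_contra hne
      have h0 : 0 < |f 0| := abs_pos.2 hne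
      have hN : 0 ≤ ‖T f‖ := norm_nonneg _
      obtain ⟨ξ, hξ0, hξ1, hξ2⟩ : ∃ ξ : ℝ, 0 < ξ ∧ ξ ≤ 1 / 2 ∧ ξ * (2 * ‖T f‖ + 1) < |f 0| := by
        refine ⟨min (1 / 2) (|f 0| / (2 * (2 * ‖T f‖ + 1))), by positivity, min_le_left _ _, ?_⟩
        have h1 : min (1 / 2) (|f 0| / (2 * (2 * ‖T f‖ + 1))) * (2 * ‖T f‖ + 1) ≤
            |f 0| / (2 * (2 * ‖T f‖ + 1)) * (2 * ‖T f‖ + 1) :=
          mul_le_mul_of_nonneg_right (min_le_right _ _) (by positivity)
        have h2 : |f 0| / (2 * (2 * ‖T f‖ + 1)) * (2 * ‖T f‖ + 1) = |f 0| / 2 := by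
          field_simp
        linarith only [h2, h1, h0]
      have hξa : |ξ| ≤ 1 / 2 := by rwa [abs_of_pos hξ0]
      have h1 := ev_T hξa f
      rw [hf ξ hξ0.ne' hξa] at h1
      have h2 : |f 0| = ξ * |ev ξ (T f)| := by
        have : f 0 = -(ξ * ev ξ (T f)) := by linarith only [h1]
        rw [this, abs_neg, abs_mul, abs_of_pos hξ0]
      have h3 := abs_ev_le hξa (T f)
      have h4 : ξ * |ev ξ (T f)| ≤ ξ * (2 * ‖T f‖) := mul_le_mul_of_nonneg_left h3 hξ0.le
      linarith only [hξ0, hξ2, h2, h4]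
    | succ n ih =>
      intro f hf
      rw [← T_apply]
      refine ih (T f) fun ξ hξ0 hξ => ?_
      have h0 : f 0 = 0 := by
        by_contra hne
        have h0 : 0 < |f 0| := abs_pos.2 hne
        have hN : 0 ≤ ‖T f‖ := norm_nonneg _
        obtain ⟨ξ, hξ0, hξ1, hξ2⟩ : ∃ ξ : ℝ, 0 < ξ ∧ ξ ≤ 1 / 2 ∧
            ξ * (2 * ‖T f‖ + 1) < |f 0| := by
          refine ⟨min (1 / 2) (|f 0| / (2 * (2 * ‖T f‖ + 1))), by (clear * - hne; positivity), min_le_left _ _, ?_⟩
          have h1 : min (1 / 2) (|f 0| / (2 * (2 * ‖T f‖ + 1))) * (2 * ‖T f‖ + 1) ≤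
              |f 0| / (2 * (2 * ‖T f‖ + 1)) * (2 * ‖T f‖ + 1) :=
            mul_le_mul_of_nonneg_right (min_le_right _ _) (by positivity)
          have h2 : |f 0| / (2 * (2 * ‖T f‖ + 1)) * (2 * ‖T f‖ + 1) = |f 0| / 2 := by
            field_simp
          linarith only [h0, h1, h2]
        have hξa : |ξ| ≤ 1 / 2 := by rwa [abs_of_pos hξ0]
        have h1 := ev_T hξa f
        rw [hf ξ hξ0.ne' hξa] at h1
        have h2 : |f 0| = ξ * |ev ξ (T f)| := by
          have : f 0 = -(ξ * ev ξ (T f)) := by linarith only [h1]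
          rw [this, abs_neg, abs_mul, abs_of_pos hξ0]
        have h3 := abs_ev_le hξa (T f)
        have h4 : ξ * |ev ξ (T f)| ≤ ξ * (2 * ‖T f‖) := mul_le_mul_of_nonneg_left h3 hξ0.le
        linarith only [hξ0, hξ2, h2, h4]
      have h1 := ev_T hξ f
      rw [hf ξ hξ0 hξ, h0, zero_add] at h1
      rcases mul_eq_zero.1 h1.symm with h2 | h2
      · exact absurd h2 hξ0
      · exact h2
  exact A_ext fun n => key n f h

theorem op_ext {B C : A →L[ℝ] A}
    (h : ∀ ξ : ℝ, ξ ≠ 0 → |ξ| ≤ 1 / 2 → ∀ f, ev ξ (B f) = ev ξ (C f)) : B = C := by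
  refine ContinuousLinearMap.ext fun f => ?_
  have h1 : B f - C f = 0 := by
    refine ev_inj fun ξ h0 hξ => ?_
    have h2 := (evL hξ).map_sub (B f) (C f)
    rw [evL_apply, evL_apply, evL_apply] at h2
    rw [h2, h ξ h0 hξ, sub_self]
  exact sub_eq_zero.1 h1

section construction

variable {Y : Type} [NormedAddCommGroup Y] [NormedSpace ℝ Y]

/-- the part of degree `k` in `y` and `l` in `x`, with `x = ρ S` -/
noncomputable def Qt (p : FormalMultilinearSeries ℝ (ℝ × Y) ℝ) (ρ : ℝ≥0) (k l : ℕ) :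
    Y [×k]→L[ℝ] (A →L[ℝ] A) :=
  ((p.changeOriginSeries k l fun _ => ((1 : ℝ), (0 : Y))).compContinuousLinearMap
    fun _ => ContinuousLinearMap.inr ℝ ℝ Y).smulRight ((ρ : ℝ) ^ l • S ^ l)

theorem norm_inr_le : ‖ContinuousLinearMap.inr ℝ ℝ Y‖ ≤ 1 := by
  refine ContinuousLinearMap.opNorm_le_bound _ zero_le_one fun y => ?_
  simp

theorem nnnorm_Qt_le (p : FormalMultilinearSeries ℝ (ℝ × Y) ℝ) (ρ : ℝ≥0) (k l : ℕ) :
    ‖Qt p ρ k l‖₊ ≤ ∑' _ : { s : Finset (Fin (k + l)) // s.card = l }, ‖p (k + l)‖₊ * ρ ^ l := by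
  have h1 := p.nnnorm_changeOriginSeries_apply_le_tsum k l ((1 : ℝ), (0 : Y))
  have h2 : ‖((1 : ℝ), (0 : Y))‖₊ = 1 := by
    simp [Prod.nnnorm_def]
  rw [h2, one_pow] at h1
  simp only [mul_one] at h1
  have h3 : ‖Qt p ρ k l‖ ≤ ‖p.changeOriginSeries k l fun _ => ((1 : ℝ), (0 : Y))‖ * (ρ : ℝ) ^ l := by
    unfold Qt
    rw [ContinuousMultilinearMap.norm_smulRight]
    refine mul_le_mul ?_ ?_ (norm_nonneg _) (norm_nonneg _)
    · refine (ContinuousMultilinearMap.norm_compContinuousLinearMap_le _ _).trans ?_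
      refine mul_le_of_le_one_right (norm_nonneg _) ?_
      exact Finset.prod_le_one (fun _ _ => ContinuousLinearMap.opNorm_nonneg _)
        fun _ _ => norm_inr_le
    · rw [norm_smul, norm_pow, Real.norm_eq_abs, NNReal.abs_eq]
      exact mul_le_of_le_one_right (by positivity) (norm_S_pow_le l)
  have h4 : ‖Qt p ρ k l‖₊ ≤ ‖p.changeOriginSeries k l fun _ => ((1 : ℝ), (0 : Y))‖₊ * ρ ^ l := by
    exact_mod_cast h3
  refine h4.trans ?_
  rw [NNReal.tsum_mul_right]
  exact mul_le_mul_of_nonneg_right h1 (by positivity)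

/-- the power series of the operator valued function -/
noncomputable def Q (p : FormalMultilinearSeries ℝ (ℝ × Y) ℝ) (ρ : ℝ≥0) :
    FormalMultilinearSeries ℝ Y (A →L[ℝ] A) := fun k => ∑' l, Qt p ρ k l

variable {p : FormalMultilinearSeries ℝ (ℝ × Y) ℝ} {ρ : ℝ≥0}

theorem hasSum_bound (hρ : (ρ : ℝ≥0∞) < p.radius) (k : ℕ) :
    HasSum (fun l : ℕ => ∑' _ : { s : Finset (Fin (k + l)) // s.card = l },
      ‖p (k + l)‖₊ * ρ ^ l)
      (∑' s : Σ l : ℕ, { s : Finset (Fin (k + l)) // s.card = l }, ‖p (k + s.1)‖₊ * ρ ^ s.1) := by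
  have h := p.changeOriginSeries_summable_aux₂ hρ k
  refine HasSum.sigma h.hasSum fun l => ?_
  exact ((NNReal.summable_sigma.1 h).1 l).hasSum

theorem complete_mm (k : ℕ) : CompleteSpace (Y [×k]→L[ℝ] (A →L[ℝ] A)) := inferInstance

theorem summable_Qt (hρ : (ρ : ℝ≥0∞) < p.radius) (k : ℕ) : Summable (Qt p ρ k) := by
  have h1 : Summable fun l => ‖Qt p ρ k l‖₊ :=
    NNReal.summable_of_le (fun l => nnnorm_Qt_le p ρ k l) (hasSum_bound hρ k).summable
  have := complete_mm (Y := Y) k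
  exact h1.of_nnnorm

theorem nnnorm_Q_le (hρ : (ρ : ℝ≥0∞) < p.radius) (k : ℕ) :
    ‖Q p ρ k‖₊ ≤
      ∑' s : Σ l : ℕ, { s : Finset (Fin (k + l)) // s.card = l }, ‖p (k + s.1)‖₊ * ρ ^ s.1 :=
  tsum_of_nnnorm_bounded (hasSum_bound hρ k) fun l => nnnorm_Qt_le p ρ k l

theorem radius_Q {r : ℝ≥0} (hr : (ρ + r : ℝ≥0∞) < p.radius) : (r : ℝ≥0∞) ≤ (Q p ρ).radius := by
  have hρ : (ρ : ℝ≥0∞) < p.radius := (le_add_right le_rfl).trans_lt hr
  apply FormalMultilinearSeries.le_radius_of_summable_nnnorm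
  have this (k : ℕ) :
      ‖Q p ρ k‖₊ * r ^ k ≤
        (∑' s : Σ l : ℕ, { s : Finset (Fin (k + l)) // s.card = l }, ‖p (k + s.1)‖₊ * ρ ^ s.1) *
          r ^ k := by
    gcongr
    exact nnnorm_Q_le hρ k
  refine NNReal.summable_of_le this ?_
  simpa only [← NNReal.tsum_mul_right] using
    (NNReal.summable_sigma.1 (p.changeOriginSeries_summable_aux₁ hr)).2

theorem apply_Qt {ξ c : ℝ} (φ : (A →L[ℝ] A) →L[ℝ] ℝ) (hφ : ∀ l, φ (S ^ l) = ξ ^ l * c)
    (k l : ℕ) (h : Y) : φ (Qt p ρ k l fun _ => h) =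
      ((p.changeOriginSeries k l fun _ => ((ρ * ξ : ℝ), (0 : Y))) fun _ => ((0 : ℝ), h)) * c := by
  unfold Qt
  rw [ContinuousMultilinearMap.smulRight_apply, map_smul, map_smul, hφ]
  have h6 : (fun _ : Fin l => (((ρ * ξ : ℝ), (0 : Y)) : ℝ × Y)) =
      fun _ => (ρ * ξ : ℝ) • ((1 : ℝ), (0 : Y)) := by
    funext _
    simp
  rw [h6, ContinuousMultilinearMap.map_smul_univ, Finset.prod_const, Finset.card_univ,
    Fintype.card_fin]
  simp only [ContinuousMultilinearMap.compContinuousLinearMap_apply,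
    ContinuousLinearMap.inr_apply, _root_.smul_apply, smul_eq_mul, mul_pow]
  ring

theorem apply_Q (hρ : (ρ : ℝ≥0∞) < p.radius) {ξ c : ℝ} (hξ : |ξ| ≤ 1 / 2)
    (φ : (A →L[ℝ] A) →L[ℝ] ℝ) (hφ : ∀ l, φ (S ^ l) = ξ ^ l * c) (k : ℕ) (h : Y) :
    φ (Q p ρ k fun _ => h) = (p.changeOrigin ((ρ * ξ : ℝ), (0 : Y)) k fun _ => ((0 : ℝ), h)) * c := by
  have h1 : HasSum (fun l => φ (Qt p ρ k l fun _ => h)) (φ (Q p ρ k fun _ => h)) := by
    have h2 := ContinuousMultilinearMap.hasSum_eval (summable_Qt hρ k).hasSum (fun _ => h)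
    exact h2.mapL φ
  have hx : (((ρ * ξ : ℝ), (0 : Y)) : ℝ × Y) ∈ Metric.eball (0 : ℝ × Y) p.radius := by
    rw [mem_eball_zero_iff]
    refine lt_of_le_of_lt ?_ hρ
    rw [← ofReal_norm, ← ENNReal.ofReal_coe_nnreal]
    apply ENNReal.ofReal_le_ofReal
    rw [Prod.norm_mk, norm_zero, max_eq_left (norm_nonneg _), Real.norm_eq_abs, abs_mul,
      NNReal.abs_eq]
    exact mul_le_of_le_one_right ρ.2 (by linarith only [hξ])
  have h3 : HasSum (fun l => (p.changeOriginSeries k l fun _ => ((ρ * ξ : ℝ), (0 : Y)))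
      fun _ => ((0 : ℝ), h)) (p.changeOrigin ((ρ * ξ : ℝ), (0 : Y)) k fun _ => ((0 : ℝ), h)) := by
    have h4 := (p.hasFPowerSeriesOnBall_changeOrigin k
      (lt_of_le_of_lt bot_le hρ)).hasSum hx
    rw [zero_add] at h4
    exact ContinuousMultilinearMap.hasSum_eval h4 _
  have h5 := h3.mul_right c
  have h7 : (fun l => φ (Qt p ρ k l fun _ => h)) = fun l =>
      ((p.changeOriginSeries k l fun _ => ((ρ * ξ : ℝ), (0 : Y))) fun _ => ((0 : ℝ), h)) * c := by
    funext l
    exact apply_Qt φ hφ k l h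
  rw [h7] at h1
  exact h1.unique h5

/-- Multiplication by an analytic function, as an analytic function with values in operators. -/
theorem exists_G {F : ℝ × Y → ℝ} {p0 : Y} (hF : AnalyticAt ℝ F (0, p0)) :
    ∃ ρ0 : ℝ≥0, 0 < ρ0 ∧ ∀ ρ : ℝ≥0, ρ ≤ ρ0 → ∃ G : Y → (A →L[ℝ] A),
      AnalyticAt ℝ G p0 ∧ ∀ᶠ y in 𝓝 p0, ∀ ξ : ℝ, |ξ| ≤ 1 / 2 → ∀ f : A,
        ev ξ (G y f) = F (ρ * ξ, y) * ev ξ f := by
  obtain ⟨p, R, hp⟩ := hF
  obtain ⟨r0, hr0, hr0R⟩ := ENNReal.lt_iff_exists_nnreal_btwn.1 hp.r_pos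
  have hr0' : 0 < r0 := by exact_mod_cast hr0
  refine ⟨r0 / 2, by positivity, fun ρ hρ0 => ?_⟩
  have hsum : ((ρ : ℝ≥0∞) + ((r0 / 2 : ℝ≥0) : ℝ≥0∞)) < R := by
    refine lt_of_le_of_lt ?_ hr0R
    rw [← ENNReal.coe_add, ENNReal.coe_le_coe]
    calc ρ + r0 / 2 ≤ r0 / 2 + r0 / 2 := by gcongr
      _ = r0 := add_halves r0
  have hsum' : ((ρ : ℝ≥0∞) + ((r0 / 2 : ℝ≥0) : ℝ≥0∞)) < p.radius := hsum.trans_le hp.r_le
  have hρ : (ρ : ℝ≥0∞) < p.radius := (le_add_right le_rfl).trans_lt hsum'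
  have hrad := radius_Q hsum'
  have hpos : 0 < (Q p ρ).radius :=
    lt_of_lt_of_le (ENNReal.coe_pos.2 (half_pos hr0')) hrad
  have hQ := (Q p ρ).hasFPowerSeriesOnBall hpos
  refine ⟨fun y => (Q p ρ).sum (y - p0), ?_, ?_⟩
  · have h1 := hQ.comp_sub p0
    rw [zero_add] at h1
    exact h1.analyticAt
  · have hball : Metric.ball p0 ((r0 / 2 : ℝ≥0) : ℝ) ∈ 𝓝 p0 :=
      Metric.ball_mem_nhds _ (NNReal.coe_pos.2 (half_pos hr0'))
    filter_upwards [hball] with y hy ξ hξ f
    have hh : ‖y - p0‖ₑ < ((r0 / 2 : ℝ≥0) : ℝ≥0∞) := by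
      rw [Metric.mem_ball, dist_eq_norm] at hy
      rw [← ofReal_norm, ← ENNReal.ofReal_coe_nnreal]
      exact (ENNReal.ofReal_lt_ofReal_iff (NNReal.coe_pos.2 (half_pos hr0'))).2 hy
    have h1 : HasSum (fun k => Q p ρ k fun _ => y - p0) ((Q p ρ).sum (y - p0)) := by
      have := hQ.hasSum (y := y - p0) (by
        rw [mem_eball_zero_iff]
        exact hh.trans_le hrad)
      rwa [zero_add] at this
    have h2 := h1.mapL ((evL hξ) ∘L (ContinuousLinearMap.apply ℝ A f))
    have h3 : ∀ k, ((evL hξ) ∘L (ContinuousLinearMap.apply ℝ A f)) (Q p ρ k fun _ => y - p0) =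
        (p.changeOrigin ((ρ * ξ : ℝ), (0 : Y)) k fun _ => ((0 : ℝ), y - p0)) * ev ξ f := by
      intro k
      refine apply_Q hρ hξ _ (fun l => ?_) k _
      exact ev_S_pow hξ l f
    simp only [h3] at h2
    have hv : ‖(((ρ * ξ : ℝ), (0 : Y)) : ℝ × Y)‖ₑ ≤ (ρ : ℝ≥0∞) := by
      rw [← ofReal_norm, ← ENNReal.ofReal_coe_nnreal]
      apply ENNReal.ofReal_le_ofReal
      rw [Prod.norm_mk, norm_zero, max_eq_left (norm_nonneg _), Real.norm_eq_abs, abs_mul,
        NNReal.abs_eq]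
      exact mul_le_of_le_one_right ρ.2 (by linarith only [hξ])
    have hv' : ‖(((ρ * ξ : ℝ), (0 : Y)) : ℝ × Y)‖ₑ < R :=
      lt_of_le_of_lt hv ((le_add_right le_rfl).trans_lt hsum)
    have h4 := (hp.changeOrigin hv').hasSum (y := ((0 : ℝ), y - p0)) (by
      rw [mem_eball_zero_iff, lt_tsub_iff_right]
      refine lt_of_le_of_lt ?_ hsum
      rw [add_comm]
      refine add_le_add hv ?_
      refine le_trans (le_of_eq ?_) hh.le
      rw [← ofReal_norm, ← ofReal_norm, Prod.norm_mk, norm_zero,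
        max_eq_right (norm_nonneg _)])
    have h5 : ((0 : ℝ), p0) + ((ρ * ξ : ℝ), (0 : Y)) + ((0 : ℝ), y - p0) = ((ρ * ξ : ℝ), y) := by
      simp
    rw [h5] at h4
    exact h2.unique (h4.mul_right (ev ξ f))

end construction

/-- the constant `1` -/
noncomputable def e0 : A := mkA (fun n => if n = 0 then 1 else 0) 1 fun n => by
  split_ifs <;> simp

theorem e0_zero : e0 0 = 1 := by simp [e0]

theorem e0_succ (n : ℕ) : e0 (n + 1) = 0 := by simp [e0]

theorem ev_e0 {ξ : ℝ} : ev ξ e0 = 1 := by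
  unfold ev
  rw [tsum_eq_single 0]
  · rw [e0_zero, pow_zero, mul_one]
  · intro n hn
    obtain ⟨m, rfl⟩ := Nat.exists_eq_succ_of_ne_zero hn
    rw [Nat.succ_eq_add_one, e0_succ, zero_mul]

/-- the polynomial -/
noncomputable def PP (b : ℕ) (ρ : ℝ) (w : A) : ℝ[X] :=
  X ^ b + ∑ n ∈ Finset.range b, C (w n * ρ ^ (b - n)) * X ^ n

theorem PP_coeff (b : ℕ) (ρ : ℝ) (w : A) (i : ℕ) :
    (PP b ρ w).coeff i = (if i = b then 1 else 0) + if i < b then w i * ρ ^ (b - i) else 0 := by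
  unfold PP
  rw [coeff_add, coeff_X_pow, finsetSum_coeff]
  congr 1
  simp only [coeff_C_mul_X_pow]
  rw [Finset.sum_ite_eq]
  simp only [Finset.mem_range]

theorem PP_degree_lt (b : ℕ) (ρ : ℝ) (w : A) :
    (∑ n ∈ Finset.range b, C (w n * ρ ^ (b - n)) * X ^ n).degree < (b : WithBot ℕ) := by
  rw [degree_lt_iff_coeff_zero]
  intro m hm
  rw [finsetSum_coeff]
  simp only [coeff_C_mul_X_pow]
  rw [Finset.sum_ite_eq, if_neg]
  rw [Finset.mem_range]
  omega

theorem PP_monic (b : ℕ) (ρ : ℝ) (w : A) : (PP b ρ w).Monic :=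
  monic_X_pow_add (PP_degree_lt b ρ w)

theorem PP_natDegree (b : ℕ) (ρ : ℝ) (w : A) : (PP b ρ w).natDegree = b := by
  apply natDegree_eq_of_degree_eq_some
  unfold PP
  rw [degree_add_eq_left_of_degree_lt, degree_X_pow]
  rw [degree_X_pow]
  exact PP_degree_lt b ρ w

theorem PP_eval {b : ℕ} {ρ : ℝ} {w : A} (hw : ∀ n, w (n + b) = e0 n) (ξ : ℝ) :
    (PP b ρ w).eval (ρ * ξ) = ρ ^ b * ev ξ w := by
  unfold PP ev
  rw [tsum_eq_sum (s := Finset.range (b + 1))]
  · rw [Finset.sum_range_succ, eval_add, eval_pow, eval_X, eval_finsetSum, mul_add,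
      Finset.mul_sum]
    have h1 := hw 0
    rw [zero_add, e0_zero] at h1
    rw [h1, one_mul, mul_pow, add_comm]
    congr 1
    refine Finset.sum_congr rfl fun n hn => ?_
    rw [Finset.mem_range] at hn
    rw [eval_mul, eval_C, eval_pow, eval_X, mul_pow]
    have h2 : ρ ^ b = ρ ^ (b - n) * ρ ^ n := by
      rw [← pow_add]
      congr 1
      omega
    rw [h2]
    ring
  · intro n hn
    rw [Finset.mem_range, not_lt] at hn
    obtain ⟨m, rfl⟩ := Nat.exists_eq_add_of_le hn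
    have h1 := hw (m + 1)
    rw [e0_succ] at h1
    rw [show b + 1 + m = m + 1 + b by omega, h1, zero_mul]

end WP

variable {Y : Type} [NormedAddCommGroup Y] [NormedSpace ℝ Y] [FiniteDimensional ℝ Y]

open WP in
/-- Weierstrass preparation theorem for real-analytic functions. -/
theorem weierstrass {F : ℝ × Y → ℝ} {p0 : Y} (hF : AnalyticAt ℝ F (0, p0)) {b : ℕ} {u : ℝ → ℝ}
    (hu : AnalyticAt ℝ u 0) (hu0 : u 0 ≠ 0) (hFu : ∀ᶠ x in 𝓝 (0 : ℝ), F (x, p0) = x ^ b * u x) :
    ∃ P : Y → ℝ[X], (∀ y, (P y).Monic ∧ (P y).natDegree = b) ∧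
      (∀ i, AnalyticAt ℝ (fun y => (P y).coeff i) p0) ∧ P p0 = X ^ b ∧
      ∃ r > 0, ∀ᶠ y in 𝓝 p0, ∀ x : ℝ, |x| ≤ r → (F (x, y) = 0 ↔ (P y).eval x = 0) := by
  have hU : AnalyticAt ℝ (fun z : ℝ × Y => u z.1) (0, p0) :=
    AnalyticAt.comp_of_eq hu analyticAt_fst rfl
  have hV : AnalyticAt ℝ (fun z : ℝ × Y => (u z.1)⁻¹) (0, p0) := hU.inv hu0
  obtain ⟨ρ1, hρ1, H1⟩ := exists_G hF
  obtain ⟨ρ2, hρ2, H2⟩ := exists_G hU
  obtain ⟨ρ3, hρ3, H3⟩ := exists_G hV
  have hune : ∀ᶠ x in 𝓝 (0 : ℝ), u x ≠ 0 := hu.continuousAt.eventually_ne hu0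
  obtain ⟨δ, hδ, hδ'⟩ := Metric.eventually_nhds_iff.1 (hFu.and hune)
  obtain ⟨ρ, hρpos, hρle1, hρle2, hρle3, hρδ⟩ : ∃ ρ : NNReal, 0 < ρ ∧ ρ ≤ ρ1 ∧ ρ ≤ ρ2 ∧ ρ ≤ ρ3 ∧
      (ρ : ℝ) ≤ δ := by
    refine ⟨min (min ρ1 ρ2) (min ρ3 ⟨δ, hδ.le⟩), ?_, ?_, ?_, ?_, ?_⟩
    · exact lt_min (lt_min hρ1 hρ2) (lt_min hρ3 hδ)
    · exact (min_le_left _ _).trans (min_le_left _ _)
    · exact (min_le_left _ _).trans (min_le_right _ _)
    · exact (min_le_right _ _).trans (min_le_left _ _)
    · exact (NNReal.coe_le_coe.2 ((min_le_right _ _).trans (min_le_right _ _)))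
  have hρ0 : (0 : ℝ) < ρ := hρpos
  obtain ⟨G, hGa, hG⟩ := H1 ρ hρle1
  obtain ⟨GU, -, hGU⟩ := H2 ρ hρle2
  obtain ⟨GV, -, hGV⟩ := H3 ρ hρle3
  have hG0 := hG.self_of_nhds
  have hU0 := hGU.self_of_nhds
  have hV0 := hGV.self_of_nhds
  obtain ⟨U, hUdef⟩ : ∃ U, U = GU p0 := ⟨_, rfl⟩
  obtain ⟨V, hVdef⟩ : ∃ V, V = GV p0 := ⟨_, rfl⟩
  rw [← hUdef] at hU0
  rw [← hVdef] at hV0
  have hsmall : ∀ ξ : ℝ, |ξ| ≤ 1 / 2 →
      F (ρ * ξ, p0) = (ρ * ξ) ^ b * u (ρ * ξ) ∧ u (ρ * ξ) ≠ 0 := by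
    intro ξ hξ
    refine hδ' ?_
    rw [dist_zero_right, Real.norm_eq_abs, abs_mul, abs_of_pos hρ0]
    nlinarith only [hδ, hρδ, hξ, abs_nonneg ξ]
  have hUV : U * V = 1 := by
    refine op_ext fun ξ _ hξ f => ?_
    show ev ξ (U (V f)) = ev ξ f
    rw [hU0 ξ hξ, hV0 ξ hξ, ← mul_assoc, mul_inv_cancel₀ (hsmall ξ hξ).2, one_mul]
  have hVU : V * U = 1 := by
    refine op_ext fun ξ _ hξ f => ?_
    show ev ξ (V (U f)) = ev ξ f
    rw [hV0 ξ hξ, hU0 ξ hξ, ← mul_assoc, inv_mul_cancel₀ (hsmall ξ hξ).2, one_mul]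
  have hGp : G p0 = (ρ : ℝ) ^ b • (S ^ b * U) := by
    refine op_ext fun ξ _ hξ f => ?_
    have h1 : ((ρ : ℝ) ^ b • (S ^ b * U)) f = (ρ : ℝ) ^ b • (S ^ b) (U f) := rfl
    rw [hG0 ξ hξ, h1, ev_smul, ev_S_pow hξ, hU0 ξ hξ, (hsmall ξ hξ).1]
    ring
  obtain ⟨K, hK⟩ : ∃ K : Y → (A →L[ℝ] A), K = fun y => T ^ b * G y := ⟨_, rfl⟩
  have hKa : AnalyticAt ℝ K p0 := by
    rw [hK]
    exact analyticAt_const.mul hGa
  have hKp : K p0 = (ρ : ℝ) ^ b • U := by
    rw [hK]
    simp only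
    rw [hGp, mul_smul_comm, ← mul_assoc, T_pow_mul_S_pow, one_mul]
  have hρb : (ρ : ℝ) ^ b ≠ 0 := pow_ne_zero _ hρ0.ne'
  let κ : (A →L[ℝ] A)ˣ := ⟨K p0, ((ρ : ℝ) ^ b)⁻¹ • V, by
    rw [hKp, smul_mul_smul_comm, hUV, mul_inv_cancel₀ hρb, one_smul], by
    rw [hKp, smul_mul_smul_comm, hVU, inv_mul_cancel₀ hρb, one_smul]⟩
  have hinv : AnalyticAt ℝ (fun y => Ring.inverse (K y)) p0 :=
    AnalyticAt.comp_of_eq (analyticAt_inverse κ) hKa rfl
  obtain ⟨q, hq⟩ : ∃ q : Y → A, q = fun y => Ring.inverse (K y) e0 := ⟨_, rfl⟩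
  obtain ⟨w, hw⟩ : ∃ w : Y → A, w = fun y => G y (q y) := ⟨_, rfl⟩
  have hqc : ContinuousAt q p0 := by
    rw [hq]
    exact ((ContinuousLinearMap.apply ℝ A e0).continuous.continuousAt).comp hinv.continuousAt
  have hwa : ∀ n, AnalyticAt ℝ (fun y => w y n) p0 := by
    intro n
    have h1 : AnalyticAt ℝ (fun y => G y * Ring.inverse (K y)) p0 := hGa.mul hinv
    have h2 := ((cf n) ∘L (ContinuousLinearMap.apply ℝ A e0)).analyticAt (G p0 *
      Ring.inverse (K p0))
    have h3 := AnalyticAt.comp_of_eq h2 h1 rfl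
    rw [hw, hq]
    exact h3
  have hunit : ∀ᶠ y in 𝓝 p0, IsUnit (K y) :=
    hKa.continuousAt.eventually (Units.isOpen.mem_nhds ⟨κ, rfl⟩)
  have hwb : ∀ y, IsUnit (K y) → ∀ n, w y (n + b) = e0 n := by
    intro y hy n
    rw [← T_pow_apply]
    have h1 : (T ^ b) (w y) = (K y * Ring.inverse (K y)) e0 := by
      rw [hw, hq, hK]
      rfl
    rw [h1, Ring.mul_inverse_cancel _ hy]
    rfl
  have hgw : ∀ᶠ y in 𝓝 p0, ∀ ξ : ℝ, |ξ| ≤ 1 / 2 → ev ξ (w y) = F (ρ * ξ, y) * ev ξ (q y) := by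
    filter_upwards [hG] with y hy ξ hξ
    rw [hw]
    exact hy ξ hξ (q y)
  -- lower bound for `ev ξ (q p0)`
  obtain ⟨c, hc⟩ : ∃ c : ℝ, c = 1 / ((ρ : ℝ) ^ b * (2 * ‖U e0‖ + 1)) := ⟨_, rfl⟩
  have hcpos : 0 < c := by
    rw [hc]
    (clear * - hρpos; positivity)
  have hlow : ∀ ξ : ℝ, |ξ| ≤ 1 / 2 → c ≤ |ev ξ (q p0)| := by
    intro ξ hξ
    have h1 : ev ξ (K p0 (q p0)) = 1 := by
      have h2 : K p0 (q p0) = (K p0 * Ring.inverse (K p0)) e0 := by
        rw [hq]
        rfl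
      rw [h2, Ring.mul_inverse_cancel _ ⟨κ, rfl⟩]
      exact ev_e0
    have h3 : ev ξ (K p0 (q p0)) = (ρ : ℝ) ^ b * (u (ρ * ξ) * ev ξ (q p0)) := by
      have h4 : K p0 (q p0) = (ρ : ℝ) ^ b • U (q p0) := by
        rw [hKp]
        rfl
      rw [h4, ev_smul, hU0 ξ hξ]
    have h5 : |u (ρ * ξ)| ≤ 2 * ‖U e0‖ + 1 := by
      have h6 := hU0 ξ hξ e0
      rw [ev_e0, mul_one] at h6
      rw [← h6]
      linarith only [hξ, abs_ev_le hξ (U e0)]
    rw [h1] at h3
    have h7 : 1 = (ρ : ℝ) ^ b * (|u (ρ * ξ)| * |ev ξ (q p0)|) := by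
      have h8 := congrArg abs h3
      rwa [abs_one, abs_mul, abs_mul, abs_of_pos (pow_pos hρ0 b)] at h8
    rw [hc, div_le_iff₀ (by (clear * - hρpos; positivity))]
    calc (1 : ℝ) = (ρ : ℝ) ^ b * (|u (ρ * ξ)| * |ev ξ (q p0)|) := h7
      _ ≤ (ρ : ℝ) ^ b * ((2 * ‖U e0‖ + 1) * |ev ξ (q p0)|) := by (clear * - hρpos h5; gcongr)
      _ = |ev ξ (q p0)| * ((ρ : ℝ) ^ b * (2 * ‖U e0‖ + 1)) := by ring
  have hnear : ∀ᶠ y in 𝓝 p0, ‖q y - q p0‖ < c / 2 := by
    have := Metric.continuousAt_iff.1 hqc (c / 2) (by (clear * - hcpos; positivity))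
    obtain ⟨η, hη, h⟩ := this
    filter_upwards [Metric.ball_mem_nhds p0 hη] with y hy
    rw [← dist_eq_norm]
    exact h hy
  refine ⟨fun y => PP b ρ (w y), fun y => ⟨PP_monic _ _ _, PP_natDegree _ _ _⟩, ?_, ?_,
    (ρ : ℝ) / 2, by (clear * - hρpos; positivity), ?_⟩
  · intro i
    simp only [PP_coeff]
    by_cases h : i < b
    · simp only [h, if_true]
      exact analyticAt_const.add ((hwa i).mul analyticAt_const)
    · simp only [h, if_false]
      exact analyticAt_const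
  · show PP b ρ (w p0) = X ^ b
    unfold PP
    rw [Finset.sum_eq_zero, add_zero]
    intro n hn
    rw [Finset.mem_range] at hn
    have h1 : w p0 n = 0 := by
      have h2 : w p0 = (ρ : ℝ) ^ b • (S ^ b) (U (q p0)) := by
        rw [hw]
        simp only
        rw [hGp]
        rfl
      rw [h2, A_smul, S_pow_apply_lt b _ hn, mul_zero]
    rw [h1, zero_mul, C_0, zero_mul]
  · filter_upwards [hunit, hgw, hnear] with y hy1 hy2 hy3 x hx
    obtain ⟨ξ, hξdef⟩ : ∃ ξ : ℝ, ξ = x / ρ := ⟨_, rfl⟩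
    have hxξ : x = ρ * ξ := by
      rw [hξdef]
      field_simp
    have hξ : |ξ| ≤ 1 / 2 := by
      rw [hξdef, abs_div, abs_of_pos hρ0, div_le_iff₀ hρ0]
      linarith only [hx]
    have h1 := hy2 ξ hξ
    have h2 := PP_eval (ρ := (ρ : ℝ)) (hwb y hy1) ξ
    have h3 : ev ξ (q y) ≠ 0 := by
      intro h4
      have h5 := (evL hξ).map_sub (q y) (q p0)
      rw [evL_apply, evL_apply, evL_apply, h4, zero_sub] at h5
      have h6 := abs_ev_le hξ (q y - q p0)
      rw [h5, abs_neg] at h6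
      have h7 := hlow ξ hξ
      linarith only [hy3, h6, h7]
    rw [hxξ, h2, h1]
    constructor
    · intro h4
      rw [h4, zero_mul, mul_zero]
    · intro h4
      rcases mul_eq_zero.1 h4 with h5 | h5
      · exact absurd h5 hρb
      · rcases mul_eq_zero.1 h5 with h6 | h6
        · exact h6
        · exact absurd h6 h3

end Vale.Agent.P274.W
end
namespace AFastc6663ex2236a
@[reducible] noncomputable def a0 : MulAction ℝ Vale.Agent.P274.W.WP.A := inferInstance
@[reducible] noncomputable def a1 : AddCommMonoid Vale.Agent.P274.W.WP.A := inferInstance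
@[reducible] noncomputable def a2 : AddCommGroup Vale.Agent.P274.W.WP.A := inferInstance
@[reducible] noncomputable def a3 : AddMonoid Vale.Agent.P274.W.WP.A := inferInstance
@[reducible] noncomputable def a4 : Zero Vale.Agent.P274.W.WP.A := inferInstance
@[reducible] noncomputable def a5 : TopologicalSpace Vale.Agent.P274.W.WP.A := inferInstance
@[reducible] noncomputable def a6 : UniformSpace Vale.Agent.P274.W.WP.A := inferInstance
@[reducible] noncomputable def a7 : AddZero Vale.Agent.P274.W.WP.A := inferInstance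
@[reducible] noncomputable def a8 : AddZeroClass Vale.Agent.P274.W.WP.A := inferInstance
@[reducible] noncomputable def a9 : Add Vale.Agent.P274.W.WP.A := inferInstance
end AFastc6663ex2236a
attribute [local instance] AFastc6663ex2236a.a0 AFastc6663ex2236a.a1 AFastc6663ex2236a.a2
  AFastc6663ex2236a.a3 AFastc6663ex2236a.a4 AFastc6663ex2236a.a5 AFastc6663ex2236a.a6
  AFastc6663ex2236a.a7 AFastc6663ex2236a.a8 AFastc6663ex2236a.a9
namespace AFastc6663ex2236b
@[reducible] noncomputable def a0 : SMul ℝ Vale.Agent.P274.W.WP.A := inferInstance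
end AFastc6663ex2236b
attribute [local instance] AFastc6663ex2236b.a0

section

set_option linter.unusedSectionVars false

open Filter Metric Set Topology Polynomial

namespace Vale.Agent.P274

variable {X : Type*} [NormedAddCommGroup X] [NormedSpace ℂ X]

/-- A separable family of polynomials over the set `Ω`. -/
structure SepFam (Ω : Set X) (d : ℕ) (g : X → ℂ[X]) : Prop where
  an : ∀ j, AnalyticOnNhd ℂ (fun w => (g w).coeff j) Ω
  deg : ∀ w ∈ Ω, (g w).natDegree ≤ d
  lc : ∀ w ∈ Ω, (g w).coeff d ≠ 0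
  sep : ∀ w ∈ Ω, ∀ x, (g w).eval x = 0 → (derivative (g w)).eval x ≠ 0

variable {Ω : Set X} {d : ℕ} {g : X → ℂ[X]}

theorem SepFam.eval_eq (h : SepFam Ω d g) {w : X} (hw : w ∈ Ω) (x : ℂ) :
    (g w).eval x = ∑ j ∈ Finset.range (d + 1), (g w).coeff j * x ^ j :=
  Polynomial.eval_eq_sum_range' (Nat.lt_succ_of_le (h.deg w hw)) x

theorem SepFam.analyticAt (h : SepFam Ω d g) (hΩ : IsOpen Ω) {w : X} (hw : w ∈ Ω) (x : ℂ) :
    AnalyticAt ℂ (fun p : X × ℂ => (g p.1).eval p.2) (w, x) := by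
  have h1 : AnalyticAt ℂ (fun p : X × ℂ => ∑ j ∈ Finset.range (d + 1), (g p.1).coeff j * p.2 ^ j)
      (w, x) := by
    refine Finset.analyticAt_fun_sum _ fun j _ => ?_
    refine AnalyticAt.mul ?_ (analyticAt_snd.pow j)
    exact AnalyticAt.fun_comp (g := fun w => (g w).coeff j) (f := fun p : X × ℂ => p.1)
      (h.an j w hw) analyticAt_fst
  refine h1.congr ?_
  have h2 : ∀ᶠ p : X × ℂ in 𝓝 (w, x), p.1 ∈ Ω :=
    (continuous_fst.tendsto (w, x)).eventually (hΩ.mem_nhds hw)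
  filter_upwards [h2] with p hp
  exact (h.eval_eq hp p.2).symm

/-- The local biholomorphism. -/
theorem SepFam.localEquiv [CompleteSpace X] (h : SepFam Ω d g) (hΩ : IsOpen Ω) {w : X}
    (hw : w ∈ Ω) {x : ℂ} (hx : (g w).eval x = 0) :
    ∃ φ : OpenPartialHomeomorph (X × ℂ) (X × ℂ), (w, x) ∈ φ.source ∧
      (∀ p, φ p = (p.1, (g p.1).eval p.2)) ∧ AnalyticAt ℂ φ.symm (w, 0) := by
  set Φ : X × ℂ → X × ℂ := fun p => (p.1, (g p.1).eval p.2) with hΦ
  have han := h.analyticAt hΩ hw x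
  have hΦan : AnalyticAt ℂ Φ (w, x) := analyticAt_fst.prod han
  set A : X × ℂ →L[ℂ] ℂ := fderiv ℂ (fun p : X × ℂ => (g p.1).eval p.2) (w, x) with hA
  set a : ℂ := (derivative (g w)).eval x with ha
  have ha0 : a ≠ 0 := h.sep w hw x hx
  have hAa : ∀ t : ℂ, A (0, t) = a * t := by
    intro t
    have h1 : HasFDerivAt (fun p : X × ℂ => (g p.1).eval p.2) A (w, x) :=
      han.differentiableAt.hasFDerivAt
    have h2 : HasFDerivAt (fun s : ℂ => ((w, s) : X × ℂ))
        ((0 : ℂ →L[ℂ] X).prod (ContinuousLinearMap.id ℂ ℂ)) x :=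
      (hasFDerivAt_const w x).prodMk (hasFDerivAt_id x)
    have h3 : HasFDerivAt (fun s : ℂ => (g w).eval s) (A.comp _) x :=
      HasFDerivAt.comp (g := fun p : X × ℂ => (g p.1).eval p.2) (f := fun s : ℂ => ((w, s) : X × ℂ))
        x h1 h2
    have h4 : HasFDerivAt (fun s : ℂ => (g w).eval s) _ x :=
      ((g w).hasDerivAt x).hasFDerivAt
    have h5 := congrArg (fun L : ℂ →L[ℂ] ℂ => L t) (h3.unique h4)
    simp only [ContinuousLinearMap.comp_apply, ContinuousLinearMap.prod_apply,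
      _root_.zero_apply, ContinuousLinearMap.id_apply] at h5
    rw [h5]
    simp [ha, mul_comm]
  set L : (X × ℂ) →L[ℂ] (X × ℂ) := (ContinuousLinearMap.fst ℂ X ℂ).prod A with hL
  set M : (X × ℂ) →L[ℂ] (X × ℂ) := (ContinuousLinearMap.fst ℂ X ℂ).prod
    (a⁻¹ • (ContinuousLinearMap.snd ℂ X ℂ - A.comp ((ContinuousLinearMap.inl ℂ X ℂ).comp
      (ContinuousLinearMap.fst ℂ X ℂ)))) with hM
  have hsplit : ∀ p : X × ℂ, A p = A (p.1, 0) + a * p.2 := by
    intro p
    rw [← hAa, ← map_add]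
    simp
  set e : (X × ℂ) ≃L[ℂ] (X × ℂ) := ContinuousLinearEquiv.equivOfInverse L M (fun p => by
    simp only [hL, hM, ContinuousLinearMap.prod_apply, ContinuousLinearMap.coe_fst',
      _root_.smul_apply, _root_.sub_apply,
      ContinuousLinearMap.coe_snd', ContinuousLinearMap.comp_apply,
      ContinuousLinearMap.inl_apply, smul_eq_mul]
    rw [hsplit p]
    ext
    · rfl
    · change a⁻¹ * (A (p.1, 0) + a * p.2 - A (p.1, 0)) = p.2
      rw [add_sub_cancel_left, inv_mul_cancel_left₀ ha0]) (fun p => by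
    simp only [hL, hM, ContinuousLinearMap.prod_apply, ContinuousLinearMap.coe_fst',
      _root_.smul_apply, _root_.sub_apply,
      ContinuousLinearMap.coe_snd', ContinuousLinearMap.comp_apply,
      ContinuousLinearMap.inl_apply, smul_eq_mul]
    ext
    · rfl
    · change A (p.1, a⁻¹ * (p.2 - A (p.1, 0))) = p.2
      rw [hsplit]
      change A (p.1, 0) + a * (a⁻¹ * (p.2 - A (p.1, 0))) = p.2
      rw [mul_inv_cancel_left₀ ha0]
      ring) with he
  have hd : HasFDerivAt Φ (e : (X × ℂ) →L[ℂ] (X × ℂ)) (w, x) := by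
    have h1 : HasFDerivAt Φ L (w, x) :=
      (ContinuousLinearMap.fst ℂ X ℂ).hasFDerivAt.prodMk han.differentiableAt.hasFDerivAt
    exact h1
  have hcd : ContDiffAt ℂ ⊤ Φ (w, x) := hΦan.contDiffAt
  have hne : (⊤ : WithTop ℕ∞) ≠ 0 := by simp
  have h6 := hcd.to_localInverse hd hne
  have h7 : Φ (w, x) = (w, 0) := by simp only [hΦ, hx]
  rw [h7] at h6
  exact ⟨hcd.toOpenPartialHomeomorph Φ hd hne, hcd.mem_toOpenPartialHomeomorph_source hd hne,
    fun p => by rw [hcd.toOpenPartialHomeomorph_coe], h6.analyticAt⟩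

end Vale.Agent.P274
end

section

/-! # P274-V15: the Bergman space `A²(U)`

`Hol2 μ U ⊆ L²(U)`: classes having a representative holomorphic on `U`.  `rep φ` is the
holomorphic representative (unique on `U` since open sets have positive measure and holomorphic functions
are continuous).
Closedness: let `φ_n → φ` in `L²`, `f_n = rep φ_n`.  By `sq_norm_le_integral`, for `x ∈ U` there are `r, C` with
`|f_n(y) - f_m(y)| ≤ C ‖φ_n - φ_m‖` on `ball x r`; so `f_n` converges locally uniformly on `U` to some `f`,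
which is holomorphic (`montel`/`montel_full` from P274/Montel with any ultrafilter, or one-variable slices);
a subsequence converges a.e. to `φ`
(`tendstoInMeasure_of_tendsto_Lp`, `TendstoInMeasure.exists_seq_tendsto_ae`), so `φ = f` a.e. -/

open Set Complex ComplexConjugate Topology MeasureTheory Metric
open scoped ContDiff

set_option linter.all false

namespace Vale.Agent.P274.V

variable {E : Type*} [NormedAddCommGroup E] [NormedSpace ℂ E]

variable [MeasurableSpace E] [BorelSpace E]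

/-- The Bergman space. -/
def Hol2 (μ : Measure E) (U : Set E) : Submodule ℂ (Lp ℂ 2 (μ.restrict U)) where
  carrier := {φ | ∃ f : E → ℂ, DifferentiableOn ℂ f U ∧ φ =ᵐ[μ.restrict U] f}
  zero_mem' := ⟨0, differentiableOn_const 0, Lp.coeFn_zero _ _ _⟩
  add_mem' := by
    rintro φ ψ ⟨f, hf, hf2⟩ ⟨g, hg, hg2⟩
    exact ⟨f + g, hf.add hg, (Lp.coeFn_add φ ψ).trans (hf2.add hg2)⟩
  smul_mem' := by
    rintro c φ ⟨f, hf, hf2⟩
    exact ⟨c • f, hf.const_smul c, (Lp.coeFn_smul c φ).trans (hf2.const_smul c)⟩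

/-- The holomorphic representative. -/
noncomputable def rep {μ : Measure E} {U : Set E} (φ : Hol2 μ U) : E → ℂ :=
  Classical.choose φ.2

theorem rep_diff {μ : Measure E} {U : Set E} (φ : Hol2 μ U) : DifferentiableOn ℂ (rep φ) U :=
  (Classical.choose_spec φ.2).1

theorem rep_ae {μ : Measure E} {U : Set E} (φ : Hol2 μ U) :
    (φ : Lp ℂ 2 (μ.restrict U)) =ᵐ[μ.restrict U] rep φ :=
  (Classical.choose_spec φ.2).2

/-- Uniqueness of holomorphic (or continuous) representatives. -/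
theorem eqOn_of_ae [FiniteDimensional ℂ E] (μ : Measure E) [μ.IsAddHaarMeasure] {U : Set E}
    (hU : IsOpen U) {f g : E → ℂ} (hf : ContinuousOn f U) (hg : ContinuousOn g U)
    (h : f =ᵐ[μ.restrict U] g) : EqOn f g U :=
  Measure.eqOn_open_of_ae_eq h hU hf hg

theorem rep_add [FiniteDimensional ℂ E] (μ : Measure E) [μ.IsAddHaarMeasure] {U : Set E}
    (hU : IsOpen U) (φ ψ : Hol2 μ U) {x : E} (hx : x ∈ U) :
    rep (φ + ψ) x = rep φ x + rep ψ x := by
  refine eqOn_of_ae μ hU (f := rep (φ + ψ)) (g := rep φ + rep ψ) (rep_diff _).continuousOn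
    ((rep_diff φ).continuousOn.add (rep_diff ψ).continuousOn) ?_ hx
  refine (rep_ae (φ + ψ)).symm.trans ?_
  rw [Submodule.coe_add]
  exact (Lp.coeFn_add (φ : Lp ℂ 2 (μ.restrict U)) ψ).trans ((rep_ae φ).add (rep_ae ψ))

theorem rep_smul [FiniteDimensional ℂ E] (μ : Measure E) [μ.IsAddHaarMeasure] {U : Set E}
    (hU : IsOpen U) (c : ℂ) (φ : Hol2 μ U) {x : E} (hx : x ∈ U) :
    rep (c • φ) x = c * rep φ x := by
  refine eqOn_of_ae μ hU (f := rep (c • φ)) (g := c • rep φ) (rep_diff _).continuousOn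
    ((rep_diff φ).continuousOn.const_smul c) ?_ hx
  refine (rep_ae (c • φ)).symm.trans ?_
  rw [Submodule.coe_smul]
  exact (Lp.coeFn_smul c (φ : Lp ℂ 2 (μ.restrict U))).trans ((rep_ae φ).const_smul c)

/-- A square integrable holomorphic function defines an element. -/
theorem exists_rep_eq [FiniteDimensional ℂ E] (μ : Measure E) [μ.IsAddHaarMeasure] {U : Set E}
    (hU : IsOpen U) {f : E → ℂ} (hf : DifferentiableOn ℂ f U)
    (hf2 : MemLp f 2 (μ.restrict U)) : ∃ φ : Hol2 μ U, EqOn (rep φ) f U := by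
  refine ⟨⟨hf2.toLp f, f, hf, hf2.coeFn_toLp⟩, ?_⟩
  refine eqOn_of_ae μ hU (rep_diff _).continuousOn hf.continuousOn ?_
  exact (rep_ae _).symm.trans hf2.coeFn_toLp

theorem integral_sq_rep {μ : Measure E} {U : Set E} (φ : Hol2 μ U) :
    Integrable (fun y => ‖rep φ y‖ ^ 2) (μ.restrict U) ∧
      ∫ y in U, ‖rep φ y‖ ^ 2 ∂μ = ‖φ‖ ^ 2 := by
  have hae : (fun y => ‖(φ : Lp ℂ 2 (μ.restrict U)) y‖ ^ 2) =ᵐ[μ.restrict U]
      fun y => ‖rep φ y‖ ^ 2 := by
    filter_upwards [rep_ae φ] with y hy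
    rw [hy]
  have hint : Integrable (fun y => ‖(φ : Lp ℂ 2 (μ.restrict U)) y‖ ^ 2) (μ.restrict U) := by
    have h := (Lp.memLp (φ : Lp ℂ 2 (μ.restrict U))).integrable_norm_pow (by norm_num)
    simpa using h
  refine ⟨hint.congr hae, ?_⟩
  rw [← integral_congr_ae hae]
  have h1 : ‖φ‖ ^ 2 = ‖(φ : Lp ℂ 2 (μ.restrict U))‖ ^ 2 := rfl
  rw [h1, ← inner_self_eq_norm_sq (𝕜 := ℂ), L2.inner_def]
  have h2 : ∀ y, inner ℂ ((φ : Lp ℂ 2 (μ.restrict U)) y) ((φ : Lp ℂ 2 (μ.restrict U)) y) =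
      ((‖(φ : Lp ℂ 2 (μ.restrict U)) y‖ ^ 2 : ℝ) : ℂ) := by
    intro y
    rw [inner_self_eq_norm_sq_to_K]
    norm_cast
  simp_rw [h2]
  rw [integral_complex_ofReal]
  simp

/-- Point evaluations are bounded, locally uniformly. -/
theorem norm_rep_le [FiniteDimensional ℂ E] (μ : Measure E) [μ.IsAddHaarMeasure] {U : Set E}
    (hU : IsOpen U) {x : E} (hx : x ∈ U) :
    ∃ r > 0, ∃ C : ℝ, ball x r ⊆ U ∧ ∀ y ∈ ball x r, ∀ φ : Hol2 μ U, ‖rep φ y‖ ≤ C * ‖φ‖ := by
  have : ProperSpace E := FiniteDimensional.proper ℂ E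
  obtain ⟨R, hR, hRU⟩ := Metric.nhds_basis_closedBall.mem_iff.1 (hU.mem_nhds hx)
  have hr : 0 < R / 2 := by positivity
  set m : ℝ := (μ (ball (0 : E) (R / 2))).toReal with hm
  have hmpos : 0 < m := ENNReal.toReal_pos (measure_ball_pos μ 0 hr).ne' measure_ball_lt_top.ne
  refine ⟨R / 2, hr, Real.sqrt (1 / m), ?_, ?_⟩
  · exact (ball_subset_ball (by linarith)).trans (ball_subset_closedBall.trans hRU)
  · intro y hy φ
    have hyU : closedBall y (R / 2) ⊆ U := by
      refine (closedBall_subset_closedBall' ?_).trans hRU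
      have := mem_ball.1 hy
      linarith
    have h1 := sq_norm_le_integral μ hU (rep_diff φ) hr hyU
    have h2 := integral_sq_rep φ
    have h3 : ∫ z in ball y (R / 2), ‖rep φ z‖ ^ 2 ∂μ ≤ ∫ z in U, ‖rep φ z‖ ^ 2 ∂μ := by
      refine setIntegral_mono_set h2.1 (Filter.Eventually.of_forall fun z => by positivity) ?_
      exact (ball_subset_closedBall.trans hyU).eventuallyLE
    rw [h2.2] at h3
    have h4 : μ (ball y (R / 2)) = μ (ball (0 : E) (R / 2)) := Measure.addHaar_ball_center μ y _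
    rw [h4, ← hm] at h1
    have h5 : ‖rep φ y‖ ^ 2 ≤ (1 / m) * ‖φ‖ ^ 2 := by
      rw [div_mul_eq_mul_div, one_mul, le_div_iff₀ hmpos]
      linarith
    have h6 : (Real.sqrt (1 / m) * ‖φ‖) ^ 2 = (1 / m) * ‖φ‖ ^ 2 := by
      rw [mul_pow, Real.sq_sqrt (by positivity)]
    exact le_of_sq_le_sq (by rw [h6]; exact h5) (by positivity)

theorem norm_rep_sub_le [FiniteDimensional ℂ E] (μ : Measure E) [μ.IsAddHaarMeasure] {U : Set E}
    (hU : IsOpen U) {x : E} (hx : x ∈ U) :
    ∃ C : ℝ, ∀ φ ψ : Hol2 μ U, ‖rep φ x - rep ψ x‖ ≤ C * ‖φ - ψ‖ := by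
  obtain ⟨r, hr, C, -, hC⟩ := norm_rep_le μ hU hx
  refine ⟨C, fun φ ψ => ?_⟩
  have h := hC x (mem_ball_self hr) (φ - ψ)
  have e : rep (φ - ψ) x = rep φ x - rep ψ x := by
    have h1 : φ - ψ = φ + (-1 : ℂ) • ψ := by
      rw [neg_one_smul, sub_eq_add_neg]
    rw [h1, rep_add μ hU φ _ hx, rep_smul μ hU (-1) ψ hx]
    ring
  rwa [e] at h

theorem isClosed_Hol2 [FiniteDimensional ℂ E] (μ : Measure E) [μ.IsAddHaarMeasure] {U : Set E}
    (hU : IsOpen U) : IsClosed (Hol2 μ U : Set (Lp ℂ 2 (μ.restrict U))) := by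
  have : ProperSpace E := FiniteDimensional.proper ℂ E
  refine IsSeqClosed.isClosed ?_
  intro φ' φ hφ' hlim
  set Φ : ℕ → Hol2 μ U := fun n => ⟨φ' n, hφ' n⟩ with hΦ
  have hcau : CauchySeq φ' := hlim.cauchySeq
  -- boundedness of the norms
  obtain ⟨B, hB⟩ : ∃ B : ℝ, ∀ n, ‖φ' n‖ ≤ B := by
    obtain ⟨B, hB⟩ := (Metric.isBounded_range_of_tendsto _ hlim).exists_norm_le
    exact ⟨B, fun n => hB _ ⟨n, rfl⟩⟩
  have hB0 : 0 ≤ B := (norm_nonneg _).trans (hB 0)
  -- locally bounded family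
  set 𝒰 : Ultrafilter ℕ := Filter.hyperfilter ℕ with h𝒰
  have h𝒰at : (𝒰 : Filter ℕ) ≤ Filter.atTop := by
    rw [h𝒰, ← Nat.cofinite_eq_atTop]
    exact Filter.hyperfilter_le_cofinite
  have hloc : LocBdd (𝒰 : Filter ℕ) (fun n => rep (Φ n)) U := by
    intro x hx
    obtain ⟨r, hr, C, hrU, hC⟩ := norm_rep_le μ hU hx
    refine ⟨r, hr, |C| * B, Filter.Eventually.of_forall fun n => ⟨(rep_diff _).mono hrU, ?_⟩⟩
    intro y hy
    refine (hC y hy (Φ n)).trans ?_
    have : ‖Φ n‖ ≤ B := hB n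
    calc C * ‖Φ n‖ ≤ |C| * ‖Φ n‖ := mul_le_mul_of_nonneg_right (le_abs_self C) (norm_nonneg _)
      _ ≤ |C| * B := mul_le_mul_of_nonneg_left this (abs_nonneg C)
  obtain ⟨g, hgd, hg⟩ := montel 𝒰 hU hloc
  -- pointwise convergence along the whole sequence
  have hpt : ∀ x ∈ U, Filter.Tendsto (fun n => rep (Φ n) x) Filter.atTop (𝓝 (g x)) := by
    intro x hx
    obtain ⟨C, hC⟩ := norm_rep_sub_le μ hU hx
    have hc : CauchySeq fun n => rep (Φ n) x := by
      rw [Metric.cauchySeq_iff'] at hcau ⊢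
      intro ε hε
      obtain ⟨N, hN⟩ := hcau (ε / (|C| + 1)) (by positivity)
      refine ⟨N, fun n hn => ?_⟩
      have h1 := hN n hn
      rw [dist_eq_norm] at h1 ⊢
      have h2 : ‖Φ n - Φ N‖ = ‖φ' n - φ' N‖ := rfl
      calc ‖rep (Φ n) x - rep (Φ N) x‖ ≤ C * ‖Φ n - Φ N‖ := hC _ _
        _ ≤ (|C| + 1) * ‖φ' n - φ' N‖ := by
          rw [h2]
          exact mul_le_mul_of_nonneg_right (by linarith only [le_abs_self C]) (norm_nonneg _)
        _ < (|C| + 1) * (ε / (|C| + 1)) := mul_lt_mul_of_pos_left h1 (by positivity)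
        _ = ε := by field_simp
    obtain ⟨l, hl⟩ := cauchySeq_tendsto_of_complete hc
    have h1 := hg x hx (fun _ => x) tendsto_const_nhds
    have h2 : Filter.Tendsto (fun n => rep (Φ n) x) (𝒰 : Filter ℕ) (𝓝 l) := hl.mono_left h𝒰at
    rwa [tendsto_nhds_unique h1 h2]
  -- a subsequence converges almost everywhere
  obtain ⟨ns, hmono, hns⟩ := (tendstoInMeasure_of_tendsto_Lp hlim).exists_seq_tendsto_ae
  refine ⟨g, hgd, ?_⟩
  have hmem : ∀ᵐ x ∂(μ.restrict U), x ∈ U := ae_restrict_mem hU.measurableSet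
  have hall : ∀ᵐ x ∂(μ.restrict U), ∀ n, φ' n x = rep (Φ n) x :=
    ae_all_iff.2 fun n => rep_ae (Φ n)
  have hnst : Filter.Tendsto ns Filter.atTop Filter.atTop := hmono.tendsto_atTop
  filter_upwards [hns, hmem, hall] with x h1 h2 h3
  have h4 : Filter.Tendsto (fun i => φ' (ns i) x) Filter.atTop (𝓝 (g x)) := by
    simp_rw [h3]
    exact (hpt x h2).comp hnst
  exact tendsto_nhds_unique h1 h4

theorem complete_Hol2 [FiniteDimensional ℂ E] (μ : Measure E) [μ.IsAddHaarMeasure] {U : Set E}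
    (hU : IsOpen U) : CompleteSpace (Hol2 μ U) :=
  (isClosed_Hol2 μ hU).isComplete.completeSpace_coe

end Vale.Agent.P274.V
end
namespace AFastc6663ex2559a
@[reducible] noncomputable def a0.{u1} {x1 : Type u1} [x2 : MeasurableSpace x1] {x3 : MeasureTheory.Measure x1} {x4 : Set x1} [x5 : NormedAddCommGroup x1] [x6 : NormedSpace ℂ x1] : Norm ↥(Vale.Agent.P274.V.Hol2 x3 x4) := inferInstance
end AFastc6663ex2559a
attribute [local instance] AFastc6663ex2559a.a0
namespace AFastc6663ex2559b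
@[reducible] noncomputable def a0.{u1} {x1 : Type u1} [x2 : MeasurableSpace x1] {x3 : MeasureTheory.Measure x1} {x4 : Set x1} [x5 : NormedAddCommGroup x1] [x6 : NormedSpace ℂ x1] : SMul ℂ ↥(Vale.Agent.P274.V.Hol2 x3 x4) := inferInstance
end AFastc6663ex2559b
attribute [local instance] AFastc6663ex2559b.a0

section

/-! # P274-V16b: the unitary operator of an automorphism

`T φ = (φ ∘ f) · det f'` is a surjective linear isometry of
`A²(U)` (change of variables `MeasureTheory.integral_image_eq_integral_abs_det_fderiv_smul` or its `lintegral` version,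
`|det_ℝ| = |det_ℂ|²`: `LinearMap.det_restrictScalars`,
`Algebra.norm_complex_apply`; `det f'` is holomorphic: `Vale.Agent.P274.differentiableOn_det` in P274/Kernel;
the inverse is `(φ ∘ g) · det g'`, `det g'(f x) · det f'(x) = 1`).  Use `exists_rep_eq`, `rep_add`, `rep_smul`,
`eqOn_of_ae`; the norm on `Hol2 μ U` is the `L²` norm. -/

open Set Complex ComplexConjugate Topology MeasureTheory Metric
open scoped ContDiff

namespace Vale.Agent.P274.V

variable {E : Type*} [NormedAddCommGroup E] [NormedSpace ℂ E]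

/-- The real determinant of a complex linear map. -/
theorem abs_det_restrictScalars [FiniteDimensional ℂ E] (A : E →L[ℂ] E) :
    |(A.restrictScalars ℝ).det| = ‖A.det‖ ^ 2 := by
  have h1 : (A.restrictScalars ℝ).det
      = LinearMap.det ((A : E →ₗ[ℂ] E).restrictScalars ℝ) := rfl
  have h2 : A.det = LinearMap.det (A : E →ₗ[ℂ] E) := rfl
  rw [h1, h2, LinearMap.det_restrictScalars, Algebra.norm_complex_apply, Complex.normSq_eq_norm_sq,
    abs_of_nonneg (by positivity)]

/-- Chain rule for determinants of the two halves of a biholomorphism. -/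
theorem det_mul_det_inv [FiniteDimensional ℂ E] {U : Set E} (hU : IsOpen U) {f g : E → E}
    (hf : IsBiholo U U f g) {x : E} (hx : x ∈ U) :
    (fderiv ℂ g (f x)).det * (fderiv ℂ f x).det = 1 := by
  have hfx : HasFDerivAt f (fderiv ℂ f x) x :=
    (hf.diffOn.differentiableAt (hU.mem_nhds hx)).hasFDerivAt
  have hgx : HasFDerivAt g (fderiv ℂ g (f x)) (f x) :=
    (hf.diffOn_inv.differentiableAt (hU.mem_nhds (hf.mapsTo hx))).hasFDerivAt
  have hc : HasFDerivAt (g ∘ f) ((fderiv ℂ g (f x)).comp (fderiv ℂ f x)) x := hgx.comp x hfx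
  have hid : HasFDerivAt (g ∘ f) (ContinuousLinearMap.id ℂ E) x := by
    refine (hasFDerivAt_id x).congr_of_eventuallyEq ?_
    filter_upwards [hU.mem_nhds hx] with y hy
    exact hf.left_inv y hy
  have he := hc.unique hid
  have h3 : ((fderiv ℂ g (f x)).comp (fderiv ℂ f x)).det
      = (fderiv ℂ g (f x)).det * (fderiv ℂ f x).det := by
    show LinearMap.det _ = LinearMap.det _ * LinearMap.det _
    rw [← LinearMap.det_comp]
    rfl
  rw [← h3, he]
  show LinearMap.det _ = 1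
  exact LinearMap.det_id

variable [MeasurableSpace E] [BorelSpace E]

/-- Change of variables under a holomorphic automorphism. -/
theorem lintegral_biholo [FiniteDimensional ℂ E] (μ : Measure E) [μ.IsAddHaarMeasure] {U : Set E}
    (hU : IsOpen U) {f g : E → E} (hf : IsBiholo U U f g) (F : E → ENNReal) :
    ∫⁻ y in U, F y ∂μ = ∫⁻ x in U, ENNReal.ofReal (‖(fderiv ℂ f x).det‖ ^ 2) * F (f x) ∂μ := by
  have : FiniteDimensional ℝ E := FiniteDimensional.complexToReal E
  have himg : f '' U = U := by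
    apply Subset.antisymm
    · rintro _ ⟨x, hx, rfl⟩; exact hf.mapsTo hx
    · intro y hy; exact ⟨g y, hf.mapsTo_inv hy, hf.right_inv y hy⟩
  have hinj : InjOn f U := fun x hx y hy h => by
    rw [← hf.left_inv x hx, ← hf.left_inv y hy, h]
  have hd : ∀ x ∈ U, HasFDerivWithinAt f ((fderiv ℂ f x).restrictScalars ℝ) U x := fun x hx =>
    ((hf.diffOn.differentiableAt (hU.mem_nhds hx)).hasFDerivAt.restrictScalars ℝ).hasFDerivWithinAt
  have h := lintegral_image_eq_lintegral_abs_det_fderiv_mul μ hU.measurableSet hd hinj F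
  rw [himg] at h
  rw [h]
  simp only [abs_det_restrictScalars]

/-- Two elements of the Bergman space with the same representative on `U` are equal. -/
theorem Hol2.ext_rep {μ : Measure E} {U : Set E} (hU : MeasurableSet U) {φ ψ : Hol2 μ U}
    (h : ∀ x ∈ U, rep φ x = rep ψ x) : φ = ψ := by
  apply Subtype.ext
  apply Lp.ext
  have h1 : rep φ =ᵐ[μ.restrict U] rep ψ := by
    filter_upwards [ae_restrict_mem hU] with x hx
    exact h x hx
  exact (rep_ae φ).trans (h1.trans (rep_ae ψ).symm)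

theorem norm_eq_eLpNorm_rep {μ : Measure E} {U : Set E} (φ : Hol2 μ U) :
    ‖φ‖ = (eLpNorm (rep φ) 2 (μ.restrict U)).toReal := by
  have h : ‖φ‖ = ‖(φ : Lp ℂ 2 (μ.restrict U))‖ := rfl
  rw [h, Lp.norm_def, eLpNorm_congr_ae (rep_ae φ)]

theorem memLp_rep {μ : Measure E} {U : Set E} (φ : Hol2 μ U) :
    MemLp (rep φ) 2 (μ.restrict U) :=
  (Lp.memLp (φ : Lp ℂ 2 (μ.restrict U))).ae_eq (rep_ae φ)

theorem eLpNorm_biholo [FiniteDimensional ℂ E] (μ : Measure E) [μ.IsAddHaarMeasure] {U : Set E}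
    (hU : IsOpen U) {f g : E → E} (hf : IsBiholo U U f g) (F : E → ℂ) :
    eLpNorm (fun x => (fderiv ℂ f x).det * F (f x)) 2 (μ.restrict U)
      = eLpNorm F 2 (μ.restrict U) := by
  rw [eLpNorm_eq_lintegral_rpow_enorm_toReal (by norm_num) (by norm_num),
    eLpNorm_eq_lintegral_rpow_enorm_toReal (by norm_num) (by norm_num)]
  congr 1
  rw [lintegral_biholo μ hU hf (fun y => ‖F y‖ₑ ^ (2 : ENNReal).toReal)]
  refine lintegral_congr fun x => ?_
  rw [enorm_mul, ENNReal.mul_rpow_of_nonneg _ _ (by norm_num)]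
  congr 1
  rw [ENNReal.toReal_ofNat, ← ofReal_norm, ENNReal.ofReal_rpow_of_nonneg (norm_nonneg _) (by norm_num)]
  norm_num

/-- The transported function. -/
theorem exists_transport [FiniteDimensional ℂ E] (μ : Measure E) [μ.IsAddHaarMeasure] {U : Set E}
    (hU : IsOpen U) {f g : E → E} (hf : IsBiholo U U f g) (φ : Hol2 μ U) :
    ∃ ψ : Hol2 μ U, (∀ x ∈ U, rep ψ x = (fderiv ℂ f x).det * rep φ (f x)) ∧ ‖ψ‖ = ‖φ‖ := by
  have hd : DifferentiableOn ℂ (fun x => (fderiv ℂ f x).det * rep φ (f x)) U :=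
    (differentiableOn_det hU hf.diffOn).mul ((rep_diff φ).comp hf.diffOn hf.mapsTo)
  have hn := eLpNorm_biholo μ hU hf (rep φ)
  have hm : MemLp (fun x => (fderiv ℂ f x).det * rep φ (f x)) 2 (μ.restrict U) := by
    refine ⟨hd.continuousOn.aestronglyMeasurable hU.measurableSet, ?_⟩
    rw [hn]
    exact (memLp_rep φ).2
  obtain ⟨ψ, hψ⟩ := exists_rep_eq μ hU hd hm
  refine ⟨ψ, hψ, ?_⟩
  rw [norm_eq_eLpNorm_rep, norm_eq_eLpNorm_rep, ← hn]
  congr 1
  apply eLpNorm_congr_ae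
  filter_upwards [ae_restrict_mem hU.measurableSet] with x hx
  exact hψ hx

/-- The unitary operator attached to an automorphism. -/
theorem exists_unitary [FiniteDimensional ℂ E] (μ : Measure E) [μ.IsAddHaarMeasure] {U : Set E}
    (hU : IsOpen U) {f g : E → E} (hf : IsBiholo U U f g) :
    ∃ T : Hol2 μ U →ₗᵢ[ℂ] Hol2 μ U, Function.Surjective T ∧
      ∀ φ, ∀ x ∈ U, rep (T φ) x = (fderiv ℂ f x).det * rep φ (f x) := by
  choose T hT hTn using exists_transport μ hU hf
  have hadd : ∀ φ ψ, T (φ + ψ) = T φ + T ψ := by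
    intro φ ψ
    apply Hol2.ext_rep hU.measurableSet
    intro x hx
    rw [rep_add μ hU _ _ hx, hT _ x hx, hT _ x hx, hT _ x hx, rep_add μ hU _ _ (hf.mapsTo hx),
      mul_add]
  have hsmul : ∀ (c : ℂ) φ, T (c • φ) = c • T φ := by
    intro c φ
    apply Hol2.ext_rep hU.measurableSet
    intro x hx
    rw [rep_smul μ hU _ _ hx, hT _ x hx, hT _ x hx, rep_smul μ hU _ _ (hf.mapsTo hx)]
    ring
  refine ⟨⟨⟨⟨T, hadd⟩, hsmul⟩, hTn⟩, ?_, fun φ x hx => hT φ x hx⟩
  intro ψ
  obtain ⟨φ, hφ, -⟩ := exists_transport μ hU hf.symm ψ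
  refine ⟨φ, ?_⟩
  apply Hol2.ext_rep hU.measurableSet
  intro x hx
  show rep (T φ) x = rep ψ x
  rw [hT _ x hx, hφ _ (hf.mapsTo hx), hf.left_inv x hx, ← mul_assoc,
    mul_comm (fderiv ℂ f x).det, det_mul_det_inv hU hf hx, one_mul]

end Vale.Agent.P274.V
end

section

/-! # Integral curves of `C^1` vector fields on open subsets of a Banach space:
uniqueness, gluing, continuation. Auxiliary file for `Complete.lean`. -/

open Set Topology Filter Metric
open scoped ContDiff NNReal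

namespace Vale.Agent.P274.V

section ODE

variable {E : Type*} [NormedAddCommGroup E] [NormedSpace ℝ E]

/-- `γ` is an integral curve of `X` in `D` on the set `J`. -/
def IntC (D : Set E) (X : E → E) (γ : ℝ → E) (J : Set ℝ) : Prop :=
  ∀ t ∈ J, γ t ∈ D ∧ HasDerivAt γ (X (γ t)) t

theorem IntC.mono {D : Set E} {X : E → E} {γ : ℝ → E} {J J' : Set ℝ} (h : IntC D X γ J)
    (hJ : J' ⊆ J) : IntC D X γ J' := fun t ht => h t (hJ ht)

theorem IntC.continuousOn {D : Set E} {X : E → E} {γ : ℝ → E} {J : Set ℝ}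
    (h : IntC D X γ J) : ContinuousOn γ J :=
  fun t ht => (h t ht).2.continuousAt.continuousWithinAt

theorem exists_lipschitzOnWith_of_compact' {D : Set E} {X : E → E}
    (hX : ∀ x ∈ D, ContDiffAt ℝ 1 X x) {C : Set E} (hC : IsCompact C) (hCD : C ⊆ D) :
    ∃ K : ℝ≥0, LipschitzOnWith K X C := by
  apply LocallyLipschitzOn.exists_lipschitzOnWith_of_compact hC
  intro x hx
  obtain ⟨K, t, ht, h⟩ := (hX x (hCD hx)).exists_lipschitzOnWith
  exact ⟨K, t, mem_nhdsWithin_of_mem_nhds ht, h⟩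

theorem IntC.unique {D : Set E} {X : E → E} (hX : ∀ x ∈ D, ContDiffAt ℝ 1 X x)
    {γ σ : ℝ → E} {a b : ℝ} (h1 : IntC D X γ (Ioo a b)) (h2 : IntC D X σ (Ioo a b)) {t₀ : ℝ}
    (ht₀ : t₀ ∈ Ioo a b) (h0 : γ t₀ = σ t₀) : EqOn γ σ (Ioo a b) := by
  intro t ht
  obtain ⟨a', ha', ha''⟩ : ∃ a', a < a' ∧ a' < min t t₀ := exists_between (lt_min ht.1 ht₀.1)
  obtain ⟨b', hb', hb''⟩ : ∃ b', max t t₀ < b' ∧ b' < b := exists_between (max_lt ht.2 ht₀.2)
  have hsub : Icc a' b' ⊆ Ioo a b := fun s hs => ⟨ha'.trans_le hs.1, hs.2.trans_lt hb''⟩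
  have hC1 : IsCompact (γ '' Icc a' b') :=
    isCompact_Icc.image_of_continuousOn (h1.mono hsub).continuousOn
  have hC2 : IsCompact (σ '' Icc a' b') :=
    isCompact_Icc.image_of_continuousOn (h2.mono hsub).continuousOn
  obtain ⟨K, hK⟩ := exists_lipschitzOnWith_of_compact' hX (hC1.union hC2) (by
    rintro _ (⟨s, hs, rfl⟩ | ⟨s, hs, rfl⟩)
    · exact (h1 s (hsub hs)).1
    · exact (h2 s (hsub hs)).1)
  have key := ODE_solution_unique_of_mem_Ioo (v := fun _ => X) (K := K)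
    (s := fun _ => γ '' Icc a' b' ∪ σ '' Icc a' b') (f := γ) (g := σ) (a := a') (b := b')
    (t₀ := t₀) (fun _ _ => hK)
    ⟨ha''.trans_le (min_le_right _ _), (le_max_right _ _).trans_lt hb'⟩
    (fun s hs => ⟨(h1 s (hsub (Ioo_subset_Icc_self hs))).2,
      Or.inl ⟨s, Ioo_subset_Icc_self hs, rfl⟩⟩)
    (fun s hs => ⟨(h2 s (hsub (Ioo_subset_Icc_self hs))).2,
      Or.inr ⟨s, Ioo_subset_Icc_self hs, rfl⟩⟩) h0
  exact key ⟨ha''.trans_le (min_le_left _ _), (le_max_left _ _).trans_lt hb'⟩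

theorem IntC.neg {D : Set E} {X : E → E} {γ : ℝ → E} {a b : ℝ} (h : IntC D X γ (Ioo a b)) :
    IntC D (fun x => -X x) (fun t => γ (-t)) (Ioo (-b) (-a)) := by
  intro t ht
  have ht' : -t ∈ Ioo a b := ⟨by linarith [ht.2], by linarith [ht.1]⟩
  refine ⟨(h _ ht').1, ?_⟩
  have h1 := (h _ ht').2.scomp t (hasDerivAt_neg t)
  simpa [Function.comp_def] using h1

/-- Local existence. -/
theorem exists_intC_local [CompleteSpace E] {D : Set E} (hD : IsOpen D) {X : E → E}
    (hX : ∀ x ∈ D, ContDiffAt ℝ 1 X x) {x : E} (hx : x ∈ D) (t₀ : ℝ) :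
    ∃ γ : ℝ → E, γ t₀ = x ∧ ∃ ε > 0, IntC D X γ (Ioo (t₀ - ε) (t₀ + ε)) := by
  obtain ⟨α, h0, ε, hε, hα⟩ :=
    (hX x hx).exists_forall_mem_closedBall_exists_eq_forall_mem_Ioo_hasDerivAt₀ t₀
  have hc : ContinuousAt α t₀ := (hα t₀ ⟨by linarith, by linarith⟩).continuousAt
  have hm : ∀ᶠ t in 𝓝 t₀, α t ∈ D := hc (hD.mem_nhds (by rw [h0]; exact hx))
  obtain ⟨δ, hδ, hδ'⟩ := Metric.eventually_nhds_iff.1 hm
  refine ⟨α, h0, min ε δ, lt_min hε hδ, fun t ht => ⟨hδ' ?_, hα t ⟨?_, ?_⟩⟩⟩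
  · rw [Real.dist_eq, abs_lt]
    constructor
    · linarith [ht.1, min_le_right ε δ]
    · linarith [ht.2, min_le_right ε δ]
  · linarith [ht.1, min_le_left ε δ]
  · linarith [ht.2, min_le_left ε δ]

/-- Continuation to the right. -/
theorem IntC.extend_right [CompleteSpace E] {D : Set E} (hD : IsOpen D) {X : E → E}
    (hX : ∀ x ∈ D, ContDiffAt ℝ 1 X x) {γ : ℝ → E} {a b : ℝ} (hab : a < b)
    (h : IntC D X γ (Ioo a b)) {C : Set E} (hC : IsCompact C) (hCD : C ⊆ D) {b' : ℝ}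
    (hb' : b' < b) (hb : ∀ t ∈ Ioo a b, b' < t → γ t ∈ C) :
    ∃ δ > 0, ∃ σ : ℝ → E, EqOn σ γ (Ioo a b) ∧ IntC D X σ (Ioo a (b + δ)) := by
  set c := max a b' with hc
  have hcb : c < b := max_lt hab hb'
  have hsub : Ioo c b ⊆ Ioo a b := Ioo_subset_Ioo_left (le_max_left _ _)
  have hCc : ∀ t ∈ Ioo c b, γ t ∈ C := fun t ht =>
    hb t (hsub ht) ((le_max_right _ _).trans_lt ht.1)
  have hXc : ContinuousOn X C := fun x hx => (hX x (hCD hx)).continuousAt.continuousWithinAt
  obtain ⟨M, hM⟩ := hC.exists_bound_of_continuousOn hXc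
  have hM0 : 0 ≤ M := by
    obtain ⟨t, ht⟩ := (nonempty_Ioo (a := c) (b := b)).2 hcb
    exact (norm_nonneg _).trans (hM _ (hCc t ht))
  have hlip : ∀ s ∈ Ioo c b, ∀ t ∈ Ioo c b, ‖γ t - γ s‖ ≤ M * ‖t - s‖ := by
    intro s hs t ht
    exact (convex_Ioo c b).norm_image_sub_le_of_norm_hasDerivWithin_le
      (f := γ) (f' := fun t => X (γ t)) (C := M)
      (fun x hx => (h x (hsub hx)).2.hasDerivWithinAt) (fun x hx => hM _ (hCc x hx)) hs ht
  have hIoo : Ioo c b ∈ 𝓝[<] b := Ioo_mem_nhdsLT hcb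
  -- the limit
  obtain ⟨p, hp⟩ : ∃ p, Tendsto γ (𝓝[<] b) (𝓝 p) := by
    rw [← cauchy_map_iff_exists_tendsto, Metric.cauchy_iff]
    refine ⟨inferInstance, fun ε hε => ?_⟩
    set η := ε / (M + 1) / 2 with hη
    have hη0 : 0 < η := by positivity
    refine ⟨γ '' (Ioo (max c (b - η)) b), image_mem_map (Ioo_mem_nhdsLT (max_lt hcb (by linarith))),
      ?_⟩
    rintro _ ⟨s, hs, rfl⟩ _ ⟨t, ht, rfl⟩
    have hs' : s ∈ Ioo c b := ⟨(le_max_left _ _).trans_lt hs.1, hs.2⟩
    have ht' : t ∈ Ioo c b := ⟨(le_max_left _ _).trans_lt ht.1, ht.2⟩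
    have hs2 : b - η < s := (le_max_right _ _).trans_lt hs.1
    have ht2 : b - η < t := (le_max_right _ _).trans_lt ht.1
    rw [dist_eq_norm]
    calc ‖γ s - γ t‖ ≤ M * ‖s - t‖ := hlip t ht' s hs'
      _ ≤ M * η := by
          gcongr
          rw [Real.norm_eq_abs, abs_le]
          constructor <;> linarith [hs.2, ht.2]
      _ ≤ (M + 1) * η := by linarith only [hη0]
      _ = ε / 2 := by rw [hη]; field_simp
      _ < ε := by linarith
  have hpC : p ∈ C := hC.isClosed.mem_of_tendsto hp (by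
    filter_upwards [hIoo] with t ht using hCc t ht)
  have hpD : p ∈ D := hCD hpC
  obtain ⟨α, hα0, ε, hε, hα⟩ := exists_intC_local hD hX hpD b
  refine ⟨ε, hε, fun t => if t < b then γ t else α t, fun t ht => if_pos ht.2, ?_⟩
  have hleft : ∀ t, t < b → (fun t => if t < b then γ t else α t) =ᶠ[𝓝 t] γ := by
    intro t ht
    filter_upwards [Iio_mem_nhds ht] with s hs
    exact if_pos hs
  have hright : ∀ t, b < t → (fun t => if t < b then γ t else α t) =ᶠ[𝓝 t] α := by
    intro t ht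
    filter_upwards [Ioi_mem_nhds ht] with s hs
    exact if_neg (not_lt.2 (le_of_lt hs))
  intro t ht
  rcases lt_trichotomy t b with htb | rfl | htb
  · have h1 := h t ⟨ht.1, htb⟩
    simp only [if_pos htb]
    exact ⟨h1.1, h1.2.congr_of_eventuallyEq (hleft t htb)⟩
  · simp only [lt_irrefl, if_false, hα0]
    refine ⟨hpD, ?_⟩
    have hL : HasDerivWithinAt (fun s => if s < t then γ s else α s) (X p) (Iic t) t := by
      apply hasDerivWithinAt_Iic_of_tendsto_deriv (s := Ioo c t)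
      · intro s hs
        exact ((h s (hsub hs)).2.congr_of_eventuallyEq (hleft s hs.2)).differentiableAt.differentiableWithinAt
      · rw [ContinuousWithinAt]
        simp only [lt_irrefl, if_false, hα0]
        have h2 : Tendsto γ (𝓝[Ioo c t] t) (𝓝 p) :=
          hp.mono_left (nhdsWithin_mono _ (fun s hs => hs.2))
        refine h2.congr' ?_
        filter_upwards [self_mem_nhdsWithin] with s hs
        exact (if_pos hs.2).symm
      · exact hIoo
      · have h2 : Tendsto (fun s => X (γ s)) (𝓝[<] t) (𝓝 (X p)) :=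
          (hX p hpD).continuousAt.tendsto.comp hp
        refine h2.congr' ?_
        filter_upwards [hIoo] with s hs
        exact ((h s (hsub hs)).2.congr_of_eventuallyEq (hleft s hs.2)).deriv.symm
    have hR : HasDerivWithinAt (fun s => if s < t then γ s else α s) (X p) (Ici t) t := by
      have h3 := (hα t ⟨by linarith, by linarith⟩).2
      rw [hα0] at h3
      refine h3.hasDerivWithinAt.congr (fun s hs => if_neg (not_lt.2 hs)) (if_neg (lt_irrefl t))
    have := hL.union hR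
    rwa [Iic_union_Ici, hasDerivWithinAt_univ] at this
  · have h1 := hα t ⟨by linarith, ht.2⟩
    simp only [if_neg (not_lt.2 htb.le)]
    exact ⟨h1.1, h1.2.congr_of_eventuallyEq (hright t htb)⟩

/-- Continuation to the left. -/
theorem IntC.extend_left [CompleteSpace E] {D : Set E} (hD : IsOpen D) {X : E → E}
    (hX : ∀ x ∈ D, ContDiffAt ℝ 1 X x) {γ : ℝ → E} {a b : ℝ} (hab : a < b)
    (h : IntC D X γ (Ioo a b)) {C : Set E} (hC : IsCompact C) (hCD : C ⊆ D) {a' : ℝ}
    (ha' : a < a') (ha : ∀ t ∈ Ioo a b, t < a' → γ t ∈ C) :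
    ∃ δ > 0, ∃ σ : ℝ → E, EqOn σ γ (Ioo a b) ∧ IntC D X σ (Ioo (a - δ) b) := by
  obtain ⟨δ, hδ, σ, h1, h2⟩ := (h.neg).extend_right (b' := -a') hD (fun x hx => (hX x hx).neg)
    (by linarith) hC hCD (by linarith) (by
      intro t ht htt
      exact ha _ ⟨by linarith [ht.2], by linarith [ht.1]⟩ (by linarith))
  refine ⟨δ, hδ, fun t => σ (-t), ?_, ?_⟩
  · intro t ht
    have := h1 (x := -t) ⟨by linarith [ht.2], by linarith [ht.1]⟩
    simpa using this
  · have h3 := h2.neg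
    simp only [neg_neg] at h3
    have e : -(-a + δ) = a - δ := by ring
    rwa [e] at h3

/-- Gluing of integral curves on symmetric intervals. -/
theorem exists_intC_glue {D : Set E} {X : E → E} (hX : ∀ x ∈ D, ContDiffAt ℝ 1 X x)
    {S : Set ℝ} (hS : ∀ T ∈ S, 0 < T) (hne : S.Nonempty) {x : E}
    (H : ∀ T ∈ S, ∃ γ : ℝ → E, γ 0 = x ∧ IntC D X γ (Ioo (-T) T)) :
    ∃ γ : ℝ → E, γ 0 = x ∧ IntC D X γ {t | ∃ T ∈ S, |t| < T} := by
  classical
  choose! F hF0 hF using H
  set γ : ℝ → E := fun t => if h : ∃ T ∈ S, |t| < T then F h.choose t else 0 with hγ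
  have key : ∀ T ∈ S, ∀ t, |t| < T → γ t = F T t := by
    intro T hT t ht
    have hex : ∃ T ∈ S, |t| < T := ⟨T, hT, ht⟩
    have e1 : γ t = F hex.choose t := dif_pos hex
    obtain ⟨hT', ht'⟩ := hex.choose_spec
    rw [e1]
    generalize hex.choose = T' at hT' ht'
    have hm : 0 < min T T' := lt_min (hS T hT) (hS T' hT')
    have hm' : |t| < min T T' := lt_min ht ht'
    apply IntC.unique hX (a := -(min T T')) (b := min T T') (t₀ := 0)
      ((hF T' hT').mono (Ioo_subset_Ioo (neg_le_neg (min_le_right _ _)) (min_le_right _ _)))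
      ((hF T hT).mono (Ioo_subset_Ioo (neg_le_neg (min_le_left _ _)) (min_le_left _ _)))
      ⟨by linarith, hm⟩ (by rw [hF0 T' hT', hF0 T hT]) (abs_lt.1 hm')
  obtain ⟨T, hT⟩ := hne
  refine ⟨γ, ?_, ?_⟩
  · rw [key T hT 0 (by rw [abs_zero]; exact hS T hT), hF0 T hT]
  · rintro t ⟨T, hT, ht⟩
    rw [key T hT t ht]
    have h1 := hF T hT t (abs_lt.1 ht)
    refine ⟨h1.1, h1.2.congr_of_eventuallyEq ?_⟩
    filter_upwards [Ioo_mem_nhds (abs_lt.1 ht).1 (abs_lt.1 ht).2] with s hs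
    exact key T hT s (abs_lt.2 hs)

/-- Global existence from a priori compactness near the ends of intervals. -/
theorem exists_global [CompleteSpace E] {D : Set E} (hD : IsOpen D) {X : E → E}
    (hX : ∀ x ∈ D, ContDiffAt ℝ 1 X x) {x : E} (hx : x ∈ D)
    (hap : ∀ τ > 0, ∀ γ : ℝ → E, γ 0 = x → IntC D X γ (Ioo (-τ) τ) →
      ∃ C, IsCompact C ∧ C ⊆ D ∧ ∃ τ' < τ, ∀ t ∈ Ioo (-τ) τ, τ' < |t| → γ t ∈ C) :
    ∃ γ : ℝ → E, γ 0 = x ∧ ∀ t, γ t ∈ D ∧ HasDerivAt γ (X (γ t)) t := by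
  set S : Set ℝ := {T | 0 < T ∧ ∃ γ : ℝ → E, γ 0 = x ∧ IntC D X γ (Ioo (-T) T)} with hSdef
  have hS : ∀ T ∈ S, 0 < T := fun T hT => hT.1
  have hne : S.Nonempty := by
    obtain ⟨γ, h0, ε, hε, h⟩ := exists_intC_local hD hX hx 0
    rw [zero_sub, zero_add] at h
    exact ⟨ε, hε, γ, h0, h⟩
  obtain ⟨γ, hγ0, hγ⟩ := exists_intC_glue hX hS hne (fun T hT => hT.2)
  by_cases hb : BddAbove S
  · exfalso
    set τ := sSup S with hτ
    have hτ0 : 0 < τ := by
      obtain ⟨T, hT⟩ := hne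
      exact (hS T hT).trans_le (le_csSup hb hT)
    have hJ : IntC D X γ (Ioo (-τ) τ) := by
      apply hγ.mono
      intro t ht
      obtain ⟨T, hT, h⟩ := exists_lt_of_lt_csSup hne (abs_lt.2 ht)
      exact ⟨T, hT, h⟩
    obtain ⟨C, hC, hCD, τ', hτ', hCt⟩ := hap τ hτ0 γ hγ0 hJ
    obtain ⟨δ, hδ, σ, hσ1, hσ2⟩ := hJ.extend_right (b' := max τ' 0) hD hX (by linarith) hC hCD
      (max_lt hτ' hτ0) (fun t ht htt => hCt t ht (by
        have h0 : 0 < t := (le_max_right _ _).trans_lt htt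
        rw [abs_of_pos h0]
        exact (le_max_left _ _).trans_lt htt))
    obtain ⟨δ', hδ', σ', hσ1', hσ2'⟩ := hσ2.extend_left (a' := min (-τ') 0) hD hX (by linarith)
      hC hCD (lt_min (by linarith) (by linarith)) (fun t ht htt => by
        have h0 : t < 0 := htt.trans_le (min_le_right _ _)
        have h1 : t < -τ' := htt.trans_le (min_le_left _ _)
        rw [hσ1 ⟨ht.1, by linarith⟩]
        exact hCt t ⟨ht.1, by linarith⟩ (by rw [abs_of_neg h0]; linarith))
    have hmem : τ + min δ δ' ∈ S := by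
      refine ⟨by positivity, σ', ?_, ?_⟩
      · rw [hσ1' ⟨by linarith, by linarith⟩, hσ1 ⟨by linarith, by linarith⟩, hγ0]
      · apply hσ2'.mono
        apply Ioo_subset_Ioo
        · linarith [min_le_right δ δ']
        · linarith [min_le_left δ δ']
    have h1 := le_csSup hb hmem
    have h2 : 0 < min δ δ' := lt_min hδ hδ'
    linarith
  · refine ⟨γ, hγ0, fun t => hγ t ?_⟩
    rw [not_bddAbove_iff] at hb
    obtain ⟨T, hT, h⟩ := hb |t|
    exact ⟨T, hT, h⟩

/-- Barrier estimate. -/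
theorem barrier_right {f f' : ℝ → E} {t₀ t R M : ℝ} (ht : t₀ ≤ t) (hM : 0 ≤ M)
    (hf : ∀ s ∈ Icc t₀ t, HasDerivAt f (f' s) s)
    (hb : ∀ s ∈ Icc t₀ t, ‖f s - f t₀‖ ≤ R → ‖f' s‖ ≤ M) (hlen : (M + 1) * (t - t₀) ≤ R) :
    ‖f t - f t₀‖ ≤ R := by
  have key := image_norm_le_of_norm_deriv_right_lt_deriv_boundary
    (f := fun s => f s - f t₀) (f' := f') (a := t₀) (b := t)
    (B := fun s => (M + 1) * (s - t₀)) (B' := fun _ => M + 1)
    (fun s hs => ((hf s hs).continuousAt.continuousWithinAt).sub continuousWithinAt_const)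
    (fun s hs => ((hf s (Ico_subset_Icc_self hs)).sub_const _).hasDerivWithinAt)
    (by simp) (fun s => by
      simpa using ((hasDerivAt_id s).sub_const t₀).const_mul (M + 1))
    (fun s hs he => by
      have h1 : ‖f s - f t₀‖ ≤ R := by
        rw [he]
        refine le_trans ?_ hlen
        gcongr
        exact hs.2.le
      linarith [hb s (Ico_subset_Icc_self hs) h1])
  exact (key (right_mem_Icc.2 ht)).trans hlen

/-- Two-sided barrier estimate. -/
theorem barrier {f f' : ℝ → E} {a b t₀ t R M : ℝ} (ht₀ : t₀ ∈ Ioo a b) (ht : t ∈ Ioo a b)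
    (hM : 0 ≤ M) (hf : ∀ s ∈ Ioo a b, HasDerivAt f (f' s) s)
    (hb : ∀ s ∈ Ioo a b, ‖f s - f t₀‖ ≤ R → ‖f' s‖ ≤ M) (hlen : (M + 1) * |t - t₀| ≤ R) :
    ‖f t - f t₀‖ ≤ R := by
  rcases le_total t₀ t with h | h
  · have hsub : Icc t₀ t ⊆ Ioo a b := fun s hs => ⟨ht₀.1.trans_le hs.1, hs.2.trans_lt ht.2⟩
    rw [abs_of_nonneg (by linarith)] at hlen
    exact barrier_right h hM (fun s hs => hf s (hsub hs)) (fun s hs => hb s (hsub hs)) hlen
  · have hsub : ∀ s ∈ Icc (-t₀) (-t), -s ∈ Ioo a b := fun s hs =>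
      ⟨by linarith [hs.2, ht.1], by linarith [hs.1, ht₀.2]⟩
    rw [abs_of_nonpos (by linarith)] at hlen
    have key := barrier_right (f := fun s => f (-s)) (f' := fun s => -f' (-s)) (t₀ := -t₀)
      (t := -t) (R := R) (M := M) (by linarith) hM (fun s hs => by
        have h1 := (hf _ (hsub s hs)).scomp s (hasDerivAt_neg s)
        simpa [Function.comp_def] using h1) (fun s hs => by
        simp only [neg_neg, norm_neg]
        exact hb _ (hsub s hs)) (by linarith)
    simpa using key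

end ODE

end Vale.Agent.P274.V
end

section

/-! # P274-V4: infinitesimal isometries of a cocompact domain are complete

Proof. Let `X ∈ Kil D h` and let `γ` be an integral curve of `X` in `D` on an interval.
(a) `t ↦ h (γ t) (X (γ t)) (X (γ t))` is constant: its derivative is
`fderiv ℝ h (γ t) (X) (X) (X) + h (X' X) X + h X (X' X) = 0` by the defining equation of `Kil`
(with `x = γ t`, `u = v = X (γ t)`).  Call the constant `c²` (real, `≥ 0`).
(b) Choose `K'` compact, `K ⊆ interior K' ⊆ K' ⊆ D` and `R > 0` with `closedBall y R ⊆ K'` for all `y ∈ K`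
(`IsCompact.exists_cthickening_subset_open`), and `A > 0` with `‖u‖ ≤ A √(re h y u u)` for all
`y ∈ K'`, `u` (compactness of `K' × unit sphere`, continuity and positivity of `h`).
Put `ε = R / (A c + 1)`.  Claim: for `x = γ t₀`, `|t - t₀| < ε`, `t` in the interval, and `g, g'` from
`hco x` (so `g' x ∈ K`), one has `γ t ∈ g '' K'`, a compact subset of `D`.  Indeed `η = g' ∘ γ` satisfies
`h (η) (η') (η') = h (γ) (γ') (γ') = c²` by `InvMetric.inv`, so `‖η'‖ ≤ A c` as long as `η ∈ K'`, and a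
first exit argument shows `‖η t - η t₀‖ ≤ A c |t - t₀| < R`.
(c) Continuation: see `CompleteAux.lean` (`exists_global`). -/

open Set Complex ComplexConjugate Topology
open scoped ContDiff

namespace Vale.Agent.P274.V

variable {E : Type*} [NormedAddCommGroup E] [NormedSpace ℂ E]

/-- The energy of an integral curve of a Killing field is constant. -/
theorem energy_const {D : Set E} (hD : IsOpen D)
    {h : E → E →L[ℝ] E →L[ℝ] ℂ} (hs : ContDiffOn ℝ ∞ h D) {X : E → E} (hX : X ∈ Kil D h)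
    {γ : ℝ → E} {a b : ℝ} (hγ : IntC D X γ (Ioo a b)) {s t : ℝ} (hs' : s ∈ Ioo a b)
    (ht' : t ∈ Ioo a b) :
    h (γ s) (X (γ s)) (X (γ s)) = h (γ t) (X (γ t)) (X (γ t)) := by
  obtain ⟨h1, -, h3⟩ := mem_Kil.1 hX
  have hd : ∀ r ∈ Ioo a b, HasDerivAt (fun r => h (γ r) (X (γ r)) (X (γ r))) 0 r := by
    intro r hr
    obtain ⟨hrD, hr'⟩ := hγ r hr
    have hh : HasFDerivAt h (fderiv ℝ h (γ r)) (γ r) :=
      ((hs.differentiableOn (by simp)).differentiableAt (hD.mem_nhds hrD)).hasFDerivAt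
    have e1 : HasDerivAt (fun r => h (γ r)) (fderiv ℝ h (γ r) (X (γ r))) r :=
      HasFDerivAt.comp_hasDerivAt (𝕜 := ℝ) (l := h) (f := γ) r hh hr'
    have e2 : HasDerivAt (fun r => X (γ r)) (fderiv ℂ X (γ r) (X (γ r))) r :=
      ((h1 _ hrD).hasFDerivAt.restrictScalars ℝ).comp_hasDerivAt r hr'
    have e3 := (e1.clm_apply e2).clm_apply e2
    have e4 := h3 _ hrD (X (γ r)) (X (γ r))
    have e5 : (fderiv ℝ h (γ r) (X (γ r)) (X (γ r)) + h (γ r) (fderiv ℂ X (γ r) (X (γ r))))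
        (X (γ r)) + h (γ r) (X (γ r)) (fderiv ℂ X (γ r) (X (γ r))) = 0 := e4
    rw [e5] at e3
    exact e3
  exact isOpen_Ioo.is_const_of_deriv_eq_zero isPreconnected_Ioo
    (fun r hr => (hd r hr).differentiableAt.differentiableWithinAt)
    (fun r hr => (hd r hr).deriv) hs' ht'

/-- Lower bound of the metric on a compact set. -/
theorem exists_lower_bound [FiniteDimensional ℂ E] {D K : Set E}
    {h : E → E →L[ℝ] E →L[ℝ] ℂ} (hc : ContinuousOn h D)
    (hpos : ∀ x ∈ D, ∀ u, u ≠ 0 → 0 < (h x u u).re) (hK : IsCompact K) (hKD : K ⊆ D) :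
    ∃ a > 0, ∀ y ∈ K, ∀ u, a * ‖u‖ ^ 2 ≤ (h y u u).re := by
  have : ProperSpace E := FiniteDimensional.proper ℂ E
  have hcomp : IsCompact (K ×ˢ Metric.sphere (0 : E) 1) := hK.prod (isCompact_sphere _ _)
  have hcont : ContinuousOn (fun p : E × E => (h p.1 p.2 p.2).re) (K ×ˢ Metric.sphere (0 : E) 1) := by
    apply Complex.continuous_re.comp_continuousOn
    have c1 : ContinuousOn (fun p : E × E => h p.1) (K ×ˢ Metric.sphere (0 : E) 1) :=
      hc.comp continuous_fst.continuousOn (fun p hp => hKD hp.1)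
    exact (c1.clm_apply continuous_snd.continuousOn).clm_apply continuous_snd.continuousOn
  obtain ⟨a, ha, hak⟩ : ∃ a > 0, ∀ p ∈ K ×ˢ Metric.sphere (0 : E) 1, a ≤ (h p.1 p.2 p.2).re := by
    rcases (K ×ˢ Metric.sphere (0 : E) 1).eq_empty_or_nonempty with he | hne
    · exact ⟨1, one_pos, fun p hp => by rw [he] at hp; exact hp.elim⟩
    · obtain ⟨p, hp, hmin⟩ := hcomp.exists_isMinOn hne hcont
      refine ⟨_, hpos p.1 (hKD hp.1) p.2 ?_, fun q hq => hmin hq⟩
      have := hp.2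
      rw [mem_sphere_zero_iff_norm] at this
      intro h0
      rw [h0, norm_zero] at this
      exact zero_ne_one this
  refine ⟨a, ha, fun y hy u => ?_⟩
  rcases eq_or_ne u 0 with rfl | hu
  · simp
  have hn : 0 < ‖u‖ := norm_pos_iff.2 hu
  have h1 := hak (y, (‖u‖⁻¹ : ℝ) • u) ⟨hy, by
    rw [mem_sphere_zero_iff_norm, norm_smul, norm_inv, norm_norm, inv_mul_cancel₀ hn.ne']⟩
  simp only [map_smul, smul_apply, Complex.smul_re] at h1
  simp only [smul_eq_mul] at h1
  calc a * ‖u‖ ^ 2 ≤ (‖u‖⁻¹ * (‖u‖⁻¹ * (h y u u).re)) * ‖u‖ ^ 2 := by gcongr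
    _ = (h y u u).re := by field_simp

theorem kil_complete [FiniteDimensional ℂ E] {D K : Set E} (hD : IsOpen D)
    {h : E → E →L[ℝ] E →L[ℝ] ℂ} {ρ : E → ℝ} (hm : InvMetric D h ρ) (hK : IsCompact K)
    (hKD : K ⊆ D) (hco : CocompactAut D K) {X : E → E} (hX : X ∈ Kil D h) :
    ∀ x ∈ D, ∃ γ : ℝ → E, γ 0 = x ∧ ∀ t, γ t ∈ D ∧ HasDerivAt γ (X (γ t)) t := by
  have : CompleteSpace E := FiniteDimensional.complete ℂ E
  have : ProperSpace E := FiniteDimensional.proper ℂ E
  intro x hx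
  have hXd : DifferentiableOn ℂ X D := fun y hy => ((mem_Kil.1 hX).1 y hy).differentiableWithinAt
  have hX1 : ∀ y ∈ D, ContDiffAt ℝ 1 X y := fun y hy =>
    (((Vale.Agent.P268.contDiffOn_of_differentiableOn hD hXd (n := 1)).contDiffAt
      (hD.mem_nhds hy))).restrict_scalars ℝ
  -- the constants
  obtain ⟨R, hR, hRD⟩ := hK.exists_cthickening_subset_open hD hKD
  have hK' : IsCompact (Metric.cthickening R K) := hK.cthickening
  obtain ⟨a, ha, hlow⟩ := exists_lower_bound hm.smooth.continuousOn hm.pos hK' hRD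
  set c : ℝ := (h x (X x) (X x)).re with hc
  have hc0 : 0 ≤ c := by
    rcases eq_or_ne (X x) 0 with h0 | h0
    · rw [hc, h0]; simp
    · exact (hm.pos x hx _ h0).le
  set M : ℝ := c / a + 1 with hMdef
  have hM0 : 0 ≤ M := by (clear * - hc0 ha; positivity)
  have hMb : ∀ y ∈ Metric.cthickening R K, ∀ u, (h y u u).re = c → ‖u‖ ≤ M := by
    intro y hy u hu
    have h1 := hlow y hy u
    rw [hu] at h1
    by_contra hcon
    rw [not_le] at hcon
    have h2 : c / a + 1 < ‖u‖ := hcon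
    have h3 : 0 ≤ c / a := by (clear * - hc0 ha; positivity)
    have h4 : c / a < ‖u‖ ^ 2 := by (by_contra nlg; linarith only [nlg, mul_pos (sub_pos.2 h2) (sub_pos.2 h2), mul_nonneg (sub_nonneg.2 hM0) (le_of_lt (sub_pos.2 h2)), mul_nonneg (sub_nonneg.2 (not_lt.1 nlg)) (sub_nonneg.2 hM0), mul_nonneg (sq_nonneg (1 * ‖u‖ : ℝ)) (sub_nonneg.2 h3), mul_nonneg (mul_self_nonneg (1 : ℝ)) (sub_nonneg.2 h3)])
    have h5 : c < a * ‖u‖ ^ 2 := by
      rw [div_lt_iff₀ ha] at h4
      linarith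
    linarith
  apply exists_global hD hX1 hx
  intro τ hτ γ hγ0 hγ
  have hen : ∀ t ∈ Ioo (-τ) τ, (h (γ t) (X (γ t)) (X (γ t))).re = c := by
    intro t ht
    rw [energy_const hD hm.smooth hX hγ ht (⟨by linarith, hτ⟩ : (0:ℝ) ∈ Ioo (-τ) τ), hγ0]
  -- compact confinement near `t₀`
  have hconf : ∀ t₀ ∈ Ioo (-τ) τ, ∃ C, IsCompact C ∧ C ⊆ D ∧
      ∀ t ∈ Ioo (-τ) τ, (M + 1) * |t - t₀| ≤ R → γ t ∈ C := by
    intro t₀ ht₀
    obtain ⟨g, g', hg, hgK⟩ := hco (γ t₀) (hγ t₀ ht₀).1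
    refine ⟨g '' Metric.cthickening R K, ?_, ?_, ?_⟩
    · exact hK'.image_of_continuousOn (hg.diffOn.continuousOn.mono hRD)
    · rintro _ ⟨y, hy, rfl⟩
      exact hg.mapsTo (hRD hy)
    · intro t ht hlen
      have hmem : ∀ s, ‖g' (γ s) - g' (γ t₀)‖ ≤ R → g' (γ s) ∈ Metric.cthickening R K := by
        intro s hs
        rw [← dist_eq_norm] at hs
        exact Metric.closedBall_subset_cthickening hgK R (Metric.mem_closedBall.2 hs)
      have hder : ∀ s ∈ Ioo (-τ) τ, HasDerivAt (fun s => g' (γ s))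
          (fderiv ℂ g' (γ s) (X (γ s))) s := by
        intro s hs
        have h1 : HasFDerivAt g' (fderiv ℂ g' (γ s)) (γ s) :=
          (hg.diffOn_inv.differentiableAt (hD.mem_nhds (hγ s hs).1)).hasFDerivAt
        exact (h1.restrictScalars ℝ).comp_hasDerivAt s (hγ s hs).2
      have hbar := barrier (f := fun s => g' (γ s))
        (f' := fun s => fderiv ℂ g' (γ s) (X (γ s))) ht₀ ht hM0 hder (by
          intro s hs hsR
          apply hMb _ (hmem s hsR)
          rw [hm.inv g' g hg.symm (γ s) (hγ s hs).1]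
          exact hen s hs) hlen
      exact ⟨g' (γ t), hmem t hbar, hg.right_inv _ (hγ t ht).1⟩
  -- apply at both ends
  set ε := min (R / (M + 1)) τ with hε
  have hM1 : 0 < M + 1 := by positivity
  have hε0 : 0 < ε := lt_min (by positivity) hτ
  have hε1 : (M + 1) * ε ≤ R := by
    calc (M + 1) * ε ≤ (M + 1) * (R / (M + 1)) := by gcongr; exact min_le_left _ _
      _ = R := by field_simp
  have hετ : ε ≤ τ := min_le_right _ _
  obtain ⟨C₁, hC₁, hC₁D, h₁⟩ := hconf (τ - ε / 2) ⟨by linarith, by linarith⟩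
  obtain ⟨C₂, hC₂, hC₂D, h₂⟩ := hconf (-(τ - ε / 2)) ⟨by linarith, by linarith⟩
  refine ⟨C₁ ∪ C₂, hC₁.union hC₂, union_subset hC₁D hC₂D, τ - ε, by linarith, ?_⟩
  intro t ht htt
  rcases le_total 0 t with h0 | h0
  · rw [abs_of_nonneg h0] at htt
    left
    apply h₁ t ht
    refine le_trans ?_ hε1
    gcongr
    rw [abs_le]
    constructor <;> linarith [ht.2]
  · rw [abs_of_nonpos h0] at htt
    right
    apply h₂ t ht
    refine le_trans ?_ hε1
    gcongr
    rw [abs_le]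
    constructor <;> linarith [ht.1]

end Vale.Agent.P274.V
end
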