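import Mathlib
import Vale.Agent.P274.Bdl.B4
import Vale.Agent.P274.Bdl.B2
import Vale.Agent.P274.Bdl.B1
import Vale.Agent.P268.Hol
import Vale.Agent.P274.Bdl.B5
attribute [-instance] ProperSMul.toContinuousSMul IsTopologicalTorsor.toContinuousSMul IdemSemiring.toCanonicallyOrderedAdd IdemSemiring.toMulLeftMono IdemSemiring.toMulRightMono AddQuantale.instAddLeftMono AddQuantale.instAddRightMono Quantale.instMulLeftMono Quantale.instMulRightMono

set_option linter.all false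

section

/-! Radial invariance and the second rescaling. -/

set_option linter.unusedSectionVars false

open Filter Metric Set Topology

namespace Vale.Agent.P274

open Complex

variable {E : Type*} [NormedAddCommGroup E] [NormedSpace ℂ E] [FiniteDimensional ℂ E] {k : ℕ}
  {D : E →L[ℝ] (Fin k → ℝ)} {B : E →L[ℝ] E →L[ℝ] (Fin k → ℝ)} {σ : (Fin k → ℂ) →L[ℂ] E}

/-- `S` is saturated and conic off the set where `G` vanishes. -/
def ConicOff (D : E →L[ℝ] (Fin k → ℝ)) (B : E →L[ℝ] E →L[ℝ] (Fin k → ℝ))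
    (σ : (Fin k → ℂ) →L[ℂ] E) (G : (Fin k → ℝ) → ℝ) (S : Set E) : Prop :=
  ∀ y ∈ S, G (rr D B σ y) ≠ 0 → ∀ t : ℝ, 0 < t → ∀ z, rr D B σ z = t • rr D B σ y → z ∈ S

theorem radial_inv {E' : Type*} [NormedAddCommGroup E'] [NormedSpace ℂ E'] [ProperSpace E']
    (hσ : ∀ w, Lam D (σ w) = w) {U K : Set E'} (hU : IsOpen U)
    (hb : Bornology.IsBounded U) (hK : IsCompact K) (hKU : K ⊆ U) (hco : CocompactAut U K)
    {S : Set E} (hSo : IsOpen S) (hbi : Biholomorphic U S) {G : (Fin k → ℝ) → ℝ}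
    (hGd : Dense {ρ | G ρ ≠ 0}) (hsat : ConicOff D B σ G S) {y : E} (hy : y ∈ S) {ζ : ℂ}
    (hζ : -1 < ζ.re) : y + σ (fun i => ζ * (rr D B σ y i : ℂ)) ∈ S := by
  have hps : ProperSpace E := FiniteDimensional.proper ℂ E
  have hdense : Dense {y : E | G (rr D B σ y) ≠ 0} := hGd.preimage (isOpenMap_rr hσ)
  have hycl : y ∈ closure (S ∩ {y : E | G (rr D B σ y) ≠ 0}) :=
    hdense.open_subset_closure_inter hSo hy
  obtain ⟨u, hu, hulim⟩ := mem_closure_iff_seq_limit.1 hycl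
  set 𝒰 : Ultrafilter ℕ := hyperfilter ℕ with h𝒰
  have hle : (𝒰 : Filter ℕ) ≤ atTop := Nat.hyperfilter_le_atTop
  have hu𝒰 : Tendsto u 𝒰 (𝓝 y) := hulim.mono_left hle
  set T : Set ℂ := {ζ | -1 < ζ.re} with hT
  have hTo : IsOpen T := isOpen_lt continuous_const Complex.continuous_re
  have hTc : IsPreconnected T := (convex_halfSpace_re_gt (-1)).isPreconnected
  refine taut_transfer hU hb hK hKU hco hSo hbi 𝒰 hTo hTc
    (H := fun j ζ => u j + σ (fun i => ζ * (rr D B σ (u j) i : ℂ)))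
    (H0 := fun ζ => y + σ (fun i => ζ * (rr D B σ y i : ℂ))) ?_ ?_ (s0 := 0) ?_ ?_ ζ hζ
  · intro ζ0 hζ0
    obtain ⟨r, hr, hrT⟩ := Metric.isOpen_iff.1 hTo ζ0 hζ0
    refine ⟨r, hr, Eventually.of_forall fun j => ⟨?_, fun ζ1 hζ1 => ?_⟩⟩
    · have h1 : Differentiable ℂ (fun ζ : ℂ => (fun i => ζ * (rr D B σ (u j) i : ℂ))) := by
        refine differentiable_pi.2 fun i => ?_
        fun_prop
      exact ((σ.differentiable.comp h1).const_add _).differentiableOn
    · have h1 : -1 < ζ1.re := hrT hζ1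
      refine hsat (u j) (hu j).1 (hu j).2 (1 + ζ1.re) (by linarith) _ ?_
      rw [rr_add_σ hσ]
      ext i
      simp only [Pi.add_apply, Pi.smul_apply, smul_eq_mul, re_mul_ofReal]
      ring
  · intro ζ1 _
    have hrlim : Tendsto (fun j => rr D B σ (u j)) 𝒰 (𝓝 (rr D B σ y)) :=
      (continuous_rr.tendsto _).comp hu𝒰
    have h2 : Tendsto (fun j => (fun i => ζ1 * (rr D B σ (u j) i : ℂ))) 𝒰
        (𝓝 (fun i => ζ1 * (rr D B σ y i : ℂ))) := by
      refine tendsto_pi_nhds.2 fun i => ?_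
      exact ((continuous_ofReal.tendsto _).comp ((tendsto_pi_nhds.1 hrlim) i)).const_mul _
    exact hu𝒰.add ((σ.continuous.tendsto _).comp h2)
  · simp [hT]
  · have : (fun i => (0 : ℂ) * (rr D B σ y i : ℂ)) = 0 := by ext i; simp
    simp only [this, map_zero, add_zero]
    exact hy

/-- Change of the value of the model defining map. -/
noncomputable def sh (D : E →L[ℝ] (Fin k → ℝ)) (B : E →L[ℝ] E →L[ℝ] (Fin k → ℝ))
    (σ : (Fin k → ℂ) →L[ℂ] E) (ρ : Fin k → ℝ) (w : E) : E :=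
  w + σ (fun j => ((ρ j - rr D B σ w j : ℝ) : ℂ))

theorem rr_sh (hσ : ∀ w, Lam D (σ w) = w) (ρ : Fin k → ℝ) (w : E) :
    rr D B σ (sh D B σ ρ w) = ρ := by
  rw [sh, rr_add_σ hσ]
  ext i
  simp

theorem sh_rr (w : E) : sh D B σ (rr D B σ w) w = w := by
  have : (fun j => ((rr D B σ w j - rr D B σ w j : ℝ) : ℂ)) = 0 := by ext j; simp
  rw [sh, this, map_zero, add_zero]

theorem sh_add_σ (hσ : ∀ w, Lam D (σ w) = w) (ρ r : Fin k → ℝ) (w : E) :
    sh D B σ ρ (w + σ (fun j => (r j : ℂ))) = sh D B σ ρ w := by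
  rw [sh, sh, rr_add_σ hσ, add_assoc, ← map_add]
  congr 2
  ext j
  simp
  ring

theorem sh_sh (hσ : ∀ w, Lam D (σ w) = w) (ρ ρ' : Fin k → ℝ) (w : E) :
    sh D B σ ρ (sh D B σ ρ' w) = sh D B σ ρ w := by
  conv_lhs => rw [sh.eq_1 D B σ ρ' w]
  exact sh_add_σ hσ ρ (ρ' - rr D B σ w) w

theorem continuous_sh : Continuous (fun p : (Fin k → ℝ) × E => sh D B σ p.1 p.2) := by
  have := continuous_rr (D := D) (B := B) (σ := σ)
  unfold sh
  fun_prop

theorem radial_sh {E' : Type*} [NormedAddCommGroup E'] [NormedSpace ℂ E'] [ProperSpace E']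
    (hσ : ∀ w, Lam D (σ w) = w) {U K : Set E'} (hU : IsOpen U)
    (hb : Bornology.IsBounded U) (hK : IsCompact K) (hKU : K ⊆ U) (hco : CocompactAut U K)
    {S : Set E} (hSo : IsOpen S) (hbi : Biholomorphic U S) {G : (Fin k → ℝ) → ℝ}
    (hGd : Dense {ρ | G ρ ≠ 0}) (hsat : ConicOff D B σ G S) {y : E} (hy : y ∈ S) {t : ℝ}
    (ht : 0 < t) : sh D B σ (t • rr D B σ y) y ∈ S := by
  have h1 := radial_inv hσ hU hb hK hKU hco hSo hbi hGd hsat hy (ζ := ((t - 1 : ℝ) : ℂ))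
    (by rw [ofReal_re]; linarith)
  have h2 : (fun i => ((t - 1 : ℝ) : ℂ) * (rr D B σ y i : ℂ)) =
      fun j => (((t • rr D B σ y) j - rr D B σ y j : ℝ) : ℂ) := by
    ext i
    simp only [Pi.smul_apply, smul_eq_mul]
    push_cast
    ring
  rw [h2] at h1
  exact h1

/-- The cross term of the Levi form. -/
noncomputable def ell (B : E →L[ℝ] E →L[ℝ] (Fin k → ℝ)) (a : E) : E →L[ℝ] (Fin k → ℝ) :=
  (1 / 4 : ℝ) • (B.flip a + B a + (B.flip (I • a) + B (I • a)).comp
    ((I • ContinuousLinearMap.id ℂ E).restrictScalars ℝ))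

theorem Lev_add (B : E →L[ℝ] E →L[ℝ] (Fin k → ℝ)) (z a : E) :
    Lev B (z + a) = Lev B z + Lev B a + ell B a z := by
  ext j
  simp only [Lev_apply, ell, smul_add, map_add, add_apply, smul_apply, Pi.add_apply, Pi.smul_apply,
    smul_eq_mul, ContinuousLinearMap.flip_apply, ContinuousLinearMap.comp_apply,
    ContinuousLinearMap.coe_restrictScalars', ContinuousLinearMap.id_apply]
  ring

/-- Translation in the Heisenberg group. -/
noncomputable def Tr (D : E →L[ℝ] (Fin k → ℝ)) (B : E →L[ℝ] E →L[ℝ] (Fin k → ℝ))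
    (σ : (Fin k → ℂ) →L[ℂ] E) (β : Fin k → ℝ) (a : E) (y : E) : E :=
  y + prj D σ a + σ (fun j => -(Lam (ell B (prj D σ a)) (prj D σ y) j) -
    ((Lev B (prj D σ a) j : ℝ) : ℂ) + (β j : ℂ) * I)

/-- Inverse of the translation. -/
noncomputable def Ti (D : E →L[ℝ] (Fin k → ℝ)) (B : E →L[ℝ] E →L[ℝ] (Fin k → ℝ))
    (σ : (Fin k → ℂ) →L[ℂ] E) (β : Fin k → ℝ) (a : E) (y : E) : E :=
  y - prj D σ a - σ (fun j => -(Lam (ell B (prj D σ a)) (prj D σ y - prj D σ a) j) -
    ((Lev B (prj D σ a) j : ℝ) : ℂ) + (β j : ℂ) * I)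

/-- Dilation. -/
noncomputable def dil (D : E →L[ℝ] (Fin k → ℝ)) (σ : (Fin k → ℂ) →L[ℂ] E) (t : ℝ) (y : E) : E :=
  (t ^ 2) • σ (Lam D y) + t • prj D σ y

section
variable (hσ : ∀ w, Lam D (σ w) = w)
include hσ

theorem prj_Tr (β : Fin k → ℝ) (a y : E) :
    prj D σ (Tr D B σ β a y) = prj D σ y + prj D σ a := by
  rw [Tr, map_add, map_add, prj_σ hσ, prj_prj hσ, add_zero]

theorem rr_Tr (β : Fin k → ℝ) (a y : E) : rr D B σ (Tr D B σ β a y) = rr D B σ y := by
  rw [Tr, rr_add_σ hσ, rr, rr, map_add, map_add, prj_prj hσ, D_prj hσ, add_zero, Lev_add]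
  ext j
  simp only [Pi.add_apply, add_re, sub_re, neg_re, Lam_re, ofReal_re, mul_re, ofReal_im, I_re, I_im]
  ring

theorem Ti_Tr (β : Fin k → ℝ) (a y : E) : Ti D B σ β a (Tr D B σ β a y) = y := by
  rw [Ti, prj_Tr hσ, add_sub_cancel_right, Tr]
  abel

theorem Tr_Ti (β : Fin k → ℝ) (a y : E) : Tr D B σ β a (Ti D B σ β a y) = y := by
  have h1 : prj D σ (Ti D B σ β a y) = prj D σ y - prj D σ a := by
    rw [Ti, map_sub, map_sub, prj_σ hσ, prj_prj hσ, sub_zero]
  rw [Tr, h1, Ti]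
  abel

theorem prj_dil (t : ℝ) (y : E) : prj D σ (dil D σ t y) = t • prj D σ y := by
  rw [dil, map_add, prj_smul_real, prj_smul_real, prj_σ hσ, prj_prj hσ, smul_zero, zero_add]

theorem Lam_dil (t : ℝ) (y : E) : Lam D (dil D σ t y) = (t ^ 2) • Lam D y := by
  rw [dil, map_add, Lam_smul_real, Lam_smul_real, hσ, Lam_prj hσ, smul_zero, add_zero]

theorem dil_dil {t : ℝ} (ht : t ≠ 0) (y : E) : dil D σ t⁻¹ (dil D σ t y) = y := by
  rw [dil, prj_dil hσ, Lam_dil hσ, σ_smul_real, smul_smul, smul_smul, inv_pow,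
    inv_mul_cancel₀ (pow_ne_zero 2 ht), inv_mul_cancel₀ ht, one_smul, one_smul, prj_apply]
  abel

theorem rr_dil (t : ℝ) (y : E) : rr D B σ (dil D σ t y) = (t ^ 2) • rr D B σ y := by
  have h1 : D (dil D σ t y) = (t ^ 2) • D y := by
    ext j
    rw [← Lam_re, Lam_dil hσ, Pi.smul_apply, Pi.smul_apply, ← Lam_re, real_smul, re_ofReal_mul]
    rfl
  have h2 : Lev B (t • prj D σ y) = (t ^ 2) • Lev B (prj D σ y) := by
    have h3 := Lev_smul B (t : ℂ) (prj D σ y)
    rw [normSq_ofReal, ← sq] at h3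
    exact h3
  rw [rr, prj_dil hσ, h1, h2, rr, smul_add]

theorem dil_add_σ (t : ℝ) (y : E) (w : Fin k → ℂ) :
    dil D σ t (y + σ w) = dil D σ t y + (t ^ 2) • σ w := by
  have h1 : prj D σ (y + σ w) = prj D σ y := by rw [map_add, prj_σ hσ, add_zero]
  rw [dil, dil, h1, map_add, hσ, map_add, smul_add]
  abel

theorem Tr_add_σ (β : Fin k → ℝ) (a y : E) (w : Fin k → ℂ) :
    Tr D B σ β a (y + σ w) = Tr D B σ β a y + σ w := by
  have h1 : prj D σ (y + σ w) = prj D σ y := by rw [map_add, prj_σ hσ, add_zero]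
  rw [Tr, Tr, h1]
  abel

theorem Tr_zero (p : E) :
    Tr D B σ (fun j => (Lam D p j).im) p 0 = sh D B σ 0 p := by
  have h1 : (fun j => -(Lam (ell B (prj D σ p)) (prj D σ (0 : E)) j) -
      ((Lev B (prj D σ p) j : ℝ) : ℂ) + (((Lam D p j).im : ℝ) : ℂ) * I) =
      Lam D p + fun j => (((0 : Fin k → ℝ) j - rr D B σ p j : ℝ) : ℂ) := by
    ext j
    rw [map_zero, map_zero, Pi.zero_apply, Pi.add_apply, rr, Pi.add_apply, ← Lam_re]
    apply Complex.ext
    · simp
    · simp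
  rw [Tr, h1, zero_add, sh, map_add, prj_apply]
  abel

end

theorem continuous_Tr (β : Fin k → ℝ) (a : E) : Continuous (Tr D B σ β a) := by
  unfold Tr
  fun_prop

theorem differentiable_Tr (β : Fin k → ℝ) (a : E) : Differentiable ℂ (Tr D B σ β a) := by
  have h1 : Differentiable ℂ (fun y : E => (fun j => -(Lam (ell B (prj D σ a)) (prj D σ y) j) -
      ((Lev B (prj D σ a) j : ℝ) : ℂ) + (β j : ℂ) * I)) := by
    refine differentiable_pi.2 fun j => ?_
    fun_prop
  have h2 : Differentiable ℂ (fun y : E => y + prj D σ a) := by fun_prop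
  exact h2.add (σ.differentiable.comp h1)

theorem differentiable_Ti (β : Fin k → ℝ) (a : E) : Differentiable ℂ (Ti D B σ β a) := by
  have h1 : Differentiable ℂ (fun y : E =>
      (fun j => -(Lam (ell B (prj D σ a)) (prj D σ y - prj D σ a) j) -
      ((Lev B (prj D σ a) j : ℝ) : ℂ) + (β j : ℂ) * I)) := by
    refine differentiable_pi.2 fun j => ?_
    fun_prop
  have h2 : Differentiable ℂ (fun y : E => y - prj D σ a) := by fun_prop
  exact h2.sub (σ.differentiable.comp h1)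

theorem differentiable_dil (t : ℝ) : Differentiable ℂ (dil D σ t) := by
  have h1 : dil D σ t = fun y => ((t ^ 2 : ℝ) : ℂ) • σ (Lam D y) + (t : ℂ) • prj D σ y := rfl
  rw [h1]
  fun_prop

theorem continuous_dil : Continuous (fun p : ℝ × E => dil D σ p.1 p.2) := by
  unfold dil
  fun_prop

end Vale.Agent.P274
end

section

/-! The second rescaling, at a generic point of the edge. -/

set_option linter.unusedSectionVars false

open Filter Metric Set Topology

namespace Vale.Agent.P274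

open Complex

variable {E : Type*} [NormedAddCommGroup E] [NormedSpace ℂ E] [FiniteDimensional ℂ E] {k : ℕ}
  {D : E →L[ℝ] (Fin k → ℝ)} {B : E →L[ℝ] E →L[ℝ] (Fin k → ℝ)} {σ : (Fin k → ℂ) →L[ℂ] E}

/-- Points over which a ball of values is contained in `S`. -/
def slab (D : E →L[ℝ] (Fin k → ℝ)) (B : E →L[ℝ] E →L[ℝ] (Fin k → ℝ))
    (σ : (Fin k → ℂ) →L[ℂ] E) (S : Set E) (c : Fin k → ℝ) (r : ℝ) : Set E :=
  {p | ∀ ρ ∈ closedBall c r, sh D B σ ρ p ∈ S}

theorem isOpen_slab {S : Set E} (hSo : IsOpen S) (c : Fin k → ℝ) (r : ℝ) :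
    IsOpen (slab D B σ S c r) := by
  rw [isOpen_iff_mem_nhds]
  intro p hp
  refine (isCompact_closedBall c r).eventually_forall_of_forall_eventually
    (P := fun p ρ => sh D B σ ρ p ∈ S) fun ρ hρ => ?_
  have h1 : Continuous (fun z : E × (Fin k → ℝ) => sh D B σ z.2 z.1) :=
    continuous_sh.comp (continuous_snd.prodMk continuous_fst)
  exact h1.continuousAt.eventually_mem (hSo.mem_nhds (hp ρ hρ))

theorem exists_generic_point {S : Set E} (hSo : IsOpen S) :
    ∃ p : E, ∀ m n : ℕ, p ∉ frontier (slab D B σ S (TopologicalSpace.denseSeq (Fin k → ℝ) m)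
      (1 / ((n : ℝ) + 1))) := by
  have hcs : CompleteSpace E := FiniteDimensional.complete ℂ E
  have h1 : Dense (⋂ mn : ℕ × ℕ, (frontier (slab D B σ S
      (TopologicalSpace.denseSeq (Fin k → ℝ) mn.1) (1 / ((mn.2 : ℝ) + 1))))ᶜ) := by
    refine dense_iInter_of_isOpen (fun mn => isClosed_frontier.isOpen_compl) fun mn => ?_
    rw [← interior_eq_empty_iff_dense_compl]
    have h2 := isOpen_slab (D := D) (B := B) (σ := σ) hSo
      (TopologicalSpace.denseSeq (Fin k → ℝ) mn.1) (1 / ((mn.2 : ℝ) + 1))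
    rw [← frontier_compl]
    exact interior_frontier h2.isClosed_compl
  obtain ⟨p, hp⟩ := h1.nonempty
  exact ⟨p, fun m n => mem_iInter.1 hp (m, n)⟩

/-- The inverse of the second rescaling map. -/
noncomputable def Zm (D : E →L[ℝ] (Fin k → ℝ)) (B : E →L[ℝ] E →L[ℝ] (Fin k → ℝ))
    (σ : (Fin k → ℂ) →L[ℂ] E) (p : E) (t : ℝ) (z : E) : E :=
  Tr D B σ (fun i => (Lam D p i).im) p (dil D σ t z)

theorem continuous_Zm (p : E) : Continuous (fun q : ℝ × E => Zm D B σ p q.1 q.2) :=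
  (continuous_Tr _ p).comp continuous_dil

theorem continuous_Zm_left (p y : E) : Continuous (fun t : ℝ => Zm D B σ p t y) :=
  (continuous_Zm p).comp (continuous_id.prodMk continuous_const)

section
variable (hσ : ∀ w, Lam D (σ w) = w)
include hσ

theorem rr_Zm (p : E) (t : ℝ) (z : E) :
    rr D B σ (Zm D B σ p t z) = (t ^ 2) • rr D B σ z := by
  rw [Zm, rr_Tr hσ, rr_dil hσ]

theorem Zm_zero (p z : E) : Zm D B σ p 0 z = sh D B σ 0 p := by
  have : dil D σ 0 z = 0 := by simp [dil]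
  rw [Zm, this, Tr_zero hσ]

theorem sh_Zm_sh (p : E) (t : ℝ) (ρ ρ' : Fin k → ℝ) (z : E) :
    sh D B σ ρ (Zm D B σ p t (sh D B σ ρ' z)) = sh D B σ ρ (Zm D B σ p t z) := by
  have h8 : Zm D B σ p t (sh D B σ ρ' z) = Zm D B σ p t z +
      σ (fun i => (((t ^ 2) * (ρ' i - rr D B σ z i) : ℝ) : ℂ)) := by
    rw [Zm, sh, dil_add_σ hσ, ← σ_smul_real, Tr_add_σ hσ, ← Zm]
    congr 2
    ext i
    simp [real_smul]
  rw [h8]
  exact sh_add_σ hσ ρ (fun i => (t ^ 2) * (ρ' i - rr D B σ z i)) _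

end

theorem shift_zero (p : E) :
    p - sh D B σ 0 p = σ (fun i => ((rr D B σ p i : ℝ) : ℂ)) := by
  have h4 : (fun j => (((0 : Fin k → ℝ) j - rr D B σ p j : ℝ) : ℂ)) =
      -(fun i => ((rr D B σ p i : ℝ) : ℂ)) := by
    ext j
    simp
  rw [sh, h4, map_neg]
  abel

variable {ι : Type*}

theorem zoom_kernel_mp (hσ : ∀ w, Lam D (σ w) = w) {S : Set E} (hSo : IsOpen S)
    (hrad : ∀ y ∈ S, ∀ t : ℝ, 0 < t → sh D B σ (t • rr D B σ y) y ∈ S) {p : E}
    (hp : ∀ m n : ℕ, p ∉ frontier (slab D B σ S (TopologicalSpace.denseSeq (Fin k → ℝ) m)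
      (1 / ((n : ℝ) + 1)))) (𝒰 : Ultrafilter ι) {ε : ι → ℝ}
    (hε : Tendsto ε 𝒰 (𝓝[>] 0)) (y : E) {r : ℝ} (hr : 0 < r)
    (h : ∀ᶠ j in (𝒰 : Filter ι), ball y r ⊆ Zm D B σ p (ε j) ⁻¹' S) :
    sh D B σ (rr D B σ y) p ∈ S := by
  have hε0 : Tendsto ε 𝒰 (𝓝 0) := hε.mono_right nhdsWithin_le_nhds
  have hεpos : ∀ᶠ j in (𝒰 : Filter ι), 0 < ε j := hε.eventually self_mem_nhdsWithin
  -- choose a ball of values
  have h1 : ∀ᶠ ρ in 𝓝 (rr D B σ y), sh D B σ ρ y ∈ ball y r := by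
    have h2 : Continuous (fun ρ : Fin k → ℝ => sh D B σ ρ y) :=
      continuous_sh.comp (continuous_id.prodMk continuous_const)
    refine h2.continuousAt.eventually_mem (isOpen_ball.mem_nhds ?_)
    rw [sh_rr]
    exact mem_ball_self hr
  obtain ⟨δ, hδ, hδb⟩ := Metric.eventually_nhds_iff_ball.1 h1
  obtain ⟨n, hn⟩ := exists_nat_one_div_lt (half_pos hδ)
  have hn0 : (0 : ℝ) < 1 / ((n : ℝ) + 1) := Nat.one_div_pos_of_nat
  obtain ⟨m, hm⟩ := (TopologicalSpace.denseRange_denseSeq (Fin k → ℝ)).exists_dist_lt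
    (rr D B σ y) hn0
  specialize hp m n
  generalize TopologicalSpace.denseSeq (Fin k → ℝ) m = c at *
  have hcb : closedBall c (1 / ((n : ℝ) + 1)) ⊆ ball (rr D B σ y) δ := by
    intro ρ hρ
    rw [mem_closedBall] at hρ
    rw [mem_ball]
    have h3 := dist_triangle ρ c (rr D B σ y)
    rw [dist_comm c] at h3
    linarith
  have hyc : rr D B σ y ∈ closedBall c (1 / ((n : ℝ) + 1)) := hm.le
  generalize 1 / ((n : ℝ) + 1) = r1 at *
  -- eventually in the slab
  have h3 : ∀ᶠ j in (𝒰 : Filter ι), Zm D B σ p (ε j) y ∈ slab D B σ S c r1 := by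
    filter_upwards [h, hεpos] with j hj hj0 ρ hρ
    have h5 : Zm D B σ p (ε j) (sh D B σ ρ y) ∈ S := hj (hδb ρ (hcb hρ))
    have h7 := hrad _ h5 ((ε j ^ 2)⁻¹) (by positivity)
    rw [rr_Zm hσ, rr_sh hσ, smul_smul, inv_mul_cancel₀ (by positivity), one_smul,
      sh_Zm_sh hσ] at h7
    exact h7
  -- shift to `p`
  have hlim : Tendsto (fun j => Zm D B σ p (ε j) y + (p - sh D B σ 0 p)) 𝒰 (𝓝 p) := by
    have hc : Continuous (fun t : ℝ => Zm D B σ p t y) := continuous_Zm_left p y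
    have h4 : Tendsto (fun j => Zm D B σ p (ε j) y) 𝒰 (𝓝 (Zm D B σ p 0 y)) :=
      (hc.tendsto 0).comp hε0
    rw [Zm_zero hσ] at h4
    have h5 := h4.add_const (p - sh D B σ 0 p)
    rwa [add_sub_cancel] at h5
  have h4 : p ∈ closure (slab D B σ S c r1) := by
    refine mem_closure_of_tendsto hlim ?_
    filter_upwards [h3] with j hj ρ hρ
    rw [shift_zero, sh_add_σ hσ ρ (rr D B σ p)]
    exact hj ρ hρ
  have h5 : p ∈ slab D B σ S c r1 := by
    rw [(isOpen_slab hSo _ _).frontier_eq] at hp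
    by_contra h7
    exact hp ⟨h4, h7⟩
  exact h5 _ hyc

theorem zoom_kernel_mpr (hσ : ∀ w, Lam D (σ w) = w) {S : Set E} (hSo : IsOpen S)
    (hrad : ∀ y ∈ S, ∀ t : ℝ, 0 < t → sh D B σ (t • rr D B σ y) y ∈ S) {p : E}
    (𝒰 : Ultrafilter ι) {ε : ι → ℝ}
    (hε : Tendsto ε 𝒰 (𝓝[>] 0)) (y : E) (h : sh D B σ (rr D B σ y) p ∈ S) :
    ∃ r > 0, ∀ᶠ j in (𝒰 : Filter ι), ball y r ⊆ Zm D B σ p (ε j) ⁻¹' S := by
  have hε0 : Tendsto ε 𝒰 (𝓝 0) := hε.mono_right nhdsWithin_le_nhds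
  have hεpos : ∀ᶠ j in (𝒰 : Filter ι), 0 < ε j := hε.eventually self_mem_nhdsWithin
  have h1 : Continuous (fun q : ℝ × E => sh D B σ (rr D B σ q.2) (Zm D B σ p q.1 q.2)) :=
    continuous_sh.comp ((continuous_rr.comp continuous_snd).prodMk (continuous_Zm p))
  have h2 : ∀ᶠ q in 𝓝 ((0 : ℝ), y), sh D B σ (rr D B σ q.2) (Zm D B σ p q.1 q.2) ∈ S := by
    refine h1.continuousAt.eventually_mem (hSo.mem_nhds ?_)
    simp only [Zm_zero hσ, sh_sh hσ]
    exact h
  rw [nhds_prod_eq, eventually_prod_iff] at h2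
  obtain ⟨pa, hpa, pb, hpb, h3⟩ := h2
  obtain ⟨δ, hδ, hδb⟩ := Metric.eventually_nhds_iff_ball.1 hpb
  refine ⟨δ, hδ, ?_⟩
  filter_upwards [hε0.eventually hpa, hεpos] with j hj hj0 z hz
  have h4 := h3 hj (hδb z hz)
  have h5 := hrad _ h4 (ε j ^ 2) (by positivity)
  simp only at h5
  rw [rr_sh hσ, sh_sh hσ, ← rr_Zm hσ, sh_rr] at h5
  exact h5

end Vale.Agent.P274
end

section

/-! Taylor polynomials as multivariate polynomials. -/

open Filter Metric Set Topology Asymptotics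

namespace Vale.Agent.P274.H

variable {ι : Type} [Fintype ι] [DecidableEq ι]

theorem exists_taylor_poly {f : (ι → ℝ) → ℝ} (hf : AnalyticAt ℝ f 0) (L : ℕ) :
    ∃ p : MvPolynomial ι ℝ, (fun v => f v - MvPolynomial.eval v p) =O[𝓝 0] fun v => ‖v‖ ^ L := by
  obtain ⟨P, hP⟩ := hf
  set p : MvPolynomial ι ℝ := ∑ k ∈ Finset.range L, ∑ g : Fin k → ι,
    MvPolynomial.C (P k fun i => Pi.single (g i) (1 : ℝ)) * ∏ i, MvPolynomial.X (g i) with hp
  refine ⟨p, ?_⟩
  have h1 := hP.isBigO_sub_partialSum_pow L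
  refine h1.congr_left fun v => ?_
  rw [zero_add]
  congr 1
  rw [hp, FormalMultilinearSeries.partialSum, map_sum]
  refine Finset.sum_congr rfl fun k _ => ?_
  rw [map_sum]
  have hv : (fun _ : Fin k => v) = fun _ : Fin k => ∑ i : ι, v i • (Pi.single i (1 : ℝ) : ι → ℝ) := by
    funext _
    exact pi_eq_sum_univ' v
  rw [hv, ContinuousMultilinearMap.map_sum]
  refine Finset.sum_congr rfl fun g _ => ?_
  rw [ContinuousMultilinearMap.map_smul_univ, smul_eq_mul, map_mul, MvPolynomial.eval_C, map_prod,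
    mul_comm]
  congr 1
  refine Finset.prod_congr rfl fun i _ => ?_
  rw [MvPolynomial.eval_X]

/-- restriction of a polynomial to a coordinate axis -/
noncomputable def axis (j : ι) (p : MvPolynomial ι ℝ) : Polynomial ℝ :=
  MvPolynomial.aeval (fun i => if i = j then Polynomial.X else 0) p

omit [Fintype ι] in
theorem axis_eval (j : ι) (p : MvPolynomial ι ℝ) (t : ℝ) :
    (axis j p).eval t = MvPolynomial.eval (Pi.single j t) p := by
  unfold axis
  induction p using MvPolynomial.induction_on with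
  | C a => simp
  | add p q hp hq => simp only [map_add, Polynomial.eval_add, hp, hq]
  | mul_X p i hp =>
    simp only [map_mul, Polynomial.eval_mul, hp, MvPolynomial.aeval_X, MvPolynomial.eval_X]
    congr 1
    by_cases h : i = j
    · subst h; simp
    · simp [h]

omit [Fintype ι] in
theorem axis_coeff (j : ι) (p : MvPolynomial ι ℝ) (k : ℕ) :
    (axis j p).coeff k = MvPolynomial.coeff (Finsupp.single j k) p := by
  unfold axis
  induction p using MvPolynomial.induction_on' with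
  | add p q hp hq => rw [map_add, Polynomial.coeff_add, MvPolynomial.coeff_add, hp, hq]
  | monomial a b =>
    rw [MvPolynomial.aeval_monomial, MvPolynomial.coeff_monomial]
    by_cases hs : ∃ i ∈ a.support, i ≠ j
    · obtain ⟨i, hi, hij⟩ := hs
      have h1 : (a.prod fun i k => (if i = j then (Polynomial.X : Polynomial ℝ) else 0) ^ k) = 0 := by
        refine Finset.prod_eq_zero hi ?_
        change (if i = j then (Polynomial.X : Polynomial ℝ) else 0) ^ (a i) = 0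
        rw [if_neg hij, zero_pow (Finsupp.mem_support_iff.1 hi)]
      rw [h1, mul_zero, Polynomial.coeff_zero, if_neg]
      intro h
      rw [h] at hi
      have := Finsupp.support_single_subset hi
      exact hij (by simpa using this)
    · push Not at hs
      have h1 : a = Finsupp.single j (a j) := by
        ext i
        by_cases hij : i = j
        · subst hij; simp
        · have : a i = 0 := by
            by_contra h
            exact hij (hs i (Finsupp.mem_support_iff.2 h))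
          rw [this, Finsupp.single_eq_of_ne (by tauto)]
      rw [h1, Finsupp.prod_single_index (by simp), if_pos rfl]
      simp only [Polynomial.algebraMap_apply, Algebra.algebraMap_self, RingHom.id_apply,
        Polynomial.coeff_C_mul, Polynomial.coeff_X_pow]
      by_cases hk : k = a j
      · subst hk; simp
      · rw [if_neg hk, if_neg, mul_zero]
        intro h
        have := DFunLike.congr_fun h j
        simp at this
        exact hk this.symm

/-- Coefficients of a polynomial approximating a function which is small to first order along a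
coordinate axis. -/
theorem coeff_of_isBigO {f : (ι → ℝ) → ℝ} {p : MvPolynomial ι ℝ} {L : ℕ} (hL : 2 ≤ L)
    (h : (fun v => f v - MvPolynomial.eval v p) =O[𝓝 0] fun v => ‖v‖ ^ L) (j : ι)
    (hf : (fun t : ℝ => f (Pi.single j t)) =o[𝓝 0] fun t => t) :
    MvPolynomial.coeff 0 p = 0 ∧ MvPolynomial.coeff (Finsupp.single j 1) p = 0 := by
  have htend : Tendsto (fun t : ℝ => (Pi.single j t : ι → ℝ)) (𝓝 0) (𝓝 0) := by
    have h1 : Continuous (fun t : ℝ => (Pi.single j t : ι → ℝ)) :=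
      continuous_single (A := fun _ : ι => ℝ) j
    have := h1.tendsto 0
    simpa using this
  have h1 := h.comp_tendsto htend
  have h2 : (fun t : ℝ => (axis j p).eval t) =o[𝓝 0] fun t => t := by
    have h3 : (fun t : ℝ => f (Pi.single j t) - (axis j p).eval t) =o[𝓝 0] fun t => t := by
      refine IsBigO.trans_isLittleO (g := fun t : ℝ => t ^ L) ?_ ?_
      · refine (h1.congr_left fun t => ?_).trans ?_
        · simp only [Function.comp_apply, axis_eval]
        · refine IsBigO.of_bound 1 (Eventually.of_forall fun t => ?_)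
          simp only [Function.comp_apply, norm_pow, norm_norm, one_mul, Pi.norm_single]
          exact le_rfl
      · have h4 : (fun t : ℝ => t ^ L) =o[𝓝 0] fun t : ℝ => t ^ 1 :=
          isLittleO_pow_pow (by omega)
        simpa using h4
    have := hf.sub h3
    simpa using this
  have h3 : Tendsto (fun t : ℝ => (axis j p).eval t) (𝓝 0) (𝓝 0) :=
    h2.trans_tendsto tendsto_id
  have h4 : (axis j p).eval 0 = 0 :=
    tendsto_nhds_unique ((axis j p).continuous.tendsto 0) h3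
  have h5 : HasDerivAt (fun t => (axis j p).eval t) 0 0 := by
    rw [hasDerivAt_iff_isLittleO]
    simpa [h4] using h2
  have h6 := ((axis j p).hasDerivAt 0).unique h5
  rw [← axis_coeff, ← Finsupp.single_zero j, ← axis_coeff]
  constructor
  · rw [Polynomial.coeff_zero_eq_eval_zero, h4]
  · rw [← Polynomial.coeff_zero_eq_eval_zero, Polynomial.coeff_derivative] at h6
    simpa using h6

end Vale.Agent.P274.H
end

section

/-! Analytic discs attached to horns reach an open set of transversal directions. -/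

open Filter Metric Set Topology Asymptotics

namespace Vale.Agent.P274.H

open Complex

theorem sl_pos {s0 l : ℝ} (hs0 : 0 < s0) (hl : l ∈ Ico (0 : ℝ) 1) (ζ : ℂ) : 0 < sl s0 l ζ := by
  unfold sl
  have h1 : 0 ≤ l * (‖1 - ζ‖ ^ 2 / 4) := mul_nonneg hl.1 (by positivity)
  have h2 : 0 < 1 - l := by linarith only [hl.2]
  positivity

theorem sl_le {s0 l : ℝ} (hs0 : 0 ≤ s0) (hl : l ∈ Icc (0 : ℝ) 1) {ζ : ℂ} (hζ : ‖ζ‖ = 1) :
    sl s0 l ζ ≤ s0 := by
  unfold sl
  have h1 : ‖1 - ζ‖ ≤ 2 := by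
    have := norm_sub_le (1 : ℂ) ζ
    rw [norm_one, hζ] at this
    linarith only [this]
  have h2 : ‖1 - ζ‖ ^ 2 / 4 ≤ 1 := by nlinarith only [h1, norm_nonneg (1 - ζ)]
  have h3 : l * (‖1 - ζ‖ ^ 2 / 4) ≤ l * 1 := mul_le_mul_of_nonneg_left h2 hl.1
  nlinarith only [hs0, h3]

theorem sq_le_sl {l : ℝ} (hl : l ∈ Icc (0 : ℝ) 1) {ζ : ℂ} (hζ : ‖ζ‖ = 1) :
    (‖ζ - 1‖ + (1 - l)) ^ 2 ≤ 18 * ((1 - l) + l * (‖1 - ζ‖ ^ 2 / 4)) := by
  have h1 : ‖ζ - 1‖ ≤ 2 := by
    have := norm_sub_le ζ (1 : ℂ)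
    rw [norm_one, hζ] at this
    linarith only [this]
  have h0 : ‖1 - ζ‖ = ‖ζ - 1‖ := norm_sub_rev _ _
  rw [h0]
  set a := ‖ζ - 1‖ with ha
  have ha0 : 0 ≤ a := norm_nonneg _
  obtain ⟨hl0, hl1⟩ := hl
  rcases le_total (1 / 2) l with h | h
  · have h2 : a ^ 2 ≤ 8 * (l * (a ^ 2 / 4)) := by nlinarith only [h, sq_nonneg a]
    have h3 : (1 - l) ^ 2 ≤ 1 - l := by nlinarith only [hl0, hl1]
    have h4 : 0 ≤ l * (a ^ 2 / 4) := by positivity
    nlinarith only [h2, h3, sq_nonneg (a - (1 - l))]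
  · have h2 : (a + (1 - l)) ^ 2 ≤ 9 := by
      have : a + (1 - l) ≤ 3 := by linarith only [h1, hl0]
      have h3 : 0 ≤ a + (1 - l) := by linarith only [ha0, hl1]
      nlinarith only [h1, ha0, hl0, hl1]
    have h4 : 0 ≤ l * (a ^ 2 / 4) := by positivity
    linarith only [h, h2, h4]

variable {E : Type} [NormedAddCommGroup E] [NormedSpace ℂ E] [FiniteDimensional ℂ E]

/-- Polynomial approximation of the defining functions of the leaves in the slice. -/
theorem exists_slice_poly {q : E} {c : ℕ} {R : E × ℝ → (Fin c → ℝ)}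
    (hR : AnalyticAt ℝ R (q, 0)) (hR0 : R (q, 0) = 0) {sig : (Fin c → ℂ) →L[ℂ] E}
    (hsig : ∀ w, Lam (fderiv ℝ (fun z => R (z, 0)) q) (sig w) = w) (L : ℕ) (hL : 2 ≤ L) :
    ∃ r : Fin c → MvPolynomial ((Fin c ⊕ Fin c) ⊕ Unit) ℝ,
      (∀ i, MvPolynomial.coeff 0 (r i) = 0) ∧
      (∀ i j, MvPolynomial.coeff (Finsupp.single (Sum.inl j) 1) (r i) = 0) ∧
      ∃ CT > 0, ∃ η > 0, ∀ (w : Fin c → ℂ) (s : ℝ), ‖w‖ < η → |s| < η → ∀ i,
        |R (q + sig w, s) i - ((w i).re + MvPolynomial.eval (pt (fun j => (w j).re)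
          (fun j => (w j).im) s) (r i))| ≤ CT * (max ‖w‖ |s|) ^ L := by
  classical
  set ι := (Fin c ⊕ Fin c) ⊕ Unit with hι
  -- the point of `E × ℝ`
  set W : (ι → ℝ) →L[ℝ] (Fin c → ℂ) := ContinuousLinearMap.pi fun j =>
    (Complex.ofRealCLM.comp (ContinuousLinearMap.proj (R := ℝ) (Sum.inl (Sum.inl j)))) +
      (Complex.I • Complex.ofRealCLM.comp
        (ContinuousLinearMap.proj (R := ℝ) (Sum.inl (Sum.inr j)))) with hW
  have hWapp : ∀ v j, W v j = (v (Sum.inl (Sum.inl j)) : ℂ) + I * (v (Sum.inl (Sum.inr j)) : ℂ) := by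
    intro v j
    simp [hW]
  set f : Fin c → (ι → ℝ) → ℝ := fun i v =>
    R (q + sig (W v), v (Sum.inr ())) i - v (Sum.inl (Sum.inl i)) with hf
  have hinner : AnalyticAt ℝ (fun v : ι → ℝ => ((q + sig (W v), v (Sum.inr ())) : E × ℝ)) 0 := by
    refine AnalyticAt.prod ?_ ?_
    · refine analyticAt_const.add ?_
      exact ((sig.restrictScalars ℝ).comp W).analyticAt 0
    · exact (ContinuousLinearMap.proj (R := ℝ) (φ := fun _ : ι => ℝ) (Sum.inr ())).analyticAt 0
  have hfan : ∀ i, AnalyticAt ℝ (f i) 0 := by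
    intro i
    refine AnalyticAt.sub ?_ ?_
    · have h1 : AnalyticAt ℝ R ((fun v : ι → ℝ => ((q + sig (W v), v (Sum.inr ())) : E × ℝ)) 0) := by
        simpa using hR
      have h2 : AnalyticAt ℝ (fun v : ι → ℝ => R (q + sig (W v), v (Sum.inr ()))) 0 :=
        AnalyticAt.fun_comp (g := R)
          (f := fun v : ι → ℝ => ((q + sig (W v), v (Sum.inr ())) : E × ℝ)) h1 hinner
      exact ((ContinuousLinearMap.proj (R := ℝ) (φ := fun _ : Fin c => ℝ) i).analyticAt _).comp h2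
    · exact (ContinuousLinearMap.proj (R := ℝ) (φ := fun _ : ι => ℝ)
        (Sum.inl (Sum.inl i))).analyticAt 0
  -- first order smallness
  have hR' : HasFDerivAt (fun z => R (z, 0)) (fderiv ℝ (fun z => R (z, 0)) q) q := by
    have h1 : AnalyticAt ℝ (fun z : E => ((z, 0) : E × ℝ)) q := analyticAt_id.prod analyticAt_const
    have h2 : AnalyticAt ℝ (fun z => R (z, 0)) q :=
      AnalyticAt.fun_comp (g := R) (f := fun z : E => ((z, 0) : E × ℝ)) hR h1
    exact h2.differentiableAt.hasFDerivAt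
  set D := fderiv ℝ (fun z => R (z, 0)) q with hD
  have hDsig : ∀ w i, D (sig w) i = (w i).re := by
    intro w i
    rw [← Lam_re, hsig]
  have hsmall : ∀ (i : Fin c) (j : Fin c ⊕ Fin c),
      (fun t : ℝ => f i (Pi.single (Sum.inl j) t)) =o[𝓝 0] fun t => t := by
    intro i j
    have h1 : (fun t : ℝ => R (q + sig (W (Pi.single (Sum.inl j) t)), 0) -
        D (sig (W (Pi.single (Sum.inl j) t)))) =o[𝓝 0] fun t => t := by
      have h2 := (hasFDerivAt_iff_isLittleO_nhds_zero.1 hR')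
      simp only [hR0, sub_zero] at h2
      have h3 : Tendsto (fun t : ℝ => sig (W (Pi.single (Sum.inl j) t))) (𝓝 0) (𝓝 0) := by
        have h4 : Continuous (fun t : ℝ => sig (W (Pi.single (Sum.inl j) t))) :=
          sig.continuous.comp (W.continuous.comp (continuous_single (A := fun _ : ι => ℝ) _))
        have := h4.tendsto 0
        simpa using this
      refine (h2.comp_tendsto h3).trans_isBigO ?_
      refine IsBigO.of_bound (‖(sig.restrictScalars ℝ).comp W‖) (Eventually.of_forall fun t => ?_)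
      refine (((sig.restrictScalars ℝ).comp W).le_opNorm _).trans ?_
      rw [Pi.norm_single]
    have h4 : ∀ t : ℝ, f i (Pi.single (Sum.inl j) t) =
        (R (q + sig (W (Pi.single (Sum.inl j) t)), 0) -
        D (sig (W (Pi.single (Sum.inl j) t)))) i := by
      intro t
      simp only [hf, Pi.sub_apply, hDsig, hWapp]
      rw [Pi.single_eq_of_ne (by simp)]
      simp
    refine IsLittleO.congr_left ?_ fun t => (h4 t).symm
    exact (isLittleO_pi.1 h1) i
  -- Taylor polynomials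
  choose r hr using fun i => exists_taylor_poly (hfan i) L
  have hTay : ∃ CT > 0, ∀ᶠ v in 𝓝 (0 : ι → ℝ), ∀ i,
      |f i v - MvPolynomial.eval v (r i)| ≤ CT * ‖v‖ ^ L := by
    choose C hC hCb using fun i => (hr i).exists_pos
    refine ⟨∑ i, C i + 1, by
      have : 0 ≤ ∑ i, C i := Finset.sum_nonneg fun i _ => (hC i).le
      (clear * - this; positivity), ?_⟩
    rw [eventually_all]
    intro i
    filter_upwards [(hCb i).bound] with v hv
    rw [Real.norm_eq_abs, Real.norm_of_nonneg (by (clear * -; positivity))] at hv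
    refine hv.trans ?_
    gcongr
    have := Finset.single_le_sum (f := C) (fun i _ => (hC i).le) (Finset.mem_univ i)
    linarith only [this]
  obtain ⟨CT, hCT, hTay⟩ := hTay
  obtain ⟨η, hη, hTay⟩ := Metric.eventually_nhds_iff_ball.1 hTay
  refine ⟨r, fun i => (coeff_of_isBigO hL (hr i) (Sum.inl (Sum.inl i)) (hsmall i _)).1,
    fun i j => (coeff_of_isBigO hL (hr i) (Sum.inl j) (hsmall i j)).2, CT, hCT, η, hη,
    fun w s hw hs i => ?_⟩
  set V : ι → ℝ := pt (fun j => (w j).re) (fun j => (w j).im) s with hV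
  have hWV : W V = w := by
    ext j
    rw [hWapp]
    simp only [hV, pt, Sum.elim_inl, Sum.elim_inr]
    rw [mul_comm]
    exact re_add_im _
  have hVs : V (Sum.inr ()) = s := rfl
  have hVn : ‖V‖ ≤ max ‖w‖ |s| := by
    refine (pi_norm_le_iff_of_nonneg (le_max_of_le_right (abs_nonneg s))).2 fun x => ?_
    rcases x with (x | x) | x
    · refine le_trans ?_ (le_max_left _ _)
      exact (abs_re_le_norm _).trans (norm_le_pi_norm w x)
    · refine le_trans ?_ (le_max_left _ _)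
      exact (abs_im_le_norm _).trans (norm_le_pi_norm w x)
    · exact le_max_right _ _
  have hVball : V ∈ ball (0 : ι → ℝ) η := by
    rw [mem_ball_zero_iff]
    exact lt_of_le_of_lt hVn (max_lt hw hs)
  have h2 : f i V = R (q + sig w, s) i - (w i).re := by
    simp only [hf, hWV, hVs]
    rfl
  have h3 : R (q + sig w, s) i - ((w i).re + MvPolynomial.eval V (r i)) =
      f i V - MvPolynomial.eval V (r i) := by
    rw [h2]; ring
  rw [h3]
  refine (hTay V hVball i).trans ?_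
  (clear * - hCT hVn; gcongr)

/-- The boundaries of the discs are in the horn. -/
theorem bdry_in_horn {U : Set E} {q : E} {c : ℕ} {R : E × ℝ → (Fin c → ℝ)}
    {sig : (Fin c → ℂ) →L[ℂ] E} {κ : ℝ} (hκ : 0 < κ) {m : ℕ} {η2 : ℝ}
    (hhorn : ∀ p ∈ ball ((q, 0) : E × ℝ) η2, 0 < p.2 → ‖R p‖ < κ * p.2 ^ m → p.1 ∈ U)
    {r : Fin c → MvPolynomial ((Fin c ⊕ Fin c) ⊕ Unit) ℝ} {CT η1 : ℝ} (hCT : 0 < CT)
    (hTay : ∀ (w : Fin c → ℂ) (s : ℝ), ‖w‖ < η1 → |s| < η1 → ∀ i,
        |R (q + sig w, s) i - ((w i).re + MvPolynomial.eval (pt (fun j => (w j).re)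
          (fun j => (w j).im) s) (r i))| ≤ CT * (max ‖w‖ |s|) ^ (2 * m + 2))
    {C s0 : ℝ} (hC : 0 < C) (hs0 : 0 < s0) (hs01 : s0 ≤ 1)
    (hsA : 3 * C * s0 + s0 < η1) (hsB : (‖sig‖ + 1) * (3 * C * s0) + s0 < η2)
    (hsD : CT * (18 * C ^ 2 + 1) ^ (m + 1) * s0 < κ / 2)
    {w : Fin c → ℂ} {v : Fin c → ℝ} (hv : ‖v‖ ≤ κ / 2) {l : ℝ} (hl : l ∈ Icc (0 : ℝ) 1)
    {ζ : ℂ} (hζ : ‖ζ‖ = 1) (hwn : ‖w‖ ≤ C * s0 * (‖ζ - 1‖ + (1 - l)))
    (heq : ∀ i, (w i).re + MvPolynomial.eval (pt (fun j => (w j).re)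
              (fun j => (w j).im) (sl s0 l ζ)) (r i) = sl s0 l ζ ^ m * v i)
    (hspos : 0 < sl s0 l ζ) : q + sig w ∈ U := by
  set s := sl s0 l ζ with hs
  have hsle : s ≤ s0 := sl_le hs0.le hl hζ
  have hw3 : ‖w‖ ≤ 3 * C * s0 := by
    refine hwn.trans ?_
    have h1 : ‖ζ - 1‖ ≤ 2 := by
      have := norm_sub_le ζ (1 : ℂ)
      rw [norm_one, hζ] at this
      linarith only [this]
    have h2 : ‖ζ - 1‖ + (1 - l) ≤ 3 := by linarith only [h1, hl.1]
    calc C * s0 * (‖ζ - 1‖ + (1 - l)) ≤ C * s0 * 3 := by (clear * - hC hs0 h2; gcongr)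
      _ = 3 * C * s0 := by ring
  have h3C : 0 ≤ 3 * C * s0 := by (clear * - hC hs0; positivity)
  have habs : |s| = s := abs_of_pos hspos
  set M := max ‖w‖ |s| with hM
  have hM0 : 0 ≤ M := le_max_of_le_left (norm_nonneg _)
  set C2 : ℝ := 18 * C ^ 2 + 1 with hC2
  have hC20 : 0 < C2 := by (clear * - hC; positivity)
  have hsq : M ^ 2 ≤ C2 * s0 * s := by
    have hwsq : ‖w‖ ^ 2 ≤ 18 * C ^ 2 * s0 * s := by
      have h1 : ‖w‖ ^ 2 ≤ (C * s0 * (‖ζ - 1‖ + (1 - l))) ^ 2 := by (clear * - hwn; gcongr)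
      refine h1.trans ?_
      have h2 := sq_le_sl hl hζ
      have h3 : s = s0 * ((1 - l) + l * (‖1 - ζ‖ ^ 2 / 4)) := rfl
      calc (C * s0 * (‖ζ - 1‖ + (1 - l))) ^ 2
          = C ^ 2 * s0 ^ 2 * (‖ζ - 1‖ + (1 - l)) ^ 2 := by ring
        _ ≤ C ^ 2 * s0 ^ 2 * (18 * ((1 - l) + l * (‖1 - ζ‖ ^ 2 / 4))) := by (clear * - hC hs0 h2; gcongr)
        _ = 18 * C ^ 2 * s0 * s := by rw [h3]; ring
    have hssq : s ^ 2 ≤ s0 * s := by nlinarith only [hspos, hsle]
    have h5 : 0 ≤ 18 * C ^ 2 * s0 * s := by (clear * - hC hs0 hspos; positivity)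
    have h6 : 0 ≤ s0 * s := by (clear * - hs0 hspos; positivity)
    rcases max_choice ‖w‖ |s| with h | h
    · rw [hM, h, hC2]; nlinarith only [hwsq, hssq]
    · rw [hM, h, habs, hC2]; nlinarith only [hwsq, hssq]
  have hRn : ‖R (q + sig w, s)‖ < κ * s ^ m := by
    have hsm : 0 < s ^ m := by (clear * - hspos; positivity)
    rw [pi_norm_lt_iff (by (clear * - hκ hspos; positivity))]
    intro i
    have hT := hTay w s (by linarith only [hs0, hsA, hw3]) (by rw [habs]; linarith only [hsA, hsle, h3C]) i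
    have hTs : CT * M ^ (2 * m + 2) < κ / 2 * s ^ m := by
      have h3 : M ^ (2 * m + 2) = (M ^ 2) ^ (m + 1) := by
        rw [← pow_mul]; congr 1
      have h4 : (M ^ 2) ^ (m + 1) ≤ (C2 * s0 * s) ^ (m + 1) := by (clear * - hspos hsq; gcongr)
      have h5 : s0 ^ m ≤ 1 := pow_le_one₀ hs0.le hs01
      have h7 : s0 ^ m * s ≤ 1 := by
        have h8 : s ≤ 1 := hsle.trans hs01
        have h9 : 0 ≤ s0 ^ m := by (clear * - hs0; positivity)
        nlinarith only [hs01, hspos, hsle, h5]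
      have h8 : (C2 * s0 * s) ^ (m + 1) = C2 ^ (m + 1) * s0 * (s0 ^ m * s) * s ^ m := by
        rw [mul_pow, mul_pow, pow_succ s0, pow_succ s]; ring
      have h9 : (C2 * s0 * s) ^ (m + 1) ≤ C2 ^ (m + 1) * s0 * 1 * s ^ m := by
        rw [h8]; (clear * - hC hs0 hspos h7; gcongr)
      calc CT * M ^ (2 * m + 2) ≤ CT * (C2 ^ (m + 1) * s0 * 1 * s ^ m) := by
            rw [h3]
            exact mul_le_mul_of_nonneg_left (h4.trans h9) hCT.le
        _ = CT * C2 ^ (m + 1) * s0 * s ^ m := by ring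
        _ < κ / 2 * s ^ m := by (clear * - hspos hsD; gcongr)
    have h1 : |s ^ m * v i| ≤ s ^ m * (κ / 2) := by
      rw [abs_mul, abs_of_pos hsm]
      have h2 : |v i| ≤ κ / 2 := (norm_le_pi_norm v i).trans hv
      (clear * - hspos h2; gcongr)
    rw [heq i] at hT
    have h2 := abs_lt.2 ⟨neg_lt_of_abs_lt (lt_of_le_of_lt hT hTs), lt_of_abs_lt (lt_of_le_of_lt hT hTs)⟩
    rw [Real.norm_eq_abs]
    have h3 : R (q + sig w, s) i = (R (q + sig w, s) i - s ^ m * v i) + s ^ m * v i := by ring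
    rw [h3]
    refine lt_of_le_of_lt (abs_add_le _ _) ?_
    linarith only [hT, hTs, h1]
  refine hhorn (q + sig w, s) ?_ hspos hRn
  rw [mem_ball, Prod.dist_eq, max_lt_iff]
  constructor
  · change dist (q + sig w) q < η2
    rw [dist_eq_norm, add_sub_cancel_left]
    have h1 := sig.le_opNorm w
    have h2 : ‖sig‖ * ‖w‖ ≤ (‖sig‖ + 1) * (3 * C * s0) := by
      gcongr
      linarith only
    linarith only [hs0, hsB, h1, h2]
  · change dist s 0 < η2
    rw [Real.dist_eq, sub_zero, habs]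
    have : 0 ≤ (‖sig‖ + 1) * (3 * C * s0) := by (clear * - hC hs0; positivity)
    linarith only [hsB, hsle, this]

theorem exists_small {η1 η2 δ s1 C N κ A : ℝ} (hη1 : 0 < η1) (hη2 : 0 < η2) (hδ : 0 < δ)
    (hs1 : 0 < s1) (hκ : 0 < κ) : ∃ s0 > 0, s0 < s1 ∧ s0 ≤ 1 ∧
      3 * C * s0 + s0 < η1 ∧ (N + 1) * (3 * C * s0) + s0 < η2 ∧ (N + 1) * (3 * C * s0) < δ ∧
      A * s0 < κ / 2 := by
  have h1 : ∀ᶠ s0 in 𝓝[>] (0 : ℝ), s0 < s1 ∧ s0 ≤ 1 ∧
      3 * C * s0 + s0 < η1 ∧ (N + 1) * (3 * C * s0) + s0 < η2 ∧ (N + 1) * (3 * C * s0) < δ ∧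
      A * s0 < κ / 2 := by
    have hk : ∀ (a b : ℝ), 0 < b → ∀ᶠ s0 in 𝓝[>] (0 : ℝ), a * s0 < b := by
      intro a b hb
      have h2 : Continuous fun s0 : ℝ => a * s0 := by fun_prop
      have h3 := (h2.tendsto 0).mono_left (nhdsWithin_le_nhds (s := Ioi 0))
      rw [mul_zero] at h3
      exact h3.eventually (gt_mem_nhds hb)
    filter_upwards [hk 1 s1 hs1, hk 1 1 one_pos, hk (3 * C + 1) η1 hη1,
      hk ((N + 1) * (3 * C) + 1) η2 hη2, hk ((N + 1) * (3 * C)) δ hδ,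
      hk A (κ / 2) (by positivity)] with s h1 h2 h3 h4 h5 h6
    refine ⟨by linarith only [h1], by linarith only [h2], by linarith only [h3], by linarith only [h4], by linarith only [h5], h6⟩
  obtain ⟨s0, hs0, hs0'⟩ := (h1.and self_mem_nhdsWithin).exists
  exact ⟨s0, hs0', hs0⟩

/-- If `U` contains a horn around an analytic family of leaves over `{R (z, 0) = 0}`, then an open
set of transversal directions is reached by points of `U`. -/
theorem fat_of_horn {U : Set E} (hU : IsOpen U) {q : E} {δ : ℝ} (hδ : 0 < δ) (hK : Kont U q δ)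
    {c : ℕ} {R : E × ℝ → (Fin c → ℝ)} (hR : AnalyticAt ℝ R (q, 0)) (hR0 : R (q, 0) = 0)
    {sig : (Fin c → ℂ) →L[ℂ] E}
    (hsig : ∀ w, Lam (fderiv ℝ (fun z => R (z, 0)) q) (sig w) = w)
    {κ : ℝ} (hκ : 0 < κ) {m : ℕ} (hm : 0 < m)
    (hhorn : ∀ᶠ p in 𝓝 ((q, 0) : E × ℝ), 0 < p.2 → ‖R p‖ < κ * p.2 ^ m → p.1 ∈ U) :
    ∃ O : Set (Fin c → ℝ), IsOpen O ∧ O.Nonempty ∧ ∀ r ∈ O, ∃ a : Fin c → ℂ,
      (∀ i, (a i).re = r i) ∧ ∃ γ : ℝ → (Fin c → ℂ),
        (∀ᶠ τ in 𝓝[>] (0 : ℝ), q + sig (γ τ) ∈ U) ∧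
        Tendsto (fun τ : ℝ => (τ⁻¹ : ℝ) • γ τ) (𝓝[>] 0) (𝓝 a) := by
  obtain ⟨r, hc0, hc1, CT, hCT, η1, hη1, hTay⟩ :=
    exists_slice_poly hR hR0 hsig (2 * m + 2) (by omega)
  obtain ⟨η2, hη2, hhorn⟩ := Metric.eventually_nhds_iff_ball.1 hhorn
  obtain ⟨C, hC, s1, hs1, hB⟩ := exists_bishop r hc0 hc1 m hm (κ / 2) (by (clear * - hκ; positivity))
  obtain ⟨s0, hs0, hs0s1, hs01, hsA, hsB, hsC, hsD⟩ :=
    exists_small (η1 := η1) (η2 := η2) (δ := δ) (s1 := s1) (C := C) (N := ‖sig‖) (κ := κ)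
      (A := CT * (18 * C ^ 2 + 1) ^ (m + 1)) hη1 hη2 hδ hs1 hκ
  obtain ⟨w, Dw, hw, hint⟩ := hB s0 hs0 hs0s1
  have hbdU : ∀ v ∈ closedBall (0 : Fin c → ℝ) (κ / 2), ∀ l ∈ Icc (0 : ℝ) 1, ∀ ζ : ℂ, ‖ζ‖ = 1 →
      0 < sl s0 l ζ → q + sig (w v l ζ) ∈ U := by
    intro v hv l hl ζ hζ hspos
    exact bdry_in_horn hκ hhorn hCT hTay hC hs0 hs01 hsA hsB hsD (by simpa using hv) hl hζ
      ((hw v hv).2.2.2.1 l hl ζ (by simp [hζ])) ((hw v hv).2.2.1 l hl ζ hζ) hspos
  have hwsig : ∀ v ∈ closedBall (0 : Fin c → ℝ) (κ / 2), ∀ l ∈ Icc (0 : ℝ) 1,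
      ∀ ζ ∈ closedBall (0 : ℂ) 1, ‖sig (w v l ζ)‖ ≤ (‖sig‖ + 1) * (3 * C * s0) := by
    intro v hv l hl ζ hζ
    refine (sig.le_opNorm _).trans ?_
    have h1 : ‖w v l ζ‖ ≤ 3 * C * s0 := by
      refine ((hw v hv).2.2.2.1 l hl ζ hζ).trans ?_
      have h1 : ‖ζ - 1‖ ≤ 2 := by
        have := norm_sub_le ζ (1 : ℂ)
        rw [norm_one] at this
        have h2 : ‖ζ‖ ≤ 1 := by simpa using hζ
        linarith only [this, h2]
      have h2 : ‖ζ - 1‖ + (1 - l) ≤ 3 := by linarith only [h1, hl.1]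
      calc C * s0 * (‖ζ - 1‖ + (1 - l)) ≤ C * s0 * 3 := by (clear * - hC hs0 h2; gcongr)
        _ = 3 * C * s0 := by ring
    have h2 : ‖sig‖ ≤ ‖sig‖ + 1 := by linarith only
    (clear * - h1 h2; gcongr)
  -- all discs are in `U`
  have hdisc : ∀ v ∈ closedBall (0 : Fin c → ℝ) (κ / 2), ∀ ζ ∈ ball (0 : ℂ) 1,
      q + sig (w v 1 ζ) ∈ U := by
    intro v hv
    obtain ⟨hw1, hw2, hw3, hw4, hw5, hw6, hw7⟩ := hw v hv
    refine hK.family hU (w := fun l ζ => q + sig (w v l ζ)) (fun l hl => ?_) ?_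
      (fun l hl ζ hζ => ?_) (fun l hl ζ hζ => ?_) (fun ζ hζ => ?_) ⟨-1, by simp, ?_⟩
    · have h1 := (hw1 l hl).mono (ball_subset_ball (by norm_num : (1 : ℝ) ≤ 2))
      exact (sig.differentiable.comp_differentiableOn h1).const_add _
    · exact continuousOn_const.add (sig.continuous.comp_continuousOn hw2)
    · rw [mem_ball, dist_eq_norm, add_sub_cancel_left]
      exact lt_of_le_of_lt (hwsig v hv l hl ζ hζ) hsC
    · exact hbdU v hv l ⟨hl.1, hl.2.le⟩ ζ hζ (sl_pos hs0 hl ζ)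
    · have h1 := hbdU v hv 0 ⟨le_rfl, zero_le_one⟩ 1 (by simp) (sl_pos hs0 ⟨le_rfl, one_pos⟩ 1)
      simp only [hw5 ζ hζ]
      exact h1
    · refine hbdU v hv 1 ⟨zero_le_one, le_rfl⟩ (-1) (by simp) ?_
      unfold sl
      have : ‖(1 : ℂ) - -1‖ = 2 := by norm_num
      rw [this]
      norm_num
      exact hs0
  -- conclusion
  set O : Set (Fin c → ℝ) := interior ((fun v => fun i => (Dw v i).re) ''
    closedBall (0 : Fin c → ℝ) (κ / 2)) with hO
  refine ⟨Neg.neg ⁻¹' O, isOpen_interior.preimage continuous_neg, ?_, fun ρ hρ => ?_⟩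
  · obtain ⟨x, hx⟩ := hint
    exact ⟨-x, by simpa [hO] using hx⟩
  · obtain ⟨v, hv, hvρ⟩ := interior_subset hρ
    obtain ⟨hw1, hw2, hw3, hw4, hw5, hw6, hw7⟩ := hw v hv
    refine ⟨-Dw v, fun i => ?_, fun τ => w v 1 (1 - τ), ?_, ?_⟩
    · have := congrFun hvρ i
      simp only [Pi.neg_apply, neg_re] at this ⊢
      linarith only [this]
    · have h1 : ∀ᶠ τ in 𝓝[>] (0 : ℝ), τ ∈ Ioo (0 : ℝ) 1 := Ioo_mem_nhdsGT one_pos
      filter_upwards [h1] with τ hτ
      refine hdisc v hv _ ?_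
      rw [mem_ball_zero_iff]
      have h2 : (1 : ℂ) - (τ : ℂ) = ((1 - τ : ℝ) : ℂ) := by push_cast; ring
      rw [h2, norm_real, Real.norm_of_nonneg (by linarith only [hτ.2])]
      linarith only [hτ.1]
    · have h1 : HasDerivAt (fun τ : ℝ => w v 1 (1 - (τ : ℂ))) (-Dw v) 0 := by
        have h2 : HasDerivAt (fun τ : ℝ => (1 : ℂ) - (τ : ℂ)) (-1) 0 := by
          have := (Complex.ofRealCLM.hasDerivAt (x := (0 : ℝ))).const_sub (1 : ℂ)
          simpa using this
        have h3 : HasDerivAt (w v 1) (Dw v) ((1 : ℂ) - ((0 : ℝ) : ℂ)) := by simpa using hw7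
        have h4 := h3.scomp (0 : ℝ) h2
        rw [neg_one_smul] at h4
        exact h4
      rw [hasDerivAt_iff_tendsto_slope] at h1
      have h2 : 𝓝[>] (0 : ℝ) ≤ 𝓝[≠] 0 := nhdsWithin_mono _ fun x hx => ne_of_gt hx
      refine (h1.mono_left h2).congr fun τ => ?_
      rw [slope_def_module]
      simp [hw6]

end Vale.Agent.P274.H
end

section

/-! # P274-V19: from an infinitesimal rotation to a symmetry

Proof of `symAt_of_field`.  `F` the flow of `J`, `s = F π`.  By `flow_eq_self_of_zero` and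
`fderiv_flow_of_zero` (`c = i`) `s p = p` and `fderiv ℂ s p = - id`.  `s ∘ s = F (2π)` fixes `p` with derivative
`id`, so `s ∘ s = id` on `D` by `cartan_unique'`; so `IsBiholo D D s s`.  Isolated fixed point:
`y ↦ s y - y` has the invertible derivative `-2 id` at `p`, so it is injective near `p`
(or: `‖s y - y + 2 (y - p)‖ ≤ ‖y - p‖` for `y` near `p`). -/

set_option linter.all false

open Set Complex ComplexConjugate Topology
open scoped ContDiff

namespace Vale.Agent.P274.V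

variable {E : Type*} [NormedAddCommGroup E] [NormedSpace ℂ E]

theorem symAt_of_field [FiniteDimensional ℂ E] {D : Set E} {h : E → E →L[ℝ] E →L[ℝ] ℂ}
    {ρ : E → ℝ} (C : Ctx D h ρ) {J : E → E} (hJ : J ∈ Kil D h) {p : E} (hp : p ∈ D)
    (h0 : J p = 0) (h1 : fderiv ℂ J p = I • ContinuousLinearMap.id ℂ E) : SymAt D p := by
  obtain ⟨F, hF⟩ := C.flow J hJ
  have hJd : ∀ x ∈ D, DifferentiableAt ℂ J x := hJ.1
  have hfix : ∀ t, F t p = p := flow_eq_self_of_zero C.isOpen hJd hF hp h0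
  have hder : ∀ t : ℝ, fderiv ℂ (F t) p = exp (I * t) • ContinuousLinearMap.id ℂ E :=
    fderiv_flow_of_zero C.isOpen hJd hF hp h0 h1
  have hinv : ∀ x ∈ D, F Real.pi (F Real.pi x) = x := by
    intro x hx
    have h2 : F (Real.pi + Real.pi) x = x := by
      refine cartan_unique' C.isOpen C.conn C.bdd (hF.biholo _).diffOn (hF.biholo _).mapsTo hp
        (hfix _) ?_ x hx
      rw [hder]
      have e : I * ((Real.pi + Real.pi : ℝ) : ℂ) = 2 * (Real.pi : ℂ) * I := by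
        push_cast
        ring
      rw [e, Complex.exp_two_pi_mul_I, one_smul]
    rw [← hF.add _ _ x hx]
    exact h2
  refine ⟨F Real.pi, ⟨(hF.biholo _).diffOn, (hF.biholo _).diffOn, (hF.biholo _).mapsTo,
    (hF.biholo _).mapsTo, hinv, hinv⟩, hfix _, ?_⟩
  have hd : HasFDerivAt (F Real.pi) (-ContinuousLinearMap.id ℂ E) p := by
    have h2 : DifferentiableAt ℂ (F Real.pi) p :=
      ((hF.biholo _).diffOn p hp).differentiableAt (C.isOpen.mem_nhds hp)
    have h3 := h2.hasFDerivAt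
    rw [hder, mul_comm, Complex.exp_pi_mul_I, neg_one_smul] at h3
    exact h3
  have hlo := hd.isLittleO.def (one_pos)
  obtain ⟨r, hr, hr'⟩ := Metric.eventually_nhds_iff.1 hlo
  refine ⟨r, hr, fun y _ hy hs => ?_⟩
  have h4 := hr' hy
  rw [hs, hfix, one_mul] at h4
  have h5 : y - p - (-ContinuousLinearMap.id ℂ E) (y - p) = (2 : ℂ) • (y - p) := by
    rw [ContinuousLinearMap.neg_apply, ContinuousLinearMap.id_apply, sub_neg_eq_add, two_smul]
  rw [h5, norm_smul] at h4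
  have h6 : ‖(2 : ℂ)‖ = 2 := by norm_num
  rw [h6] at h4
  have h7 : ‖y - p‖ ≤ 0 := by linarith
  exact sub_eq_zero.1 (norm_le_zero_iff.1 h7)

/-- Symmetries are transported by biholomorphisms: `s' = g ∘ s ∘ g'`. -/
theorem SymAt.transport {E' : Type*} [NormedAddCommGroup E'] [NormedSpace ℂ E']
    {D : Set E} {D' : Set E'} (hD' : IsOpen D') {g : E → E'} {g' : E' → E}
    (hg : IsBiholo D D' g g') {p : E} (hp : p ∈ D) (hs : SymAt D p) : SymAt D' (g p) := by
  obtain ⟨s, hs1, hs2, r, hr, hs3⟩ := hs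
  refine ⟨(g ∘ s) ∘ g', hg.symm.trans (hs1.trans hg), ?_, ?_⟩
  · show g (s (g' (g p))) = g p
    rw [hg.left_inv p hp, hs2]
  · have hgp : g p ∈ D' := hg.mapsTo hp
    have hc : ContinuousAt g' (g p) :=
      ((hg.diffOn_inv (g p) hgp).differentiableAt (hD'.mem_nhds hgp)).continuousAt
    obtain ⟨r', hr', hc'⟩ := Metric.continuousAt_iff.1 hc r hr
    refine ⟨r', hr', fun y hy hyd hys => ?_⟩
    have h1 := hc' hyd
    rw [hg.left_inv p hp] at h1
    have h2 : g' y ∈ D := hg.mapsTo_inv hy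
    have h3 : s (g' y) = g' y := by
      have h4 : g (s (g' y)) = y := hys
      have h5 := congrArg g' h4
      rwa [hg.left_inv _ (hs1.mapsTo h2)] at h5
    have h6 := hs3 (g' y) h2 h1 h3
    have h7 := hg.right_inv y hy
    rw [h6] at h7
    exact h7.symm

end Vale.Agent.P274.V
end

section

/-! # P274-V17: pull-back of the Fubini-Study metric

`h x u v = (⟪e' u, e' v⟫ ‖e‖² - ⟪e' u, e⟫ ⟪e, e' v⟫) / ‖e‖⁴` with `e = e x`, `e' = fderiv ℝ e x`
(Mathlib's inner product is conjugate linear in the first argument, `e'` is conjugate linear, so `h x` is linear in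
`u`, conjugate linear in `v`), `ρ x = ‖e x‖²`.
The form `fs ξ a b = (⟪a, b⟫ ‖ξ‖² - ⟪a, ξ⟫ ⟪ξ, b⟫) / ‖ξ‖⁴` satisfies
`fs (c ξ) (c a + α ξ) (c b + β ξ) = fs ξ a b` for `c ≠ 0` (complex numbers), is invariant under linear
isometries, and `fs ξ a a > 0` unless `a` is a multiple of `ξ` (equality case of Cauchy-Schwarz).
Invariance of `h`: differentiate `e x = conj (det f' x) • T (e (f x))` on `U` (the coefficient is a smooth, nowhere
zero function on `U`, `f` is holomorphic with smooth derivative, `P268/Hol`):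
`e' x u = conj(det)·T (e' (f x) (f' x u)) + (multiple of T (e (f x)))`.
Smoothness of `x ↦ h x` as a map into `E →L[ℝ] E →L[ℝ] ℂ`: composition of smooth maps
(`fderiv ℝ e` is `C^∞` on `U`, inner product `innerSL`), or use a basis and `contDiffOn_clm_apply`. -/

open Set Complex ComplexConjugate Topology
open scoped ContDiff

namespace Vale.Agent.P274.V

variable {E : Type*} [NormedAddCommGroup E] [NormedSpace ℂ E]

section fs

variable {H : Type*} [NormedAddCommGroup H] [InnerProductSpace ℂ H]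

/-- The Fubini-Study form on `H`. -/
noncomputable def fs (ξ a b : H) : ℂ :=
  (inner ℂ a b * ((‖ξ‖ ^ 2 : ℝ) : ℂ) - inner ℂ a ξ * inner ℂ ξ b) / ((‖ξ‖ ^ 2 : ℝ) : ℂ) ^ 2

theorem fs_conj (ξ a b : H) : conj (fs ξ a b) = fs ξ b a := by
  simp only [fs, map_div₀, map_sub, map_mul, map_pow, inner_conj_symm, Complex.conj_ofReal]
  ring

theorem fs_left_smul (ξ a b : H) (c : ℂ) : fs ξ (c • a) b = conj c * fs ξ a b := by
  simp only [fs, inner_smul_left]
  ring

theorem normSq_eq (ξ : H) : ((‖ξ‖ ^ 2 : ℝ) : ℂ) = inner ℂ ξ ξ := by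
  rw [inner_self_eq_norm_sq_to_K]
  push_cast
  rfl

theorem fs_trans {ξ : H} (hξ : ξ ≠ 0) (a b : H) {c : ℂ} (hc : c ≠ 0) (α β : ℂ) :
    fs (c • ξ) (c • a + α • ξ) (c • b + β • ξ) = fs ξ a b := by
  have h1 : (inner ℂ ξ ξ : ℂ) ≠ 0 := inner_self_ne_zero.2 hξ
  have h2 : conj c ≠ 0 := (map_ne_zero _).2 hc
  simp only [fs, normSq_eq, inner_add_left, inner_add_right, inner_smul_left, inner_smul_right]
  field_simp
  ring

theorem fs_map (T : H →ₗᵢ[ℂ] H) (ξ a b : H) : fs (T ξ) (T a) (T b) = fs ξ a b := by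
  simp only [fs, T.norm_map, T.inner_map_map]

theorem fs_pos {ξ : H} (hξ : ξ ≠ 0) {a : H} (ha : ∀ c : ℂ, a ≠ c • ξ) : 0 < (fs ξ a a).re := by
  have h1 : (inner ℂ ξ ξ : ℂ) ≠ 0 := inner_self_ne_zero.2 hξ
  set c : ℂ := - (inner ℂ ξ a / inner ℂ ξ ξ) with hc
  set w : H := (1 : ℂ) • a + c • ξ with hw
  have hw0 : w ≠ 0 := by
    intro h
    apply ha (-c)
    rw [hw, one_smul] at h
    rw [neg_smul]
    exact eq_neg_of_add_eq_zero_left h
  have horth : (inner ℂ ξ w : ℂ) = 0 := by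
    rw [hw, inner_add_right, inner_smul_right, inner_smul_right, hc]
    field_simp
    ring
  have h2 : fs ξ a a = fs ξ w w := by
    have := fs_trans hξ a a (one_ne_zero) c c
    rw [one_smul ℂ ξ] at this
    exact this.symm
  have h3 : fs ξ w w = ((‖w‖ ^ 2 / ‖ξ‖ ^ 2 : ℝ) : ℂ) := by
    have h4 : ((‖ξ‖ ^ 2 : ℝ) : ℂ) ≠ 0 := by rw [normSq_eq]; exact h1
    rw [Complex.ofReal_div, fs, horth, mul_zero, sub_zero, ← normSq_eq w]
    field_simp
  rw [h2, h3, Complex.ofReal_re]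
  have : 0 < ‖w‖ := norm_pos_iff.2 hw0
  have : 0 < ‖ξ‖ := norm_pos_iff.2 hξ
  positivity

/-- The real bilinear inner product map. -/
noncomputable def ib (H : Type*) [NormedAddCommGroup H] [InnerProductSpace ℂ H] :
    H →L[ℝ] H →L[ℝ] ℂ :=
  (isBoundedBilinearMap_inner (𝕜 := ℂ) (E := H)).toContinuousLinearMap

theorem ib_apply (a b : H) : ib H a b = inner ℂ a b := rfl

/-- The pull-back form. -/
noncomputable def fsb (ξ : H) (L : E →L[ℝ] H) : E →L[ℝ] E →L[ℝ] ℂ :=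
  ((‖ξ‖ ^ 2 : ℝ) ^ 2)⁻¹ • ((‖ξ‖ ^ 2 : ℝ) • (ib H).bilinearComp L L -
    (ContinuousLinearMap.mul ℝ ℂ).bilinearComp (((ib H).flip ξ).comp L) ((ib H ξ).comp L))

theorem fsb_apply (ξ : H) (L : E →L[ℝ] H) (u v : E) : fsb ξ L u v = fs ξ (L u) (L v) := by
  simp only [fsb, fs, smul_apply, sub_apply, ContinuousLinearMap.bilinearComp_apply, ib_apply,
    ContinuousLinearMap.mul_apply', ContinuousLinearMap.comp_apply, ContinuousLinearMap.flip_apply,
    Complex.real_smul]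
  push_cast
  ring

end fs

/-- The determinant of the derivative of a holomorphic map is real differentiable. -/
theorem differentiableAt_det_fderiv [FiniteDimensional ℂ E] {U : Set E} (hU : IsOpen U)
    {f : E → E} (hf : DifferentiableOn ℂ f U) {x : E} (hx : x ∈ U) :
    DifferentiableAt ℝ (fun y => (fderiv ℂ f y).det) x := by
  have : CompleteSpace E := FiniteDimensional.complete ℂ E
  have key : DifferentiableAt ℂ (fun y => (fderiv ℂ f y).det) x := by
    let b := Module.finBasis ℂ E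
    have h1 : (fun y => (fderiv ℂ f y).det) = fun y => Matrix.det (Matrix.of
        (fun i j => b.repr (fderiv ℂ f y (b j)) i)) := by
      funext y
      show LinearMap.det _ = _
      rw [← LinearMap.det_toMatrix b]
      congr 1
      ext i j
      rw [LinearMap.toMatrix_apply]
      rfl
    rw [h1]
    simp only [Matrix.det_apply, Matrix.of_apply]
    refine DifferentiableAt.fun_sum fun σ _ => ?_
    refine DifferentiableAt.const_smul ?_ _
    refine (HasFDerivAt.finsetProd (𝕜 := ℂ) (u := Finset.univ)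
      (g := fun i y => b.repr (fderiv ℂ f y (b i)) (σ i))
      (g' := fun i => fderiv ℂ (fun y => b.repr (fderiv ℂ f y (b i)) (σ i)) x)
      fun i _ => DifferentiableAt.hasFDerivAt ?_).differentiableAt
    have h2 : DifferentiableAt ℂ (fun y => fderiv ℂ f y (b i)) x :=
      (Vale.Agent.P268.differentiableOn_fderiv_apply hU hf (b i)).differentiableAt (hU.mem_nhds hx)
    have h3 : (fun y => b.repr (fderiv ℂ f y (b i)) (σ i)) =
        fun y => (LinearMap.toContinuousLinearMap (b.coord (σ i))) (fderiv ℂ f y (b i)) := rfl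
    rw [h3]
    exact (ContinuousLinearMap.differentiableAt _).comp x h2
  exact key.restrictScalars ℝ

theorem invMetric_of_map [FiniteDimensional ℂ E] {H : Type*} [NormedAddCommGroup H]
    [InnerProductSpace ℂ H] {U : Set E} (hU : IsOpen U) {e : E → H} (he : ContDiffOn ℝ ∞ e U)
    (hI : ∀ x ∈ U, ∀ u, fderiv ℝ e x (I • u) = -I • fderiv ℝ e x u) (hne : ∀ x ∈ U, e x ≠ 0)
    (himm : ∀ x ∈ U, ∀ u, ∀ c : ℂ, fderiv ℝ e x u = c • e x → u = 0)
    (hinv : ∀ f g, IsBiholo U U f g → ∃ T : H →ₗᵢ[ℂ] H, ∀ x ∈ U,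
        e x = conj (fderiv ℂ f x).det • T (e (f x))) :
    ∃ h ρ, InvMetric U h ρ := by
  have hT : ∀ f g, IsBiholo U U f g → ∀ x ∈ U, ∃ T : H →ₗᵢ[ℂ] H, ∃ c : ℂ,
      ‖c‖ = ‖(fderiv ℂ f x).det‖ ∧ e x = c • T (e (f x)) ∧ ∀ u, ∃ α : ℂ,
        fderiv ℝ e x u = c • T (fderiv ℝ e (f x) (fderiv ℂ f x u)) + α • T (e (f x)) := by
    intro f g hfg x hx
    obtain ⟨T, hT⟩ := hinv f g hfg
    refine ⟨T, conj (fderiv ℂ f x).det, by simp, hT x hx, fun u => ?_⟩
    have hfx : f x ∈ U := hfg.mapsTo hx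
    have hde : DifferentiableAt ℝ e (f x) :=
      ((he.differentiableOn (by simp)) (f x) hfx).differentiableAt (hU.mem_nhds hfx)
    have hdf : DifferentiableAt ℂ f x := (hfg.diffOn x hx).differentiableAt (hU.mem_nhds hx)
    have hc : DifferentiableAt ℝ (fun y => conj (fderiv ℂ f y).det) x :=
      (Complex.conjCLE.differentiableAt).comp x (differentiableAt_det_fderiv hU hfg.diffOn hx)
    have hg : HasFDerivAt (fun y => T (e (f y)))
        ((T.toContinuousLinearMap.restrictScalars ℝ).comp ((fderiv ℝ e (f x)).comp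
          ((fderiv ℂ f x).restrictScalars ℝ))) x := by
      refine HasFDerivAt.comp x (ContinuousLinearMap.hasFDerivAt
        (T.toContinuousLinearMap.restrictScalars ℝ)) ?_
      exact HasFDerivAt.comp x hde.hasFDerivAt (hdf.hasFDerivAt.restrictScalars ℝ)
    have hp := hc.hasFDerivAt.smul hg
    have heq : e =ᶠ[𝓝 x] fun y => conj (fderiv ℂ f y).det • T (e (f y)) := by
      filter_upwards [hU.mem_nhds hx] with y hy using hT y hy
    have := (hp.congr_of_eventuallyEq heq).fderiv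
    refine ⟨fderiv ℝ (fun y => conj (fderiv ℂ f y).det) x u, ?_⟩
    rw [this]
    simp
  refine ⟨fun x => fsb (e x) (fderiv ℝ e x), fun x => ‖e x‖ ^ 2, ?_, ?_, ?_, ?_, ?_, ?_, ?_, ?_⟩
  · have hL : ∀ u, ContDiffOn ℝ ∞ (fun x => fderiv ℝ e x u) U := by
      intro u
      exact (he.fderiv_of_isOpen hU (by simp)).clm_apply contDiffOn_const
    rw [contDiffOn_clm_apply]
    intro u
    rw [contDiffOn_clm_apply]
    intro v
    have hn : ContDiffOn ℝ ∞ (fun x => ((‖e x‖ ^ 2 : ℝ) : ℂ)) U :=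
      Complex.ofRealCLM.contDiff.comp_contDiffOn (he.norm_sq ℂ)
    simp only [fsb_apply, fs, div_eq_mul_inv]
    refine ContDiffOn.mul (ContDiffOn.sub (ContDiffOn.mul ((hL u).inner ℂ (hL v)) hn)
      (ContDiffOn.mul ((hL u).inner ℂ he) (he.inner ℂ (hL v)))) ((hn.pow 2).inv ?_)
    intro x hx
    have : ‖e x‖ ≠ 0 := norm_ne_zero_iff.2 (hne x hx)
    exact_mod_cast (by positivity : (‖e x‖ ^ 2) ^ 2 ≠ 0)
  · intro x hx u v
    rw [fsb_apply, fsb_apply, hI x hx, fs_left_smul]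
    simp
  · intro x hx u v
    rw [fsb_apply, fsb_apply, fs_conj]
  · intro x hx u hu
    rw [fsb_apply]
    exact fs_pos (hne x hx) fun c hc => hu (himm x hx u c hc)
  · intro f g hfg x hx u v
    obtain ⟨T, c, -, h1, h2⟩ := hT f g hfg x hx
    obtain ⟨α, hα⟩ := h2 u
    obtain ⟨β, hβ⟩ := h2 v
    have hfx : f x ∈ U := hfg.mapsTo hx
    have hc : c ≠ 0 := by
      rintro rfl
      exact hne x hx (by rw [h1, zero_smul])
    have hT0 : T (e (f x)) ≠ 0 := by
      intro h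
      exact hne x hx (by rw [h1, h, smul_zero])
    rw [fsb_apply, fsb_apply, hα, hβ]
    rw [h1, fs_trans hT0 _ _ hc, fs_map]
  · exact he.norm_sq ℂ
  · intro x hx
    have : 0 < ‖e x‖ := norm_pos_iff.2 (hne x hx)
    positivity
  · intro f g hfg x hx
    obtain ⟨T, c, h0, h1, -⟩ := hT f g hfg x hx
    show ‖e (f x)‖ ^ 2 * _ = ‖e x‖ ^ 2
    rw [h1, norm_smul, T.norm_map, h0]
    ring

end Vale.Agent.P274.V
end

section

/-! # P274-V16a: the Bergman map `e : U → A²(U)`, `⟪e x, φ⟫ = φ(x)`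

Proof.  For `x ∈ U` evaluation `ev x : Hol2 μ U →L[ℂ] ℂ` is bounded (`norm_rep_le`), put
`e x = (InnerProductSpace.toDual ℂ _).symm (ev x)` (`complete_Hol2`).
Holomorphy of `x ↦ ev x` in the norm of the dual: let `x₀ ∈ U`, `ball x₀ (2r) ⊆ U`, `‖rep φ y‖ ≤ C ‖φ‖` there.  The
linear map `L v φ = fderiv ℂ (rep φ) x₀ v` satisfies `|L v φ| ≤ (C/r) ‖φ‖ ‖v‖` (Cauchy:
`P268.norm_fderiv_le_of_ball`), and `|rep φ (x₀+v) - rep φ x₀ - L v φ| ≤ C' ‖φ‖ ‖v‖²` for `‖v‖ < r/2`
(Lipschitz bound for the derivative, `Vale.Agent.P274.fderiv_lip`, and the mean value inequality), which gives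
`HasFDerivAt (ev) L x₀`.  So `ev` is complex differentiable on `U` with values in a Banach space, thus `C^∞`
(`P268.contDiffOn_of_differentiableOn`), thus real `C^∞`; `toDual.symm` is a conjugate linear isometry, in
particular a continuous real linear map; this gives smoothness of `e` and
`fderiv ℝ e x (i u) = - i fderiv ℝ e x u`. -/

open Set Complex ComplexConjugate Topology MeasureTheory Metric
open scoped ContDiff

namespace Vale.Agent.P274.V

variable {E : Type*} [NormedAddCommGroup E] [NormedSpace ℂ E]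

/-- The conjugate linear Riesz isomorphism as a continuous real linear map. -/
noncomputable def rieszR (H : Type*) [NormedAddCommGroup H] [InnerProductSpace ℂ H]
    [CompleteSpace H] : StrongDual ℂ H →L[ℝ] H where
  toFun := (InnerProductSpace.toDual ℂ H).symm
  map_add' := fun x y => map_add _ x y
  map_smul' := fun r x => by
    have h : r • x = (r : ℂ) • x := by
      ext φ
      simp
    rw [h, LinearIsometryEquiv.map_smulₛₗ]
    simp
  cont := (InnerProductSpace.toDual ℂ H).symm.continuous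

theorem rieszR_smul {H : Type*} [NormedAddCommGroup H] [InnerProductSpace ℂ H]
    [CompleteSpace H] (c : ℂ) (y : StrongDual ℂ H) :
    rieszR H (c • y) = conj c • rieszR H y :=
  LinearIsometryEquiv.map_smulₛₗ _ c y

theorem inner_rieszR {H : Type*} [NormedAddCommGroup H] [InnerProductSpace ℂ H]
    [CompleteSpace H] (y : StrongDual ℂ H) (φ : H) : inner ℂ (rieszR H y) φ = y φ :=
  InnerProductSpace.toDual_symm_apply

theorem riesz_smooth [FiniteDimensional ℂ E] {H : Type*} [NormedAddCommGroup H]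
    [InnerProductSpace ℂ H] [CompleteSpace H] {ev : E → StrongDual ℂ H} {U : Set E}
    (hU : IsOpen U) (hev : DifferentiableOn ℂ ev U) :
    ContDiffOn ℝ ∞ (fun x => rieszR H (ev x)) U ∧
      (∀ x ∈ U, ∀ u, fderiv ℝ (fun x => rieszR H (ev x)) x (I • u) =
        -I • fderiv ℝ (fun x => rieszR H (ev x)) x u) ∧
      (∀ x ∈ U, ∀ u, ∀ φ : H, inner ℂ (fderiv ℝ (fun x => rieszR H (ev x)) x u) φ =
        fderiv ℂ ev x u φ) := by
  have hfd : ∀ x ∈ U, ∀ u, fderiv ℝ (fun x => rieszR H (ev x)) x u =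
      rieszR H (fderiv ℂ ev x u) := by
    intro x hx u
    have h1 : HasFDerivAt ev (fderiv ℂ ev x) x :=
      (hev.differentiableAt (hU.mem_nhds hx)).hasFDerivAt
    have h2 : HasFDerivAt (fun x => rieszR H (ev x))
        ((rieszR H).comp ((fderiv ℂ ev x).restrictScalars ℝ)) x :=
      (rieszR H).hasFDerivAt.comp x (h1.restrictScalars ℝ)
    rw [h2.fderiv]
    rfl
  refine ⟨?_, fun x hx u => ?_, fun x hx u φ => ?_⟩
  · have h1 : ContDiffOn ℂ ∞ ev U := by
      rw [contDiffOn_infty]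
      exact fun n => Vale.Agent.P268.contDiffOn_of_differentiableOn hU hev n
    exact (rieszR H).contDiff.comp_contDiffOn (h1.restrict_scalars ℝ)
  · rw [hfd x hx, hfd x hx, map_smul, rieszR_smul, conj_I]
  · rw [hfd x hx, inner_rieszR]

variable [MeasurableSpace E] [BorelSpace E]

/-- Point evaluations as bounded functionals. -/
theorem exists_eval [FiniteDimensional ℂ E] (μ : Measure E) [μ.IsAddHaarMeasure] {U : Set E}
    (hU : IsOpen U) : ∃ ev : E → StrongDual ℂ (Hol2 μ U), ∀ x ∈ U, ∀ φ, ev x φ = rep φ x := by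
  classical
  have h : ∀ x : E, ∃ l : StrongDual ℂ (Hol2 μ U), x ∈ U → ∀ φ, l φ = rep φ x := by
    intro x
    by_cases hx : x ∈ U
    · obtain ⟨r, hr, C, -, hC⟩ := norm_rep_le μ hU hx
      refine ⟨LinearMap.mkContinuous
        { toFun := fun φ => rep φ x
          map_add' := fun φ ψ => rep_add μ hU φ ψ hx
          map_smul' := fun c φ => rep_smul μ hU c φ hx } C
        (fun φ => hC x (mem_ball_self hr) φ), fun _ φ => rfl⟩
    · exact ⟨0, fun h => absurd h hx⟩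
  choose ev hev using h
  exact ⟨ev, fun x hx φ => hev x hx φ⟩

theorem rep_differentiableAt {μ : Measure E} {U : Set E} (hU : IsOpen U) (φ : Hol2 μ U) {x : E}
    (hx : x ∈ U) : DifferentiableAt ℂ (rep φ) x :=
  (rep_diff φ).differentiableAt (hU.mem_nhds hx)

theorem fderiv_rep_add [FiniteDimensional ℂ E] (μ : Measure E) [μ.IsAddHaarMeasure] {U : Set E}
    (hU : IsOpen U) (φ ψ : Hol2 μ U) {x : E} (hx : x ∈ U) :
    fderiv ℂ (rep (φ + ψ)) x = fderiv ℂ (rep φ) x + fderiv ℂ (rep ψ) x := by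
  have h : rep (φ + ψ) =ᶠ[𝓝 x] fun y => rep φ y + rep ψ y := by
    filter_upwards [hU.mem_nhds hx] with y hy using rep_add μ hU φ ψ hy
  rw [h.fderiv_eq]
  exact fderiv_add (rep_differentiableAt hU φ hx) (rep_differentiableAt hU ψ hx)

theorem fderiv_rep_smul [FiniteDimensional ℂ E] (μ : Measure E) [μ.IsAddHaarMeasure] {U : Set E}
    (hU : IsOpen U) (c : ℂ) (φ : Hol2 μ U) {x : E} (hx : x ∈ U) :
    fderiv ℂ (rep (c • φ)) x = c • fderiv ℂ (rep φ) x := by
  have h : rep (c • φ) =ᶠ[𝓝 x] fun y => c • rep φ y := by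
    filter_upwards [hU.mem_nhds hx] with y hy using rep_smul μ hU c φ hy
  rw [h.fderiv_eq]
  exact fderiv_const_smul (rep_differentiableAt hU φ hx) c

/-- The evaluation map is holomorphic in the norm of the dual space. -/
theorem eval_hasFDerivAt [FiniteDimensional ℂ E] (μ : Measure E) [μ.IsAddHaarMeasure] {U : Set E}
    (hU : IsOpen U) {ev : E → StrongDual ℂ (Hol2 μ U)} (hev : ∀ x ∈ U, ∀ φ, ev x φ = rep φ x)
    {x : E} (hx : x ∈ U) : ∃ L : E →L[ℂ] StrongDual ℂ (Hol2 μ U),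
      (∀ v φ, L v φ = fderiv ℂ (rep φ) x v) ∧ HasFDerivAt ev L x := by
  have : ProperSpace E := FiniteDimensional.proper ℂ E
  obtain ⟨r, hr, C, hrU, hC⟩ := norm_rep_le μ hU hx
  have hC' : ∀ y ∈ ball x r, ∀ φ : Hol2 μ U, ‖rep φ y‖ ≤ |C| * ‖φ‖ := fun y hy φ =>
    (hC y hy φ).trans (mul_le_mul_of_nonneg_right (le_abs_self C) (norm_nonneg φ))
  have hd : ∀ φ : Hol2 μ U, DifferentiableOn ℂ (rep φ) (ball x r) := fun φ =>
    (rep_diff φ).mono hrU
  let B : E →ₗ[ℂ] Hol2 μ U →ₗ[ℂ] ℂ := LinearMap.mk₂ ℂ (fun v φ => fderiv ℂ (rep φ) x v)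
    (fun v w φ => map_add _ v w) (fun c v φ => map_smul _ c v)
    (fun v φ ψ => by rw [fderiv_rep_add μ hU φ ψ hx]; rfl)
    (fun c v φ => by rw [fderiv_rep_smul μ hU c φ hx]; rfl)
  have hB : ∀ v φ, ‖B v φ‖ ≤ |C| / r * ‖v‖ * ‖φ‖ := by
    intro v φ
    have h1 := Vale.Agent.P268.norm_fderiv_le_of_ball hr (hd φ) (fun y hy => hC' y hy φ)
    calc ‖B v φ‖ = ‖fderiv ℂ (rep φ) x v‖ := rfl
      _ ≤ ‖fderiv ℂ (rep φ) x‖ * ‖v‖ := (fderiv ℂ (rep φ) x).le_opNorm v
      _ ≤ (|C| * ‖φ‖ / r) * ‖v‖ := mul_le_mul_of_nonneg_right h1 (norm_nonneg v)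
      _ = |C| / r * ‖v‖ * ‖φ‖ := by ring
  refine ⟨B.mkContinuous₂ (|C| / r) hB, fun v φ => rfl, ?_⟩
  refine (hasFDerivAt_iff_isLittleO_nhds_zero (𝕜 := ℂ) (E := E)
    (F := StrongDual ℂ (Hol2 μ U))).2 ?_
  rw [Asymptotics.isLittleO_iff]
  intro ε hε
  set K : ℝ := 32 * |C| / r ^ 2 with hK
  have hK0 : 0 ≤ K := by positivity
  have hball : ball (0 : E) (min (r / 8) (ε / (K + 1))) ∈ 𝓝 (0 : E) :=
    ball_mem_nhds 0 (by positivity)
  filter_upwards [hball] with v hv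
  rw [mem_ball_zero_iff] at hv
  have hv1 : ‖v‖ < r / 8 := hv.trans_le (min_le_left _ _)
  have hv2 : ‖v‖ < ε / (K + 1) := hv.trans_le (min_le_right _ _)
  have hv3 : K * ‖v‖ ≤ ε := by
    rw [lt_div_iff₀ (by positivity)] at hv2
    nlinarith [norm_nonneg v]
  refine ContinuousLinearMap.opNorm_le_bound _ (by positivity) fun φ => ?_
  have hsub : closedBall x ‖v‖ ⊆ ball x (r / 8) := closedBall_subset_ball hv1
  have hxv : x + v ∈ closedBall x ‖v‖ := by
    rw [mem_closedBall, dist_eq_norm, add_sub_cancel_left]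
  have hxvU : x + v ∈ U := hrU (ball_subset_ball (by linarith) (hsub hxv))
  have key := Convex.norm_image_sub_le_of_norm_fderiv_le' (𝕜 := ℂ) (f := rep φ)
    (C := K * ‖φ‖ * ‖v‖) (s := closedBall x ‖v‖) (x := x) (y := x + v)
    (φ := fderiv ℂ (rep φ) x)
    (fun y hy => rep_differentiableAt hU φ (hrU (ball_subset_ball (by linarith) (hsub hy))))
    (fun y hy => by
      have h1 := Vale.Agent.P274.fderiv_lip hr (by positivity) (hd φ)
        (fun y hy => hC' y hy φ) (hsub hy)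
      have h2 : 32 * (|C| * ‖φ‖) / r ^ 2 * dist y x ≤ K * ‖φ‖ * ‖v‖ := by
        have h3 : 32 * (|C| * ‖φ‖) / r ^ 2 = K * ‖φ‖ := by rw [hK]; ring
        rw [h3]
        exact mul_le_mul_of_nonneg_left (mem_closedBall.1 hy) (by positivity)
      exact h1.trans h2)
    (convex_closedBall x ‖v‖) (mem_closedBall_self (norm_nonneg v)) hxv
  rw [add_sub_cancel_left] at key
  have heq : (ev (x + v) - ev x - B.mkContinuous₂ (|C| / r) hB v) φ =
      rep φ (x + v) - rep φ x - fderiv ℂ (rep φ) x v := by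
    have h1 := hev _ hxvU φ
    have h2 := hev _ hx φ
    calc (ev (x + v) - ev x - B.mkContinuous₂ (|C| / r) hB v) φ
        = ev (x + v) φ - ev x φ - B v φ := rfl
      _ = _ := by rw [h1, h2]; rfl
  rw [heq]
  calc _ ≤ K * ‖φ‖ * ‖v‖ * ‖v‖ := key
    _ = (K * ‖v‖) * ‖v‖ * ‖φ‖ := by ring
    _ ≤ ε * ‖v‖ * ‖φ‖ := by gcongr

/-- The Bergman map. -/
theorem exists_ev [FiniteDimensional ℂ E] (μ : Measure E) [μ.IsAddHaarMeasure] {U : Set E}
    (hU : IsOpen U) : ∃ e : E → Hol2 μ U,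
      (∀ x ∈ U, ∀ φ : Hol2 μ U, inner ℂ (e x) φ = rep φ x) ∧ ContDiffOn ℝ ∞ e U ∧
      (∀ x ∈ U, ∀ u, fderiv ℝ e x (I • u) = -I • fderiv ℝ e x u) ∧
      (∀ x ∈ U, ∀ u, ∀ φ : Hol2 μ U, inner ℂ (fderiv ℝ e x u) φ = fderiv ℂ (rep φ) x u) := by
  have : CompleteSpace (Hol2 μ U) := complete_Hol2 μ hU
  obtain ⟨ev, hev⟩ := exists_eval μ hU
  have hdiff : DifferentiableOn ℂ ev U := fun x hx => by
    obtain ⟨L, -, hL⟩ := eval_hasFDerivAt μ hU hev hx
    exact hL.differentiableAt.differentiableWithinAt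
  obtain ⟨h1, h2, h3⟩ := riesz_smooth hU hdiff
  refine ⟨fun x => rieszR (Hol2 μ U) (ev x), fun x hx φ => ?_, h1, h2, fun x hx u φ => ?_⟩
  · rw [inner_rieszR, hev x hx]
  · obtain ⟨L, hL1, hL2⟩ := eval_hasFDerivAt μ hU hev hx
    have h4 := h3 x hx u φ
    rw [hL2.fderiv, hL1] at h4
    exact h4

end Vale.Agent.P274.V
end

section

/-! # P274-V16c: the Bergman map with its properties

Take `letI : MeasurableSpace E := borel E; haveI : BorelSpace E := ⟨rfl⟩`, `μ = Measure.addHaar`, `H = Hol2 μ U`,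
`e` from `exists_ev`.
Immersion: test with the constant `1 ∈ A²(U)` and the linear functions `l ∈ A²(U)` (`U` bounded; `exists_rep_eq`): if
`fderiv ℝ e x u = c • e x` then `⟪fderiv ℝ e x u, φ⟫ = fderiv ℂ (rep φ) x u` and `⟪c • e x, φ⟫ = conj c * φ(x)`;
`φ = 1` gives `c = 0`, then `φ = l` gives `l u = 0` for all `l`, so `u = 0`.
Invariance: `T` from `exists_unitary`; for all `φ`
`⟪conj (det f' x) • T (e (f x)), T φ⟫ = det f' x * φ (f x) = (T φ) x = ⟪e x, T φ⟫`, and `T` is surjective. -/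

open Set Complex ComplexConjugate Topology MeasureTheory Metric
open scoped ContDiff

namespace Vale.Agent.P274.V

universe u

/-- The Bergman map with its properties, for a given Haar measure. -/
theorem bmp_aux {E : Type u} [NormedAddCommGroup E] [NormedSpace ℂ E]
    [FiniteDimensional ℂ E] [MeasurableSpace E] [BorelSpace E] (μ : Measure E)
    [μ.IsAddHaarMeasure] {U : Set E} (hU : IsOpen U) (hb : Bornology.IsBounded U) :
    ∃ e : E → Hol2 μ U,
      ContDiffOn ℝ ∞ e U ∧ (∀ x ∈ U, ∀ u, fderiv ℝ e x (I • u) = -I • fderiv ℝ e x u) ∧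
      (∀ x ∈ U, e x ≠ 0) ∧ (∀ x ∈ U, ∀ u, ∀ c : ℂ, fderiv ℝ e x u = c • e x → u = 0) ∧
      ∀ f g, IsBiholo U U f g → ∃ T : Hol2 μ U →ₗᵢ[ℂ] Hol2 μ U, ∀ x ∈ U,
        e x = conj (fderiv ℂ f x).det • T (e (f x)) := by
  have : ProperSpace E := FiniteDimensional.proper ℂ E
  obtain ⟨e, he, hs, hI, hd⟩ := exists_ev μ hU
  have hfin : IsFiniteMeasure (μ.restrict U) := by
    refine ⟨?_⟩
    rw [Measure.restrict_apply_univ]
    exact hb.measure_lt_top
  -- the constant function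
  obtain ⟨φ1, h1⟩ := exists_rep_eq μ hU (f := fun _ => (1 : ℂ)) (differentiableOn_const 1)
    (memLp_const 1)
  -- the linear functions
  have hl : ∀ l : E →L[ℂ] ℂ, ∃ φ : Hol2 μ U, EqOn (rep φ) l U := by
    intro l
    refine exists_rep_eq μ hU l.differentiable.differentiableOn ?_
    obtain ⟨R, hR⟩ := hb.exists_norm_le
    refine MemLp.of_bound l.continuous.aestronglyMeasurable (‖l‖ * R) ?_
    refine ae_restrict_of_forall_mem hU.measurableSet fun x hx => ?_
    exact (l.le_opNorm x).trans (mul_le_mul_of_nonneg_left (hR x hx) (norm_nonneg l))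
  refine ⟨e, hs, hI, fun x hx h0 => ?_, fun x hx u c hc => ?_, fun f g hfg => ?_⟩
  · have h2 := he x hx φ1
    rw [h0, inner_zero_left, h1 hx] at h2
    exact zero_ne_one h2
  · have hnh : U ∈ 𝓝 x := hU.mem_nhds hx
    have key : ∀ φ : Hol2 μ U, conj c * rep φ x = fderiv ℂ (rep φ) x u := by
      intro φ
      have h6 : inner ℂ (c • e x) φ = conj c * inner ℂ (e x) φ := inner_smul_left (e x) φ c
      rw [← hd x hx u φ, hc, h6, he x hx φ]
    have hc0 : c = 0 := by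
      have h2 := key φ1
      have h3 : fderiv ℂ (rep φ1) x = 0 := by
        have h4 : rep φ1 =ᶠ[𝓝 x] fun _ => (1 : ℂ) := by
          filter_upwards [hnh] with y hy using h1 hy
        rw [h4.fderiv_eq]
        exact fderiv_const_apply (1 : ℂ)
      rw [h3, h1 hx] at h2
      have h5 : conj c = 0 := by simpa using h2
      simpa using h5
    refine SeparatingDual.eq_zero_of_forall_dual_eq_zero (R := ℂ) fun l => ?_
    obtain ⟨φ, hφ⟩ := hl l
    have h2 := key φ
    have h4 : rep φ =ᶠ[𝓝 x] l := by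
      filter_upwards [hnh] with y hy using hφ hy
    rw [h4.fderiv_eq, l.fderiv, hc0] at h2
    rw [← h2]
    simp
  · obtain ⟨T, hT, hrep⟩ := exists_unitary μ hU hfg
    refine ⟨T, fun x hx => ?_⟩
    refine ext_inner_right ℂ fun v => ?_
    obtain ⟨φ, rfl⟩ := hT v
    have hfx : f x ∈ U := hfg.mapsTo hx
    have h6 : inner ℂ (conj (fderiv ℂ f x).det • T (e (f x))) (T φ) =
        conj (conj (fderiv ℂ f x).det) * inner ℂ (T (e (f x))) (T φ) :=
      inner_smul_left (T (e (f x))) (T φ) _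
    have h7 : inner ℂ (T (e (f x))) (T φ) = inner ℂ (e (f x)) φ := T.inner_map_map _ _
    rw [h6, Complex.conj_conj, h7, he (f x) hfx φ, he x hx (T φ), hrep φ x hx]

/-- The Bergman map with its properties. -/
theorem exists_bergman_map {E : Type u} [NormedAddCommGroup E] [NormedSpace ℂ E]
    [FiniteDimensional ℂ E] {U : Set E} (hU : IsOpen U) (hb : Bornology.IsBounded U) :
    ∃ (H : Type u) (_ : NormedAddCommGroup H) (_ : InnerProductSpace ℂ H) (e : E → H),
      ContDiffOn ℝ ∞ e U ∧ (∀ x ∈ U, ∀ u, fderiv ℝ e x (I • u) = -I • fderiv ℝ e x u) ∧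
      (∀ x ∈ U, e x ≠ 0) ∧ (∀ x ∈ U, ∀ u, ∀ c : ℂ, fderiv ℝ e x u = c • e x → u = 0) ∧
      ∀ f g, IsBiholo U U f g → ∃ T : H →ₗᵢ[ℂ] H, ∀ x ∈ U,
        e x = conj (fderiv ℂ f x).det • T (e (f x)) := by
  let _ : MeasurableSpace E := borel E
  have : BorelSpace E := ⟨rfl⟩
  have : ProperSpace E := FiniteDimensional.proper ℂ E
  obtain ⟨e, h1, h2, h3, h4, h5⟩ := bmp_aux (Measure.addHaar : Measure E) hU hb
  exact ⟨Hol2 (Measure.addHaar : Measure E) U, inferInstance, inferInstance, e, h1, h2, h3, h4, h5⟩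

end Vale.Agent.P274.V
end
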