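import Mathlib
import Vale.Agent.P274.Bdl.B1
import Vale.Agent.P268.Hol
attribute [-instance] ProperSMul.toContinuousSMul IsTopologicalTorsor.toContinuousSMul IdemSemiring.toCanonicallyOrderedAdd IdemSemiring.toMulLeftMono IdemSemiring.toMulRightMono AddQuantale.instAddLeftMono AddQuantale.instAddRightMono Quantale.instMulLeftMono Quantale.instMulRightMono FiniteDimensional.rclike_to_real IsScalarTower.complexToReal FiniteDimensional.complexToReal

set_option linter.all false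

namespace AFast55c087x7a
@[reducible] noncomputable def a0.{u1} {x1 : Type u1} {x2 : ℕ} [x3 : NormedAddCommGroup x1] [x4 : NormedSpace ℂ x1] : Module ℝ (x1 × (Fin x2 → ℂ)) := inferInstance
@[reducible] noncomputable def a1 : MulAction ℝ ℂ := inferInstance
@[reducible] noncomputable def a2 : SMulZeroClass ℝ ℂ := inferInstance
@[reducible] noncomputable def a3 : DistribMulAction ℝ ℂ := inferInstance
@[reducible] noncomputable def a4 : DistribSMul ℝ ℂ := inferInstance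
@[reducible] noncomputable def a5 : SemigroupAction ℝ ℂ := inferInstance
@[reducible] noncomputable def a6 {x1 : ℕ} {x2 : Fin x1} : DistribMulAction ℝ ((fun a => ℂ) x2) := inferInstance
@[reducible] noncomputable def a7 {x1 : ℕ} : Module ℝ (Fin x1 → ℂ) := inferInstance
theorem a8 {x1 : ℕ} : ContinuousConstSMul ℝ (Fin x1 → ℂ) := inferInstance
@[reducible] noncomputable def a9.{u1} {x1 : Type u1} [x2 : NormedAddCommGroup x1] {x3 : ℕ} [x4 : NormedSpace ℂ x1] : TopologicalSpace (x1 →L[ℝ] Fin x3 → ℂ) := inferInstance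
@[reducible] noncomputable def a10.{u1} {x1 : Type u1} {x2 : ℕ} [x3 : NormedAddCommGroup x1] [x4 : NormedSpace ℂ x1] : TopologicalSpace (x1 × (Fin x2 → ℂ) →L[ℝ] ℂ) := inferInstance
theorem a11 : UniformContinuousConstSMul ℝ ℂ := inferInstance
theorem a12 {x1 : ℕ} : IsTopologicalAddGroup (Fin x1 → ℂ) := inferInstance
theorem a13 : ContinuousAdd ℂ := inferInstance
theorem a14 : ContinuousConstSMul ℝ ℂ := inferInstance
theorem a15 : IsTopologicalAddGroup ℂ := inferInstance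
@[reducible] noncomputable def a16.{u1} {x1 : Type u1} {x2 : ℕ} [x3 : NormedAddCommGroup x1] [x4 : NormedSpace ℂ x1] : AddCommMonoid (x1 × (Fin x2 → ℂ) →L[ℝ] ℂ) := inferInstance
@[reducible] noncomputable def a17.{u1} {x1 : Type u1} [x2 : NormedAddCommGroup x1] {x3 : ℕ} [x4 : NormedSpace ℂ x1] : AddCommMonoid (x1 →L[ℝ] Fin x3 → ℂ) := inferInstance
theorem a18 {x1 : ℕ} : ContinuousAdd (Fin x1 → ℂ) := inferInstance
theorem a19 : IsSemitopologicalSemiring ℂ := inferInstance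
theorem a20 : IsSemitopologicalRing ℂ := inferInstance
@[reducible] noncomputable def a21.{u1} {x1 : Type u1} {x2 : ℕ} [x3 : NormedAddCommGroup x1] [x4 : NormedSpace ℂ x1] : NormedSpace ℂ (x1 × (Fin x2 → ℂ)) := inferInstance
theorem a22 : IsTopologicalRing ℂ := inferInstance
@[reducible] def a23.{u1} {x1 : Type u1} {x2 : ℕ} [x3 : NormedAddCommGroup x1] : AddCommMonoid (x1 × (Fin x2 → ℂ)) := inferInstance
@[reducible] noncomputable def a24.{u1} {x1 : Type u1} {x2 : ℕ} [x3 : NormedAddCommGroup x1] [x4 : NormedSpace ℂ x1] : NormedSpace ℝ (x1 × (Fin x2 → ℂ)) := inferInstance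
@[reducible] def a25.{u1} {x1 : Type u1} {x2 : ℕ} [x3 : NormedAddCommGroup x1] [x4 : NormedSpace ℂ x1] : Module ℂ (x1 × (Fin x2 → ℂ)) := inferInstance
@[reducible] noncomputable def a26.{u1} {x1 : Type u1} [x2 : NormedAddCommGroup x1] [x3 : NormedSpace ℂ x1] : TopologicalSpace (x1 →L[ℝ] ℂ) := inferInstance
@[reducible] def a27.{u1} {x1 : Type u1} {x2 : ℕ} [x3 : NormedAddCommGroup x1] [x4 : NormedSpace ℂ x1] : SMul ℂ (x1 × (Fin x2 → ℂ)) := inferInstance
@[reducible] noncomputable def a28.{u1} {x1 : Type u1} {x2 : ℕ} [x3 : NormedAddCommGroup x1] : TopologicalSpace (x1 × (Fin x2 → ℂ)) := inferInstance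
@[reducible] def a29.{u1} {x1 : Type u1} {x2 : ℕ} [x3 : NormedAddCommGroup x1] : AddCommMonoid (x1 × (Fin x2 → ℂ) → x1 × (Fin x2 → ℂ)) := inferInstance
theorem a30 : IsTopologicalDivisionRing ℂ := inferInstance
theorem a31.{u1} {x1 : Type u1} {x2 : ℕ} [x3 : NormedAddCommGroup x1] : ContinuousAdd (x1 × (Fin x2 → ℂ)) := inferInstance
@[reducible] def a32.{u1} {x1 : Type u1} {x2 : ℕ} [x3 : NormedAddCommGroup x1] : AddCommGroup (x1 × (Fin x2 → ℂ)) := inferInstance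
@[reducible] def a33.{u1} {x1 : Type u1} {x2 : ℕ} [x3 : NormedAddCommGroup x1] [x4 : NormedSpace ℂ x1] : DistribSMul ℂ (x1 × (Fin x2 → ℂ)) := inferInstance
@[reducible] noncomputable def a34.{u1} {x1 : Type u1} [x2 : NormedAddCommGroup x1] [x3 : NormedSpace ℂ x1] {x4 : Set x1} {x5 : x1 → x1 →L[ℝ] x1 →L[ℝ] ℂ} : DistribMulAction ℝ ↥(Vale.Agent.P274.V.Kil x4 x5) := inferInstance
@[reducible] noncomputable def a35.{u1} {x1 : Type u1} {x2 : ℕ} [x3 : NormedAddCommGroup x1] [x4 : NormedSpace ℂ x1] {x5 : x1 →L[ℝ] x1 →L[ℝ] Fin x2 → ℂ} {x6 : Set (Fin x2 → ℝ)} {x7 : x1 × (Fin x2 → ℂ) → x1 × (Fin x2 → ℂ) →L[ℝ] x1 × (Fin x2 → ℂ) →L[ℝ] ℂ} : SubNegMonoid ↥(Vale.Agent.P274.V.Kil (Vale.Agent.P274.V.Sg x5 x6) x7) := inferInstance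
@[reducible] noncomputable def a36.{u1} {x1 : Type u1} [x2 : NormedAddCommGroup x1] [x3 : NormedSpace ℂ x1] : AddCommMonoid (x1 →L[ℝ] ℂ) := inferInstance
@[reducible] noncomputable def a37.{u1} {x1 : Type u1} {x2 : ℕ} [x3 : NormedAddCommGroup x1] [x4 : NormedSpace ℂ x1] {x5 : x1 →L[ℝ] x1 →L[ℝ] Fin x2 → ℂ} {x6 : Set (Fin x2 → ℝ)} {x7 : x1 × (Fin x2 → ℂ) → x1 × (Fin x2 → ℂ) →L[ℝ] x1 × (Fin x2 → ℂ) →L[ℝ] ℂ} : AddGroup ↥(Vale.Agent.P274.V.Kil (Vale.Agent.P274.V.Sg x5 x6) x7) := inferInstance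
theorem a38 : IsBoundedSMul ℝ ℂ := inferInstance
@[reducible] def a39.{u1} {x1 : Type u1} [x2 : NormedAddCommGroup x1] [x3 : NormedSpace ℂ x1] : AddCommMonoid (x1 →L[ℂ] x1) := inferInstance
theorem a40.{u1} {x1 : Type u1} {x2 : ℕ} [x3 : NormedAddCommGroup x1] [x4 : NormedSpace ℂ x1] : ContinuousConstSMul ℂ (x1 × (Fin x2 → ℂ)) := inferInstance
@[reducible] noncomputable def a41.{u1} {x1 : Type u1} [x2 : NormedAddCommGroup x1] [x3 : NormedSpace ℂ x1] : TopologicalSpace (x1 →L[ℂ] x1) := inferInstance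
@[reducible] def a42.{u1} {x1 : Type u1} [x2 : NormedAddCommGroup x1] [x3 : NormedSpace ℂ x1] : AddCommGroup (x1 →L[ℂ] x1) := inferInstance
@[reducible] noncomputable def a43.{u1} {x1 : Type u1} [x2 : NormedAddCommGroup x1] [x3 : NormedSpace ℂ x1] : NormedSpace ℂ (x1 →L[ℂ] x1) := inferInstance
@[reducible] noncomputable def a44 : NormedSpace ℝ ℂ := inferInstance
end AFast55c087x7a
attribute [local instance] AFast55c087x7a.a0 AFast55c087x7a.a1 AFast55c087x7a.a2 AFast55c087x7a.a3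
  AFast55c087x7a.a4 AFast55c087x7a.a5 AFast55c087x7a.a6 AFast55c087x7a.a7 AFast55c087x7a.a8
  AFast55c087x7a.a9 AFast55c087x7a.a10 AFast55c087x7a.a11 AFast55c087x7a.a12 AFast55c087x7a.a13
  AFast55c087x7a.a14 AFast55c087x7a.a15 AFast55c087x7a.a16 AFast55c087x7a.a17 AFast55c087x7a.a18
  AFast55c087x7a.a19 AFast55c087x7a.a20 AFast55c087x7a.a21 AFast55c087x7a.a22 AFast55c087x7a.a23
  AFast55c087x7a.a24 AFast55c087x7a.a25 AFast55c087x7a.a26 AFast55c087x7a.a27 AFast55c087x7a.a28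
  AFast55c087x7a.a29 AFast55c087x7a.a30 AFast55c087x7a.a31 AFast55c087x7a.a32 AFast55c087x7a.a33
  AFast55c087x7a.a34 AFast55c087x7a.a35 AFast55c087x7a.a36 AFast55c087x7a.a37 AFast55c087x7a.a38
  AFast55c087x7a.a39 AFast55c087x7a.a40 AFast55c087x7a.a41 AFast55c087x7a.a42 AFast55c087x7a.a43
  AFast55c087x7a.a44
namespace AFast55c087x7b
@[reducible] noncomputable def a0.{u1} {x1 : Type u1} [x2 : NormedAddCommGroup x1] {x3 : ℕ} [x4 : NormedSpace ℂ x1] : Module ℝ (x1 →L[ℝ] Fin x3 → ℂ) := inferInstance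
@[reducible] noncomputable def a1 : Module ℝ ℂ := inferInstance
@[reducible] noncomputable def a2.{u1} {x1 : Type u1} {x2 : ℕ} [x3 : NormedAddCommGroup x1] [x4 : NormedSpace ℂ x1] : Module ℝ (x1 × (Fin x2 → ℂ) →L[ℝ] ℂ) := inferInstance
@[reducible] noncomputable def a3.{u1} {x1 : Type u1} {x2 : ℕ} [x3 : NormedAddCommGroup x1] [x4 : NormedSpace ℂ x1] {x5 : x1 →L[ℝ] x1 →L[ℝ] Fin x2 → ℂ} {x6 : Set (Fin x2 → ℝ)} {x7 : x1 × (Fin x2 → ℂ) → x1 × (Fin x2 → ℂ) →L[ℝ] x1 × (Fin x2 → ℂ) →L[ℝ] ℂ} : SMul ℝ ↥(Vale.Agent.P274.V.Kil (Vale.Agent.P274.V.Sg x5 x6) x7) := inferInstance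
theorem a4.{u1} {x1 : Type u1} {x2 : ℕ} [x3 : NormedAddCommGroup x1] [x4 : NormedSpace ℂ x1] : IsScalarTower ℝ ℝ (x1 × (Fin x2 → ℂ) → x1 × (Fin x2 → ℂ)) := inferInstance
@[reducible] noncomputable def a5 {x1 : ℕ} {x2 : Fin x1} : SemigroupAction ℝ ((fun a => ℂ) x2) := inferInstance
@[reducible] noncomputable def a6 {x1 : ℕ} {x2 : Fin x1} : MulAction ℝ ((fun a => ℂ) x2) := inferInstance
theorem a7 : SMulCommClass ℝ ℝ ℂ := inferInstance
@[reducible] noncomputable def a8.{u1} {x1 : Type u1} [x2 : NormedAddCommGroup x1] [x3 : NormedSpace ℂ x1] : Module ℝ (x1 →L[ℝ] ℂ) := inferInstance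
theorem a9 {x1 : ℕ} : SMulCommClass ℝ ℝ (Fin x1 → ℂ) := inferInstance
@[reducible] noncomputable def a10.{u1} {x1 : Type u1} {x2 : ℕ} [x3 : NormedAddCommGroup x1] [x4 : NormedSpace ℂ x1] : Module ℝ (x1 × (Fin x2 → ℂ) → x1 × (Fin x2 → ℂ)) := inferInstance
@[reducible] noncomputable def a11.{u1} {x1 : Type u1} {x2 : ℕ} [x3 : NormedAddCommGroup x1] [x4 : NormedSpace ℂ x1] {x5 : x1 →L[ℝ] x1 →L[ℝ] Fin x2 → ℂ} {x6 : Set (Fin x2 → ℝ)} {x7 : x1 × (Fin x2 → ℂ) → x1 × (Fin x2 → ℂ) →L[ℝ] x1 × (Fin x2 → ℂ) →L[ℝ] ℂ} : SMulZeroClass ℝ ↥(Vale.Agent.P274.V.Kil (Vale.Agent.P274.V.Sg x5 x6) x7) := inferInstance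
theorem a12 {x1 : ℕ} : IsScalarTower ℝ ℝ (Fin x1 → ℂ) := inferInstance
theorem a13.{u1} {x1 : Type u1} [x2 : NormedAddCommGroup x1] [x3 : NormedSpace ℂ x1] : ContinuousSMul ℝ (x1 →L[ℂ] x1) := inferInstance
@[reducible] noncomputable def a14.{u1} {x1 : Type u1} {x2 : ℕ} [x3 : NormedAddCommGroup x1] [x4 : NormedSpace ℂ x1] {x5 : x1 →L[ℝ] x1 →L[ℝ] Fin x2 → ℂ} {x6 : Set (Fin x2 → ℝ)} {x7 : x1 × (Fin x2 → ℂ) → x1 × (Fin x2 → ℂ) →L[ℝ] x1 × (Fin x2 → ℂ) →L[ℝ] ℂ} : DistribSMul ℝ ↥(Vale.Agent.P274.V.Kil (Vale.Agent.P274.V.Sg x5 x6) x7) := inferInstance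
@[reducible] def a15.{u1} {x1 : Type u1} [x2 : NormedAddCommGroup x1] [x3 : NormedSpace ℂ x1] : Module ℂ (x1 →L[ℂ] x1) := inferInstance
@[reducible] noncomputable def a16.{u1} {x1 : Type u1} {x2 : ℕ} {x3 : x1 × (Fin x2 → ℂ)} [x4 : NormedAddCommGroup x1] [x5 : NormedSpace ℂ x1] : DistribMulAction ℝ ((fun a => x1 × (Fin x2 → ℂ)) x3) := inferInstance
@[reducible] noncomputable def a17.{u1} {x1 : Type u1} {x2 : ℕ} {x3 : x1 × (Fin x2 → ℂ)} [x4 : NormedAddCommGroup x1] [x5 : NormedSpace ℂ x1] : SemigroupAction ℝ ((fun a => x1 × (Fin x2 → ℂ)) x3) := inferInstance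
@[reducible] noncomputable def a18.{u1} {x1 : Type u1} {x2 : ℕ} {x3 : x1 × (Fin x2 → ℂ)} [x4 : NormedAddCommGroup x1] [x5 : NormedSpace ℂ x1] : MulAction ℝ ((fun a => x1 × (Fin x2 → ℂ)) x3) := inferInstance
@[reducible] noncomputable def a19.{u1} {x1 : Type u1} [x2 : NormedAddCommGroup x1] [x3 : NormedSpace ℂ x1] : Module ℝ (x1 →L[ℝ] x1 →L[ℝ] ℂ) := inferInstance
theorem a20.{u1} {x1 : Type u1} {x2 : ℕ} [x3 : NormedAddCommGroup x1] [x4 : NormedSpace ℂ x1] {x5 : x1 →L[ℝ] x1 →L[ℝ] Fin x2 → ℂ} {x6 : Set (Fin x2 → ℝ)} {x7 : x1 × (Fin x2 → ℂ) → x1 × (Fin x2 → ℂ) →L[ℝ] x1 × (Fin x2 → ℂ) →L[ℝ] ℂ} : IsScalarTower ℕ ℤ ↥(Vale.Agent.P274.V.Kil (Vale.Agent.P274.V.Sg x5 x6) x7) := inferInstance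
@[reducible] noncomputable def a21.{u1} {x1 : Type u1} {x2 : ℕ} [x3 : NormedAddCommGroup x1] [x4 : NormedSpace ℂ x1] : SMul ℝ (x1 × (Fin x2 → ℂ) → x1 × (Fin x2 → ℂ)) := inferInstance
@[reducible] noncomputable def a22.{u1} {x1 : Type u1} {x2 : ℕ} [x3 : NormedAddCommGroup x1] [x4 : NormedSpace ℂ x1] : SMul ℝ (x1 × (Fin x2 → ℂ)) := inferInstance
@[reducible] noncomputable def a23.{u1} {x1 : Type u1} [x2 : NormedAddCommGroup x1] [x3 : NormedSpace ℂ x1] : DistribMulAction ℝ (x1 →L[ℂ] x1) := inferInstance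
@[reducible] noncomputable def a24.{u1} {x1 : Type u1} {x2 : ℕ} [x3 : NormedAddCommGroup x1] [x4 : NormedSpace ℂ x1] {x5 : x1 →L[ℝ] x1 →L[ℝ] Fin x2 → ℂ} {x6 : Set (Fin x2 → ℝ)} {x7 : x1 × (Fin x2 → ℂ) → x1 × (Fin x2 → ℂ) →L[ℝ] x1 × (Fin x2 → ℂ) →L[ℝ] ℂ} : DistribMulAction ℝ ↥(Vale.Agent.P274.V.Kil (Vale.Agent.P274.V.Sg x5 x6) x7) := inferInstance
@[reducible] noncomputable def a25.{u1} {x1 : Type u1} {x2 : ℕ} [x3 : NormedAddCommGroup x1] [x4 : NormedSpace ℂ x1] : Module ℝ (x1 × (Fin x2 → ℂ) →L[ℝ] x1 × (Fin x2 → ℂ) →L[ℝ] ℂ) := inferInstance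
@[reducible] noncomputable def a26.{u1} {x1 : Type u1} [x2 : NormedAddCommGroup x1] [x3 : NormedSpace ℂ x1] : Module ℝ (x1 →L[ℂ] x1) := inferInstance
@[reducible] noncomputable def a27.{u1} {x1 : Type u1} {x2 : ℕ} [x3 : NormedAddCommGroup x1] [x4 : NormedSpace ℂ x1] {x5 : x1 →L[ℝ] x1 →L[ℝ] Fin x2 → ℂ} {x6 : Set (Fin x2 → ℝ)} {x7 : x1 × (Fin x2 → ℂ) → x1 × (Fin x2 → ℂ) →L[ℝ] x1 × (Fin x2 → ℂ) →L[ℝ] ℂ} : AddZero ↥(Vale.Agent.P274.V.Kil (Vale.Agent.P274.V.Sg x5 x6) x7) := inferInstance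
@[reducible] noncomputable def a28.{u1} {x1 : Type u1} {x2 : ℕ} [x3 : NormedAddCommGroup x1] [x4 : NormedSpace ℂ x1] {x5 : x1 →L[ℝ] x1 →L[ℝ] Fin x2 → ℂ} {x6 : Set (Fin x2 → ℝ)} {x7 : x1 × (Fin x2 → ℂ) → x1 × (Fin x2 → ℂ) →L[ℝ] x1 × (Fin x2 → ℂ) →L[ℝ] ℂ} : AddZeroClass ↥(Vale.Agent.P274.V.Kil (Vale.Agent.P274.V.Sg x5 x6) x7) := inferInstance
@[reducible] noncomputable def a29.{u1} {x1 : Type u1} {x2 : ℕ} [x3 : NormedAddCommGroup x1] [x4 : NormedSpace ℂ x1] {x5 : x1 →L[ℝ] x1 →L[ℝ] Fin x2 → ℂ} {x6 : Set (Fin x2 → ℝ)} {x7 : x1 × (Fin x2 → ℂ) → x1 × (Fin x2 → ℂ) →L[ℝ] x1 × (Fin x2 → ℂ) →L[ℝ] ℂ} : AddMonoid ↥(Vale.Agent.P274.V.Kil (Vale.Agent.P274.V.Sg x5 x6) x7) := inferInstance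
@[reducible] noncomputable def a30.{u1} {x1 : Type u1} [x2 : NormedAddCommGroup x1] [x3 : NormedSpace ℂ x1] {x4 : Set x1} {x5 : x1 → x1 →L[ℝ] x1 →L[ℝ] ℂ} : SMul ℝ ↥(Vale.Agent.P274.V.Kil x4 x5) := inferInstance
@[reducible] noncomputable def a31.{u1} {x1 : Type u1} {x2 : ℕ} [x3 : NormedAddCommGroup x1] [x4 : NormedSpace ℂ x1] {x5 : x1 →L[ℝ] x1 →L[ℝ] Fin x2 → ℂ} {x6 : Set (Fin x2 → ℝ)} {x7 : x1 × (Fin x2 → ℂ) → x1 × (Fin x2 → ℂ) →L[ℝ] x1 × (Fin x2 → ℂ) →L[ℝ] ℂ} : SMulZeroClass ℤ ↥(Vale.Agent.P274.V.Kil (Vale.Agent.P274.V.Sg x5 x6) x7) := inferInstance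
@[reducible] noncomputable def a32.{u1} {x1 : Type u1} {x2 : ℕ} [x3 : NormedAddCommGroup x1] [x4 : NormedSpace ℂ x1] : SMul ℂ (x1 × (Fin x2 → ℂ) →L[ℂ] x1 × (Fin x2 → ℂ)) := inferInstance
theorem a33.{u1} {x1 : Type u1} [x2 : NormedAddCommGroup x1] [x3 : NormedSpace ℂ x1] : ContinuousAdd (x1 →L[ℝ] ℂ) := inferInstance
@[reducible] noncomputable def a34.{u1} {x1 : Type u1} {x2 : ℕ} [x3 : NormedAddCommGroup x1] [x4 : NormedSpace ℂ x1] {x5 : x1 →L[ℝ] x1 →L[ℝ] Fin x2 → ℂ} {x6 : Set (Fin x2 → ℝ)} {x7 : x1 × (Fin x2 → ℂ) → x1 × (Fin x2 → ℂ) →L[ℝ] x1 × (Fin x2 → ℂ) →L[ℝ] ℂ} : SMulZeroClass ℕ ↥(Vale.Agent.P274.V.Kil (Vale.Agent.P274.V.Sg x5 x6) x7) := inferInstance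
@[reducible] noncomputable def a35.{u1} {x1 : Type u1} [x2 : NormedAddCommGroup x1] [x3 : NormedSpace ℂ x1] : AddCommMonoid (x1 →L[ℝ] x1 →L[ℝ] ℂ) := inferInstance
@[reducible] noncomputable def a36.{u1} {x1 : Type u1} {x2 : ℕ} [x3 : NormedAddCommGroup x1] [x4 : NormedSpace ℂ x1] : AddCommMonoid (x1 × (Fin x2 → ℂ) →L[ℝ] x1 × (Fin x2 → ℂ) →L[ℝ] ℂ) := inferInstance
theorem a37.{u1} {x1 : Type u1} [x2 : NormedAddCommGroup x1] [x3 : NormedSpace ℂ x1] : IsBoundedSMul ℝ (x1 →L[ℂ] x1) := inferInstance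
theorem a38.{u1} {x1 : Type u1} {x2 : ℕ} [x3 : NormedAddCommGroup x1] [x4 : NormedSpace ℂ x1] : ContinuousAdd (x1 × (Fin x2 → ℂ) →L[ℝ] ℂ) := inferInstance
theorem a39.{u1} {x1 : Type u1} [x2 : NormedAddCommGroup x1] [x3 : NormedSpace ℂ x1] : SMulCommClass ℝ ℝ (x1 →L[ℝ] ℂ) := inferInstance
theorem a40.{u1} {x1 : Type u1} {x2 : ℕ} [x3 : NormedAddCommGroup x1] [x4 : NormedSpace ℂ x1] : SemilinearMapClass (x1 × (Fin x2 → ℂ) →L[ℂ] x1 × (Fin x2 → ℂ)) (RingHom.id ℂ) (x1 × (Fin x2 → ℂ)) (x1 × (Fin x2 → ℂ)) := inferInstance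
@[reducible] noncomputable def a41.{u1} {x1 : Type u1} [x2 : NormedAddCommGroup x1] [x3 : NormedSpace ℂ x1] {x4 : Set x1} {x5 : x1 → x1 →L[ℝ] x1 →L[ℝ] ℂ} : SMulZeroClass ℝ ↥(Vale.Agent.P274.V.Kil x4 x5) := inferInstance
@[reducible] noncomputable def a42.{u1} {x1 : Type u1} {x2 : ℕ} [x3 : NormedAddCommGroup x1] [x4 : NormedSpace ℂ x1] {x5 : x1 →L[ℝ] x1 →L[ℝ] Fin x2 → ℂ} {x6 : Set (Fin x2 → ℝ)} {x7 : x1 × (Fin x2 → ℂ) → x1 × (Fin x2 → ℂ) →L[ℝ] x1 × (Fin x2 → ℂ) →L[ℝ] ℂ} : DistribSMul ℤ ↥(Vale.Agent.P274.V.Kil (Vale.Agent.P274.V.Sg x5 x6) x7) := inferInstance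
@[reducible] noncomputable def a43.{u1} {x1 : Type u1} {x2 : ℕ} [x3 : NormedAddCommGroup x1] [x4 : NormedSpace ℂ x1] {x5 : x1 →L[ℝ] x1 →L[ℝ] Fin x2 → ℂ} {x6 : Set (Fin x2 → ℝ)} {x7 : x1 × (Fin x2 → ℂ) → x1 × (Fin x2 → ℂ) →L[ℝ] x1 × (Fin x2 → ℂ) →L[ℝ] ℂ} : DistribSMul ℕ ↥(Vale.Agent.P274.V.Kil (Vale.Agent.P274.V.Sg x5 x6) x7) := inferInstance
@[reducible] noncomputable def a44.{u1} {x1 : Type u1} [x2 : NormedAddCommGroup x1] [x3 : NormedSpace ℂ x1] : NormedSpace ℝ (x1 →L[ℝ] x1 →L[ℝ] ℂ) := inferInstance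
theorem a45.{u1} {x1 : Type u1} [x2 : NormedAddCommGroup x1] {x3 : ℕ} [x4 : NormedSpace ℂ x1] : SemilinearMapClass (x1 →L[ℝ] x1 →L[ℝ] Fin x3 → ℂ) (RingHom.id ℝ) x1 (x1 →L[ℝ] Fin x3 → ℂ) := inferInstance
theorem a46.{u1} {x1 : Type u1} [x2 : NormedAddCommGroup x1] [x3 : NormedSpace ℂ x1] : AddMonoidHomClass (x1 →L[ℂ] x1) x1 x1 := inferInstance
theorem a47.{u1} {x1 : Type u1} {x2 : ℕ} [x3 : NormedAddCommGroup x1] [x4 : NormedSpace ℂ x1] : MulActionSemiHomClass (x1 × (Fin x2 → ℂ) →L[ℂ] x1 × (Fin x2 → ℂ)) (⇑(RingHom.id ℂ)) (x1 × (Fin x2 → ℂ)) (x1 × (Fin x2 → ℂ)) := inferInstance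
theorem a48.{u1} {x1 : Type u1} [x2 : NormedAddCommGroup x1] [x3 : NormedSpace ℂ x1] : DistribMulActionSemiHomClass (x1 →L[ℂ] x1) (⇑(RingHom.id ℂ)) x1 x1 := inferInstance
@[reducible] def a49.{u1} {x1 : Type u1} [x2 : NormedAddCommGroup x1] [x3 : NormedSpace ℂ x1] : SMul ℂ (x1 →L[ℂ] x1) := inferInstance
@[reducible] noncomputable def a50.{u1} {x1 : Type u1} [x2 : NormedAddCommGroup x1] [x3 : NormedSpace ℂ x1] : SemigroupAction ℝ (x1 →L[ℂ] x1) := inferInstance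
@[reducible] noncomputable def a51.{u1} {x1 : Type u1} [x2 : NormedAddCommGroup x1] [x3 : NormedSpace ℂ x1] : MulAction ℝ (x1 →L[ℂ] x1) := inferInstance
@[reducible] noncomputable def a52.{u1} {x1 : Type u1} [x2 : NormedAddCommGroup x1] [x3 : NormedSpace ℂ x1] : Module ℝ ((x1 →L[ℂ] x1) × x1) := inferInstance
theorem a53.{u1} {x1 : Type u1} [x2 : NormedAddCommGroup x1] [x3 : NormedSpace ℂ x1] : SemilinearMapClass (x1 →L[ℂ] x1) (RingHom.id ℂ) x1 x1 := inferInstance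
theorem a54.{u1} {x1 : Type u1} [x2 : NormedAddCommGroup x1] [x3 : NormedSpace ℂ x1] : ContinuousConstSMul ℝ (x1 →L[ℝ] ℂ) := inferInstance
end AFast55c087x7b
attribute [local instance] AFast55c087x7b.a0 AFast55c087x7b.a1 AFast55c087x7b.a2 AFast55c087x7b.a3
  AFast55c087x7b.a4 AFast55c087x7b.a5 AFast55c087x7b.a6 AFast55c087x7b.a7 AFast55c087x7b.a8
  AFast55c087x7b.a9 AFast55c087x7b.a10 AFast55c087x7b.a11 AFast55c087x7b.a12 AFast55c087x7b.a13
  AFast55c087x7b.a14 AFast55c087x7b.a15 AFast55c087x7b.a16 AFast55c087x7b.a17 AFast55c087x7b.a18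
  AFast55c087x7b.a19 AFast55c087x7b.a20 AFast55c087x7b.a21 AFast55c087x7b.a22 AFast55c087x7b.a23
  AFast55c087x7b.a24 AFast55c087x7b.a25 AFast55c087x7b.a26 AFast55c087x7b.a27 AFast55c087x7b.a28
  AFast55c087x7b.a29 AFast55c087x7b.a30 AFast55c087x7b.a31 AFast55c087x7b.a32 AFast55c087x7b.a33
  AFast55c087x7b.a34 AFast55c087x7b.a35 AFast55c087x7b.a36 AFast55c087x7b.a37 AFast55c087x7b.a38
  AFast55c087x7b.a39 AFast55c087x7b.a40 AFast55c087x7b.a41 AFast55c087x7b.a42 AFast55c087x7b.a43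
  AFast55c087x7b.a44 AFast55c087x7b.a45 AFast55c087x7b.a46 AFast55c087x7b.a47 AFast55c087x7b.a48
  AFast55c087x7b.a49 AFast55c087x7b.a50 AFast55c087x7b.a51 AFast55c087x7b.a52 AFast55c087x7b.a53
  AFast55c087x7b.a54
section

/-! # P274-V6: push-forward of vector fields

Everything is calculus. Put `y = g x`, `x ∈ D`. `push D g g' X` equals
`fun y => fderiv ℂ g (g' y) (X (g' y))` near `y`; `g` is `C^∞` on `D` (`P268/Hol`), so
`fderiv ℂ g` is differentiable on `D` and its derivative is symmetric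
(`second_derivative_symmetric` / `ContDiffAt.isSymmSndFDerivAt`, over `ℂ`), and
`(fderiv ℂ g' y) (fderiv ℂ g x u) = u`. -/

open Set Complex ComplexConjugate Topology
open scoped ContDiff

namespace Vale.Agent.P274.V

variable {E : Type*} [NormedAddCommGroup E] [NormedSpace ℂ E]

theorem push_of_notMem {D : Set E} {g g' X : E → E} {x : E} (hx : x ∉ D) :
    push D g g' X x = 0 := by
  simp [push, hx]

theorem push_apply {D : Set E} {g g' : E → E} (hg : IsBiholo D D g g') {X : E → E} {x : E}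
    (hx : x ∈ D) : push D g g' X (g x) = fderiv ℂ g x (X x) := by
  simp [push, hg.mapsTo hx, hg.left_inv x hx]

/-- The derivatives of a biholomorphic map and of its inverse are inverse to each other. -/
theorem fderiv_inv_fderiv {D : Set E} (hD : IsOpen D) {g g' : E → E}
    (hg : IsBiholo D D g g') {x : E} (hx : x ∈ D) (u : E) :
    fderiv ℂ g' (g x) (fderiv ℂ g x u) = u := by
  have hg1 : DifferentiableAt ℂ g x := hg.diffOn.differentiableAt (hD.mem_nhds hx)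
  have hg2 : DifferentiableAt ℂ g' (g x) :=
    hg.diffOn_inv.differentiableAt (hD.mem_nhds (hg.mapsTo hx))
  have h1 : HasFDerivAt (g' ∘ g) ((fderiv ℂ g' (g x)).comp (fderiv ℂ g x)) x :=
    hg2.hasFDerivAt.comp x hg1.hasFDerivAt
  have h2 : HasFDerivAt (g' ∘ g) (ContinuousLinearMap.id ℂ E) x := by
    refine (hasFDerivAt_id x).congr_of_eventuallyEq ?_
    filter_upwards [hD.mem_nhds hx] with z hz using hg.left_inv z hz
  have h3 := h1.unique h2
  exact DFunLike.congr_fun h3 u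

theorem differentiableAt_fderiv_of [FiniteDimensional ℂ E] {D : Set E} (hD : IsOpen D)
    {g : E → E} (hg : DifferentiableOn ℂ g D) {x : E} (hx : x ∈ D) :
    DifferentiableAt ℂ (fderiv ℂ g) x := by
  have : CompleteSpace E := FiniteDimensional.complete ℂ E
  have h : ContDiffAt ℂ (2 : ℕ) g x :=
    (P268.contDiffOn_of_differentiableOn hD hg 2).contDiffAt (hD.mem_nhds hx)
  have h' : ContDiffAt ℂ 1 (fderiv ℂ g) x := h.fderiv_right (by norm_num)
  exact h'.differentiableAt (by norm_num)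

/-- The derivative of a push-forward. -/
theorem hasFDerivAt_push [FiniteDimensional ℂ E] {D : Set E} (hD : IsOpen D) {g g' : E → E}
    (hg : IsBiholo D D g g') {X : E → E} (hX : ∀ x ∈ D, DifferentiableAt ℂ X x) {x : E}
    (hx : x ∈ D) : DifferentiableAt ℂ (push D g g' X) (g x) ∧ ∀ u,
      fderiv ℂ (push D g g' X) (g x) (fderiv ℂ g x u) =
      fderiv ℂ (fderiv ℂ g) x u (X x) + fderiv ℂ g x (fderiv ℂ X x u) := by
  have hy : g x ∈ D := hg.mapsTo hx
  have hgx : g' (g x) = x := hg.left_inv x hx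
  have hg2 : HasFDerivAt g' (fderiv ℂ g' (g x)) (g x) :=
    (hg.diffOn_inv.differentiableAt (hD.mem_nhds hy)).hasFDerivAt
  have h1 : HasFDerivAt (fderiv ℂ g) (fderiv ℂ (fderiv ℂ g) x) (g' (g x)) := by
    rw [hgx]; exact (differentiableAt_fderiv_of hD hg.diffOn hx).hasFDerivAt
  have h2 : HasFDerivAt X (fderiv ℂ X x) (g' (g x)) := by
    rw [hgx]; exact (hX x hx).hasFDerivAt
  have h3 := h1.comp (g x) hg2
  have h4 := h2.comp (g x) hg2
  have h5 := h3.clm_apply h4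
  have h6 : HasFDerivAt (push D g g' X) _ (g x) := h5.congr_of_eventuallyEq (by
    filter_upwards [hD.mem_nhds hy] with z hz
    simp [push, hz])
  refine ⟨h6.differentiableAt, fun u => ?_⟩
  rw [h6.fderiv]
  simp only [Function.comp_apply, hgx, add_apply, ContinuousLinearMap.coe_comp,
    ContinuousLinearMap.flip_apply, fderiv_inv_fderiv hD hg hx]
  rw [add_comm]

theorem fderiv_fderiv_symm [FiniteDimensional ℂ E] {D : Set E} (hD : IsOpen D) {g : E → E}
    (hg : DifferentiableOn ℂ g D) {x : E} (hx : x ∈ D) (u v : E) :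
    fderiv ℂ (fderiv ℂ g) x u v = fderiv ℂ (fderiv ℂ g) x v u := by
  have : CompleteSpace E := FiniteDimensional.complete ℂ E
  have h : ContDiffAt ℂ (2 : ℕ) g x :=
    (P268.contDiffOn_of_differentiableOn hD hg 2).contDiffAt (hD.mem_nhds hx)
  have h2 : IsSymmSndFDerivAt ℂ g x := h.isSymmSndFDerivAt (by simp)
  exact h2 u v

attribute [-instance] AFast55c087x7a.a0 AFast55c087x7a.a1 AFast55c087x7a.a2 AFast55c087x7a.a3 AFast55c087x7a.a4 AFast55c087x7a.a5 AFast55c087x7a.a6 AFast55c087x7a.a7 AFast55c087x7a.a8 AFast55c087x7a.a9 AFast55c087x7a.a10 AFast55c087x7a.a11 AFast55c087x7a.a12 AFast55c087x7a.a13 AFast55c087x7a.a14 AFast55c087x7a.a15 AFast55c087x7a.a16 AFast55c087x7a.a17 AFast55c087x7a.a18 AFast55c087x7a.a19 AFast55c087x7a.a20 AFast55c087x7a.a21 AFast55c087x7a.a22 AFast55c087x7a.a23 AFast55c087x7a.a24 AFast55c087x7a.a25 AFast55c087x7a.a26 AFast55c087x7a.a27 AFast55c087x7a.a28 AFast55c087x7a.a29 AFast55c087x7a.a30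 AFast55c087x7a.a31 AFast55c087x7a.a32 AFast55c087x7a.a33 AFast55c087x7a.a34 AFast55c087x7a.a35 AFast55c087x7a.a36 AFast55c087x7a.a37 AFast55c087x7a.a38 AFast55c087x7a.a39 AFast55c087x7a.a40 AFast55c087x7a.a41 AFast55c087x7a.a42 AFast55c087x7a.a43 AFast55c087x7a.a44 AFast55c087x7b.a0 AFast55c087x7b.a1 AFast55c087x7b.a2 AFast55c087x7b.a3 AFast55c087x7b.a4 AFast55c087x7b.a5 AFast55c087x7b.a6 AFast55c087x7b.a7 AFast55c087x7b.a8 AFast55c087x7b.a9 AFast55c087x7b.a10 AFast55c087x7b.a11 AFast55c087x7b.a12 AFast55c087x7b.a13 AFast55c087x7b.a14 AFast55c087x7b.a15 AFast55c087x7b.a16 AFast55c087x7b.a17 AFast55c087x7b.a18 AFast55c087x7b.a19 AFast55c087x7b.a20 AFast55c087x7b.a21 AFast55c087x7b.a22 AFast55c087x7b.a23 AFast55c087x7b.a24 AFast55c087x7b.a25 AFast55c087x7b.a26 AFast55c087x7b.a27 AFast55c087x7b.a28 AFast55c087x7b.a29 AFast55c087x7b.a30 AFast55c087x7b.a31 AFast55c087x7b.a32 AFast55c087x7b.a33 AFast55c087x7b.a34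 AFast55c087x7b.a35 AFast55c087x7b.a36 AFast55c087x7b.a37 AFast55c087x7b.a38 AFast55c087x7b.a39 AFast55c087x7b.a40 AFast55c087x7b.a41 AFast55c087x7b.a42 AFast55c087x7b.a43 AFast55c087x7b.a44 AFast55c087x7b.a45 AFast55c087x7b.a46 AFast55c087x7b.a47 AFast55c087x7b.a48 AFast55c087x7b.a49 AFast55c087x7b.a50 AFast55c087x7b.a51 AFast55c087x7b.a52 AFast55c087x7b.a53 AFast55c087x7b.a54 in
/-- `Kil` is stable under push-forward. Proof: differentiate
`h (g x) (g' x u) (g' x v) = h x u v` in `x` in the direction `X x` and use `hasFDerivAt_push`. -/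
theorem push_mem_Kil [FiniteDimensional ℂ E] {D : Set E} (hD : IsOpen D)
    {h : E → E →L[ℝ] E →L[ℝ] ℂ} {ρ : E → ℝ} (hm : InvMetric D h ρ) {g g' : E → E}
    (hg : IsBiholo D D g g') {X : E → E} (hX : X ∈ Kil D h) : push D g g' X ∈ Kil D h := by
  obtain ⟨hX1, hX2, hX3⟩ := mem_Kil.1 hX
  refine mem_Kil.2 ⟨fun y hy => ?_, fun y hy => push_of_notMem hy, fun y hy u' v' => ?_⟩
  · have := (hasFDerivAt_push hD hg hX1 (hg.mapsTo_inv hy)).1
    rwa [hg.right_inv y hy] at this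
  · obtain ⟨x, hx, rfl⟩ : ∃ x ∈ D, g x = y := ⟨g' y, hg.mapsTo_inv hy, hg.right_inv y hy⟩
    have hsurj : ∀ w, ∃ u, fderiv ℂ g x u = w := by
      intro w
      refine ⟨fderiv ℂ g' (g x) w, ?_⟩
      have := fderiv_inv_fderiv hD hg.symm hy w
      rwa [hg.left_inv x hx] at this
    obtain ⟨u, rfl⟩ := hsurj u'
    obtain ⟨v, rfl⟩ := hsurj v'
    have hpush := (hasFDerivAt_push hD hg hX1 hx).2
    rw [hpush u, hpush v, push_apply hg hx]
    -- differentiate the invariance identity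
    have hh : HasFDerivAt h (fderiv ℝ h (g x)) (g x) :=
      ((hm.smooth.contDiffAt (hD.mem_nhds hy)).differentiableAt (by simp)).hasFDerivAt
    have hh' : HasFDerivAt h (fderiv ℝ h x) x :=
      ((hm.smooth.contDiffAt (hD.mem_nhds hx)).differentiableAt (by simp)).hasFDerivAt
    have hg1 : HasFDerivAt g ((fderiv ℂ g x).restrictScalars ℝ) x :=
      (hg.diffOn.differentiableAt (hD.mem_nhds hx)).hasFDerivAt.restrictScalars ℝ
    have hd : ∀ w, HasFDerivAt (fun z => fderiv ℂ g z w)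
        (((fderiv ℂ (fderiv ℂ g) x).flip w).restrictScalars ℝ) x := by
      intro w
      have := (differentiableAt_fderiv_of hD hg.diffOn hx).hasFDerivAt.clm_apply
        (hasFDerivAt_const w x)
      have e := this.restrictScalars ℝ
      refine e.congr_fderiv ?_
      ext z
      simp
    have a1 : HasFDerivAt (fun z => h (g z))
        ((fderiv ℝ h (g x)).comp ((fderiv ℂ g x).restrictScalars ℝ)) x :=
      HasFDerivAt.comp (g := h) (g' := fderiv ℝ h (g x)) x hh hg1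
    have a2 := a1.clm_apply (hd u)
    have hA := a2.clm_apply (hd v)
    have b1 := hh'.clm_apply (hasFDerivAt_const u x)
    have hB := b1.clm_apply (hasFDerivAt_const v x)
    have hAB := hA.unique (hB.congr_of_eventuallyEq (by
      filter_upwards [hD.mem_nhds hx] with z hz
      exact hm.inv g g' hg z hz u v))
    have hkey := DFunLike.congr_fun hAB (X x)
    simp only [add_apply, ContinuousLinearMap.flip_apply, ContinuousLinearMap.coe_comp,
      Function.comp_apply, ContinuousLinearMap.coe_restrictScalars', zero_apply,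
      map_zero, zero_add] at hkey
    have e1 := hm.inv g g' hg x hx (fderiv ℂ X x u) v
    have e2 := hm.inv g g' hg x hx u (fderiv ℂ X x v)
    have e3 := hX3 x hx u v
    rw [fderiv_fderiv_symm hD hg.diffOn hx u (X x), fderiv_fderiv_symm hD hg.diffOn hx v (X x)]
    simp only [map_add, add_apply]
    linear_combination hkey + e1 + e2 + e3

/-- Push-forward is compatible with the bracket. -/
theorem push_lb [FiniteDimensional ℂ E] {D : Set E} (hD : IsOpen D) {g g' : E → E}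
    (hg : IsBiholo D D g g') {X Y : E → E} (hX : ∀ x ∈ D, DifferentiableAt ℂ X x)
    (hY : ∀ x ∈ D, DifferentiableAt ℂ Y x) (hX0 : ∀ x, x ∉ D → X x = 0)
    (hY0 : ∀ x, x ∉ D → Y x = 0) :
    push D g g' (lb X Y) = lb (push D g g' X) (push D g g' Y) := by
  funext y
  by_cases hy : y ∈ D
  · obtain ⟨x, hx, rfl⟩ : ∃ x ∈ D, g x = y := ⟨g' y, hg.mapsTo_inv hy, hg.right_inv y hy⟩
    rw [push_apply hg hx]
    simp only [lb]
    rw [push_apply hg hx, push_apply hg hx, (hasFDerivAt_push hD hg hX hx).2,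
      (hasFDerivAt_push hD hg hY hx).2, map_sub,
      fderiv_fderiv_symm hD hg.diffOn hx (X x) (Y x)]
    abel
  · rw [push_of_notMem hy]
    simp only [lb]
    rw [push_of_notMem hy, push_of_notMem hy, map_zero, map_zero, sub_zero]

/-- Push-forward by the inverse. -/
theorem push_push_inv [FiniteDimensional ℂ E] {D : Set E} (hD : IsOpen D) {g g' : E → E}
    (hg : IsBiholo D D g g') {X : E → E} (hX0 : ∀ x, x ∉ D → X x = 0) :
    push D g' g (push D g g' X) = X := by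
  funext x
  by_cases hx : x ∈ D
  · have h1 := push_apply hg.symm (X := push D g g' X) (hg.mapsTo hx)
    rw [hg.left_inv x hx] at h1
    rw [h1, push_apply hg hx, fderiv_inv_fderiv hD hg hx]
  · rw [push_of_notMem hx, hX0 x hx]

end Vale.Agent.P274.V
end

section

/-! # P274-V8: the bracket

Proof of `hasDerivAt_push_flow`.  Let `Ψ = F (-t)`; near `x ∈ D`
`push D (F t) (F (-t)) Y x = fderiv ℂ (F t) (F (-t) x) (Y (F (-t) x))` and
`(fderiv ℂ (F t) (F (-t) x)) ∘ (fderiv ℂ (F (-t)) x) = id`, so the value is `(B t)⁻¹ (Y (F (-t) x))` with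
`B t = fderiv ℂ (F (-t)) x`, `B 0 = id`, `B' 0 = - fderiv ℂ X x`.  (Derivative of the inverse:
`hasFDerivAt_ringInverse` in the algebra `E →L[ℂ] E`, or write
`push_t - Y x = (B t)⁻¹ (Y (F (-t) x) - B t (Y x))` and use that the bracket is `o`/differentiable and
`(B t)⁻¹ → id`.)  The derivative at `0` is `X' Y - Y' X = - lb X Y`.
Proof of `lb_mem_Kil`: the quotients `n • (push D (F (1/n)) (F (-1/n)) Y - Y)` lie in `Kil D h`
(`push_mem_Kil`) and converge pointwise on `E` to `- lb X Y` (both vanish outside `D`);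
`Kil D h` is finite-dimensional, hence closed in `E → E` (`Submodule.closed_of_finiteDimensional`,
product topology is Hausdorff). -/

open Set Complex ComplexConjugate Topology
open scoped ContDiff

namespace Vale.Agent.P274.V

variable {E : Type*} [NormedAddCommGroup E] [NormedSpace ℂ E]

theorem lb_of_notMem {D : Set E} {X Y : E → E} (hX0 : ∀ x, x ∉ D → X x = 0)
    (hY0 : ∀ x, x ∉ D → Y x = 0) {x : E} (hx : x ∉ D) : lb X Y x = 0 := by
  simp [lb, hX0 x hx, hY0 x hx]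

theorem hasFDerivAt_inv_apply_aux [FiniteDimensional ℂ E] (v : E) :
    HasFDerivAt (𝕜 := ℂ) (fun p : (E →L[ℂ] E) × E => Ring.inverse p.1 p.2)
      (ContinuousLinearMap.snd ℂ (E →L[ℂ] E) E -
        (ContinuousLinearMap.apply ℂ E v).comp (ContinuousLinearMap.fst ℂ (E →L[ℂ] E) E))
      ((1 : E →L[ℂ] E), v) := by
  have : CompleteSpace E := FiniteDimensional.complete ℂ E
  have h1 : HasFDerivAt (𝕜 := ℂ) (Ring.inverse : (E →L[ℂ] E) → (E →L[ℂ] E))
      (-ContinuousLinearMap.id ℂ (E →L[ℂ] E)) (1 : E →L[ℂ] E) := by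
    refine (hasFDerivAt_ringInverse (𝕜 := ℂ) (1 : (E →L[ℂ] E)ˣ)).congr_fderiv ?_
    ext b w
    simp
  have h2 : HasFDerivAt (𝕜 := ℂ) (fun p : (E →L[ℂ] E) × E => Ring.inverse p.1)
      ((-ContinuousLinearMap.id ℂ (E →L[ℂ] E)).comp (ContinuousLinearMap.fst ℂ (E →L[ℂ] E) E))
      ((1 : E →L[ℂ] E), v) :=
    HasFDerivAt.comp (g := Ring.inverse) ((1 : E →L[ℂ] E), v) h1 hasFDerivAt_fst
  have h3 := h2.clm_apply (hasFDerivAt_snd (𝕜 := ℂ) (p := ((1 : E →L[ℂ] E), v)))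
  refine h3.congr_fderiv ?_
  ext p
  all_goals simp

theorem push_flow_eq_aux [FiniteDimensional ℂ E] {D : Set E} (hD : IsOpen D) {X Y : E → E}
    {F : ℝ → E → E} (hF : IsFlow D X F) {x : E} (hx : x ∈ D) (t : ℝ) :
    push D (F t) (F (-t)) Y x = Ring.inverse (fderiv ℂ (F (-t)) x) (Y (F (-t) x)) := by
  have hb := hF.biholo t
  have hmem : F (-t) x ∈ D := hb.mapsTo_inv hx
  have hdt : DifferentiableAt ℂ (F t) (F (-t) x) := hb.diffOn.differentiableAt (hD.mem_nhds hmem)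
  have hdn : DifferentiableAt ℂ (F (-t)) x := hb.diffOn_inv.differentiableAt (hD.mem_nhds hx)
  have hback : F t (F (-t) x) = x := hb.right_inv x hx
  -- `(F t)' ∘ (F (-t))' = id`
  have e1 : (fderiv ℂ (F t) (F (-t) x)).comp (fderiv ℂ (F (-t)) x) = ContinuousLinearMap.id ℂ E := by
    have h1 : HasFDerivAt (F t ∘ F (-t))
        ((fderiv ℂ (F t) (F (-t) x)).comp (fderiv ℂ (F (-t)) x)) x :=
      hdt.hasFDerivAt.comp x hdn.hasFDerivAt
    have h2 : HasFDerivAt (F t ∘ F (-t)) (ContinuousLinearMap.id ℂ E) x := by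
      refine (hasFDerivAt_id x).congr_of_eventuallyEq ?_
      filter_upwards [hD.mem_nhds hx] with y hy
      exact hb.right_inv y hy
    exact h1.unique h2
  have e2 : (fderiv ℂ (F (-t)) x).comp (fderiv ℂ (F t) (F (-t) x)) = ContinuousLinearMap.id ℂ E := by
    have h0 : HasFDerivAt (F (-t)) (fderiv ℂ (F (-t)) x) (F t (F (-t) x)) := by
      rw [hback]; exact hdn.hasFDerivAt
    have h1 : HasFDerivAt (F (-t) ∘ F t)
        ((fderiv ℂ (F (-t)) x).comp (fderiv ℂ (F t) (F (-t) x))) (F (-t) x) :=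
      h0.comp (F (-t) x) hdt.hasFDerivAt
    have h2 : HasFDerivAt (F (-t) ∘ F t) (ContinuousLinearMap.id ℂ E) (F (-t) x) := by
      refine (hasFDerivAt_id (F (-t) x)).congr_of_eventuallyEq ?_
      filter_upwards [hD.mem_nhds hmem] with y hy
      exact hb.left_inv y hy
    exact h1.unique h2
  have e3 : Ring.inverse (fderiv ℂ (F (-t)) x) = fderiv ℂ (F t) (F (-t) x) := by
    have hu : fderiv ℂ (F (-t)) x = ((⟨fderiv ℂ (F (-t)) x, fderiv ℂ (F t) (F (-t) x), e2, e1⟩ :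
      (E →L[ℂ] E)ˣ) : E →L[ℂ] E) := rfl
    rw [hu, Ring.inverse_unit]
    rfl
  rw [e3, push, indicator_of_mem hx]

theorem fderiv_flow_zero_aux [FiniteDimensional ℂ E] {D : Set E} (hD : IsOpen D) {X : E → E}
    {F : ℝ → E → E} (hF : IsFlow D X F) {x : E} (hx : x ∈ D) :
    fderiv ℂ (F 0) x = 1 := by
  have h2 : HasFDerivAt (F 0) (ContinuousLinearMap.id ℂ E) x := by
    refine (hasFDerivAt_id x).congr_of_eventuallyEq ?_
    filter_upwards [hD.mem_nhds hx] with y hy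
    exact hF.zero y hy
  exact h2.fderiv

theorem hasDerivAt_push_flow [FiniteDimensional ℂ E] {D : Set E} (hD : IsOpen D) {X Y : E → E}
    (hX : ∀ x ∈ D, DifferentiableAt ℂ X x) (hY : ∀ x ∈ D, DifferentiableAt ℂ Y x)
    {F : ℝ → E → E} (hF : IsFlow D X F) {x : E} (hx : x ∈ D) :
    HasDerivAt (fun t : ℝ => push D (F t) (F (-t)) Y x) (-lb X Y x) 0 := by
  have hfun : (fun t : ℝ => push D (F t) (F (-t)) Y x) =
      fun t : ℝ => Ring.inverse (fderiv ℂ (F (-t)) x) (Y (F (-t) x)) :=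
    funext fun t => push_flow_eq_aux hD hF hx t
  rw [hfun]
  have h0 : F 0 x = x := hF.zero x hx
  have hneg : HasDerivAt (fun t : ℝ => -t) (-1) 0 := hasDerivAt_neg' 0
  have hB : HasDerivAt (fun t : ℝ => fderiv ℂ (F (-t)) x) (-(fderiv ℂ X x)) 0 := by
    have h1 := hF.deriv_fderiv x hx (-0)
    have h2 := h1.scomp (0 : ℝ) hneg
    rw [neg_zero, h0, fderiv_flow_zero_aux hD hF hx] at h2
    refine h2.congr_deriv ?_
    rw [neg_one_smul]
    congr 1
  have hP : HasDerivAt (fun t : ℝ => F (-t) x) (-(X x)) 0 := by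
    have h1 := hF.deriv x hx (-0)
    have h2 := h1.scomp (0 : ℝ) hneg
    rw [neg_zero, h0] at h2
    refine h2.congr_deriv ?_
    rw [neg_one_smul]
  have hW : HasDerivAt (fun t : ℝ => Y (F (-t) x)) (-(fderiv ℂ Y x (X x))) 0 := by
    have h1 : HasFDerivAt Y ((fderiv ℂ Y x).restrictScalars ℝ) (F (-0) x) := by
      rw [neg_zero, h0]
      exact (hY x hx).hasFDerivAt.restrictScalars ℝ
    have h2 := h1.comp_hasDerivAt (0 : ℝ) hP
    refine h2.congr_deriv ?_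
    simp
  have hpair : HasDerivAt (fun t : ℝ => (fderiv ℂ (F (-t)) x, Y (F (-t) x)))
      (-(fderiv ℂ X x), -(fderiv ℂ Y x (X x))) 0 := hB.prodMk hW
  have hΦ : HasFDerivAt (fun p : (E →L[ℂ] E) × E => Ring.inverse p.1 p.2)
      ((ContinuousLinearMap.snd ℂ (E →L[ℂ] E) E -
        (ContinuousLinearMap.apply ℂ E (Y x)).comp
          (ContinuousLinearMap.fst ℂ (E →L[ℂ] E) E)).restrictScalars ℝ)
      (fderiv ℂ (F (-0)) x, Y (F (-0) x)) := by
    rw [neg_zero, h0, fderiv_flow_zero_aux hD hF hx]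
    exact (hasFDerivAt_inv_apply_aux (Y x)).restrictScalars ℝ
  have h3 := hΦ.comp_hasDerivAt (0 : ℝ) hpair
  refine h3.congr_deriv ?_
  simp [lb]
  abel

theorem lb_mem_Kil [FiniteDimensional ℂ E] {D : Set E} {h : E → E →L[ℝ] E →L[ℝ] ℂ} {ρ : E → ℝ}
    (C : Ctx D h ρ) {X Y : E → E} (hX : X ∈ Kil D h) (hY : Y ∈ Kil D h) :
    lb X Y ∈ Kil D h := by
  obtain ⟨F, hF⟩ := C.flow X hX
  have hfin : FiniteDimensional ℝ (Kil D h) := Kil_finiteDimensional C
  have hcl : IsClosed (Kil D h : Set (E → E)) := Submodule.closed_of_finiteDimensional _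
  have hmem : ∀ t : ℝ, t⁻¹ • (push D (F t) (F (-t)) Y - Y) ∈ Kil D h := fun t =>
    (Kil D h).smul_mem _ ((Kil D h).sub_mem (push_mem_Kil C.isOpen C.met (hF.biholo t) hY) hY)
  have hlim : Filter.Tendsto (fun t : ℝ => t⁻¹ • (push D (F t) (F (-t)) Y - Y)) (𝓝[≠] 0)
      (𝓝 (-lb X Y)) := by
    rw [tendsto_pi_nhds]
    intro x
    by_cases hx : x ∈ D
    · have h1 := hasDerivAt_push_flow C.isOpen hX.1 hY.1 hF hx
      have h2 := h1.tendsto_slope_zero
      refine h2.congr fun t => ?_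
      have e0 : push D (F 0) (F (-0)) Y x = Y x := by
        have hfd := fderiv_flow_zero_aux C.isOpen hF hx
        rw [push, indicator_of_mem hx, neg_zero, hF.zero x hx, hfd]
        rfl
      rw [Pi.smul_apply, Pi.sub_apply, zero_add, e0]
    · have e : ∀ t : ℝ, (t⁻¹ • (push D (F t) (F (-t)) Y - Y)) x = 0 := by
        intro t
        rw [Pi.smul_apply, Pi.sub_apply, push_of_notMem hx, hY.2.1 x hx, sub_zero, smul_zero]
      simp only [e, Pi.neg_apply, lb_of_notMem hX.2.1 hY.2.1 hx, neg_zero]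
      exact tendsto_const_nhds
  have h4 : -lb X Y ∈ Kil D h := hcl.mem_of_tendsto hlim (Filter.Eventually.of_forall hmem)
  simpa using (Kil D h).neg_mem h4

/-- `ad X` as a linear endomorphism of `Kil D h`. -/
noncomputable def adK [FiniteDimensional ℂ E] {D : Set E} {h : E → E →L[ℝ] E →L[ℝ] ℂ} {ρ : E → ℝ}
    (C : Ctx D h ρ) (X : Kil D h) : Kil D h →ₗ[ℝ] Kil D h where
  toFun Y := ⟨lb X.1 Y.1, lb_mem_Kil C X.2 Y.2⟩
  map_add' Y Y' := by
    ext x
    by_cases hx : x ∈ D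
    · have h1 := Y.2.1 x hx
      have h2 := Y'.2.1 x hx
      simp only [lb, Submodule.coe_add, Pi.add_apply]
      rw [fderiv_add h1 h2]
      simp only [add_apply, map_add]
      abel
    · have h1 := X.2.2.1 x hx
      have h2 := Y.2.2.1 x hx
      have h3 := Y'.2.2.1 x hx
      simp [lb, h1, h2, h3]
  map_smul' r Y := by
    ext x
    by_cases hx : x ∈ D
    · have h1 := Y.2.1 x hx
      have hr : (r • (Y : E → E) : E → E) = ((r : ℂ) • (Y : E → E) : E → E) := by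
        funext x; simp
      have e : fderiv ℂ (X : E → E) x (r • (Y : E → E) x) =
          r • fderiv ℂ (X : E → E) x ((Y : E → E) x) :=
        (fderiv ℂ (X : E → E) x).map_smul_of_tower r _
      have e2 : fderiv ℂ (r • (Y : E → E)) x = (r : ℂ) • fderiv ℂ (Y : E → E) x := by
        rw [hr, fderiv_const_smul h1]
      simp only [lb, Submodule.coe_smul, Pi.smul_apply, RingHom.id_apply]
      rw [e, e2, smul_sub]
      rfl
    · have h1 := X.2.2.1 x hx
      have h2 := Y.2.2.1 x hx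
      simp [lb, h1, h2]

@[simp] theorem adK_coe [FiniteDimensional ℂ E] {D : Set E} {h : E → E →L[ℝ] E →L[ℝ] ℂ}
    {ρ : E → ℝ} (C : Ctx D h ρ) (X Y : Kil D h) : (adK C X Y : E → E) = lb X.1 Y.1 := rfl

/-- The bracket is antisymmetric. -/
theorem lb_swap (X Y : E → E) : lb X Y = - lb Y X := by
  funext x; simp [lb]

/-- The derivative of a holomorphic field is differentiable. -/
theorem differentiableAt_fderiv_aux [FiniteDimensional ℂ E] {D : Set E} (hD : IsOpen D)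
    {X : E → E} (hX : ∀ x ∈ D, DifferentiableAt ℂ X x) {x : E} (hx : x ∈ D) :
    DifferentiableAt ℂ (fderiv ℂ X) x := by
  have : CompleteSpace E := FiniteDimensional.complete ℂ E
  have hd : DifferentiableOn ℂ X D := fun y hy => (hX y hy).differentiableWithinAt
  exact (P268.analyticAt_of_differentiableOn hD hd hx).fderiv.differentiableAt

/-- The derivative of a bracket. -/
theorem fderiv_lb_aux [FiniteDimensional ℂ E] {D : Set E} (hD : IsOpen D) {X Y : E → E}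
    (hX : ∀ x ∈ D, DifferentiableAt ℂ X x) (hY : ∀ x ∈ D, DifferentiableAt ℂ Y x)
    {x : E} (hx : x ∈ D) (u : E) :
    fderiv ℂ (lb X Y) x u = (fderiv ℂ (fderiv ℂ Y) x u (X x) + fderiv ℂ Y x (fderiv ℂ X x u)) -
      (fderiv ℂ (fderiv ℂ X) x u (Y x) + fderiv ℂ X x (fderiv ℂ Y x u)) := by
  have hX' := (differentiableAt_fderiv_aux hD hX hx).hasFDerivAt
  have hY' := (differentiableAt_fderiv_aux hD hY hx).hasFDerivAt
  have h1 := hY'.clm_apply (hX x hx).hasFDerivAt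
  have h2 := hX'.clm_apply (hY x hx).hasFDerivAt
  have h3 : HasFDerivAt (lb X Y) _ x := h1.sub h2
  rw [h3.fderiv]
  simp
  abel

/-- Jacobi identity, in the form `ad [X,Y] = [ad X, ad Y]` (second derivatives are symmetric). -/
theorem lb_lb [FiniteDimensional ℂ E] {D : Set E} (hD : IsOpen D) {X Y W : E → E}
    (hX : ∀ x ∈ D, DifferentiableAt ℂ X x) (hY : ∀ x ∈ D, DifferentiableAt ℂ Y x)
    (hW : ∀ x ∈ D, DifferentiableAt ℂ W x) {x : E} (hx : x ∈ D) :
    lb (lb X Y) W x = lb X (lb Y W) x - lb Y (lb X W) x := by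
  have dX : DifferentiableOn ℂ X D := fun y hy => (hX y hy).differentiableWithinAt
  have dY : DifferentiableOn ℂ Y D := fun y hy => (hY y hy).differentiableWithinAt
  have dW : DifferentiableOn ℂ W D := fun y hy => (hW y hy).differentiableWithinAt
  have e1 : lb (lb X Y) W x = fderiv ℂ W x (lb X Y x) - fderiv ℂ (lb X Y) x (W x) := rfl
  have e2 : lb X (lb Y W) x = fderiv ℂ (lb Y W) x (X x) - fderiv ℂ X x (lb Y W x) := rfl
  have e3 : lb Y (lb X W) x = fderiv ℂ (lb X W) x (Y x) - fderiv ℂ Y x (lb X W x) := rfl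
  rw [e1, e2, e3, fderiv_lb_aux hD hX hY hx, fderiv_lb_aux hD hY hW hx, fderiv_lb_aux hD hX hW hx,
    fderiv_fderiv_symm hD dW hx (Y x) (X x), fderiv_fderiv_symm hD dY hx (W x) (X x),
    fderiv_fderiv_symm hD dX hx (W x) (Y x)]
  simp only [lb, map_sub]
  abel

end Vale.Agent.P274.V
end

section

/-! # P274-V20b: jets at `p_e` of Killing fields of a Siegel domain (helper234) -/

open Set Complex ComplexConjugate Topology
open scoped ContDiff

namespace Vale.Agent.P274.V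

variable {Z : Type*} [NormedAddCommGroup Z] [NormedSpace ℂ Z] [FiniteDimensional ℂ Z] {k : ℕ}

/-- The linear part `(z/2, w)`. -/
noncomputable def dl : Z × (Fin k → ℂ) →L[ℂ] Z × (Fin k → ℂ) :=
  ((1 / 2 : ℂ) • ContinuousLinearMap.id ℂ Z).prodMap (ContinuousLinearMap.id ℂ _)

omit [FiniteDimensional ℂ Z] in
theorem dl_apply (v : Z × (Fin k → ℂ)) : dl v = ((1 / 2 : ℂ) • v.1, v.2) := rfl

section general
variable {E : Type*} [NormedAddCommGroup E] [NormedSpace ℂ E]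

omit [NormedSpace ℂ E] in
theorem indicator_eventuallyEq {S : Set E} (hS : IsOpen S) (f : E → E) {x : E} (hx : x ∈ S) :
    S.indicator f =ᶠ[𝓝 x] f := by
  filter_upwards [hS.mem_nhds hx] with y hy
  exact indicator_of_mem hy f

theorem fderiv_indicator {S : Set E} (hS : IsOpen S) (f : E → E) {x : E} (hx : x ∈ S) :
    fderiv ℂ (S.indicator f) x = fderiv ℂ f x :=
  (indicator_eventuallyEq hS f hx).fderiv_eq

theorem differentiableAt_fderiv [FiniteDimensional ℂ E] {S : Set E} (hS : IsOpen S) {X : E → E}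
    (hX : ∀ x ∈ S, DifferentiableAt ℂ X x) {x : E} (hx : x ∈ S) :
    DifferentiableAt ℂ (fderiv ℂ X) x := by
  have h1 : ContDiffOn ℂ (2 : ℕ) X S := by
    have : CompleteSpace E := FiniteDimensional.complete ℂ E
    exact Vale.Agent.P268.contDiffOn_of_differentiableOn hS
      (fun y hy => (hX y hy).differentiableWithinAt) 2
  have h2 : ContDiffAt ℂ 2 X x := h1.contDiffAt (hS.mem_nhds hx)
  exact (h2.fderiv_right (m := 1) (by norm_num)).differentiableAt (by norm_num)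

end general

variable {F : Z →L[ℝ] Z →L[ℝ] (Fin k → ℂ)} {S : Set (Z × (Fin k → ℂ))}

omit [FiniteDimensional ℂ Z] in
theorem fderiv_tauF (hS : IsOpen S) (a : Fin k → ℝ) {x : Z × (Fin k → ℂ)} (hx : x ∈ S) :
    fderiv ℂ (tauF S a) x = 0 := by
  rw [tauF, fderiv_indicator hS _ hx, fderiv_const_apply]

omit [FiniteDimensional ℂ Z] in
theorem fderiv_dilF (hS : IsOpen S) {x : Z × (Fin k → ℂ)} (hx : x ∈ S) :
    fderiv ℂ (dilF S) x = dl := by
  rw [dilF, fderiv_indicator hS _ hx]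
  exact (dl : Z × (Fin k → ℂ) →L[ℂ] Z × (Fin k → ℂ)).fderiv

omit [FiniteDimensional ℂ Z] in
theorem fderiv_rotF (hS : IsOpen S) {x : Z × (Fin k → ℂ)} (hx : x ∈ S) (v : Z × (Fin k → ℂ)) :
    fderiv ℂ (rotF S) x v = (I • v.1, 0) := by
  rw [rotF, fderiv_indicator hS _ hx]
  have h1 : HasFDerivAt (fun p : Z × (Fin k → ℂ) => (I • p.1, (0 : Fin k → ℂ)))
      ((I • ContinuousLinearMap.fst ℂ Z (Fin k → ℂ)).prod 0) x := by
    exact ((I • ContinuousLinearMap.fst ℂ Z (Fin k → ℂ)).prod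
      (0 : Z × (Fin k → ℂ) →L[ℂ] (Fin k → ℂ))).hasFDerivAt
  rw [h1.fderiv]
  rfl

/-- `z ↦ F z c` as a complex linear map. -/
noncomputable def Fl (hF : HermF F) (c : Z) : Z →ₗ[ℂ] (Fin k → ℂ) where
  toFun z := F z c
  map_add' z z' := by simp
  map_smul' a z := hF.smul_left a z c

theorem fderiv_nilF (hF : HermF F) (hS : IsOpen S) (c : Z) {x : Z × (Fin k → ℂ)} (hx : x ∈ S)
    (v : Z × (Fin k → ℂ)) :
    fderiv ℂ (nilF F S c) x v = (0, (2 : ℂ) • F v.1 c) := by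
  rw [nilF, fderiv_indicator hS _ hx]
  set T : Z →L[ℂ] (Fin k → ℂ) := LinearMap.toContinuousLinearMap (Fl hF c) with hT
  have hTa : ∀ z, T z = F z c := fun z => rfl
  have h1 : HasFDerivAt (fun p : Z × (Fin k → ℂ) => (c, (2 : ℂ) • F p.1 c))
      ((0 : Z × (Fin k → ℂ) →L[ℂ] Z).prod
        ((2 : ℂ) • T.comp (ContinuousLinearMap.fst ℂ Z (Fin k → ℂ)))) x := by
    refine HasFDerivAt.prodMk (hasFDerivAt_const c x) ?_
    exact ((2 : ℂ) • T.comp (ContinuousLinearMap.fst ℂ Z (Fin k → ℂ))).hasFDerivAt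
  rw [h1.fderiv]
  rfl

/-! ### brackets with the affine fields -/

omit [FiniteDimensional ℂ Z] in
theorem lb_tauF (hS : IsOpen S) (a : Fin k → ℝ) (X : Z × (Fin k → ℂ) → Z × (Fin k → ℂ))
    {x : Z × (Fin k → ℂ)} (hx : x ∈ S) :
    lb (tauF S a) X x = fderiv ℂ X x (0, I • cpx a) := by
  rw [lb, fderiv_tauF hS a hx]
  simp [tauF, hx]

omit [FiniteDimensional ℂ Z] in
theorem lb_dilF (hS : IsOpen S) (X : Z × (Fin k → ℂ) → Z × (Fin k → ℂ))
    {x : Z × (Fin k → ℂ)} (hx : x ∈ S) :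
    lb (dilF S) X x = fderiv ℂ X x (dl x) - dl (X x) := by
  rw [lb, fderiv_dilF hS hx, dilF, indicator_of_mem hx]
  rfl

theorem lb_nilF (hF : HermF F) (hS : IsOpen S) (c : Z) (X : Z × (Fin k → ℂ) → Z × (Fin k → ℂ))
    {x : Z × (Fin k → ℂ)} (hx : x ∈ S) :
    lb (nilF F S c) X x = fderiv ℂ X x (c, (2 : ℂ) • F x.1 c) - (0, (2 : ℂ) • F (X x).1 c) := by
  rw [lb, fderiv_nilF hF hS c hx, nilF, indicator_of_mem hx]

omit [FiniteDimensional ℂ Z] in
theorem lb_dilF_tauF (hS : IsOpen S) (a : Fin k → ℝ) :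
    lb (dilF S) (tauF S a) = - (tauF S a : Z × (Fin k → ℂ) → Z × (Fin k → ℂ)) := by
  funext x
  by_cases hx : x ∈ S
  · rw [lb_dilF hS _ hx, fderiv_tauF hS a hx]
    simp [tauF, hx, dl_apply]
  · rw [lb_of_notMem (D := S) (fun y hy => by simp [dilF, hy]) (fun y hy => by simp [tauF, hy]) hx]
    simp [tauF, hx]

theorem lb_dilF_nilF (hF : HermF F) (hS : IsOpen S) (c : Z) :
    lb (dilF S) (nilF F S c) = (-(1 / 2) : ℝ) • nilF F S c := by
  funext x
  by_cases hx : x ∈ S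
  · rw [lb_dilF hS _ hx, fderiv_nilF hF hS c hx, Pi.smul_apply]
    simp only [nilF, indicator_of_mem hx, dl_apply]
    ext j
    · have h : ((-(1 / 2) : ℝ) • (c, (2 : ℂ) • F x.1 c) : Z × (Fin k → ℂ)).1 =
          (((-(1 / 2) : ℝ)) : ℂ) • c := rfl
      rw [h]
      push_cast
      simp
    · simp only [hF.smul_left]
      simp
      ring
  · rw [lb_of_notMem (D := S) (fun y hy => by simp [dilF, hy]) (fun y hy => by simp [nilF, hy]) hx]
    simp [nilF, hx]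

/-! ### the jet relations at a point `p` fixed by `dl` -/

section jets

variable {X : Z × (Fin k → ℂ) → Z × (Fin k → ℂ)} {e : Fin k → ℝ}

omit [FiniteDimensional ℂ Z] in
theorem jet1 (hS : IsOpen S) (hpe : ((0 : Z), cpx e) ∈ S) :
    lb (tauF S e) X (0, cpx e) =
      I • (lb (dilF S) X (0, cpx e) + dl (X (0, cpx e))) := by
  rw [lb_tauF hS e X hpe, lb_dilF hS X hpe, sub_add_cancel]
  have : ((0 : Z), I • cpx e) = I • dl ((0 : Z), cpx e) := by
    rw [dl_apply]; simp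
  rw [this, map_smul]

theorem jet2 (hS : IsOpen S) (hpe : ((0 : Z), cpx e) ∈ S)
    (hX : ∀ x ∈ S, DifferentiableAt ℂ X x) (v : Z × (Fin k → ℂ)) :
    fderiv ℂ (lb (tauF S e) X) (0, cpx e) v =
      I • (fderiv ℂ (lb (dilF S) X) (0, cpx e) v - fderiv ℂ X (0, cpx e) (dl v)
        + dl (fderiv ℂ X (0, cpx e) v)) := by
  set pe : Z × (Fin k → ℂ) := (0, cpx e) with hpe'
  have hD := differentiableAt_fderiv hS hX hpe
  have h1 : fderiv ℂ (lb (tauF S e) X) pe v = fderiv ℂ (fderiv ℂ X) pe v (0, I • cpx e) := by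
    have e1 : lb (tauF S e) X =ᶠ[𝓝 pe] fun x => fderiv ℂ X x (0, I • cpx e) := by
      filter_upwards [hS.mem_nhds hpe] with x hx using lb_tauF hS e X hx
    rw [e1.fderiv_eq]
    have e2 := hD.hasFDerivAt.clm_apply (hasFDerivAt_const ((0 : Z), I • cpx e) pe)
    rw [e2.fderiv]
    simp
  have h2 : fderiv ℂ (lb (dilF S) X) pe v = fderiv ℂ (fderiv ℂ X) pe v (dl pe)
      + fderiv ℂ X pe (dl v) - dl (fderiv ℂ X pe v) := by
    have e1 : lb (dilF S) X =ᶠ[𝓝 pe] fun x => fderiv ℂ X x (dl x) - dl (X x) := by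
      filter_upwards [hS.mem_nhds hpe] with x hx using lb_dilF hS X hx
    rw [e1.fderiv_eq]
    have e2 := (hD.hasFDerivAt.clm_apply (dl (Z := Z) (k := k)).hasFDerivAt).sub
      ((dl (Z := Z) (k := k)).hasFDerivAt.comp pe (hX pe hpe).hasFDerivAt)
    have e3 : fderiv ℂ (fun x => fderiv ℂ X x (dl x) - dl (X x)) pe = _ := e2.fderiv
    rw [e3]
    simp
    abel
  rw [h1, h2]
  have : ((0 : Z), I • cpx e) = I • dl pe := by
    rw [dl_apply, hpe']; simp
  rw [this, map_smul]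
  congr 1
  abel

end jets

end Vale.Agent.P274.V
end

section

/-! # P274-V20c: the algebra of a Siegel domain, set-up (helper234) -/

open Set Complex ComplexConjugate Topology
open scoped ContDiff

namespace Vale.Agent.P274.V

/-- A jet component of weight `δ`. -/
structure IsJ {G V : Type*} [AddCommGroup G] [Module ℝ G] [AddCommGroup V] [Module ℂ V]
    (A N : Module.End ℝ G) (δ : ℝ) (j : G → V) : Prop where
  add : ∀ x y, j (x + y) = j x + j y
  smul : ∀ (r : ℝ) x, j (r • x) = (r : ℂ) • j x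
  rel : ∀ x, j (N x) = I • (j (A x) + (δ : ℂ) • j x)

theorem natne {x : ℝ} (n : ℕ) (hx : 2 * x = 2 * n + 1) (i : ℕ) : x ≠ i := by
  rintro rfl
  have : 2 * i = 2 * n + 1 := by exact_mod_cast hx
  omega

theorem negne {x : ℝ} (hx : x < 0) (i : ℕ) : x ≠ i := by
  rintro rfl
  exact absurd hx (not_lt.2 (Nat.cast_nonneg i))

section IsJ

variable {G V : Type*} [AddCommGroup G] [Module ℝ G] [AddCommGroup V] [Module ℂ V]
  {A N : Module.End ℝ G} {δ : ℝ} {j : G → V}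

theorem IsJ.eig (hj : IsJ A N δ j) {μ : ℝ} {x : G} (hx : A x = μ • x) :
    j (N x) = (I * ((μ + δ : ℝ) : ℂ)) • j x := by
  rw [hj.rel, hx, hj.smul]
  push_cast
  module

theorem IsJ.zero (hj : IsJ A N δ j) : j 0 = 0 := by
  have := hj.smul 0 0
  simpa using this

theorem IsJ.sub (hj : IsJ A N δ j) (x y : G) : j (x - y) = j x - j y := by
  have h1 : x - y = x + (-1 : ℝ) • y := by module
  rw [h1, hj.add, hj.smul]
  push_cast
  module

theorem eig_pow (hAN : ∀ x, A (N x) = N (A x) - N x) {μ : ℝ} {x : G} (hx : A x = μ • x) (K : ℕ) :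
    A ((N ^ K) x) = (μ - K) • (N ^ K) x := by
  rw [comm_pow A N hAN, hx, map_smul]
  module

theorem IsJ.pow (hj : IsJ A N δ j) (hAN : ∀ x, A (N x) = N (A x) - N x) {μ : ℝ} {x : G}
    (hx : A x = μ • x) (K : ℕ) :
    j ((N ^ K) x) = (∏ i ∈ Finset.range K, (I * ((μ + δ - i : ℝ) : ℂ))) • j x := by
  induction K with
  | zero => simp
  | succ K ih =>
    have h1 : (N ^ (K + 1)) x = N ((N ^ K) x) := by rw [pow_succ', Module.End.mul_apply]
    rw [h1, hj.eig (eig_pow hAN hx K), ih, Finset.prod_range_succ, smul_smul]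
    congr 1
    push_cast
    ring

theorem IsJ.van (hj : IsJ A N δ j) (hAN : ∀ x, A (N x) = N (A x) - N x) {K : ℕ}
    (hK : N ^ K = 0) {μ : ℝ} {x : G} (hx : A x = μ • x) (hμ : ∀ i : ℕ, μ + δ ≠ i) : j x = 0 := by
  have h1 := hj.pow hAN hx K
  rw [hK, LinearMap.zero_apply, hj.zero] at h1
  rcases smul_eq_zero.1 h1.symm with h2 | h2
  · exfalso
    rw [Finset.prod_eq_zero_iff] at h2
    obtain ⟨i, -, hi⟩ := h2
    rcases mul_eq_zero.1 hi with h3 | h3
    · exact I_ne_zero h3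
    · have h4 : μ + δ - i = 0 := by exact_mod_cast h3
      exact hμ i (by linarith)
  · exact h2

end IsJ

variable {Z : Type*} [NormedAddCommGroup Z] [NormedSpace ℂ Z] [FiniteDimensional ℂ Z] {k : ℕ}

/-- All hypotheses of `exists_J`. -/
structure Sys (F : Z →L[ℝ] Z →L[ℝ] (Fin k → ℂ)) (Ω : Set (Fin k → ℝ))
    (h : Z × (Fin k → ℂ) → Z × (Fin k → ℂ) →L[ℝ] Z × (Fin k → ℂ) →L[ℝ] ℂ)
    (ρ : Z × (Fin k → ℂ) → ℝ) (e : Fin k → ℝ) : Prop where
  hF : HermF F
  C : Ctx (Sg F Ω) h ρ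
  tau : ∀ a, tauF (Sg F Ω) a ∈ Kil (Sg F Ω) h
  nil : ∀ c, nilF F (Sg F Ω) c ∈ Kil (Sg F Ω) h
  dil : dilF (Sg F Ω) ∈ Kil (Sg F Ω) h
  rot : rotF (Sg F Ω) ∈ Kil (Sg F Ω) h
  con : ∀ a, conF (Sg F Ω) a ∈ Kil (Sg F Ω) h → a = 0
  he : e ∈ Ω

namespace Sys

variable {F : Z →L[ℝ] Z →L[ℝ] (Fin k → ℂ)} {Ω : Set (Fin k → ℝ)}
  {h : Z × (Fin k → ℂ) → Z × (Fin k → ℂ) →L[ℝ] Z × (Fin k → ℂ) →L[ℝ] ℂ}
  {ρ : Z × (Fin k → ℂ) → ℝ} {e : Fin k → ℝ} (s : Sys F Ω h ρ e)

include s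

omit [FiniteDimensional ℂ Z] in
theorem hpe : ((0 : Z), cpx e) ∈ Sg F Ω := by
  have : (fun j => ((cpx e) j).re - (F (0 : Z) 0 j).re) = e := by
    funext j; simp [cpx]
  show _ ∈ Ω
  rw [this]
  exact s.he

omit [FiniteDimensional ℂ Z] in
theorem hS : IsOpen (Sg F Ω) := s.C.isOpen

/-- The Euler field. -/
noncomputable def d : Kil (Sg F Ω) h := ⟨dilF _, s.dil⟩
noncomputable def t (a : Fin k → ℝ) : Kil (Sg F Ω) h := ⟨tauF _ a, s.tau a⟩
noncomputable def n (c : Z) : Kil (Sg F Ω) h := ⟨nilF F _ c, s.nil c⟩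
noncomputable def r : Kil (Sg F Ω) h := ⟨rotF _, s.rot⟩
noncomputable def A : Module.End ℝ (Kil (Sg F Ω) h) := adK s.C s.d
noncomputable def N (a : Fin k → ℝ) : Module.End ℝ (Kil (Sg F Ω) h) := adK s.C (s.t a)
noncomputable def M (c : Z) : Module.End ℝ (Kil (Sg F Ω) h) := adK s.C (s.n c)

theorem jacobi (X Y W : Kil (Sg F Ω) h) :
    adK s.C (adK s.C X Y) W = adK s.C X (adK s.C Y W) - adK s.C Y (adK s.C X W) := by
  ext1
  funext x
  by_cases hx : x ∈ Sg F Ω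
  · exact lb_lb s.hS X.2.1 Y.2.1 W.2.1 hx
  · have h0 : ∀ Y : Kil (Sg F Ω) h, (Y : Z × (Fin k → ℂ) → Z × (Fin k → ℂ)) x = 0 :=
      fun Y => Y.2.2.1 x hx
    rw [h0, h0]

theorem swap (X Y : Kil (Sg F Ω) h) : adK s.C X Y = - adK s.C Y X := by
  ext1
  exact lb_swap _ _

theorem adK_smul (r : ℝ) (X Y : Kil (Sg F Ω) h) :
    adK s.C (r • X) Y = r • adK s.C X Y := by
  rw [s.swap, map_smul, s.swap X Y, smul_neg]

theorem A_N (a : Fin k → ℝ) (X : Kil (Sg F Ω) h) : s.A (s.N a X) = s.N a (s.A X) - s.N a X := by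
  have h1 := s.jacobi s.d (s.t a) X
  have h2 : adK s.C s.d (s.t a) = (-1 : ℝ) • s.t a := by
    ext1
    have := lb_dilF_tauF (Z := Z) s.hS a
    show lb _ _ = (-1 : ℝ) • tauF _ a
    rw [neg_one_smul]
    exact this
  rw [h2, s.adK_smul] at h1
  have h3 : s.A (s.N a X) = adK s.C s.d (adK s.C (s.t a) X) := rfl
  have h4 : s.N a (s.A X) = adK s.C (s.t a) (adK s.C s.d X) := rfl
  have h5 : s.N a X = adK s.C (s.t a) X := rfl
  rw [h3, h4, h5]
  rw [eq_sub_iff_add_eq] at h1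
  rw [← h1]
  module

theorem A_M (c : Z) (X : Kil (Sg F Ω) h) :
    s.A (s.M c X) = s.M c (s.A X) - (1 / 2 : ℝ) • s.M c X := by
  have h1 := s.jacobi s.d (s.n c) X
  have h2 : adK s.C s.d (s.n c) = (-(1 / 2) : ℝ) • s.n c := by
    ext1
    exact lb_dilF_nilF s.hF s.hS c
  rw [h2, s.adK_smul] at h1
  have h3 : s.A (s.M c X) = adK s.C s.d (adK s.C (s.n c) X) := rfl
  have h4 : s.M c (s.A X) = adK s.C (s.n c) (adK s.C s.d X) := rfl
  have h5 : s.M c X = adK s.C (s.n c) X := rfl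
  rw [h3, h4, h5]
  rw [eq_sub_iff_add_eq] at h1
  rw [← h1]
  module

/-! ### jets at `p_e` -/

omit s in
/-- value, first component -/
noncomputable def jc (e : Fin k → ℝ) (X : Kil (Sg F Ω) h) : Z := (X.1 (0, cpx e)).1
omit s in
noncomputable def jp (e : Fin k → ℝ) (X : Kil (Sg F Ω) h) : Fin k → ℂ := (X.1 (0, cpx e)).2
omit s in
/-- derivative -/
noncomputable def D (e : Fin k → ℝ) (X : Kil (Sg F Ω) h) :
    Z × (Fin k → ℂ) →L[ℂ] Z × (Fin k → ℂ) := fderiv ℂ X.1 (0, cpx e)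

theorem D_add (X Y : Kil (Sg F Ω) h) : D e (X + Y) = D e X + D e Y :=
  fderiv_add (X.2.1 _ s.hpe) (Y.2.1 _ s.hpe)

theorem D_smul (r : ℝ) (X : Kil (Sg F Ω) h) : D e (r • X) = (r : ℂ) • D e X := by
  have hr : (r • X.1 : Z × (Fin k → ℂ) → Z × (Fin k → ℂ)) = (r : ℂ) • X.1 := by
    funext x
    rfl
  show fderiv ℂ (r • X.1) _ = _
  rw [hr, fderiv_const_smul (X.2.1 _ s.hpe)]
  rfl

theorem D_sub (X Y : Kil (Sg F Ω) h) : D e (X - Y) = D e X - D e Y :=
  fderiv_sub (X.2.1 _ s.hpe) (Y.2.1 _ s.hpe)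

theorem val_N (X : Kil (Sg F Ω) h) : (s.N e X).1 (0, cpx e) =
    I • ((s.A X).1 (0, cpx e) + dl (X.1 (0, cpx e))) :=
  jet1 s.hS s.hpe

theorem D_N (X : Kil (Sg F Ω) h) (v : Z × (Fin k → ℂ)) : D e (s.N e X) v =
    I • (D e (s.A X) v - D e X (dl v) + dl (D e X v)) :=
  jet2 s.hS s.hpe X.2.1 v

theorem val_A (X : Kil (Sg F Ω) h) : (s.A X).1 (0, cpx e) =
    D e X (0, cpx e) - dl (X.1 (0, cpx e)) := by
  have := lb_dilF s.hS X.1 s.hpe
  rw [dl_apply] at this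
  simp only [smul_zero] at this
  exact this

theorem isJ_c : IsJ s.A (s.N e) (1 / 2) (jc (h := h) e) where
  add X Y := rfl
  smul r X := rfl
  rel X := by
    have := congrArg Prod.fst (s.val_N X)
    rw [dl_apply] at this
    simp only [Prod.smul_fst, Prod.fst_add] at this
    rw [jc, this]
    push_cast
    rfl

theorem isJ_p : IsJ s.A (s.N e) 1 (jp (h := h) e) where
  add X Y := rfl
  smul r X := rfl
  rel X := by
    have := congrArg Prod.snd (s.val_N X)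
    rw [dl_apply] at this
    simp only [Prod.smul_snd, Prod.snd_add] at this
    rw [jp, this]
    push_cast
    rw [one_smul]
    rfl

theorem isJ_b (z : Z) : IsJ s.A (s.N e) 0 (fun X : Kil (Sg F Ω) h => (D e X (z, 0)).1) where
  add X Y := by rw [s.D_add]; rfl
  smul r X := by rw [s.D_smul]; rfl
  rel X := by
    have h1 : dl ((z, 0) : Z × (Fin k → ℂ)) = (1 / 2 : ℂ) • ((z, 0) : Z × (Fin k → ℂ)) := by
      rw [dl_apply]; simp
    have := congrArg Prod.fst (s.D_N X (z, 0))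
    rw [h1, map_smul, dl_apply] at this
    simp only [Prod.smul_fst, Prod.fst_add, Prod.fst_sub] at this
    rw [this]
    push_cast
    module

theorem isJ_r (z : Z) : IsJ s.A (s.N e) (1 / 2)
    (fun X : Kil (Sg F Ω) h => (D e X (z, 0)).2) where
  add X Y := by rw [s.D_add]; rfl
  smul r X := by rw [s.D_smul]; rfl
  rel X := by
    have h1 : dl ((z, 0) : Z × (Fin k → ℂ)) = (1 / 2 : ℂ) • ((z, 0) : Z × (Fin k → ℂ)) := by
      rw [dl_apply]; simp
    have := congrArg Prod.snd (s.D_N X (z, 0))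
    rw [h1, map_smul, dl_apply] at this
    simp only [Prod.smul_snd, Prod.snd_add, Prod.snd_sub] at this
    rw [this]
    push_cast
    module

theorem isJ_C (w : Fin k → ℂ) : IsJ s.A (s.N e) (-(1 / 2))
    (fun X : Kil (Sg F Ω) h => (D e X (0, w)).1) where
  add X Y := by rw [s.D_add]; rfl
  smul r X := by rw [s.D_smul]; rfl
  rel X := by
    have h1 : dl ((0, w) : Z × (Fin k → ℂ)) = ((0, w) : Z × (Fin k → ℂ)) := by
      rw [dl_apply]; simp
    have := congrArg Prod.fst (s.D_N X (0, w))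
    rw [h1, dl_apply] at this
    simp only [Prod.smul_fst, Prod.fst_add, Prod.fst_sub] at this
    rw [this]
    push_cast
    module

theorem isJ_P (w : Fin k → ℂ) : IsJ s.A (s.N e) 0
    (fun X : Kil (Sg F Ω) h => (D e X (0, w)).2) where
  add X Y := by rw [s.D_add]; rfl
  smul r X := by rw [s.D_smul]; rfl
  rel X := by
    have h1 : dl ((0, w) : Z × (Fin k → ℂ)) = ((0, w) : Z × (Fin k → ℂ)) := by
      rw [dl_apply]; simp
    have := congrArg Prod.snd (s.D_N X (0, w))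
    rw [h1, dl_apply] at this
    simp only [Prod.smul_snd, Prod.snd_add, Prod.snd_sub] at this
    rw [this]
    push_cast
    module

theorem D_split (X : Kil (Sg F Ω) h) (v : Z × (Fin k → ℂ)) :
    D e X v = D e X (v.1, 0) + D e X (0, v.2) := by
  rw [← map_add]; simp

/-- jets determine the field -/
theorem ext_jet {X : Kil (Sg F Ω) h} (h1 : jc e X = 0) (h2 : jp e X = 0)
    (h3 : ∀ z, (D e X (z, 0)).1 = 0) (h4 : ∀ z, (D e X (z, 0)).2 = 0)
    (h5 : ∀ w, (D e X (0, w)).1 = 0) (h6 : ∀ w, (D e X (0, w)).2 = 0) : X = 0 := by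
  ext1
  refine Kil_jet_unique s.C X.2 s.hpe (Prod.ext h1 h2) ?_
  refine ContinuousLinearMap.ext fun v => ?_
  show D e X v = 0
  have a1 : D e X (v.1, 0) = 0 := Prod.ext (h3 v.1) (h4 v.1)
  have a2 : D e X (0, v.2) = 0 := Prod.ext (h5 v.2) (h6 v.2)
  rw [s.D_split, a1, a2, add_zero]

omit s in
theorem _root_.Vale.Agent.P274.V.IsJ.aeval_zero {G V : Type*} [AddCommGroup G] [Module ℝ G]
    [AddCommGroup V] [Module ℂ V] {A N : Module.End ℝ G} {δ : ℝ} {j : G → V} (hj : IsJ A N δ j)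
    (hAN : ∀ x, A (N x) = N (A x) - N x) {K : ℕ} (hK : N ^ K = 0) {T : Finset ℝ}
    (hT : ∀ i < K, (i : ℝ) - δ ∈ T) (x : G) :
    j (Polynomial.aeval A (∏ μ ∈ T, (Polynomial.X - Polynomial.C μ)) x) = 0 := by
  classical
  have h1 : ∏ i ∈ Finset.range K, (Polynomial.X - Polynomial.C ((i : ℝ) - δ)) =
      ∏ μ ∈ (Finset.range K).image (fun i : ℕ => (i : ℝ) - δ),
        (Polynomial.X - Polynomial.C μ) := by
    rw [Finset.prod_image]
    intro a _ b _ hab
    have : (a : ℝ) = b := by simpa using hab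
    exact_mod_cast this
  have h2 : (Finset.range K).image (fun i : ℕ => (i : ℝ) - δ) ⊆ T := by
    intro μ hμ
    rw [Finset.mem_image] at hμ
    obtain ⟨i, hi, rfl⟩ := hμ
    exact hT i (Finset.mem_range.1 hi)
  have h3 := Finset.prod_dvd_prod_of_subset _ _ (fun μ : ℝ => Polynomial.X - Polynomial.C μ) h2
  rw [← h1] at h3
  obtain ⟨R, hR⟩ := h3
  rw [hR, map_mul, Module.End.mul_apply]
  have h4 := jet_pow A N hAN j hj.add hj.smul δ hj.rel K (Polynomial.aeval A R x)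
  rw [hK, LinearMap.zero_apply, hj.zero] at h4
  rcases smul_eq_zero.1 h4.symm with h5 | h5
  · exact absurd h5 (pow_ne_zero _ I_ne_zero)
  · exact h5

theorem exists_nil : ∃ K : ℕ, 0 < K ∧ (s.N e) ^ K = 0 := by
  have := Kil_finiteDimensional s.C
  obtain ⟨K, hK⟩ := nilpotent_of_comm s.A (s.N e) (s.A_N e)
  exact ⟨K + 1, Nat.succ_pos K, by rw [pow_succ, hK, zero_mul]⟩

theorem exists_set : ∃ T : Finset ℝ, (∀ μ ∈ T, ∃ m : ℕ, μ = ((m : ℝ) - 2) / 2) ∧
    (∀ m : ℕ, m < 5 → ((m : ℝ) - 2) / 2 ∈ T) ∧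
    Polynomial.aeval s.A (∏ μ ∈ T, (Polynomial.X - Polynomial.C μ)) = 0 := by
  classical
  obtain ⟨K, hK0, hK⟩ := s.exists_nil
  refine ⟨(Finset.range (2 * K + 5)).image (fun m : ℕ => ((m : ℝ) - 2) / 2), ?_, ?_, ?_⟩
  · intro μ hμ
    rw [Finset.mem_image] at hμ
    obtain ⟨m, -, rfl⟩ := hμ
    exact ⟨m, rfl⟩
  · intro m hm
    exact Finset.mem_image_of_mem _ (Finset.mem_range.2 (by omega))
  · have key : ∀ δ : ℝ, ∀ c : ℕ, c ≤ 3 → δ = 1 - (c : ℝ) / 2 → ∀ i < K, (i : ℝ) - δ ∈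
        (Finset.range (2 * K + 5)).image (fun m : ℕ => ((m : ℝ) - 2) / 2) := by
      intro δ c hc hδ i hi
      rw [Finset.mem_image]
      refine ⟨2 * i + c, Finset.mem_range.2 (by omega), ?_⟩
      rw [hδ]; push_cast; ring
    refine LinearMap.ext fun X => ?_
    refine s.ext_jet ?_ ?_ (fun z => ?_) (fun z => ?_) (fun w => ?_) (fun w => ?_)
    · exact s.isJ_c.aeval_zero (s.A_N e) hK (key _ 1 (by norm_num) (by norm_num)) X
    · exact s.isJ_p.aeval_zero (s.A_N e) hK (key _ 0 (by norm_num) (by norm_num)) X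
    · exact (s.isJ_b z).aeval_zero (s.A_N e) hK (key _ 2 (by norm_num) (by norm_num)) X
    · exact (s.isJ_r z).aeval_zero (s.A_N e) hK (key _ 1 (by norm_num) (by norm_num)) X
    · exact (s.isJ_C w).aeval_zero (s.A_N e) hK (key _ 3 (by norm_num) (by norm_num)) X
    · exact (s.isJ_P w).aeval_zero (s.A_N e) hK (key _ 2 (by norm_num) (by norm_num)) X

/-! ### eigenspaces -/

theorem N_eig {μ : ℝ} {X : Kil (Sg F Ω) h} (hX : s.A X = μ • X) (a : Fin k → ℝ) :
    s.A (s.N a X) = (μ - 1) • s.N a X := by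
  rw [s.A_N, hX, map_smul]; module

theorem M_eig {μ : ℝ} {X : Kil (Sg F Ω) h} (hX : s.A X = μ • X) (c : Z) :
    s.A (s.M c X) = (μ - 1 / 2) • s.M c X := by
  rw [s.A_M, hX, map_smul]; module

/-- for half-integral `μ`: no components of the wrong parity -/
theorem van {V : Type*} [AddCommGroup V] [Module ℂ V] {δ : ℝ} {j : Kil (Sg F Ω) h → V}
    (hj : IsJ s.A (s.N e) δ j) {μ : ℝ} {X : Kil (Sg F Ω) h} (hX : s.A X = μ • X)
    (hμ : ∀ i : ℕ, μ + δ ≠ i) : j X = 0 := by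
  obtain ⟨K, -, hK⟩ := s.exists_nil
  exact hj.van (s.A_N e) hK hX hμ

end Sys

end Vale.Agent.P274.V
end

section

/-! # P274-V20d: the algebra of a Siegel domain (helper234) -/

open Set Complex ComplexConjugate Topology
open scoped ContDiff

namespace Vale.Agent.P274.V

variable {Z : Type*} [NormedAddCommGroup Z] [NormedSpace ℂ Z] [FiniteDimensional ℂ Z] {k : ℕ}

namespace Sys

variable {F : Z →L[ℝ] Z →L[ℝ] (Fin k → ℂ)} {Ω : Set (Fin k → ℝ)}
  {h : Z × (Fin k → ℂ) → Z × (Fin k → ℂ) →L[ℝ] Z × (Fin k → ℂ) →L[ℝ] ℂ}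
  {ρ : Z × (Fin k → ℂ) → ℝ} {e : Fin k → ℝ} (s : Sys F Ω h ρ e)

include s

theorem skew {X : Kil (Sg F Ω) h} (h1 : jc e X = 0) (h2 : jp e X = 0)
    (u v : Z × (Fin k → ℂ)) :
    h (0, cpx e) (D e X u) v + h (0, cpx e) u (D e X v) = 0 :=
  skew_of_zero X.2 s.hpe (Prod.ext h1 h2) u v

theorem eq_zero_of_h {u : Z × (Fin k → ℂ)} (hu : h (0, cpx e) u u = 0) : u = 0 := by
  by_contra hne
  have := s.C.met.pos _ s.hpe u hne
  rw [hu] at this
  simp at this

theorem h_I_right (u v : Z × (Fin k → ℂ)) :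
    h (0, cpx e) u (I • v) = - I * h (0, cpx e) u v := by
  rw [s.C.met.symm _ s.hpe (I • v) u, s.C.met.I_left _ s.hpe, map_mul,
    ← s.C.met.symm _ s.hpe v u, conj_I]

/-- eigenvalue below `-1` -/
theorem eig_lt {μ : ℝ} (hμ : μ < -1) {X : Kil (Sg F Ω) h} (hX : s.A X = μ • X) : X = 0 := by
  refine s.ext_jet ?_ ?_ (fun z => ?_) (fun z => ?_) (fun w => ?_) (fun w => ?_)
  · exact s.van s.isJ_c hX (negne (by linarith))
  · exact s.van s.isJ_p hX (negne (by linarith))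
  · exact s.van (s.isJ_b z) hX (negne (by linarith))
  · exact s.van (s.isJ_r z) hX (negne (by linarith))
  · exact s.van (s.isJ_C w) hX (negne (by linarith))
  · exact s.van (s.isJ_P w) hX (negne (by linarith))

theorem A_t (a : Fin k → ℝ) : s.A (s.t a) = (-1 : ℝ) • s.t a := by
  ext1
  have := lb_dilF_tauF (Z := Z) s.hS a
  show lb _ _ = (-1 : ℝ) • tauF _ a
  rw [neg_one_smul]
  exact this

theorem A_n (c : Z) : s.A (s.n c) = (-(1 / 2) : ℝ) • s.n c := by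
  ext1
  exact lb_dilF_nilF s.hF s.hS c

theorem t_val (a : Fin k → ℝ) {x : Z × (Fin k → ℂ)} (hx : x ∈ Sg F Ω) :
    (s.t a).1 x = (0, I • cpx a) := by
  simp [t, tauF, hx]

theorem jc_t (a : Fin k → ℝ) : jc e (s.t a) = 0 := by
  rw [jc, s.t_val a s.hpe]

theorem jp_t (a : Fin k → ℝ) : jp e (s.t a) = I • cpx a := by
  rw [jp, s.t_val a s.hpe]

theorem D_t (a : Fin k → ℝ) : D e (s.t a) = 0 := fderiv_tauF s.hS a s.hpe

theorem jc_n (c : Z) : jc e (s.n c) = c := by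
  simp [jc, n, nilF, s.hpe]

theorem D_n (c : Z) (v : Z × (Fin k → ℂ)) : D e (s.n c) v = (0, (2 : ℂ) • F v.1 c) :=
  fderiv_nilF s.hF s.hS c s.hpe v

omit s in
theorem cpx_re_im (w : Fin k → ℂ) :
    w = cpx (fun j => (w j).re) + I • cpx (fun j => (w j).im) := by
  funext j
  simp only [cpx, Pi.add_apply, Pi.smul_apply, smul_eq_mul]
  rw [mul_comm I]
  exact (re_add_im _).symm

/-- `g_{-2}` consists of the fields `tauF`. -/
theorem eig_neg_one {X : Kil (Sg F Ω) h} (hX : s.A X = (-1 : ℝ) • X) : ∃ a, X = s.t a := by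
  set p1 : Fin k → ℝ := fun j => (jp e X j).re with hp1
  set p2 : Fin k → ℝ := fun j => (jp e X j).im with hp2
  have hp : jp e X = cpx p1 + I • cpx p2 := cpx_re_im _
  set X' := X - s.t p2 with hX'
  have hA : s.A X' = (-1 : ℝ) • X' := by
    rw [hX', map_sub, hX, s.A_t, smul_sub]
  have hN : ∀ a, s.N a X' = 0 := fun a => s.eig_lt (μ := -1 - 1) (by norm_num) (s.N_eig hA a)
  have hM : ∀ c, s.M c X' = 0 := fun c => s.eig_lt (μ := -1 - 1 / 2) (by norm_num) (s.M_eig hA c)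
  have hD : ∀ x ∈ Sg F Ω, fderiv ℂ X'.1 x = 0 := by
    intro x hx
    have h1 : ∀ a : Fin k → ℝ, fderiv ℂ X'.1 x (0, cpx a) = 0 := by
      intro a
      have h2 : fderiv ℂ X'.1 x (0, I • cpx a) = 0 := by
        rw [← lb_tauF s.hS a X'.1 hx]
        exact congrArg (fun Y : Kil (Sg F Ω) h => Y.1 x) (hN a)
      have h3 : ((0 : Z), I • cpx a) = I • ((0 : Z), cpx a) := by simp
      rw [h3, map_smul] at h2
      exact (smul_eq_zero.1 h2).resolve_left I_ne_zero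
    have h2 : ∀ w : Fin k → ℂ, fderiv ℂ X'.1 x (0, w) = 0 := by
      intro w
      have h3 : ((0 : Z), w) = (0, cpx (fun j => (w j).re)) +
          I • ((0 : Z), cpx (fun j => (w j).im)) := by
        conv_lhs => rw [cpx_re_im w]
        simp
      rw [h3, map_add, map_smul, h1, h1]
      simp
    have h3 : ∀ c : Z, fderiv ℂ X'.1 x (c, 0) = (0, (2 : ℂ) • F (X'.1 x).1 c) := by
      intro c
      have h4 : fderiv ℂ X'.1 x (c, (2 : ℂ) • F x.1 c) - (0, (2 : ℂ) • F (X'.1 x).1 c) = 0 := by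
        rw [← lb_nilF s.hF s.hS c X'.1 hx]
        exact congrArg (fun Y : Kil (Sg F Ω) h => Y.1 x) (hM c)
      have h5 : ((c, (2 : ℂ) • F x.1 c) : Z × (Fin k → ℂ)) = (c, 0) + (0, (2 : ℂ) • F x.1 c) := by
        simp
      rw [h5, map_add, h2, add_zero, sub_eq_zero] at h4
      exact h4
    have h4 : ∀ c : Z, fderiv ℂ X'.1 x (c, 0) = 0 := by
      intro c
      have h5 := h3 (I • c)
      have h6 : ((I • c, 0) : Z × (Fin k → ℂ)) = I • (c, 0) := by simp
      rw [h6, map_smul, h3 c, s.hF.smul_right] at h5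
      have h7 : F (X'.1 x).1 c = 0 := by
        have := congrArg Prod.snd h5
        simp only [Prod.smul_snd, conj_I] at this
        have h8 : (4 * I) • F (X'.1 x).1 c = 0 := by
          have : I • (2 : ℂ) • F (X'.1 x).1 c - (2 : ℂ) • (-I) • F (X'.1 x).1 c = 0 :=
            sub_eq_zero.2 this
          rw [← this]; module
        exact (smul_eq_zero.1 h8).resolve_left (by simp)
      rw [h3 c, h7]
      simp
    refine ContinuousLinearMap.ext fun v => ?_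
    have h5 : v = (v.1, 0) + (0, v.2) := by simp
    rw [h5, map_add, h4, h2]
    simp
  have hconst : ∀ x ∈ Sg F Ω, X'.1 x = (0, cpx p1) := by
    intro x hx
    have h1 : X'.1 x = X'.1 (0, cpx e) :=
      s.hS.is_const_of_fderiv_eq_zero s.C.conn
        (fun y hy => (X'.2.1 y hy).differentiableWithinAt) (fun y hy => hD y hy) hx s.hpe
    have hc : jc e X = 0 := s.van s.isJ_c hX (negne (by norm_num))
    rw [h1]
    have h2 : X'.1 (0, cpx e) = X.1 (0, cpx e) - (s.t p2).1 (0, cpx e) := rfl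
    rw [h2, s.t_val _ s.hpe]
    refine Prod.ext ?_ ?_
    · show jc e X - 0 = 0
      rw [hc, sub_zero]
    · show jp e X - I • cpx p2 = cpx p1
      rw [hp]; abel
  have hcon : X'.1 = conF (Sg F Ω) p1 := by
    funext x
    by_cases hx : x ∈ Sg F Ω
    · rw [hconst x hx]; simp [conF, hx]
    · rw [X'.2.2.1 x hx]; simp [conF, hx]
  have hp10 : p1 = 0 := s.con p1 (hcon ▸ X'.2)
  have hX0 : X' = 0 := by
    ext1
    rw [hcon, hp10]
    funext x
    by_cases hx : x ∈ Sg F Ω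
    · simp only [conF, indicator_of_mem hx]
      have : cpx (0 : Fin k → ℝ) = 0 := by funext j; simp [cpx]
      rw [this]; rfl
    · simp [conF, hx]
  exact ⟨p2, sub_eq_zero.1 hX0⟩

/-- (b) value of `N_e X`: `(N_e X)(p_e) = D X (0, i e)`, and `A X = 0` gives
`D X (0,e) = dl (X p_e)`; `N_e X` is a `tauF` by `eig_neg_one`. Simplest: `s.isJ_p.eig`. -/
theorem eig_zero {X : Kil (Sg F Ω) h} (hX : s.A X = (0 : ℝ) • X) :
    ∃ a, jp e X = cpx a := by
  obtain ⟨b, hb⟩ := s.eig_neg_one (X := s.N e X) (by rw [s.N_eig hX]; norm_num)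
  have h1 := s.isJ_p.eig hX
  rw [hb, s.jp_t] at h1
  refine ⟨b, ?_⟩
  have h2 : I • cpx b = I • jp e X := by rw [h1]; simp
  exact (smul_right_injective _ I_ne_zero h2).symm

end Sys

end Vale.Agent.P274.V
end

section

/-! # P274-V20 (a): the algebra of a Siegel domain (helper234) -/

open Set Complex ComplexConjugate Topology
open scoped ContDiff

namespace Vale.Agent.P274.V

variable {Z : Type*} [NormedAddCommGroup Z] [NormedSpace ℂ Z] [FiniteDimensional ℂ Z] {k : ℕ}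

namespace Sys

variable {F : Z →L[ℝ] Z →L[ℝ] (Fin k → ℂ)} {Ω : Set (Fin k → ℝ)}
  {h : Z × (Fin k → ℂ) → Z × (Fin k → ℂ) →L[ℝ] Z × (Fin k → ℂ) →L[ℝ] ℂ}
  {ρ : Z × (Fin k → ℂ) → ℝ} {e : Fin k → ℝ} (s : Sys F Ω h ρ e)

include s

/-- (a) `g_{-1}` consists of the fields `nilF`. `X' = X - s.n c` has zero value at `p_e`; all components of its
derivative vanish except `(D (z,0)).2 = r z`; skewness with `u = (z,0)`, `v = (0, r z)` gives `r z = 0`. -/
theorem eig_neg_half {X : Kil (Sg F Ω) h} (hX : s.A X = (-(1 / 2) : ℝ) • X) :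
    X = s.n (jc e X) := by
  set X' := X - s.n (jc e X) with hX'
  have hA : s.A X' = (-(1 / 2) : ℝ) • X' := by
    rw [hX', map_sub, hX, s.A_n, smul_sub]
  have hc : jc e X' = 0 := by
    rw [hX', s.isJ_c.sub, s.jc_n, sub_self]
  have hp : jp e X' = 0 := s.van s.isJ_p hA (natne 0 (by norm_num))
  have hb : ∀ z, (D e X' (z, 0)).1 = 0 := fun z => s.van (s.isJ_b z) hA (negne (by norm_num))
  have hC : ∀ w, (D e X' (0, w)).1 = 0 := fun w => s.van (s.isJ_C w) hA (negne (by norm_num))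
  have hP : ∀ w, (D e X' (0, w)).2 = 0 := fun w => s.van (s.isJ_P w) hA (negne (by norm_num))
  have hr : ∀ z, (D e X' (z, 0)).2 = 0 := by
    intro z
    have h1 := s.skew hc hp (z, 0) (0, (D e X' (z, 0)).2)
    have h2 : D e X' (0, (D e X' (z, 0)).2) = 0 := Prod.ext (hC _) (hP _)
    have h3 : D e X' (z, 0) = (0, (D e X' (z, 0)).2) := Prod.ext (hb z) rfl
    rw [h2, map_zero, add_zero, h3] at h1
    exact congrArg Prod.snd (s.eq_zero_of_h h1)
  exact sub_eq_zero.1 (s.ext_jet hc hp hb hr hC hP)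

end Sys

end Vale.Agent.P274.V
end

section

/-! # P274-V13: auxiliary lemmas for the unimodularity of `Kil` -/

open Set Complex ComplexConjugate Topology
open scoped ContDiff

namespace Vale.Agent.P274.V

variable {E : Type*} [NormedAddCommGroup E] [NormedSpace ℂ E]

/-! ### Linear algebra: solving for the dual vector of a functional -/

/-- The coordinates of the dual vector, by Cramer's rule. -/
noncomputable def dualCoord {n : ℕ} (M : Matrix (Fin n) (Fin n) ℝ) (w : Fin n → ℝ) (i : Fin n) :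
    ℝ := (M.det)⁻¹ * Matrix.cramer M w i

theorem mulVec_dualCoord {n : ℕ} (M : Matrix (Fin n) (Fin n) ℝ) (w : Fin n → ℝ)
    (h : M.det ≠ 0) : M.mulVec (dualCoord M w) = w := by
  have : dualCoord M w = (M.det)⁻¹ • Matrix.cramer M w := by
    funext i; simp [dualCoord]
  rw [this, Matrix.mulVec_smul, Matrix.mulVec_cramer, smul_smul, inv_mul_cancel₀ h, one_smul]

theorem contDiffOn_matDet {F : Type*} [NormedAddCommGroup F] [NormedSpace ℝ F] {D : Set F} {n : ℕ}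
    {M : F → Matrix (Fin n) (Fin n) ℝ} (hM : ∀ i j, ContDiffOn ℝ 1 (fun x => M x i j) D) :
    ContDiffOn ℝ 1 (fun x => (M x).det) D := by
  simp only [Matrix.det_apply]
  refine ContDiffOn.sum fun σ _ => ?_
  refine ContDiffOn.const_smul _ ?_
  exact contDiffOn_prod fun i _ => hM _ _

theorem contDiffOn_dualCoord {F : Type*} [NormedAddCommGroup F] [NormedSpace ℝ F] {D : Set F}
    {n : ℕ} {M : F → Matrix (Fin n) (Fin n) ℝ}
    (hM : ∀ i j, ContDiffOn ℝ 1 (fun x => M x i j) D) (hd : ∀ x ∈ D, (M x).det ≠ 0)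
    (w : Fin n → ℝ) (i : Fin n) : ContDiffOn ℝ 1 (fun x => dualCoord (M x) w i) D := by
  unfold dualCoord
  refine ((contDiffOn_matDet hM).inv hd).mul ?_
  simp only [Matrix.cramer_apply]
  refine contDiffOn_matDet fun k l => ?_
  by_cases hl : l = i
  · subst hl
    simp only [Matrix.updateCol_self]
    exact contDiffOn_const
  · simp only [Matrix.updateCol_ne hl]
    exact hM k l

theorem det_gram_ne_zero {G : Type*} [AddCommGroup G] [Module ℝ G] {n : ℕ}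
    (b : Module.Basis (Fin n) ℝ G) (q : G →ₗ[ℝ] G →ₗ[ℝ] ℝ) (hpos : ∀ X, X ≠ 0 → 0 < q X X) :
    (Matrix.of fun i j => q (b i) (b j)).det ≠ 0 := by
  intro h0
  obtain ⟨v, hv, hv0⟩ := Matrix.exists_mulVec_eq_zero_iff.2 h0
  have hX : ∑ i, v i • b i ≠ 0 := by
    intro h
    apply hv
    funext i
    exact (Fintype.linearIndependent_iff.1 b.linearIndependent) v h i
  have h1 := hpos _ hX
  have h2 : q (∑ i, v i • b i) (∑ i, v i • b i) =
      ∑ i, v i * (Matrix.of fun i j => q (b i) (b j)).mulVec v i := by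
    simp only [map_sum, map_smul, LinearMap.sum_apply, LinearMap.smul_apply, smul_eq_mul,
      Matrix.mulVec, dotProduct, Matrix.of_apply, Finset.mul_sum]
    rw [Finset.sum_comm]
    refine Finset.sum_congr rfl fun i _ => Finset.sum_congr rfl fun j _ => by ring
  rw [h2, hv0] at h1
  simp at h1

/-- Existence of the dual vector. -/
theorem dual_spec {G : Type*} [AddCommGroup G] [Module ℝ G] {n : ℕ}
    (b : Module.Basis (Fin n) ℝ G) (q : G →ₗ[ℝ] G →ₗ[ℝ] ℝ) (hpos : ∀ X, X ≠ 0 → 0 < q X X)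
    (hsymm : ∀ X Y, q X Y = q Y X) (m : G →ₗ[ℝ] ℝ) (Y : G) :
    q (∑ i, dualCoord (Matrix.of fun i j => q (b i) (b j)) (fun j => m (b j)) i • b i) Y =
      m Y := by
  set M := Matrix.of fun i j => q (b i) (b j) with hM
  set c := dualCoord M (fun j => m (b j)) with hc
  have h := mulVec_dualCoord M (fun j => m (b j)) (det_gram_ne_zero b q hpos)
  have key : ∀ j, q (∑ i, c i • b i) (b j) = m (b j) := by
    intro j
    have h1 := congrFun h j
    rw [← h1]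
    simp only [map_sum, map_smul, LinearMap.sum_apply, LinearMap.smul_apply, smul_eq_mul,
      Matrix.mulVec, dotProduct, hM, Matrix.of_apply]
    refine Finset.sum_congr rfl fun i _ => ?_
    rw [hsymm (b i) (b j), hc]
    ring
  exact congrArg (fun f : G →ₗ[ℝ] ℝ => f Y) (b.ext (f₁ := q (∑ i, c i • b i)) (f₂ := m) key)

theorem dual_unique {G : Type*} [AddCommGroup G] [Module ℝ G]
    (q : G →ₗ[ℝ] G →ₗ[ℝ] ℝ) (hpos : ∀ X, X ≠ 0 → 0 < q X X) {Z W : G}
    (h : ∀ Y, q Z Y = q W Y) : Z = W := by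
  by_contra hne
  have h1 := hpos (Z - W) (sub_ne_zero.2 hne)
  rw [LinearMap.map_sub₂, h, sub_self] at h1
  exact lt_irrefl _ h1

/-! ### Push-forward as a linear equivalence -/

theorem push_add (D : Set E) (g g' : E → E) (X Y : E → E) :
    push D g g' (X + Y) = push D g g' X + push D g g' Y := by
  funext x
  by_cases hx : x ∈ D <;> simp [push, hx]

theorem push_smul (D : Set E) (g g' : E → E) (r : ℝ) (X : E → E) :
    push D g g' (r • X) = r • push D g g' X := by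
  funext x
  by_cases hx : x ∈ D
  · simp only [push, Set.indicator_of_mem hx, Pi.smul_apply]
    exact (fderiv ℂ g (g' x)).map_smul_of_tower r _
  · simp [push, hx]

/-- Push-forward by an automorphism as a linear automorphism of `Kil D h`. -/
noncomputable def pushK [FiniteDimensional ℂ E] {D : Set E} {h : E → E →L[ℝ] E →L[ℝ] ℂ}
    {ρ : E → ℝ} (C : Ctx D h ρ) {g g' : E → E} (hg : IsBiholo D D g g') :
    Kil D h ≃ₗ[ℝ] Kil D h where
  toFun X := ⟨push D g g' X.1, push_mem_Kil C.isOpen C.met hg X.2⟩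
  map_add' X Y := Subtype.ext (push_add D g g' X.1 Y.1)
  map_smul' r X := Subtype.ext (push_smul D g g' r X.1)
  invFun X := ⟨push D g' g X.1, push_mem_Kil C.isOpen C.met hg.symm X.2⟩
  left_inv X := Subtype.ext (push_push_inv C.isOpen hg X.2.2.1)
  right_inv X := Subtype.ext (push_push_inv C.isOpen hg.symm X.2.2.1)

@[simp] theorem pushK_coe [FiniteDimensional ℂ E] {D : Set E} {h : E → E →L[ℝ] E →L[ℝ] ℂ}
    {ρ : E → ℝ} (C : Ctx D h ρ) {g g' : E → E} (hg : IsBiholo D D g g') (X : Kil D h) :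
    (pushK C hg X : E → E) = push D g g' X.1 := rfl

theorem adK_pushK [FiniteDimensional ℂ E] {D : Set E} {h : E → E →L[ℝ] E →L[ℝ] ℂ}
    {ρ : E → ℝ} (C : Ctx D h ρ) {g g' : E → E} (hg : IsBiholo D D g g') (X : Kil D h) :
    adK C (pushK C hg X) = (pushK C hg).conj (adK C X) := by
  ext Y : 1
  rw [LinearEquiv.conj_apply_apply]
  obtain ⟨W, rfl⟩ := (pushK C hg).surjective Y
  rw [LinearEquiv.symm_apply_apply]
  apply Subtype.ext
  rw [adK_coe, pushK_coe, pushK_coe, pushK_coe, adK_coe,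
    push_lb C.isOpen hg X.2.1 W.2.1 X.2.2.1 W.2.2.1]

/-! ### The functional `m` -/

/-- `ad` as a bilinear map. -/
noncomputable def adB [FiniteDimensional ℂ E] {D : Set E} {h : E → E →L[ℝ] E →L[ℝ] ℂ}
    {ρ : E → ℝ} (C : Ctx D h ρ) : Kil D h →ₗ[ℝ] Kil D h →ₗ[ℝ] Kil D h where
  toFun X := adK C X
  map_add' X Y := by
    have sw : ∀ X Y : Kil D h, adK C X Y = - adK C Y X := fun X Y =>
      Subtype.ext (by rw [Submodule.coe_neg, adK_coe, adK_coe, lb_swap])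
    ext W : 1
    rw [LinearMap.add_apply, sw, sw X, sw Y, map_add, neg_add]
  map_smul' r X := by
    have sw : ∀ X Y : Kil D h, adK C X Y = - adK C Y X := fun X Y =>
      Subtype.ext (by rw [Submodule.coe_neg, adK_coe, adK_coe, lb_swap])
    ext W : 1
    rw [LinearMap.smul_apply, sw, sw X, map_smul, RingHom.id_apply, smul_neg]

/-- `m X = tr ad X`. -/
noncomputable def mK [FiniteDimensional ℂ E] {D : Set E} {h : E → E →L[ℝ] E →L[ℝ] ℂ}
    {ρ : E → ℝ} (C : Ctx D h ρ) : Kil D h →ₗ[ℝ] ℝ :=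
  (LinearMap.trace ℝ (Kil D h)).comp (adB C)

theorem mK_apply [FiniteDimensional ℂ E] {D : Set E} {h : E → E →L[ℝ] E →L[ℝ] ℂ}
    {ρ : E → ℝ} (C : Ctx D h ρ) (X : Kil D h) :
    mK C X = LinearMap.trace ℝ (Kil D h) (adK C X) := rfl

theorem mK_pushK [FiniteDimensional ℂ E] {D : Set E} {h : E → E →L[ℝ] E →L[ℝ] ℂ}
    {ρ : E → ℝ} (C : Ctx D h ρ) {g g' : E → E} (hg : IsBiholo D D g g') (X : Kil D h) :
    mK C (pushK C hg X) = mK C X := by
  rw [mK_apply, mK_apply, adK_pushK, LinearMap.trace_conj']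

end Vale.Agent.P274.V
end

section

/-! # P274-V17b: transport of an invariant metric

`h' x u v = h (Φ x) (Φ' u) (Φ' v)`, `ρ' x = ρ (Φ x) * ‖det Φ'(x)‖²`, `Φ' = fderiv ℂ Φ x`.
Invariance: if `f ∈ Aut D` then `Φ ∘ f ∘ Ψ ∈ Aut U`; chain rule, multiplicativity of `det`.
Positivity: `Φ'(x)` is invertible. Smoothness: `Φ` is `C^∞` on `D` (`P268/Hol`: `contDiffOn_of_differentiableOn`,
also real smooth: `ContDiffOn.restrict_scalars`), compositions (`contDiffOn_clm_apply`, `ContinuousLinearMap.compL` etc.). -/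

open Set Complex ComplexConjugate Topology
open scoped ContDiff

namespace Vale.Agent.P274.V

variable {E : Type*} [NormedAddCommGroup E] [NormedSpace ℂ E]

/-- The derivatives of a biholomorphic map and of its inverse are inverse to each other. -/
theorem fderiv_inv_comp_fderiv {D U : Set E} (hD : IsOpen D) (hU : IsOpen U) {Φ Ψ : E → E}
    (hΦ : IsBiholo D U Φ Ψ) {x : E} (hx : x ∈ D) :
    (fderiv ℂ Ψ (Φ x)).comp (fderiv ℂ Φ x) = ContinuousLinearMap.id ℂ E := by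
  have h1 : DifferentiableAt ℂ Φ x := hΦ.diffOn.differentiableAt (hD.mem_nhds hx)
  have h2 : DifferentiableAt ℂ Ψ (Φ x) :=
    hΦ.diffOn_inv.differentiableAt (hU.mem_nhds (hΦ.mapsTo hx))
  have h3 : (Ψ ∘ Φ) =ᶠ[𝓝 x] id := by
    filter_upwards [hD.mem_nhds hx] with y hy using hΦ.left_inv y hy
  rw [← fderiv_comp x h2 h1, h3.fderiv_eq, fderiv_id]

theorem det_comp_clm (A B : E →L[ℂ] E) : (A.comp B).det = A.det * B.det :=
  LinearMap.det_comp (A : E →ₗ[ℂ] E) (B : E →ₗ[ℂ] E)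

/-- The determinant of a smooth family of endomorphisms is smooth. -/
theorem contDiffOn_det [FiniteDimensional ℂ E] {D : Set E} {A : E → E →L[ℂ] E}
    (hA : ContDiffOn ℂ ∞ A D) : ContDiffOn ℂ ∞ (fun x => (A x).det) D := by
  classical
  let b := Module.finBasis ℂ E
  have h1 : ∀ x, (A x).det = (LinearMap.toMatrix b b (A x : E →ₗ[ℂ] E)).det := by
    intro x
    rw [LinearMap.det_toMatrix]
  have h2 : ∀ i j, ContDiffOn ℂ ∞ (fun x => LinearMap.toMatrix b b (A x : E →ₗ[ℂ] E) i j) D := by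
    intro i j
    have h3 : (fun x => LinearMap.toMatrix b b (A x : E →ₗ[ℂ] E) i j)
        = fun x => (LinearMap.toContinuousLinearMap (b.coord i)) (A x (b j)) := by
      funext x
      rw [LinearMap.toMatrix_apply]
      rfl
    rw [h3]
    exact (ContinuousLinearMap.contDiff _).comp_contDiffOn (hA.clm_apply contDiffOn_const)
  simp only [h1, Matrix.det_apply]
  apply ContDiffOn.sum
  intro σ _
  apply ContDiffOn.const_smul
  exact contDiffOn_prod fun i _ => h2 _ _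

/-- Transport of an invariant metric: `h' x u v = h (Φ x) (Φ' u) (Φ' v)`,
`ρ' x = ρ (Φ x) * ‖det Φ' x‖²`. -/
theorem invMetric_transport [FiniteDimensional ℂ E] {D U : Set E} (hD : IsOpen D)
    (hU : IsOpen U) {Φ Ψ : E → E} (hΦ : IsBiholo D U Φ Ψ) {h : E → E →L[ℝ] E →L[ℝ] ℂ} {ρ : E → ℝ}
    (hm : InvMetric U h ρ) : ∃ h' ρ', InvMetric D h' ρ' := by
  have : CompleteSpace E := FiniteDimensional.complete ℂ E
  have : FiniteDimensional ℝ E := FiniteDimensional.complexToReal E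
  have hΦs : ContDiffOn ℂ ∞ Φ D :=
    contDiffOn_infty.2 (P268.contDiffOn_of_differentiableOn hD hΦ.diffOn)
  have hΦs' : ContDiffOn ℂ ∞ (fderiv ℂ Φ) D := hΦs.fderiv_of_isOpen hD (by simp)
  have hΦr : ContDiffOn ℝ ∞ Φ D := hΦs.restrict_scalars ℝ
  -- chain rule for automorphisms
  have key : ∀ f g, IsBiholo D D f g → ∀ x ∈ D,
      (fderiv ℂ (Φ ∘ f ∘ Ψ) (Φ x)).comp (fderiv ℂ Φ x)
        = (fderiv ℂ Φ (f x)).comp (fderiv ℂ f x) := by
    intro f g hf x hx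
    have hF' : DifferentiableOn ℂ (Φ ∘ f ∘ Ψ) U := ((hΦ.symm.trans hf).trans hΦ).diffOn
    have h1 : DifferentiableAt ℂ Φ x := hΦ.diffOn.differentiableAt (hD.mem_nhds hx)
    have h2 : DifferentiableAt ℂ (Φ ∘ f ∘ Ψ) (Φ x) :=
      hF'.differentiableAt (hU.mem_nhds (hΦ.mapsTo hx))
    have h3 : DifferentiableAt ℂ f x := hf.diffOn.differentiableAt (hD.mem_nhds hx)
    have h4 : DifferentiableAt ℂ Φ (f x) :=
      hΦ.diffOn.differentiableAt (hD.mem_nhds (hf.mapsTo hx))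
    rw [← fderiv_comp x h2 h1, ← fderiv_comp x h4 h3]
    apply Filter.EventuallyEq.fderiv_eq
    filter_upwards [hD.mem_nhds hx] with y hy
    simp only [Function.comp_apply, hΦ.left_inv y hy]
  have hpt : ∀ f g, IsBiholo D D f g → ∀ x ∈ D, (Φ ∘ f ∘ Ψ) (Φ x) = Φ (f x) := by
    intro f g _ x hx
    simp only [Function.comp_apply, hΦ.left_inv x hx]
  have hdet : ∀ x ∈ D, (fderiv ℂ Φ x).det ≠ 0 := by
    intro x hx h0
    have h1 := congrArg ContinuousLinearMap.det (fderiv_inv_comp_fderiv hD hU hΦ hx)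
    rw [det_comp_clm, h0, mul_zero] at h1
    simp [ContinuousLinearMap.det] at h1
  refine ⟨fun x => (h (Φ x)).bilinearComp ((fderiv ℂ Φ x).restrictScalars ℝ)
    ((fderiv ℂ Φ x).restrictScalars ℝ), fun x => ρ (Φ x) * ‖(fderiv ℂ Φ x).det‖ ^ 2, ?_⟩
  refine ⟨?_, ?_, ?_, ?_, ?_, ?_, ?_, ?_⟩
  · rw [contDiffOn_clm_apply]
    intro u
    rw [contDiffOn_clm_apply]
    intro v
    simp only [ContinuousLinearMap.bilinearComp_apply, ContinuousLinearMap.coe_restrictScalars']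
    have h1 : ∀ w : E, ContDiffOn ℝ ∞ (fun x => fderiv ℂ Φ x w) D := fun w =>
      (hΦs'.clm_apply contDiffOn_const).restrict_scalars ℝ
    exact ((hm.smooth.comp hΦr hΦ.mapsTo).clm_apply (h1 u)).clm_apply (h1 v)
  · intro x hx u v
    simp only [ContinuousLinearMap.bilinearComp_apply, ContinuousLinearMap.coe_restrictScalars',
      map_smul]
    exact hm.I_left _ (hΦ.mapsTo hx) _ _
  · intro x hx u v
    simp only [ContinuousLinearMap.bilinearComp_apply, ContinuousLinearMap.coe_restrictScalars']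
    exact hm.symm _ (hΦ.mapsTo hx) _ _
  · intro x hx u hu
    simp only [ContinuousLinearMap.bilinearComp_apply, ContinuousLinearMap.coe_restrictScalars']
    apply hm.pos _ (hΦ.mapsTo hx)
    intro h0
    apply hu
    have h1 := congrArg (fun A : E →L[ℂ] E => A u) (fderiv_inv_comp_fderiv hD hU hΦ hx)
    simpa [h0] using h1.symm
  · intro f g hf x hx u v
    simp only [ContinuousLinearMap.bilinearComp_apply, ContinuousLinearMap.coe_restrictScalars']
    have h1 : ∀ w, fderiv ℂ Φ (f x) (fderiv ℂ f x w)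
        = fderiv ℂ (Φ ∘ f ∘ Ψ) (Φ x) (fderiv ℂ Φ x w) := fun w =>
      (congrArg (fun A : E →L[ℂ] E => A w) (key f g hf x hx)).symm
    rw [h1, h1, ← hpt f g hf x hx]
    exact hm.inv _ _ ((hΦ.symm.trans hf).trans hΦ) _ (hΦ.mapsTo hx) _ _
  · have h1 : ContDiffOn ℝ ∞ (fun x => (fderiv ℂ Φ x).det) D :=
      (contDiffOn_det hΦs').restrict_scalars ℝ
    exact (hm.smooth_ρ.comp hΦr hΦ.mapsTo).mul (h1.norm_sq ℝ)
  · intro x hx
    have h1 := hm.pos_ρ _ (hΦ.mapsTo hx)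
    have h2 : 0 < ‖(fderiv ℂ Φ x).det‖ := norm_pos_iff.2 (hdet x hx)
    positivity
  · intro f g hf x hx
    have h1 := hm.inv_ρ _ _ ((hΦ.symm.trans hf).trans hΦ) _ (hΦ.mapsTo hx)
    have h2 := congrArg (fun A : E →L[ℂ] E => ‖A.det‖ ^ 2) (key f g hf x hx)
    simp only [det_comp_clm, norm_mul, mul_pow] at h2
    change ρ ((Φ ∘ f ∘ Ψ) (Φ x)) * ‖(fderiv ℂ (Φ ∘ f ∘ Ψ) (Φ x)).det‖ ^ 2 = ρ (Φ x) at h1
    rw [hpt f g hf x hx] at h1
    rw [mul_assoc, ← h2, ← mul_assoc, h1]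

end Vale.Agent.P274.V
end
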