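import Mathlib
import Vale.Agent.P274.SemialgDefs
import Vale.Agent.P274.Bdl.B2
import Vale.Agent.P274.Bdl.B1
import Vale.Agent.P268.Hol

set_option linter.all false

section

/-! Definitions used in the statements for P274. -/

open Set

namespace Vale.Agent.P274

end Vale.Agent.P274
end

section

/-! The boundary of a semialgebraic set lies in the zero set of a nonzero real polynomial. -/

open Set Metric Filter Topology

namespace Vale.Agent.P274

variable {n : ℕ}

lemma analyticAt_realEval (p : MvPolynomial (Fin n ⊕ Fin n) ℝ) (x : EuclideanSpace ℂ (Fin n)) :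
    AnalyticAt ℝ (realEval p) x := by
  unfold realEval
  have h1 : ∀ s : Fin n ⊕ Fin n, AnalyticAt ℝ (fun z : EuclideanSpace ℂ (Fin n) =>
      Sum.elim (fun i => (z i).re) (fun i => (z i).im) s) x := by
    have hp : ∀ i : Fin n, AnalyticAt ℝ (fun z : EuclideanSpace ℂ (Fin n) => z i) x := fun i =>
      ((EuclideanSpace.proj (𝕜 := ℂ) i : EuclideanSpace ℂ (Fin n) →L[ℂ] ℂ).restrictScalars
        ℝ).analyticAt x
    rintro (i | i)
    · exact (Complex.reCLM.analyticAt _).comp (hp i)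
    · exact (Complex.imCLM.analyticAt _).comp (hp i)
  induction p using MvPolynomial.induction_on with
  | C a => simpa using analyticAt_const
  | add p q hp hq =>
    simp only [map_add]
    exact hp.add hq
  | mul_X p s hp =>
    simp only [map_mul, MvPolynomial.eval_X]
    exact hp.mul (h1 s)

end Vale.Agent.P274
end

section

/-! TASK W4. -/

open Filter Topology Polynomial

namespace Vale.Agent.P274.W

variable {T : Type} [NormedAddCommGroup T] [NormedSpace ℝ T]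

/-- A real function with an order is zero or has a constant sign for positive values of the first
variable. -/
theorem HasOrd.sign {f : ℝ × T → ℝ} {q : T} (h : HasOrd f q) :
    (∀ᶠ p in 𝓝 ((0 : ℝ), q), f p = 0) ∨ (∀ᶠ p in 𝓝 ((0 : ℝ), q), 0 < p.1 → 0 < f p) ∨
      (∀ᶠ p in 𝓝 ((0 : ℝ), q), 0 < p.1 → f p < 0) := by
  rcases h with h | ⟨k, g, hg, hg0, hf⟩
  · exact Or.inl h
  · right
    have hc : ContinuousAt g (0, q) := hg.continuousAt
    rcases lt_or_gt_of_ne hg0 with h0 | h0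
    · right
      filter_upwards [hf, hc.eventually_lt_const h0] with p hp hp2 hp1
      rw [hp, smul_eq_mul]
      exact mul_neg_of_pos_of_neg (pow_pos hp1 k) hp2
    · left
      filter_upwards [hf, hc.eventually_const_lt h0] with p hp hp2 hp1
      rw [hp, smul_eq_mul]
      exact mul_pos (pow_pos hp1 k) hp2

omit [NormedSpace ℝ T] in
/-- there are points with positive first variable near `(0, q)` -/
theorem realRoots_exists {q : T} {S : ℝ × T → Prop} (h : ∀ᶠ p in 𝓝 ((0 : ℝ), q), S p) :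
    ∃ p : ℝ × T, 0 < p.1 ∧ S p := by
  have h1 : Tendsto (fun s : ℝ => (s, q)) (𝓝[>] 0) (𝓝 ((0 : ℝ), q)) := by
    have h2 : Continuous fun s : ℝ => (s, q) := by fun_prop
    exact (h2.tendsto 0).mono_left nhdsWithin_le_nhds
  obtain ⟨s, hs, hs2⟩ := ((h1.eventually h).and self_mem_nhdsWithin).exists
  exact ⟨(s, q), hs2, hs⟩

/-- selection of the ordered real roots -/
theorem realRoots_select {q : T} {d : ℕ} {β : Fin d → ℝ × T → ℂ}
    (him : ∀ i, HasOrd (fun p => (β i p).im) q)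
    (hre : ∀ i j, HasOrd (fun p => (β i p).re - (β j p).re) q) :
    ∃ (l : ℕ) (c : Fin l → Fin d), ∀ᶠ p in 𝓝 ((0 : ℝ), q), 0 < p.1 →
      (∀ x : ℝ, (∃ i, (x : ℂ) = β i p) ↔ ∃ i, x = (β (c i) p).re) ∧
      StrictMono (fun i => (β (c i) p).re) := by
  classical
  -- the real branches
  let I : Finset (Fin d) := Finset.univ.filter fun i => ∀ᶠ p in 𝓝 ((0 : ℝ), q), (β i p).im = 0
  have hI : ∀ i, i ∈ I ↔ ∀ᶠ p in 𝓝 ((0 : ℝ), q), (β i p).im = 0 := by
    intro i
    simp [I]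
  have hI' : ∀ i, i ∉ I → ∀ᶠ p in 𝓝 ((0 : ℝ), q), 0 < p.1 → (β i p).im ≠ 0 := by
    intro i hi
    rcases (him i).sign with h | h | h
    · exact absurd ((hI i).2 h) hi
    · filter_upwards [h] with p hp hp1 using (hp hp1).ne'
    · filter_upwards [h] with p hp hp1 using (hp hp1).ne
  -- all eventual statements about one pair
  have hpair : ∀ i j, ∀ᶠ p in 𝓝 ((0 : ℝ), q), 0 < p.1 →
      (((β i p).re = (β j p).re → ∀ᶠ p' in 𝓝 ((0 : ℝ), q), (β i p').re = (β j p').re) ∧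
      ((β i p).re < (β j p).re → ∀ᶠ p' in 𝓝 ((0 : ℝ), q), 0 < p'.1 →
        (β i p').re < (β j p').re)) := by
    intro i j
    rcases (hre i j).sign with h | h | h
    · have h' : ∀ᶠ p' in 𝓝 ((0 : ℝ), q), (β i p').re = (β j p').re := by
        filter_upwards [h] with p hp using by linarith
      filter_upwards [h] with p hp _
      exact ⟨fun _ => h', fun h2 => absurd hp (by
        intro h3
        linarith)⟩
    · filter_upwards [h] with p hp hp1
      have h1 := hp hp1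
      exact ⟨fun h2 => by linarith, fun h2 => by linarith⟩
    · have h' : ∀ᶠ p' in 𝓝 ((0 : ℝ), q), 0 < p'.1 → (β i p').re < (β j p').re := by
        filter_upwards [h] with p hp hp1
        have := hp hp1
        linarith
      filter_upwards [h] with p hp hp1
      have h1 := hp hp1
      exact ⟨fun h2 => by linarith, fun _ => h'⟩
  have hall : ∀ᶠ p in 𝓝 ((0 : ℝ), q), ∀ i j, 0 < p.1 →
      (((β i p).re = (β j p).re → ∀ᶠ p' in 𝓝 ((0 : ℝ), q), (β i p').re = (β j p').re) ∧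
      ((β i p).re < (β j p).re → ∀ᶠ p' in 𝓝 ((0 : ℝ), q), 0 < p'.1 →
        (β i p').re < (β j p').re)) :=
    Filter.eventually_all.2 fun i => Filter.eventually_all.2 fun j => hpair i j
  obtain ⟨p1, hp1, hp1'⟩ := realRoots_exists hall
  -- the ordered set of values at `p1`
  let Fv : Finset ℝ := I.image fun i => (β i p1).re
  have hc : ∀ m : Fin Fv.card, ∃ i ∈ I, (β i p1).re = Fv.orderEmbOfFin rfl m := by
    intro m
    have h := Finset.orderEmbOfFin_mem Fv rfl m
    exact Finset.mem_image.1 h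
  choose c hcI hcv using hc
  refine ⟨Fv.card, c, ?_⟩
  have e1 : ∀ᶠ p in 𝓝 ((0 : ℝ), q), ∀ i, i ∈ I → (β i p).im = 0 := by
    refine Filter.eventually_all.2 fun i => ?_
    by_cases hi : i ∈ I
    · filter_upwards [(hI i).1 hi] with p hp _ using hp
    · exact Filter.Eventually.of_forall fun p h => absurd h hi
  have e2 : ∀ᶠ p in 𝓝 ((0 : ℝ), q), ∀ i, i ∉ I → 0 < p.1 → (β i p).im ≠ 0 := by
    refine Filter.eventually_all.2 fun i => ?_
    by_cases hi : i ∈ I
    · exact Filter.Eventually.of_forall fun p h => absurd hi h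
    · filter_upwards [hI' i hi] with p hp _ using hp
  have e3 : ∀ᶠ p in 𝓝 ((0 : ℝ), q), ∀ i j, (β i p1).re = (β j p1).re →
      (β i p).re = (β j p).re := by
    refine Filter.eventually_all.2 fun i => Filter.eventually_all.2 fun j => ?_
    by_cases hij : (β i p1).re = (β j p1).re
    · filter_upwards [(hp1' i j hp1).1 hij] with p hp _ using hp
    · exact Filter.Eventually.of_forall fun p h => absurd h hij
  have e4 : ∀ᶠ p in 𝓝 ((0 : ℝ), q), ∀ i j, (β i p1).re < (β j p1).re → 0 < p.1 →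
      (β i p).re < (β j p).re := by
    refine Filter.eventually_all.2 fun i => Filter.eventually_all.2 fun j => ?_
    by_cases hij : (β i p1).re < (β j p1).re
    · filter_upwards [(hp1' i j hp1).2 hij] with p hp _ using hp
    · exact Filter.Eventually.of_forall fun p h => absurd h hij
  filter_upwards [e1, e2, e3, e4] with p h1 h2 h3 h4 hp
  refine ⟨fun x => ?_, ?_⟩
  · constructor
    · rintro ⟨i, hi⟩
      have hiI : i ∈ I := by
        by_contra hne
        apply h2 i hne hp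
        rw [← hi, Complex.ofReal_im]
      have hv : (β i p1).re ∈ Fv := Finset.mem_image.2 ⟨i, hiI, rfl⟩
      have hr : (β i p1).re ∈ Set.range (Fv.orderEmbOfFin rfl) := by
        rw [Finset.range_orderEmbOfFin]
        exact hv
      obtain ⟨m, hm⟩ := hr
      refine ⟨m, ?_⟩
      rw [h3 (c m) i ((hcv m).trans hm), ← hi, Complex.ofReal_re]
    · rintro ⟨m, hm⟩
      refine ⟨c m, ?_⟩
      refine Complex.ext ?_ ?_
      · rw [Complex.ofReal_re, hm]
      · rw [Complex.ofReal_im, h1 (c m) (hcI m)]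
  · intro m m' hmm
    refine h4 (c m) (c m') ?_ hp
    rw [hcv m, hcv m']
    exact (Fv.orderEmbOfFin rfl).strictMono hmm

variable [FiniteDimensional ℝ T]

/-- The real roots, for positive values of the first variable, at suitable points of `A`. -/
theorem Gen.real_roots {A : Set T} (hA : Gen A) {d : ℕ} {q : T} (hq : q ∈ A) {P : ℝ × T → ℝ[X]}
    (hm : ∀ p, (P p).Monic ∧ (P p).natDegree = d)
    (hP : ∀ i, AnalyticAt ℝ (fun p => (P p).coeff i) (0, q)) {O : Set T} (hO : O ∈ 𝓝 q) :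
    ∃ q' ∈ A ∩ O, ∃ N : ℕ, 0 < N ∧ ∃ (l : ℕ) (γ : Fin l → ℝ × T → ℝ),
      (∀ i, AnalyticAt ℝ (γ i) (0, q')) ∧
      ∀ᶠ p in 𝓝 ((0 : ℝ), q'), 0 < p.1 →
        (∀ x : ℝ, (P (p.1 ^ N, p.2)).eval x = 0 ↔ ∃ i, x = γ i p) ∧
        StrictMono (fun i => γ i p) := by
  obtain ⟨q1, hq1, N, hN, β, hβ, hβP⟩ := hA.puiseux d hq
    (P := fun p => (P p).map (algebraMap ℝ ℂ)) (fun p => ⟨(hm p).1.map _, by
      rw [(hm p).1.natDegree_map, (hm p).2]⟩) (fun i => by
      simp only [Polynomial.coeff_map]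
      exact (Complex.ofRealCLM.analyticAt _).comp (hP i)) (interior_mem_nhds.2 hO)
  have hO1 : O ∈ 𝓝 q1 := mem_interior_iff_mem_nhds.1 hq1.2
  have hslice : Tendsto (fun t : T => ((0 : ℝ), t)) (𝓝 q1) (𝓝 ((0 : ℝ), q1)) := by
    have h2 : Continuous fun t : T => ((0 : ℝ), t) := by fun_prop
    exact h2.tendsto q1
  have hβP1 : ∀ᶠ t in 𝓝 q1, ∀ᶠ p in 𝓝 ((0 : ℝ), t),
      (P (p.1 ^ N, p.2)).map (algebraMap ℝ ℂ) = ∏ i, (X - C (β i p)) :=
    hslice.eventually (eventually_eventually_nhds.2 hβP)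
  have hβ1 : ∀ᶠ t in 𝓝 q1, ∀ i, AnalyticAt ℝ (β i) ((0 : ℝ), t) :=
    Filter.eventually_all.2 fun i => hslice.eventually (hβ i).eventually_analyticAt
  have hO2 : {t : T | t ∈ O ∧ (∀ᶠ p in 𝓝 ((0 : ℝ), t),
      (P (p.1 ^ N, p.2)).map (algebraMap ℝ ℂ) = ∏ i, (X - C (β i p))) ∧
      ∀ i, AnalyticAt ℝ (β i) ((0 : ℝ), t)} ∈ 𝓝 q1 := by
    filter_upwards [hO1, hβP1, hβ1] with t h1 h2 h3
    exact ⟨h1, h2, h3⟩
  obtain ⟨q2, hq2, hord⟩ := hA.exists_hasOrd hq1.1 (ι := Fin d ⊕ (Fin d × Fin d)) (F := ℝ)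
    (f := Sum.elim (fun i p => (β i p).im) (fun ij p => (β ij.1 p).re - (β ij.2 p).re)) (by
      rintro (i | ⟨i, j⟩)
      · exact (Complex.imCLM.analyticAt _).comp (hβ i)
      · exact ((Complex.reCLM.analyticAt _).comp (hβ i)).sub
          ((Complex.reCLM.analyticAt _).comp (hβ j))) hO2
  obtain ⟨hq2A, hq2O, hfac, han⟩ := hq2
  obtain ⟨l, c, hlc⟩ := realRoots_select (q := q2) (β := β) (fun i => (hord (Sum.inl i)).1)
    (fun i j => (hord (Sum.inr (i, j))).1)
  refine ⟨q2, ⟨hq2A, hq2O⟩, N, hN, l, fun i p => (β (c i) p).re, fun i =>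
    (Complex.reCLM.analyticAt _).comp (han (c i)), ?_⟩
  filter_upwards [hfac, hlc] with p hp1 hp2 hp
  obtain ⟨h1, h2⟩ := hp2 hp
  refine ⟨fun x => ?_, h2⟩
  rw [← h1 x]
  have e1 : ((P (p.1 ^ N, p.2)).map (algebraMap ℝ ℂ)).eval (x : ℂ) =
      (((P (p.1 ^ N, p.2)).eval x : ℝ) : ℂ) := by
    have := Polynomial.eval_map_algebraMap (P (p.1 ^ N, p.2)) (x : ℂ)
    rw [this]
    exact Polynomial.aeval_algebraMap_apply_eq_algebraMap_eval x _
  rw [hp1, Polynomial.eval_prod] at e1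
  constructor
  · intro h0
    rw [h0, Complex.ofReal_zero, Finset.prod_eq_zero_iff] at e1
    obtain ⟨i, -, hi⟩ := e1
    refine ⟨i, ?_⟩
    rw [eval_sub, eval_X, eval_C, sub_eq_zero] at hi
    exact hi
  · rintro ⟨i, hi⟩
    have h3 : ∏ i, eval (x : ℂ) (X - C (β i p)) = 0 := by
      refine Finset.prod_eq_zero (Finset.mem_univ i) ?_
      rw [eval_sub, eval_X, eval_C, sub_eq_zero]
      exact hi
    rw [h3] at e1
    exact_mod_cast e1.symm

end Vale.Agent.P274.W
end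

section

/-! TASK W5. -/

open Filter Topology Polynomial

namespace Vale.Agent.P274.W

/-- Clearing the denominators of one polynomial. -/
private lemma exists_clear {R K : Type} [CommRing R] [IsDomain R] [Field K] [Algebra R K]
    [IsFractionRing R K] (p : K[X]) :
    ∃ (q : R[X]) (c : R), c ≠ 0 ∧
      q.map (algebraMap R K) = C (algebraMap R K c) * p := by
  obtain ⟨b, hb, h⟩ := IsLocalization.integerNormalization_spec (nonZeroDivisors R) p
  refine ⟨_, b, nonZeroDivisors.ne_zero hb, h.trans ?_⟩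
  ext i
  rw [coeff_smul, coeff_C_mul, Algebra.smul_def]

private lemma elimination_aux {R K : Type} [CommRing R] [IsDomain R] [Field K] [CharZero K]
    [Algebra R K] [IsFractionRing R K] {f : R[X]} (hf : f ≠ 0) :
    ∃ (g a b h : R[X]) (Δ : R) (n : ℕ), Δ ≠ 0 ∧ C Δ * g ^ n = f * h ∧
      a * g + b * derivative g = C Δ := by
  classical
  have hφi : Function.Injective (algebraMap R K) := IsFractionRing.injective R K
  have hmi : Function.Injective (Polynomial.map (algebraMap R K)) :=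
    Polynomial.map_injective _ hφi
  have hfK : f.map (algebraMap R K) ≠ 0 := by
    intro h
    exact hf (hmi (by rw [h, Polynomial.map_zero]))
  obtain ⟨gK, hsq, n, hK', hn⟩ : ∃ gK : K[X], Squarefree gK ∧ ∃ (n : ℕ) (h : K[X]),
      gK ^ n = f.map (algebraMap R K) * h := by
    obtain ⟨n, hn⟩ := UniqueFactorizationMonoid.exists_dvd_radical_self_pow hfK
    exact ⟨_, UniqueFactorizationMonoid.squarefree_radical, n, hn⟩
  obtain ⟨aK, bK, hab⟩ := PerfectField.separable_iff_squarefree.2 hsq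
  obtain ⟨g, cg, hcg, hg⟩ := exists_clear (R := R) gK
  obtain ⟨a, ca, hca, ha⟩ := exists_clear (R := R) aK
  obtain ⟨b, cb, hcb, hb⟩ := exists_clear (R := R) bK
  obtain ⟨h, ch, hch, hh⟩ := exists_clear (R := R) hK'
  have hdg : (derivative g).map (algebraMap R K) =
      C (algebraMap R K cg) * derivative gK := by
    rw [← derivative_map, hg, derivative_C_mul]
  refine ⟨g, C (cb * ch) * a, C (ca * ch) * b, C (cg ^ n * (ca * cb * cg)) * h,
    ca * cb * cg * ch, n, mul_ne_zero (mul_ne_zero (mul_ne_zero hca hcb) hcg) hch, ?_, ?_⟩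
  · apply hmi
    simp only [Polynomial.map_mul, Polynomial.map_pow, map_C, hg, hh, map_mul, map_pow, mul_pow]
    rw [hn]
    ring
  · apply hmi
    simp only [Polynomial.map_mul, Polynomial.map_add, map_C, hg, ha, hb, hdg, map_mul]
    linear_combination (C (algebraMap R K ca) * C (algebraMap R K cb) *
      C (algebraMap R K cg) * C (algebraMap R K ch)) * hab

/-- Separable part, with denominators cleared. -/
theorem elimination {R : Type} [CommRing R] [IsDomain R] [CharZero R] {f : R[X]} (hf : f ≠ 0) :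
    ∃ (g a b h : R[X]) (Δ : R) (n : ℕ), Δ ≠ 0 ∧ C Δ * g ^ n = f * h ∧
      a * g + b * derivative g = C Δ := by
  have : CharZero (FractionRing R) := IsFractionRing.charZero_of_isFractionRing R
  exact elimination_aux (K := FractionRing R) hf

variable {Y : Type} [NormedAddCommGroup Y] [NormedSpace ℝ Y] [FiniteDimensional ℝ Y]

/-- The functions that are analytic at a point. -/
private def anSub (p0 : Y) : Subring (Y → ℝ) where
  carrier := {f | AnalyticAt ℝ f p0}
  mul_mem' := fun hf hg => hf.mul hg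
  one_mem' := analyticAt_const
  add_mem' := fun hf hg => hf.add hg
  zero_mem' := analyticAt_const
  neg_mem' := fun hf => hf.neg

/-- The ring of germs, as a quotient of the functions analytic at the point. -/
private noncomputable def toGerm (p0 : Y) : anSub p0 →+* Germ (𝓝 p0) ℝ :=
  (Germ.coeRingHom (𝓝 p0)).comp (anSub p0).subtype

omit [FiniteDimensional ℝ Y] in
private lemma toGerm_eq_zero_iff {p0 : Y} (f : anSub p0) :
    toGerm p0 f = 0 ↔ ∀ᶠ y in 𝓝 p0, (f : Y → ℝ) y = 0 := by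
  change ((f : Y → ℝ) : Germ (𝓝 p0) ℝ) = ((0 : Y → ℝ) : Germ (𝓝 p0) ℝ) ↔ _
  rw [Germ.coe_eq]
  rfl

omit [FiniteDimensional ℝ Y] in
private lemma eventually_zero_or {p0 : Y} {f g : Y → ℝ} (hf : AnalyticAt ℝ f p0)
    (hg : AnalyticAt ℝ g p0) (hfg : ∀ᶠ y in 𝓝 p0, f y * g y = 0) :
    (∀ᶠ y in 𝓝 p0, f y = 0) ∨ ∀ᶠ y in 𝓝 p0, g y = 0 := by
  obtain ⟨r, hr, hB⟩ := Metric.eventually_nhds_iff_ball.1
    ((hf.eventually_analyticAt.and hg.eventually_analyticAt).and hfg)
  by_cases h : ∃ q ∈ Metric.ball p0 r, f q ≠ 0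
  · right
    obtain ⟨q, hq, hfq⟩ := h
    have h1 : ∀ᶠ y in 𝓝 q, f y ≠ 0 := (hB q hq).1.1.continuousAt.eventually_ne hfq
    have h2 : ∀ᶠ y in 𝓝 q, y ∈ Metric.ball p0 r := Metric.isOpen_ball.mem_nhds hq
    have h3 : g =ᶠ[𝓝 q] 0 := by
      filter_upwards [h1, h2] with y hy1 hy2
      exact (mul_eq_zero.1 (hB y hy2).2).resolve_left hy1
    have h4 := AnalyticOnNhd.eqOn_zero_of_preconnected_of_eventuallyEq_zero
      (fun y hy => (hB y hy).1.2 : AnalyticOnNhd ℝ g (Metric.ball p0 r))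
      (convex_ball p0 r).isPreconnected hq h3
    exact Metric.eventually_nhds_iff_ball.2 ⟨r, hr, fun y hy => h4 hy⟩
  · left
    push Not at h
    exact Metric.eventually_nhds_iff_ball.2 ⟨r, hr, h⟩

omit [FiniteDimensional ℝ Y] in
private lemma isDomain_range (p0 : Y) : IsDomain (toGerm p0).range := by
  have : NoZeroDivisors (toGerm p0).range := by
    refine ⟨fun {x y} hxy => ?_⟩
    obtain ⟨x, f, rfl⟩ := x
    obtain ⟨y, g, rfl⟩ := y
    have h1 : toGerm p0 f * toGerm p0 g = 0 := congrArg Subtype.val hxy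
    rw [← map_mul, toGerm_eq_zero_iff] at h1
    rcases eventually_zero_or f.2 g.2 h1 with h | h
    · left
      exact Subtype.ext ((toGerm_eq_zero_iff f).2 h)
    · right
      exact Subtype.ext ((toGerm_eq_zero_iff g).2 h)
  have : Nontrivial (toGerm p0).range := by
    refine ⟨0, 1, fun h => ?_⟩
    have h1 : toGerm p0 1 = 0 := by
      rw [map_one]
      exact (congrArg Subtype.val h).symm
    rw [toGerm_eq_zero_iff] at h1
    exact one_ne_zero (α := ℝ) h1.self_of_nhds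
  exact NoZeroDivisors.to_isDomain _

omit [FiniteDimensional ℝ Y] in
private lemma charZero_range (p0 : Y) : CharZero (toGerm p0).range := by
  refine ⟨fun m n hmn => ?_⟩
  have h1 : toGerm p0 ((m : anSub p0) - n) = 0 := by
    rw [map_sub, map_natCast, map_natCast, sub_eq_zero]
    have := congrArg Subtype.val hmn
    simpa using this
  rw [toGerm_eq_zero_iff] at h1
  have h2 : (m : ℝ) - n = 0 := h1.self_of_nhds
  exact_mod_cast sub_eq_zero.1 h2

/-- The evaluation at a point. -/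
private noncomputable def evp (p0 y : Y) : anSub p0 →+* ℝ :=
  (Pi.evalRingHom (fun _ : Y => ℝ) y).comp (anSub p0).subtype

omit [FiniteDimensional ℝ Y] in
private lemma evp_apply (p0 y : Y) (f : anSub p0) : evp p0 y f = (f : Y → ℝ) y := rfl

omit [FiniteDimensional ℝ Y] in
private lemma eventually_map_eq_zero {p0 : Y} (E : (anSub p0)[X])
    (hE : E.map (toGerm p0).rangeRestrict = 0) : ∀ᶠ y in 𝓝 p0, E.map (evp p0 y) = 0 := by
  have h1 : ∀ i, ∀ᶠ y in 𝓝 p0, (E.coeff i : Y → ℝ) y = 0 := by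
    intro i
    rw [← toGerm_eq_zero_iff]
    have h2 := congrArg (fun q => q.coeff i) hE
    simp only [coeff_map, coeff_zero] at h2
    exact congrArg Subtype.val h2
  have h3 : ∀ᶠ y in 𝓝 p0, ∀ i ∈ Finset.range (E.natDegree + 1), (E.coeff i : Y → ℝ) y = 0 :=
    (Filter.eventually_all_finset _).2 fun i _ => h1 i
  filter_upwards [h3] with y hy
  ext i
  rw [coeff_map, coeff_zero, evp_apply]
  by_cases hi : i ∈ Finset.range (E.natDegree + 1)
  · exact hy i hi
  · rw [coeff_eq_zero_of_natDegree_lt (by simpa using hi)]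
    rfl

/-- Off the zero set of a nonzero analytic function, the zeros of a monic polynomial with analytic
coefficients are simple zeros of another polynomial with analytic coefficients. -/
theorem elimination_analytic {p0 : Y} {P : Y → ℝ[X]} {d : ℕ}
    (hm : ∀ y, (P y).Monic ∧ (P y).natDegree = d)
    (hP : ∀ i, AnalyticAt ℝ (fun y => (P y).coeff i) p0) :
    ∃ (g : Y → ℝ[X]) (Δ : Y → ℝ) (N : ℕ), (∀ i, AnalyticAt ℝ (fun y => (g y).coeff i) p0) ∧
      (∀ y, (g y).natDegree ≤ N) ∧ AnalyticAt ℝ Δ p0 ∧ (¬ ∀ᶠ y in 𝓝 p0, Δ y = 0) ∧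
      ∀ᶠ y in 𝓝 p0, Δ y ≠ 0 → ∀ x : ℝ, (P y).eval x = 0 →
        (g y).eval x = 0 ∧ (derivative (g y)).eval x ≠ 0 := by
  have := isDomain_range p0
  have := charZero_range p0
  set ρ := (toGerm p0).rangeRestrict with hρ
  have hρs : Function.Surjective ρ := (toGerm p0).rangeRestrict_surjective
  have hρm : Function.Surjective (Polynomial.map ρ) := Polynomial.map_surjective ρ hρs
  let PA : (anSub p0)[X] := ∑ i ∈ Finset.range (d + 1),
    monomial i (⟨fun y => (P y).coeff i, hP i⟩ : anSub p0)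
  have hPA : ∀ y, PA.map (evp p0 y) = P y := by
    intro y
    have h1 : P y = ∑ i ∈ Finset.range (d + 1), monomial i ((P y).coeff i) :=
      (P y).as_sum_range' (d + 1) (by rw [(hm y).2]; exact Nat.lt_succ_self d)
    conv_rhs => rw [h1]
    simp only [PA, Polynomial.map_sum, map_monomial, evp_apply]
  have hf0 : PA.map ρ ≠ 0 := by
    intro h
    have h1 := (eventually_map_eq_zero PA h).self_of_nhds
    rw [hPA] at h1
    exact (hm p0).1.ne_zero h1
  obtain ⟨g, a, b, h, Δ, n, hΔ, h1, h2⟩ := elimination hf0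
  obtain ⟨gA, rfl⟩ := hρm g
  obtain ⟨aA, rfl⟩ := hρm a
  obtain ⟨bA, rfl⟩ := hρm b
  obtain ⟨hA, rfl⟩ := hρm h
  obtain ⟨ΔA, rfl⟩ := hρs Δ
  have e1 := eventually_map_eq_zero (C ΔA * gA ^ n - PA * hA) (by
    rw [Polynomial.map_sub, Polynomial.map_mul, Polynomial.map_mul, Polynomial.map_pow, map_C,
      h1, sub_self])
  have e2 := eventually_map_eq_zero (aA * gA + bA * derivative gA - C ΔA) (by
    rw [Polynomial.map_sub, Polynomial.map_add, Polynomial.map_mul, Polynomial.map_mul,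
      ← derivative_map, map_C, h2, sub_self])
  refine ⟨fun y => gA.map (evp p0 y), (ΔA : Y → ℝ), gA.natDegree, fun i => ?_, fun y => ?_,
    ΔA.2, fun h => ?_, ?_⟩
  · have : (fun y => (gA.map (evp p0 y)).coeff i) = (gA.coeff i : Y → ℝ) := by
      funext y
      rw [coeff_map, evp_apply]
    rw [this]
    exact (gA.coeff i).2
  · exact natDegree_map_le
  · apply hΔ
    exact Subtype.ext ((toGerm_eq_zero_iff ΔA).2 h)
  · filter_upwards [e1, e2] with y hy1 hy2 hΔy x hx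
    rw [Polynomial.map_sub, Polynomial.map_mul, Polynomial.map_mul, Polynomial.map_pow, map_C,
      hPA, sub_eq_zero] at hy1
    rw [Polynomial.map_sub, Polynomial.map_add, Polynomial.map_mul, Polynomial.map_mul,
      ← derivative_map, map_C, sub_eq_zero] at hy2
    have k1 := congrArg (Polynomial.eval x) hy1
    have k2 := congrArg (Polynomial.eval x) hy2
    simp only [eval_mul, eval_pow, eval_C, eval_add, evp_apply, hx, zero_mul] at k1 k2
    have k3 : (gA.map (evp p0 y)).eval x = 0 :=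
      eq_zero_of_pow_eq_zero ((mul_eq_zero.1 k1).resolve_left hΔy)
    refine ⟨k3, fun k4 => hΔy ?_⟩
    rw [k3, k4, mul_zero, mul_zero, add_zero] at k2
    exact k2.symm

end Vale.Agent.P274.W
end

section

/-! TASK W7. -/

open Filter Topology Polynomial

namespace Vale.Agent.P274.W

variable {Y : Type} [NormedAddCommGroup Y] [NormedSpace ℝ Y]

namespace PF

/-- A preconnected set which meets an open set but not its frontier lies in it. -/
theorem subset_of_no_frontier {E : Type} [TopologicalSpace E] {Ω S : Set E} (hΩ : IsOpen Ω)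
    (hS : IsPreconnected S) (hne : (S ∩ Ω).Nonempty) (hfr : ∀ q ∈ S, q ∉ frontier Ω) : S ⊆ Ω := by
  refine hS.subset_of_closure_inter_subset hΩ hne ?_
  rintro q ⟨hq, hqS⟩
  by_contra hqΩ
  exact hfr q hqS (by rw [hΩ.frontier_eq]; exact ⟨hq, hqΩ⟩)

/-- Vertical and horizontal moves. -/
theorem exists_above {Ω : Set (ℝ × Y)} (hΩ : IsOpen Ω) {G : Y → ℝ → ℝ} {y0 : Y} {ρ a b : ℝ}
    (hmono : ∀ y ∈ Metric.ball y0 ρ, StrictMonoOn (G y) (Set.Ioo a b))
    {m : ℝ} (hm : m ∈ Set.Ioo a b)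
    (hplus : ∀ y ∈ Metric.ball y0 ρ, 0 < G y m)
    (hfr : ∀ y ∈ Metric.ball y0 ρ, ∀ x ∈ Set.Ioo a b, (x, y) ∈ frontier Ω → G y x = 0)
    {y' : Y} (hy' : y' ∈ Metric.ball y0 ρ) {x' : ℝ} (hx' : x' ∈ Set.Ioo a b)
    (hG : 0 < G y' x') (hmem : (x', y') ∈ Ω) : ∃ x ∈ Set.Ioo a b, (x, y0) ∈ Ω := by
  have hρ : 0 < ρ := Metric.pos_of_mem_ball hy'
  set c := max x' m with hc
  have hc1 : c ∈ Set.Ioo a b := ⟨lt_of_lt_of_le hx'.1 (le_max_left _ _), max_lt hx'.2 hm.2⟩
  have hS1 : ∀ t ∈ Set.Icc x' c, t ∈ Set.Ioo a b ∧ 0 < G y' t := by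
    intro t ht
    have ht' : t ∈ Set.Ioo a b := ⟨lt_of_lt_of_le hx'.1 ht.1, lt_of_le_of_lt ht.2 hc1.2⟩
    exact ⟨ht', lt_of_lt_of_le hG ((hmono y' hy').monotoneOn hx' ht' ht.1)⟩
  have h1 : (fun t : ℝ => (t, y')) '' Set.Icc x' c ⊆ Ω := by
    refine subset_of_no_frontier hΩ (isPreconnected_Icc.image _ (by fun_prop))
      ⟨(x', y'), ⟨x', ⟨le_rfl, le_max_left _ _⟩, rfl⟩, hmem⟩ ?_
    rintro _ ⟨t, ht, rfl⟩ hq
    exact (hS1 t ht).2.ne' (hfr y' hy' t (hS1 t ht).1 hq)
  have h2 : (c, y') ∈ Ω := h1 ⟨c, ⟨le_max_left _ _, le_rfl⟩, rfl⟩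
  have h3 : (fun y : Y => (c, y)) '' Metric.ball y0 ρ ⊆ Ω := by
    refine subset_of_no_frontier hΩ ((convex_ball y0 ρ).isPreconnected.image _ (by fun_prop))
      ⟨(c, y'), ⟨y', hy', rfl⟩, h2⟩ ?_
    rintro _ ⟨y, hy, rfl⟩ hq
    have h4 : 0 < G y c := lt_of_lt_of_le (hplus y hy) ((hmono y hy).monotoneOn hm hc1
      (le_max_right _ _))
    exact h4.ne' (hfr y hy c hc1 hq)
  exact ⟨c, hc1, h3 ⟨y0, Metric.mem_ball_self hρ, rfl⟩⟩

/-- The symmetric statement. -/
theorem exists_below {Ω : Set (ℝ × Y)} (hΩ : IsOpen Ω) {G : Y → ℝ → ℝ} {y0 : Y} {ρ a b : ℝ}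
    (hmono : ∀ y ∈ Metric.ball y0 ρ, StrictMonoOn (G y) (Set.Ioo a b))
    {m : ℝ} (hm : m ∈ Set.Ioo a b)
    (hminus : ∀ y ∈ Metric.ball y0 ρ, G y m < 0)
    (hfr : ∀ y ∈ Metric.ball y0 ρ, ∀ x ∈ Set.Ioo a b, (x, y) ∈ frontier Ω → G y x = 0)
    {y' : Y} (hy' : y' ∈ Metric.ball y0 ρ) {x' : ℝ} (hx' : x' ∈ Set.Ioo a b)
    (hG : G y' x' < 0) (hmem : (x', y') ∈ Ω) : ∃ x ∈ Set.Ioo a b, (x, y0) ∈ Ω := by
  have hρ : 0 < ρ := Metric.pos_of_mem_ball hy'
  set c := min x' m with hc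
  have hc1 : c ∈ Set.Ioo a b := ⟨lt_min hx'.1 hm.1, lt_of_le_of_lt (min_le_left _ _) hx'.2⟩
  have hS1 : ∀ t ∈ Set.Icc c x', t ∈ Set.Ioo a b ∧ G y' t < 0 := by
    intro t ht
    have ht' : t ∈ Set.Ioo a b := ⟨lt_of_lt_of_le hc1.1 ht.1, lt_of_le_of_lt ht.2 hx'.2⟩
    exact ⟨ht', lt_of_le_of_lt ((hmono y' hy').monotoneOn ht' hx' ht.2) hG⟩
  have h1 : (fun t : ℝ => (t, y')) '' Set.Icc c x' ⊆ Ω := by
    refine subset_of_no_frontier hΩ (isPreconnected_Icc.image _ (by fun_prop))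
      ⟨(x', y'), ⟨x', ⟨min_le_left _ _, le_rfl⟩, rfl⟩, hmem⟩ ?_
    rintro _ ⟨t, ht, rfl⟩ hq
    exact (hS1 t ht).2.ne (hfr y' hy' t (hS1 t ht).1 hq)
  have h2 : (c, y') ∈ Ω := h1 ⟨c, ⟨le_rfl, min_le_left _ _⟩, rfl⟩
  have h3 : (fun y : Y => (c, y)) '' Metric.ball y0 ρ ⊆ Ω := by
    refine subset_of_no_frontier hΩ ((convex_ball y0 ρ).isPreconnected.image _ (by fun_prop))
      ⟨(c, y'), ⟨y', hy', rfl⟩, h2⟩ ?_
    rintro _ ⟨y, hy, rfl⟩ hq
    have h4 : G y c < 0 := lt_of_le_of_lt ((hmono y hy).monotoneOn hc1 hm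
      (min_le_right _ _)) (hminus y hy)
    exact h4.ne (hfr y hy c hc1 hq)
  exact ⟨c, hc1, h3 ⟨y0, Metric.mem_ball_self hρ, rfl⟩⟩

/-- Moving from a nearby point of `Ω` to the vertical line of `y0`. -/
theorem exists_mem_line {Ω : Set (ℝ × Y)} (hΩ : IsOpen Ω) {G : Y → ℝ → ℝ} {y0 : Y}
    {ρ a b : ℝ} (hmono : ∀ y ∈ Metric.ball y0 ρ, StrictMonoOn (G y) (Set.Ioo a b))
    {m m' : ℝ} (hm : m ∈ Set.Ioo a b) (hm' : m' ∈ Set.Ioo a b)
    (hplus : ∀ y ∈ Metric.ball y0 ρ, 0 < G y m) (hminus : ∀ y ∈ Metric.ball y0 ρ, G y m' < 0)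
    (hfr : ∀ y ∈ Metric.ball y0 ρ, ∀ x ∈ Set.Ioo a b, (x, y) ∈ frontier Ω → G y x = 0)
    {y' : Y} (hy' : y' ∈ Metric.ball y0 ρ) {x' : ℝ} (hx' : x' ∈ Set.Ioo a b)
    (hmem : (x', y') ∈ Ω) : ∃ x ∈ Set.Ioo a b, (x, y0) ∈ Ω := by
  obtain ⟨x1, hx1, hx1Ω, hne⟩ : ∃ x1 ∈ Set.Ioo a b, (x1, y') ∈ Ω ∧ G y' x1 ≠ 0 := by
    by_cases h0 : G y' x' = 0
    · have hev : ∀ᶠ x1 in 𝓝 x', x1 ∈ Set.Ioo a b ∧ (x1, y') ∈ Ω := by
        refine Filter.Eventually.and (isOpen_Ioo.mem_nhds hx') ?_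
        have hc : ContinuousAt (fun t : ℝ => (t, y')) x' := by fun_prop
        exact hc.eventually (hΩ.mem_nhds hmem)
      have hev' : ∀ᶠ x1 in 𝓝[>] x', x1 ∈ Set.Ioo a b ∧ (x1, y') ∈ Ω :=
        hev.filter_mono nhdsWithin_le_nhds
      obtain ⟨x1, ⟨h1, h2⟩, h3⟩ := (hev'.and self_mem_nhdsWithin).exists
      refine ⟨x1, h1, h2, ?_⟩
      have h4 := hmono y' hy' hx' h1 h3
      rw [h0] at h4
      exact h4.ne'
    · exact ⟨x', hx', hmem, h0⟩
  rcases lt_or_gt_of_ne hne with h | h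
  · exact exists_below hΩ hmono hm' hminus hfr hy' hx1 h hx1Ω
  · exact exists_above hΩ hmono hm hplus hfr hy' hx1 h hx1Ω

omit [NormedSpace ℝ Y] in
theorem continuousAt_eval {g : Y → ℝ[X]} {N : ℕ} (hN : ∀ y, (g y).natDegree ≤ N) {y0 : Y}
    (hc : ∀ i, ContinuousAt (fun y => (g y).coeff i) y0) (x0 : ℝ) :
    ContinuousAt (fun q : ℝ × Y => (g q.2).eval q.1) (x0, y0) := by
  have h1 : (fun q : ℝ × Y => (g q.2).eval q.1) =
      fun q => ∑ i ∈ Finset.range (N + 1), (g q.2).coeff i * q.1 ^ i := by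
    funext q
    exact eval_eq_sum_range' (Nat.lt_succ_of_le (hN q.2)) q.1
  rw [h1]
  refine tendsto_finsetSum _ fun i _ => ?_
  have h2 : ContinuousAt (fun q : ℝ × Y => (g q.2).coeff i) (x0, y0) :=
    ContinuousAt.comp (f := Prod.snd) (g := fun y => (g y).coeff i) (hc i) continuousAt_snd
  exact h2.mul (by fun_prop)

/-- The local analysis near a simple zero. -/
theorem local_line {Ω : Set (ℝ × Y)} (hΩ : IsOpen Ω) {g : Y → ℝ[X]} {N : ℕ}
    (hN : ∀ y, (g y).natDegree ≤ N) {y0 : Y}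
    (hc : ∀ i, ContinuousAt (fun y => (g y).coeff i) y0) {x0 r : ℝ} (hx0 : |x0| < r)
    (hg0 : (g y0).eval x0 = 0) (hg1 : 0 < (derivative (g y0)).eval x0)
    (hfr : ∀ᶠ y in 𝓝 y0, ∀ x : ℝ, |x| ≤ r → (x, y) ∈ frontier Ω → (g y).eval x = 0)
    (hcl : ∃ᶠ q : ℝ × Y in 𝓝 (x0, y0), q ∈ Ω) : ∃ x : ℝ, |x| < r ∧ (x, y0) ∈ Ω := by
  -- continuity of the derivative
  have hdN : ∀ y, (derivative (g y)).natDegree ≤ N := fun y =>
    (natDegree_derivative_le _).trans ((Nat.sub_le _ _).trans (hN y))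
  have hdc : ∀ i, ContinuousAt (fun y => (derivative (g y)).coeff i) y0 := by
    intro i
    simp only [coeff_derivative]
    exact (hc (i + 1)).mul continuousAt_const
  have hder := continuousAt_eval hdN hdc x0
  have hev1 : ∀ᶠ q : ℝ × Y in 𝓝 (x0, y0), 0 < (derivative (g q.2)).eval q.1 :=
    hder.eventually (lt_mem_nhds hg1)
  obtain ⟨ε0, hε0, h1⟩ := Metric.eventually_nhds_iff.1 hev1
  obtain ⟨ρ0, hρ0, h2⟩ := Metric.eventually_nhds_iff.1 hfr
  set ε := min (ε0 / 2) ((r - |x0|) / 2) with hε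
  have hεpos : 0 < ε := lt_min (by linarith only [hε0]) (by linarith only [hx0])
  have hεε0 : ε < ε0 := lt_of_le_of_lt (min_le_left _ _) (by linarith only [hε0])
  have hεr : ε < r - |x0| := lt_of_le_of_lt (min_le_right _ _) (by linarith only [hx0])
  have hIoo : ∀ x ∈ Set.Ioo (x0 - ε) (x0 + ε), |x| < r := by
    intro x hx
    have h3 : |x - x0| < ε := by
      rw [abs_lt]; constructor <;> linarith only [hx.1, hx.2]
    have h4 := abs_sub_abs_le_abs_sub x x0
    linarith only [hεr, h3, h4]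
  have hpos : ∀ y ∈ Metric.ball y0 ε0, ∀ x ∈ Set.Ioo (x0 - ε) (x0 + ε),
      0 < (derivative (g y)).eval x := by
    intro y hy x hx
    refine h1 (y := (x, y)) ?_
    rw [Prod.dist_eq]
    refine max_lt ?_ hy
    rw [Real.dist_eq, abs_lt]
    constructor <;> linarith only [hεε0, hx.1, hx.2]
  have hmono0 : ∀ y ∈ Metric.ball y0 ε0, StrictMonoOn (fun x => (g y).eval x)
      (Set.Ioo (x0 - ε) (x0 + ε)) := by
    intro y hy
    refine strictMonoOn_of_deriv_pos (convex_Ioo _ _) (g y).continuous.continuousOn fun x hx => ?_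
    rw [interior_Ioo] at hx
    rw [Polynomial.deriv]
    exact hpos y hy x hx
  have hmI : x0 + ε / 2 ∈ Set.Ioo (x0 - ε) (x0 + ε) := ⟨by linarith only [hεpos], by linarith only [hεpos]⟩
  have hmI' : x0 - ε / 2 ∈ Set.Ioo (x0 - ε) (x0 + ε) := ⟨by linarith only [hεpos], by linarith only [hεpos]⟩
  have hxI : x0 ∈ Set.Ioo (x0 - ε) (x0 + ε) := ⟨by linarith only [hεpos], by linarith only [hεpos]⟩
  have hy0 : y0 ∈ Metric.ball y0 ε0 := Metric.mem_ball_self hε0
  have hp0 : 0 < (g y0).eval (x0 + ε / 2) := by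
    have := hmono0 y0 hy0 hxI hmI (by linarith only [hεpos])
    simp only [hg0] at this
    exact this
  have hm0 : (g y0).eval (x0 - ε / 2) < 0 := by
    have := hmono0 y0 hy0 hmI' hxI (by linarith only [hεpos])
    simp only [hg0] at this
    exact this
  have hcy : ∀ x : ℝ, ContinuousAt (fun y => (g y).eval x) y0 := by
    intro x
    exact ContinuousAt.comp (f := fun y : Y => (x, y)) (g := fun q : ℝ × Y => (g q.2).eval q.1)
      (continuousAt_eval hN hc x) (by fun_prop)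
  obtain ⟨ρ1, hρ1, h3⟩ := Metric.eventually_nhds_iff.1 ((hcy (x0 + ε / 2)).eventually
    (lt_mem_nhds hp0))
  obtain ⟨ρ2, hρ2, h4⟩ := Metric.eventually_nhds_iff.1 ((hcy (x0 - ε / 2)).eventually
    (gt_mem_nhds hm0))
  set ρ := min (min ε0 ρ0) (min ρ1 ρ2) with hρ
  have hρpos : 0 < ρ := lt_min (lt_min hε0 hρ0) (lt_min hρ1 hρ2)
  have e1 : ∀ y ∈ Metric.ball y0 ρ, dist y y0 < ε0 := fun y hy =>
    lt_of_lt_of_le hy ((min_le_left _ _).trans (min_le_left _ _))
  have e2 : ∀ y ∈ Metric.ball y0 ρ, dist y y0 < ρ0 := fun y hy =>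
    lt_of_lt_of_le hy ((min_le_left _ _).trans (min_le_right _ _))
  have e3 : ∀ y ∈ Metric.ball y0 ρ, dist y y0 < ρ1 := fun y hy =>
    lt_of_lt_of_le hy ((min_le_right _ _).trans (min_le_left _ _))
  have e4 : ∀ y ∈ Metric.ball y0 ρ, dist y y0 < ρ2 := fun y hy =>
    lt_of_lt_of_le hy ((min_le_right _ _).trans (min_le_right _ _))
  have hbox : ∀ᶠ q : ℝ × Y in 𝓝 (x0, y0), q.1 ∈ Set.Ioo (x0 - ε) (x0 + ε) ∧
      q.2 ∈ Metric.ball y0 ρ := by
    refine Filter.Eventually.and ?_ ?_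
    · exact (continuousAt_fst (p := (x0, y0))).eventually (isOpen_Ioo.mem_nhds hxI)
    · exact (continuousAt_snd (p := (x0, y0))).eventually (Metric.ball_mem_nhds y0 hρpos)
  obtain ⟨⟨x', y'⟩, hq, hx', hy'⟩ := (hcl.and_eventually hbox).exists
  obtain ⟨x, hx, hxΩ⟩ := exists_mem_line hΩ (G := fun y x => (g y).eval x) (y0 := y0) (ρ := ρ)
    (fun y hy => hmono0 y (e1 y hy)) hmI hmI' (fun y hy => h3 (e3 y hy)) (fun y hy => h4 (e4 y hy))
    (fun y hy x hx hf => h2 (e2 y hy) x (hIoo x hx).le hf) hy' hx' hq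
  exact ⟨x, hIoo x hx, hxΩ⟩

end PF

open PF

variable [FiniteDimensional ℝ Y]

/-- The frontier of the projection of an open set whose frontier lies in a set of simple zeros. -/
theorem projection_frontier {p0 : Y} {Ω : Set (ℝ × Y)} (hΩ : IsOpen Ω) {r : ℝ} (hr : 0 < r)
    {P g : Y → ℝ[X]} {Δ : Y → ℝ} {N : ℕ}
    (hg : ∀ i, AnalyticAt ℝ (fun y => (g y).coeff i) p0) (hgN : ∀ y, (g y).natDegree ≤ N)
    (hΔ : AnalyticAt ℝ Δ p0)
    (h1 : ∀ᶠ y in 𝓝 p0, (r, y) ∉ closure Ω ∧ (-r, y) ∉ closure Ω)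
    (h2 : ∀ᶠ y in 𝓝 p0, ∀ x : ℝ, |x| ≤ r → (x, y) ∈ frontier Ω → (P y).eval x = 0)
    (h3 : ∀ᶠ y in 𝓝 p0, Δ y ≠ 0 → ∀ x : ℝ, (P y).eval x = 0 →
        (g y).eval x = 0 ∧ (derivative (g y)).eval x ≠ 0) :
    ∃ W : Set Y, IsOpen W ∧ p0 ∈ W ∧
      IsOpen {y | y ∈ W ∧ Δ y ≠ 0 ∧ ∃ x : ℝ, |x| < r ∧ (x, y) ∈ Ω} ∧
      ∀ y ∈ W, y ∈ frontier {y | y ∈ W ∧ Δ y ≠ 0 ∧ ∃ x : ℝ, |x| < r ∧ (x, y) ∈ Ω} → Δ y = 0 := by
  have hgc : ∀ᶠ y in 𝓝 p0, ∀ i, ContinuousAt (fun y => (g y).coeff i) y := by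
    have h4 : ∀ᶠ y in 𝓝 p0, ∀ i ∈ Finset.range (N + 1),
        ContinuousAt (fun y => (g y).coeff i) y := by
      rw [Filter.eventually_all_finset]
      intro i _
      filter_upwards [(hg i).eventually_analyticAt] with y hy
      exact hy.continuousAt
    filter_upwards [h4] with y hy i
    by_cases hi : i ∈ Finset.range (N + 1)
    · exact hy i hi
    · have h5 : (fun y => (g y).coeff i) = fun _ => 0 := by
        funext z
        refine coeff_eq_zero_of_natDegree_lt (lt_of_le_of_lt (hgN z) ?_)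
        rw [Finset.mem_range, not_lt] at hi
        omega
      rw [h5]
      exact continuousAt_const
  have hΔc : ∀ᶠ y in 𝓝 p0, ContinuousAt Δ y := by
    filter_upwards [hΔ.eventually_analyticAt] with y hy
    exact hy.continuousAt
  obtain ⟨W, hWall, hWo, hpW⟩ := eventually_nhds_iff.1
    ((hgc.and hΔc).and ((h1.and h2).and h3))
  have hopen : IsOpen {y | y ∈ W ∧ Δ y ≠ 0 ∧ ∃ x : ℝ, |x| < r ∧ (x, y) ∈ Ω} := by
    rw [isOpen_iff_mem_nhds]
    rintro y ⟨hyW, hyΔ, x, hx, hxy⟩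
    have e1 : ∀ᶠ z in 𝓝 y, z ∈ W := hWo.mem_nhds hyW
    have e2 : ∀ᶠ z in 𝓝 y, Δ z ≠ 0 := (hWall y hyW).1.2.eventually_ne hyΔ
    have e3 : ∀ᶠ z in 𝓝 y, (x, z) ∈ Ω := by
      have hc : ContinuousAt (fun z : Y => (x, z)) y := by fun_prop
      exact hc.eventually (hΩ.mem_nhds hxy)
    filter_upwards [e1, e2, e3] with z h1 h2 h3
    exact ⟨h1, h2, x, hx, h3⟩
  refine ⟨W, hWo, hpW, hopen, ?_⟩
  intro y0 hy0W hy0fr
  by_contra hΔ0
  rw [hopen.frontier_eq] at hy0fr
  obtain ⟨hcl, hnot⟩ := hy0fr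
  have hno : ∀ x : ℝ, |x| < r → (x, y0) ∉ Ω := fun x hx hxy => hnot ⟨hy0W, hΔ0, x, hx, hxy⟩
  -- a limit point above y0
  obtain ⟨yn, hyn, hlim⟩ := mem_closure_iff_seq_limit.1 hcl
  choose _ _ xn hxn hxyn using hyn
  obtain ⟨x0, hx0, θ, hθ, hxlim⟩ := (isCompact_Icc (a := -r) (b := r)).tendsto_subseq
    (fun n => show xn n ∈ Set.Icc (-r) r from ⟨(abs_lt.1 (hxn n)).1.le, (abs_lt.1 (hxn n)).2.le⟩)
  have hlim2 : Tendsto (fun n => (xn (θ n), yn (θ n))) atTop (𝓝 (x0, y0)) :=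
    hxlim.prodMk_nhds (hlim.comp hθ.tendsto_atTop)
  have hmemcl : (x0, y0) ∈ closure Ω :=
    mem_closure_of_tendsto hlim2 (Eventually.of_forall fun n => hxyn (θ n))
  have hbd := (hWall y0 hy0W).2.1.1
  have hx0r : |x0| < r := by
    refine lt_of_le_of_ne (abs_le.2 ⟨hx0.1, hx0.2⟩) fun he => ?_
    rcases (abs_eq hr.le).1 he with h | h
    · rw [h] at hmemcl; exact hbd.1 hmemcl
    · rw [h] at hmemcl; exact hbd.2 hmemcl
  have hfrq : ∃ᶠ q : ℝ × Y in 𝓝 (x0, y0), q ∈ Ω := mem_closure_iff_frequently.1 hmemcl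
  have hfront : (x0, y0) ∈ frontier Ω := by
    rw [hΩ.frontier_eq]
    exact ⟨hmemcl, hno x0 hx0r⟩
  have hP0 := (hWall y0 hy0W).2.1.2 x0 hx0r.le hfront
  obtain ⟨hg0, hg1⟩ := (hWall y0 hy0W).2.2 hΔ0 x0 hP0
  have hfr : ∀ᶠ y in 𝓝 y0, ∀ x : ℝ, |x| ≤ r → (x, y) ∈ frontier Ω → (g y).eval x = 0 := by
    filter_upwards [hWo.mem_nhds hy0W, (hWall y0 hy0W).1.2.eventually_ne hΔ0] with y hy hyΔ x hx hxf
    exact ((hWall y hy).2.2 hyΔ x ((hWall y hy).2.1.2 x hx hxf)).1
  have hc := (hWall y0 hy0W).1.1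
  rcases lt_or_gt_of_ne hg1 with hneg | hpos
  · -- replace g by -g
    obtain ⟨x, hx, hxΩ⟩ := local_line hΩ (g := fun y => -(g y)) (N := N)
      (fun y => by rw [natDegree_neg]; exact hgN y)
      (fun i => by
        simp only [coeff_neg]
        exact (hc i).neg) hx0r (by rw [eval_neg, hg0, neg_zero])
      (by rw [derivative_neg, eval_neg]; linarith only [hneg])
      (hfr.mono fun y hy x hx hxf => by rw [eval_neg, hy x hx hxf, neg_zero]) hfrq
    exact hno x hx hxΩ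
  · obtain ⟨x, hx, hxΩ⟩ := local_line hΩ hgN hc hx0r hg0 hpos hfr hfrq
    exact hno x hx hxΩ

end Vale.Agent.P274.W
end

section

/-! Auxiliary lemmas for the wing lemma. -/

open Filter Topology Polynomial Set

namespace Vale.Agent.P274.W

/-- A connected set which meets an open set and avoids its frontier is inside it. -/
lemma wing_subset {X : Type*} [TopologicalSpace X] {Ω Z : Set X} (hΩ : IsOpen Ω)
    (hZ : IsPreconnected Z) (h1 : ∀ z ∈ Z, z ∉ frontier Ω) (h2 : (Z ∩ Ω).Nonempty) : Z ⊆ Ω := by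
  refine hZ.subset_left_of_subset_union (v := (closure Ω)ᶜ) hΩ isClosed_closure.isOpen_compl
    ?_ ?_ h2
  · exact disjoint_left.2 fun z hz hz' => hz' (subset_closure hz)
  · intro z hz
    by_cases hzO : z ∈ closure Ω
    · left
      by_contra h
      exact h1 z hz (by rw [frontier, hΩ.interior_eq]; exact ⟨hzO, h⟩)
    · right
      exact hzO

lemma wing_not_mem_closure {X : Type*} [TopologicalSpace X] {Ω : Set X} (hΩ : IsOpen Ω) {z : X}
    (h1 : z ∉ frontier Ω) (h2 : z ∉ Ω) : z ∉ closure Ω := fun h =>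
  h1 (by rw [frontier, hΩ.interior_eq]; exact ⟨h, h2⟩)

lemma wing_not_frontier {X : Type*} [TopologicalSpace X] {Ω : Set X} (hΩ : IsOpen Ω) {z : X}
    (h : z ∈ Ω) : z ∉ frontier Ω := fun h' => by
  rw [frontier, hΩ.interior_eq] at h'
  exact h'.2 h

/-- An analytic function which is not locally zero at a point is not locally zero at nearby
points. -/
lemma wing_not_zero {E : Type*} [NormedAddCommGroup E] [NormedSpace ℝ E] {f : E → ℝ} {x : E}
    (hf : AnalyticAt ℝ f x) (h : ¬ ∀ᶠ y in 𝓝 x, f y = 0) :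
    ∀ᶠ y in 𝓝 x, AnalyticAt ℝ f y ∧ ¬ ∀ᶠ z in 𝓝 y, f z = 0 := by
  obtain ⟨ε, hε, hB⟩ := Metric.eventually_nhds_iff_ball.1 hf.eventually_analyticAt
  filter_upwards [Metric.ball_mem_nhds x hε] with y hy
  refine ⟨hB y hy, fun hz => h ?_⟩
  have h1 : AnalyticOnNhd ℝ f (Metric.ball x ε) := fun z hz => hB z hz
  have h2 := h1.eqOn_zero_of_preconnected_of_eventuallyEq_zero
    (convex_ball x ε).isPreconnected hy hz
  filter_upwards [Metric.ball_mem_nhds x hε] with z hz
  exact h2 hz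

section direction

variable {V T : Type*} [NormedAddCommGroup V] [NormedSpace ℝ V] [NormedAddCommGroup T]
  [NormedSpace ℝ T]

/-- A direction in which the function is not locally zero. -/
lemma wing_direction [Nontrivial V] {F : V × T → ℝ} {q0 : T} (hF : AnalyticAt ℝ F (0, q0))
    (hF0 : ¬ ∀ᶠ p in 𝓝 ((0 : V), q0), F p = 0) :
    ∃ v : V, v ≠ 0 ∧ ¬ ∀ᶠ p in 𝓝 ((0 : ℝ), q0), F (p.1 • v, p.2) = 0 := by
  obtain ⟨ε, hε, hB⟩ := Metric.eventually_nhds_iff_ball.1 hF.eventually_analyticAt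
  obtain ⟨z, hz, hFz⟩ : ∃ z ∈ Metric.ball ((0 : V), q0) ε, F z ≠ 0 := by
    by_contra! hcon
    exact hF0 (by filter_upwards [Metric.ball_mem_nhds _ hε] with y hy using hcon y hy)
  have h1 : ∀ᶠ y in 𝓝 z, y ∈ Metric.ball ((0 : V), q0) ε ∧ F y ≠ 0 := by
    filter_upwards [Metric.isOpen_ball.mem_nhds hz, (hB z hz).continuousAt.eventually_ne hFz]
      with y h1 h2 using ⟨h1, h2⟩
  have h2 : ∀ᶠ v in 𝓝 z.1, (v, z.2) ∈ Metric.ball ((0 : V), q0) ε ∧ F (v, z.2) ≠ 0 := by
    have hc : Tendsto (fun v : V => (v, z.2)) (𝓝 z.1) (𝓝 z) := by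
      have : ContinuousAt (fun v : V => (v, z.2)) z.1 := by fun_prop
      exact this
    exact hc.eventually h1
  have : (𝓝[≠] (0 : V)).NeBot := Module.punctured_nhds_neBot ℝ V 0
  obtain ⟨v, hv0, hv⟩ := (dense_compl_singleton (0 : V)).inter_nhds_nonempty h2
  refine ⟨v, hv0, fun hzero => ?_⟩
  set φ : ℝ × T →L[ℝ] V × T :=
    ((ContinuousLinearMap.fst ℝ ℝ T).smulRight v).prod (ContinuousLinearMap.snd ℝ ℝ T) with hφ
  have hφa : ∀ p, φ p = (p.1 • v, p.2) := fun p => rfl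
  set U : Set (ℝ × T) := φ ⁻¹' Metric.ball ((0 : V), q0) ε with hU
  have hUc : Convex ℝ U := (convex_ball ((0 : V), q0) ε).linear_preimage (φ : ℝ × T →ₗ[ℝ] V × T)
  have hUa : AnalyticOnNhd ℝ (fun p => F (φ p)) U := fun p hp =>
    (hB _ hp).comp (φ.analyticAt p)
  have h0 : ((0 : ℝ), q0) ∈ U := by
    have : φ ((0 : ℝ), q0) = (0, q0) := by rw [hφa, zero_smul]
    rw [hU, mem_preimage, this]
    exact Metric.mem_ball_self hε
  have h3 := hUa.eqOn_zero_of_preconnected_of_eventuallyEq_zero hUc.isPreconnected h0 hzero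
  have h4 : ((1 : ℝ), z.2) ∈ U := by
    have : φ ((1 : ℝ), z.2) = (v, z.2) := by rw [hφa, one_smul]
    rw [hU, mem_preimage, this]
    exact hv.1
  have h5 := h3 h4
  simp only [hφa, one_smul, Pi.zero_apply] at h5
  exact hv.2 h5

/-- Coordinates adapted to a vector. -/
lemma wing_coords (n : ℕ) {v : Fin (n + 1) → ℝ} (hv : v ≠ 0) :
    ∃ L : (ℝ × (Fin n → ℝ)) ≃L[ℝ] (Fin (n + 1) → ℝ), ∀ x : ℝ, L (x, 0) = x • v := by
  obtain ⟨i, hi⟩ : ∃ i, v i ≠ 0 := by
    by_contra! hcon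
    exact hv (funext hcon)
  let f : (ℝ × (Fin n → ℝ)) →ₗ[ℝ] (Fin (n + 1) → ℝ) :=
    { toFun := fun p => p.1 • v + i.insertNth (0 : ℝ) p.2
      map_add' := by
        intro p q
        ext j
        rcases Fin.eq_self_or_eq_succAbove i j with h | ⟨k, h⟩
        · subst h
          simp [add_mul]
        · subst h
          simp only [Prod.fst_add, Prod.snd_add, Pi.add_apply, Pi.smul_apply, smul_eq_mul,
            Fin.insertNth_apply_succAbove]
          ring
      map_smul' := by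
        intro c p
        ext j
        rcases Fin.eq_self_or_eq_succAbove i j with h | ⟨k, h⟩
        · subst h
          simp [mul_assoc]
        · subst h
          simp only [Prod.smul_fst, Prod.smul_snd, Pi.add_apply, Pi.smul_apply, smul_eq_mul,
            Fin.insertNth_apply_succAbove, RingHom.id_apply]
          ring }
  have hf : ∀ p, f p = p.1 • v + i.insertNth (0 : ℝ) p.2 := fun p => rfl
  have hinj : Function.Injective f := by
    rw [← LinearMap.ker_eq_bot, LinearMap.ker_eq_bot']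
    intro p hp
    rw [hf] at hp
    have h1 : p.1 = 0 := by
      have := congrFun hp i
      simp only [Pi.add_apply, Pi.smul_apply, smul_eq_mul, Fin.insertNth_apply_same, add_zero,
        Pi.zero_apply, mul_eq_zero] at this
      exact this.resolve_right hi
    have h2 : p.2 = 0 := by
      ext k
      have := congrFun hp (i.succAbove k)
      simp only [Pi.add_apply, Pi.smul_apply, smul_eq_mul, Fin.insertNth_apply_succAbove,
        Pi.zero_apply, h1, zero_mul, zero_add] at this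
      exact this
    exact Prod.ext h1 h2
  have hdim : Module.finrank ℝ (ℝ × (Fin n → ℝ)) = Module.finrank ℝ (Fin (n + 1) → ℝ) := by
    rw [Module.finrank_prod, Module.finrank_self, Module.finrank_fin_fun, Module.finrank_fin_fun]
    ring
  refine ⟨(f.linearEquivOfInjective hinj hdim).toContinuousLinearEquiv, fun x => ?_⟩
  have h1 : (f.linearEquivOfInjective hinj hdim).toContinuousLinearEquiv (x, 0) = f (x, 0) := rfl
  rw [h1, hf]
  ext j
  rcases Fin.eq_self_or_eq_succAbove i j with h | ⟨k, h⟩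
  · subst h
    simp
  · subst h
    simp

end direction

section roots

variable {Y : Type*} [TopologicalSpace Y]

/-- A frontier point between a point of the open set and a point off its closure. -/
lemma wing_between {Ω : Set (ℝ × Y)} (hΩ : IsOpen Ω) {y : Y} {a b : ℝ} (hab : a < b)
    (h : ((a, y) ∈ Ω ∧ (b, y) ∉ closure Ω) ∨ ((b, y) ∈ Ω ∧ (a, y) ∉ closure Ω)) :
    ∃ x ∈ Ioo a b, (x, y) ∈ frontier Ω := by
  by_contra! hcon
  set Z : Set (ℝ × Y) := (fun x : ℝ => (x, y)) '' Icc a b with hZ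
  have hZc : IsPreconnected Z := isPreconnected_Icc.image _ (by fun_prop)
  have ha : (a, y) ∈ Z := ⟨a, left_mem_Icc.2 hab.le, rfl⟩
  have hb : (b, y) ∈ Z := ⟨b, right_mem_Icc.2 hab.le, rfl⟩
  have hend : (a, y) ∉ frontier Ω ∧ (b, y) ∉ frontier Ω := by
    rcases h with ⟨h1, h2⟩ | ⟨h1, h2⟩
    · exact ⟨wing_not_frontier hΩ h1, fun h' => h2 (frontier_subset_closure h')⟩
    · exact ⟨fun h' => h2 (frontier_subset_closure h'), wing_not_frontier hΩ h1⟩
  have hfr : ∀ z ∈ Z, z ∉ frontier Ω := by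
    rintro z ⟨x, hx, rfl⟩
    rcases hx.1.eq_or_lt with h1 | h1
    · rw [← h1]; exact hend.1
    rcases hx.2.eq_or_lt with h2 | h2
    · rw [h2]; exact hend.2
    · exact hcon x ⟨h1, h2⟩
  rcases h with ⟨h1, h2⟩ | ⟨h1, h2⟩
  · exact h2 (subset_closure (wing_subset hΩ hZc hfr ⟨_, ha, h1⟩ hb))
  · exact h2 (subset_closure (wing_subset hΩ hZc hfr ⟨_, hb, h1⟩ ha))

/-- The slab between two functions. -/
lemma wing_slab {S : Type*} [TopologicalSpace S] {Ω : Set (ℝ × Y)} (hΩ : IsOpen Ω) {D : Set S}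
    (hD : IsPreconnected D) {yy : S → Y} {α β : S → ℝ} (hy : ContinuousOn yy D)
    (hα : ContinuousOn α D) (hβ : ContinuousOn β D)
    (hfr : ∀ p ∈ D, ∀ x ∈ Ioo (α p) (β p), (x, yy p) ∉ frontier Ω)
    {p1 : S} (hp1 : p1 ∈ D) {x1 : ℝ} (hx1 : x1 ∈ Ioo (α p1) (β p1)) (hx1Ω : (x1, yy p1) ∈ Ω)
    (hαβ : ∀ p ∈ D, α p < β p) :
    ∀ p ∈ D, ∀ x ∈ Ioo (α p) (β p), (x, yy p) ∈ Ω := by
  set f : S × ℝ → ℝ × Y := fun z => (α z.1 + z.2 * (β z.1 - α z.1), yy z.1) with hf
  have hc : ContinuousOn f (D ×ˢ Ioo (0 : ℝ) 1) := by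
    have h1 : ContinuousOn (fun z : S × ℝ => α z.1) (D ×ˢ Ioo (0 : ℝ) 1) :=
      hα.comp continuousOn_fst fun z hz => hz.1
    have h2 : ContinuousOn (fun z : S × ℝ => β z.1) (D ×ˢ Ioo (0 : ℝ) 1) :=
      hβ.comp continuousOn_fst fun z hz => hz.1
    have h3 : ContinuousOn (fun z : S × ℝ => yy z.1) (D ×ˢ Ioo (0 : ℝ) 1) :=
      hy.comp continuousOn_fst fun z hz => hz.1
    exact (h1.add (continuousOn_snd.mul (h2.sub h1))).prodMk h3
  have hZ : IsPreconnected (f '' (D ×ˢ Ioo (0 : ℝ) 1)) := (hD.prod isPreconnected_Ioo).image _ hc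
  have key : ∀ p ∈ D, ∀ x ∈ Ioo (α p) (β p), (x, yy p) ∈ f '' (D ×ˢ Ioo (0 : ℝ) 1) := by
    intro p hp x hx
    have h0 : 0 < β p - α p := by linarith [hαβ p hp]
    refine ⟨(p, (x - α p) / (β p - α p)), ⟨hp, ?_, ?_⟩, ?_⟩
    · exact div_pos (by linarith [hx.1]) h0
    · rw [div_lt_one h0]
      linarith [hx.2]
    · simp only [hf]
      rw [div_mul_cancel₀ _ h0.ne']
      simp
  have hsub := wing_subset hΩ hZ ?_ ⟨_, key p1 hp1 x1 hx1, hx1Ω⟩
  · exact fun p hp x hx => hsub (key p hp x hx)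
  · rintro z ⟨⟨p, l⟩, ⟨hp, hl⟩, rfl⟩
    have h0 : 0 < β p - α p := by linarith [hαβ p hp]
    refine hfr p hp _ ⟨?_, ?_⟩
    · have := mul_pos hl.1 h0
      simp only
      linarith
    · have := mul_lt_mul_of_pos_right hl.2 h0
      simp only
      linarith

/-- Real roots of a monic polynomial near `X ^ b` are small. -/
lemma wing_root_bound {P : Y → ℝ[X]} {b : ℕ} {p1 : Y}
    (hm : ∀ y, (P y).Monic ∧ (P y).natDegree = b)
    (hP : ∀ i, ContinuousAt (fun y => (P y).coeff i) p1) (h1 : P p1 = X ^ b) {r : ℝ}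
    (hr : 0 < r) : ∀ᶠ y in 𝓝 p1, ∀ x : ℝ, (P y).eval x = 0 → |x| < r := by
  have hc : ContinuousAt (fun y => ∑ i ∈ Finset.range b, |(P y).coeff i| * (1 / r) ^ (b - i)) p1 := by
    refine tendsto_finsetSum _ fun i _ => ?_
    exact ((hP i).abs).mul continuousAt_const
  have h0 : ∑ i ∈ Finset.range b, |(P p1).coeff i| * (1 / r) ^ (b - i) = 0 := by
    refine Finset.sum_eq_zero fun i hi => ?_
    rw [h1, coeff_X_pow, if_neg (Finset.mem_range.1 hi).ne]
    simp
  have hev := hc.eventually_lt (continuousAt_const (y := (1 : ℝ))) (by rw [h0]; norm_num)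
  filter_upwards [hev] with y hy x hx
  by_contra! hcon
  have hxpos : 0 < |x| := lt_of_lt_of_le hr hcon
  have e1 : x ^ b = - ∑ i ∈ Finset.range b, (P y).coeff i * x ^ i := by
    have h2 : (P y).natDegree < b + 1 := by rw [(hm y).2]; exact Nat.lt_succ_self b
    rw [eval_eq_sum_range' h2, Finset.sum_range_succ] at hx
    have h3 : (P y).coeff b = 1 := by
      have := (hm y).1.coeff_natDegree
      rwa [(hm y).2] at this
    rw [h3] at hx
    linarith
  have e2 : |x| ^ b ≤ ∑ i ∈ Finset.range b, |(P y).coeff i| * |x| ^ i := by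
    rw [← abs_pow, e1, abs_neg]
    refine (Finset.abs_sum_le_sum_abs _ _).trans (le_of_eq ?_)
    exact Finset.sum_congr rfl fun i _ => by rw [abs_mul, abs_pow]
  have e3 : ∑ i ∈ Finset.range b, |(P y).coeff i| * |x| ^ i ≤
      |x| ^ b * ∑ i ∈ Finset.range b, |(P y).coeff i| * (1 / r) ^ (b - i) := by
    rw [Finset.mul_sum]
    refine Finset.sum_le_sum fun i hi => ?_
    have hib := (Finset.mem_range.1 hi).le
    have e4 : |x| ^ b = |x| ^ i * |x| ^ (b - i) := by rw [← pow_add, Nat.add_sub_cancel' hib]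
    have e5 : 1 ≤ |x| ^ (b - i) * (1 / r) ^ (b - i) := by
      rw [← mul_pow]
      apply one_le_pow₀
      rw [mul_one_div, one_le_div hr]
      exact hcon
    calc |(P y).coeff i| * |x| ^ i = |(P y).coeff i| * |x| ^ i * 1 := by ring
      _ ≤ |(P y).coeff i| * |x| ^ i * (|x| ^ (b - i) * (1 / r) ^ (b - i)) :=
        mul_le_mul_of_nonneg_left e5 (by positivity)
      _ = _ := by rw [e4]; ring
  have e6 : 0 < |x| ^ b := by positivity
  have e7 := mul_lt_mul_of_pos_left hy e6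
  linarith only [e7, e3, e2]

end roots

end Vale.Agent.P274.W
end

section

open Filter Metric Set Topology

namespace Vale.Agent.P274

variable {E : Type*} [NormedAddCommGroup E] [NormedSpace ℂ E]

end Vale.Agent.P274
end

section

/-! # P274-V9: the Hilbert-Schmidt form of a positive definite Hermitian matrix

`hs H B C = Re tr (H⁻¹ B H⁻¹ Cᴴ)`.  For `H = L Lᴴ` (e.g. `L = H^{1/2}`, `Matrix.PosDef`,
`Matrix.PosDef.posSemidef`, `CFC.sqrt`, or the Cholesky/`LDL` decomposition) one has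
`hs H B B = ‖L⁻¹ B L⁻ᴴ‖²_F`.
(Positivity can also be proved as follows: `H⁻¹` is positive definite, `B H⁻¹ Bᴴ` is positive
semidefinite; the trace of the product of a positive definite and a positive semidefinite matrix is `≥ 0`, and
`= 0` only if the latter is `0`; `B H⁻¹ Bᴴ = 0` implies `Bᴴ x = 0` for all `x`.) -/

open Matrix ComplexConjugate ComplexOrder

namespace Vale.Agent.P274.V

variable {n : Type*} [Fintype n] [DecidableEq n]

noncomputable def hs (H B C : Matrix n n ℂ) : ℝ := (trace (H⁻¹ * B * H⁻¹ * Cᴴ)).re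

theorem hs_symm {H : Matrix n n ℂ} (hH : H.PosDef) (B C : Matrix n n ℂ) :
    hs H B C = hs H C B := by
  have hi : (H⁻¹)ᴴ = H⁻¹ := hH.inv.isHermitian
  have h1 : (H⁻¹ * B * H⁻¹ * Cᴴ)ᴴ = C * (H⁻¹ * Bᴴ * H⁻¹) := by
    simp only [conjTranspose_mul, conjTranspose_conjTranspose, hi, Matrix.mul_assoc]
  have h2 : trace (H⁻¹ * C * H⁻¹ * Bᴴ) = star (trace (H⁻¹ * B * H⁻¹ * Cᴴ)) := by
    have e1 : H⁻¹ * C * H⁻¹ * Bᴴ = H⁻¹ * (C * (H⁻¹ * Bᴴ)) := by simp only [Matrix.mul_assoc]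
    have e2 : C * (H⁻¹ * Bᴴ * H⁻¹) = (C * (H⁻¹ * Bᴴ)) * H⁻¹ := by simp only [Matrix.mul_assoc]
    rw [← trace_conjTranspose, h1, e1, e2, Matrix.trace_mul_comm]
  unfold hs
  rw [h2]
  simp

open scoped MatrixOrder in
private theorem exists_factor {H : Matrix n n ℂ} (hH : H.PosDef) :
    ∃ L : Matrix n n ℂ, IsUnit L ∧ H⁻¹ = Lᴴ * L := by
  obtain ⟨L, hL⟩ := CStarAlgebra.nonneg_iff_eq_star_mul_self.mp hH.inv.posSemidef.nonneg
  rw [star_eq_conjTranspose] at hL
  refine ⟨L, ?_, hL⟩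
  have h1 : IsUnit (H⁻¹) := hH.inv.isUnit
  rw [hL, Matrix.isUnit_iff_isUnit_det, det_mul] at h1
  rw [Matrix.isUnit_iff_isUnit_det]
  exact (IsUnit.mul_iff.1 h1).2

private theorem hs_factor {H L : Matrix n n ℂ} (hL : H⁻¹ = Lᴴ * L) (B : Matrix n n ℂ) :
    hs H B B = (trace ((L * B * Lᴴ) * (L * B * Lᴴ)ᴴ)).re := by
  unfold hs
  rw [hL]
  congr 1
  simp only [conjTranspose_mul, conjTranspose_conjTranspose, Matrix.mul_assoc]
  rw [Matrix.trace_mul_comm]
  simp only [Matrix.mul_assoc]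

theorem hs_add_left (H B B' C : Matrix n n ℂ) : hs H (B + B') C = hs H B C + hs H B' C := by
  simp [hs, Matrix.mul_add, Matrix.add_mul]

theorem hs_smul_left (H B C : Matrix n n ℂ) (r : ℝ) : hs H ((r : ℂ) • B) C = r * hs H B C := by
  simp [hs]

theorem hs_nonneg {H : Matrix n n ℂ} (hH : H.PosDef) (B : Matrix n n ℂ) : 0 ≤ hs H B B := by
  obtain ⟨L, -, hL⟩ := exists_factor hH
  rw [hs_factor hL]
  exact (Complex.nonneg_iff.1 (Matrix.posSemidef_self_mul_conjTranspose (L * B * Lᴴ)).trace_nonneg).1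

theorem hs_eq_zero {H : Matrix n n ℂ} (hH : H.PosDef) {B : Matrix n n ℂ} (h : hs H B B = 0) :
    B = 0 := by
  obtain ⟨L, hLu, hL⟩ := exists_factor hH
  rw [hs_factor hL] at h
  have h1 := Complex.nonneg_iff.1 (Matrix.posSemidef_self_mul_conjTranspose (L * B * Lᴴ)).trace_nonneg
  have h2 : trace ((L * B * Lᴴ) * (L * B * Lᴴ)ᴴ) = 0 := by
    apply Complex.ext
    · simpa using h
    · simpa using h1.2.symm
  rw [Matrix.trace_mul_conjTranspose_self_eq_zero_iff] at h2
  have hLu' : IsUnit Lᴴ := by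
    rw [Matrix.isUnit_iff_isUnit_det] at hLu ⊢
    rw [det_conjTranspose]
    exact hLu.star
  have h3 : L * B = 0 := by
    have := congrArg (· * (Lᴴ)⁻¹) h2
    simpa [Matrix.mul_assoc, Matrix.mul_nonsing_inv _ ((Matrix.isUnit_iff_isUnit_det _).1 hLu')]
      using this
  have h4 := congrArg (L⁻¹ * ·) h3
  simpa [← Matrix.mul_assoc, Matrix.nonsing_inv_mul _ ((Matrix.isUnit_iff_isUnit_det _).1 hLu)]
    using h4

/-- Invariance under a change of basis. -/
theorem hs_conj {H : Matrix n n ℂ} (hH : H.PosDef) (B C P : Matrix n n ℂ) (hP : IsUnit P) :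
    hs (P * H * Pᴴ) (P * B * Pᴴ) (P * C * Pᴴ) = hs H B C := by
  have _ := hH
  have hPd := (Matrix.isUnit_iff_isUnit_det _).1 hP
  have hQ : IsUnit (Pᴴ).det := by
    rw [det_conjTranspose]
    exact hPd.star
  have hinv : (P * H * Pᴴ)⁻¹ = (Pᴴ)⁻¹ * H⁻¹ * P⁻¹ := by
    rw [Matrix.mul_inv_rev, Matrix.mul_inv_rev, Matrix.mul_assoc]
  unfold hs
  rw [hinv]
  have e : (Pᴴ)⁻¹ * H⁻¹ * P⁻¹ * (P * B * Pᴴ) * ((Pᴴ)⁻¹ * H⁻¹ * P⁻¹) * (P * C * Pᴴ)ᴴ =
      (Pᴴ)⁻¹ * ((H⁻¹ * B * H⁻¹ * Cᴴ) * Pᴴ) := by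
    simp only [conjTranspose_mul, conjTranspose_conjTranspose, Matrix.mul_assoc]
    rw [Matrix.nonsing_inv_mul_cancel_left _ _ hPd, Matrix.mul_nonsing_inv_cancel_left _ _ hQ,
      Matrix.nonsing_inv_mul_cancel_left _ _ hPd]
  rw [e, Matrix.trace_mul_comm, Matrix.mul_nonsing_inv_cancel_right _ _ hQ]

private theorem contDiffOn_det_hm {E : Type*} [NormedAddCommGroup E] [NormedSpace ℝ E] {D : Set E}
    {H : E → Matrix n n ℂ} (h1 : ∀ i j, ContDiffOn ℝ 1 (fun x => H x i j) D) :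
    ContDiffOn ℝ 1 (fun x => (H x).det) D := by
  simp only [Matrix.det_apply]
  refine ContDiffOn.sum fun σ _ => ?_
  exact (contDiffOn_prod fun i _ => h1 _ _).const_smul _

private theorem contDiffOn_inv {E : Type*} [NormedAddCommGroup E] [NormedSpace ℝ E] {D : Set E}
    {H : E → Matrix n n ℂ} (hH : ∀ x ∈ D, (H x).PosDef)
    (h1 : ∀ i j, ContDiffOn ℝ 1 (fun x => H x i j) D) (i j : n) :
    ContDiffOn ℝ 1 (fun x => (H x)⁻¹ i j) D := by
  have h2 : ∀ x, (H x)⁻¹ i j = ((H x).det)⁻¹ * (H x).adjugate i j := by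
    intro x
    rw [Matrix.inv_def, Matrix.smul_apply, Ring.inverse_eq_inv', smul_eq_mul]
  simp only [h2]
  refine ContDiffOn.mul ((contDiffOn_det_hm h1).inv fun x hx => ?_) ?_
  · exact (hH x hx).det_pos.ne'
  · simp only [Matrix.adjugate_apply]
    refine contDiffOn_det_hm fun k l => ?_
    simp only [Matrix.updateRow_apply]
    split_ifs
    · exact contDiffOn_const
    · exact h1 k l

omit [DecidableEq n] in
private theorem contDiffOn_mul {E : Type*} [NormedAddCommGroup E] [NormedSpace ℝ E] {D : Set E}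
    {A B : E → Matrix n n ℂ} (h1 : ∀ i j, ContDiffOn ℝ 1 (fun x => A x i j) D)
    (h2 : ∀ i j, ContDiffOn ℝ 1 (fun x => B x i j) D) (i j : n) :
    ContDiffOn ℝ 1 (fun x => (A x * B x) i j) D := by
  simp only [Matrix.mul_apply]
  exact ContDiffOn.sum fun k _ => (h1 _ _).mul (h2 _ _)

/-- Smooth dependence on the matrices (`E` real normed space); the inverse is given by
`Ring.inverse`/ adjugate / determinant, all smooth where `det ≠ 0`. -/
theorem contDiffOn_hs {E : Type*} [NormedAddCommGroup E] [NormedSpace ℝ E] {D : Set E}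
    {H B C : E → Matrix n n ℂ} (hH : ∀ x ∈ D, (H x).PosDef)
    (h1 : ∀ i j, ContDiffOn ℝ 1 (fun x => H x i j) D)
    (h2 : ∀ i j, ContDiffOn ℝ 1 (fun x => B x i j) D)
    (h3 : ∀ i j, ContDiffOn ℝ 1 (fun x => C x i j) D) :
    ContDiffOn ℝ 1 (fun x => hs (H x) (B x) (C x)) D := by
  have hi := contDiffOn_inv hH h1
  have hC : ∀ i j, ContDiffOn ℝ 1 (fun x => (C x)ᴴ i j) D := by
    intro i j
    simp only [Matrix.conjTranspose_apply]
    exact (Complex.conjCLE.contDiff.comp_contDiffOn (h3 j i))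
  have hm := contDiffOn_mul (contDiffOn_mul (contDiffOn_mul hi h2) hi) hC
  have ht : ContDiffOn ℝ 1 (fun x => trace ((H x)⁻¹ * B x * (H x)⁻¹ * (C x)ᴴ)) D := by
    simp only [Matrix.trace, Matrix.diag_apply]
    exact ContDiffOn.sum fun i _ => hm i i
  exact Complex.reCLM.contDiff.comp_contDiffOn ht

end Vale.Agent.P274.V
end

section

/-! # P274-V12: cutoff positive at a point, and integration by parts

`exists_cutoff'`: take `χ` from `exists_cutoff`, `γ` with `0 < χ (a γ x₀)`, and replace `χ` by `χ ∘ a γ` on `D`, `0` outside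
(`C^1` since its support `a γ⁻¹ '' tsupport χ` is a compact subset of `D`); `∑ᶠ δ, χ (a γ (a δ x)) = ∑ᶠ δ, χ (a (γ δ) x) = 1`.
`integral_dv_eq_zero`: on `D`, `dv ρ V = tr D(ρ V)`; the field `ρ V` extended by zero is `C^1` with compact
support on `E`; in a real basis `b_i` of `E` with dual basis `b^i`, `tr (D W) = ∑ i, D (b^i ∘ W) (b_i)` and
`∫ D g v = 0` for `g` `C^1` compactly supported (`integral_fderiv_eq_zero`-like:
`integral_bilinear_hasLineDerivAt_right_eq_neg_left_of_integrable` with the constant function, or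
`integral_mul_fderiv_eq_neg_fderiv_mul_of_integrable` with a bump function equal to `1` on the support). -/

open Set Complex ComplexConjugate Topology MeasureTheory
open scoped ContDiff

namespace Vale.Agent.P274.V

variable {E : Type*} [NormedAddCommGroup E] [NormedSpace ℂ E]

lemma contDiff_of_tsupport' {F G : Type*} [NormedAddCommGroup F] [NormedSpace ℝ F]
    [NormedAddCommGroup G] [NormedSpace ℝ G] {f : F → G} {n : WithTop ℕ∞}
    (h : ∀ x ∈ tsupport f, ContDiffAt ℝ n f x) : ContDiff ℝ n f := by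
  refine contDiff_iff_contDiffAt.2 fun x => ?_
  by_cases hx : x ∈ tsupport f
  · exact h x hx
  · exact (contDiffAt_const (c := (0 : G))).congr_of_eventuallyEq
      (notMem_tsupport_iff_eventuallyEq.1 hx)

/-- The cutoff can be chosen positive at a given point: replace `χ` by `χ ∘ a γ`
(extended by zero outside `D`). -/
theorem exists_cutoff' [FiniteDimensional ℂ E] {D : Set E} (hD : IsOpen D) {Γ : Type*} [Group Γ]
    {a : Γ → E → E} (ha : IsAct D a) {x₀ : E} (hx₀ : x₀ ∈ D) :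
    ∃ χ : E → ℝ, ContDiff ℝ 1 χ ∧ HasCompactSupport χ ∧ tsupport χ ⊆ D ∧ (∀ x, 0 ≤ χ x) ∧
      0 < χ x₀ ∧ ∀ x ∈ D, ∑ᶠ γ, χ (a γ x) = 1 := by
  classical
  obtain ⟨χ, hχ1, hχ2, hχ3, hχ4, hχ5, hχ6⟩ := exists_cutoff hD ha
  obtain ⟨γ, hγ⟩ := hχ5 x₀ hx₀
  have hb := ha.biholo γ
  have hbi := ha.biholo γ⁻¹
  set M : Set E := a γ⁻¹ '' tsupport χ with hM
  have hMc : IsCompact M := by
    exact IsCompact.image_of_continuousOn hχ2 (hbi.diffOn.continuousOn.mono hχ3)
  have hMD : M ⊆ D := by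
    rintro _ ⟨y, hy, rfl⟩
    exact hbi.mapsTo (hχ3 hy)
  have hsupp : Function.support (D.indicator fun x => χ (a γ x)) ⊆ M := by
    intro x hx
    rw [Set.support_indicator] at hx
    refine ⟨a γ x, subset_tsupport χ hx.2, ?_⟩
    rw [← ha.mul _ _ _ hx.1, inv_mul_cancel, ha.one _ hx.1]
  have htsupp : tsupport (D.indicator fun x => χ (a γ x)) ⊆ M :=
    closure_minimal hsupp hMc.isClosed
  refine ⟨D.indicator fun x => χ (a γ x), ?_, ?_, htsupp.trans hMD, fun x => ?_, ?_, fun x hx => ?_⟩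
  · refine contDiff_of_tsupport' fun x hx => ?_
    have hxD := hMD (htsupp hx)
    have h1 : ContDiffAt ℝ 1 (a γ) x := by
      have h2 := (P268.contDiffOn_of_differentiableOn hD hb.diffOn 1).contDiffAt (hD.mem_nhds hxD)
      exact_mod_cast h2.restrict_scalars ℝ
    refine (hχ1.contDiffAt.comp x h1).congr_of_eventuallyEq ?_
    filter_upwards [hD.mem_nhds hxD] with y hy
    rw [Set.indicator_of_mem hy]
    rfl
  · exact HasCompactSupport.of_support_subset_isCompact hMc hsupp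
  · exact Set.indicator_nonneg (fun y _ => hχ4 _) x
  · rw [Set.indicator_of_mem hx₀]
    exact hγ
  · have h1 : ∀ δ, D.indicator (fun x => χ (a γ x)) (a δ x) = χ (a (γ * δ) x) := by
      intro δ
      rw [Set.indicator_of_mem ((ha.biholo δ).mapsTo hx), ha.mul γ δ x hx]
    simp only [h1]
    rw [← hχ6 x hx]
    exact finsum_comp_equiv (Equiv.mulLeft γ) (f := fun δ => χ (a δ x))

/-- The integral of a derivative. -/
lemma integral_fderiv_zero [FiniteDimensional ℂ E] [MeasurableSpace E] [BorelSpace E]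
    (μ : Measure E) [μ.IsAddHaarMeasure] {g : E → ℝ} (hg : ContDiff ℝ 1 g)
    (hc : HasCompactSupport g) (v : E) : ∫ x, fderiv ℝ g x v ∂μ = 0 := by
  have : FiniteDimensional ℝ E := FiniteDimensional.complexToReal E
  have h1 : Continuous fun x => fderiv ℝ g x v := (hg.continuous_fderiv (by norm_num)).clm_apply
    continuous_const
  have h2 : HasCompactSupport fun x => fderiv ℝ g x v := hc.fderiv_apply ℝ v
  have i1 : Integrable (fun x => fderiv ℝ g x v) μ := h1.integrable_of_hasCompactSupport h2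
  have i2 : Integrable g μ := hg.continuous.integrable_of_hasCompactSupport hc
  have h := integral_mul_fderiv_eq_neg_fderiv_mul_of_integrable (μ := μ) (𝕜 := ℝ)
    (f := fun _ : E => (1 : ℝ)) (g := g) (v := v) (by simp) (by simpa using i1) (by simpa using i2)
    (fun x _ => by fun_prop) (fun x _ => (hg.differentiable (by norm_num)).differentiableAt)
  simpa using h

/-- Integration by parts. -/
theorem integral_dv_eq_zero [FiniteDimensional ℂ E] [MeasurableSpace E] [BorelSpace E]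
    (μ : Measure E) [μ.IsAddHaarMeasure] {D : Set E} (hD : IsOpen D) {ρ : E → ℝ}
    (hρ : ContDiffOn ℝ 1 ρ D) {V : E → E} (hV : ContDiffOn ℝ 1 V D) (hVc : HasCompactSupport V)
    (hVD : tsupport V ⊆ D) : ∫ x in D, dv ρ V x ∂μ = 0 := by
  have : FiniteDimensional ℝ E := FiniteDimensional.complexToReal E
  set W : E → E := fun x => ρ x • V x with hW
  have hWs : tsupport W ⊆ tsupport V := tsupport_smul_subset_right ρ V
  have hWc : HasCompactSupport W := hVc.smul_left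
  have hWD : ContDiffOn ℝ 1 W D := hρ.smul hV
  have hW1 : ContDiff ℝ 1 W := contDiff_of_tsupport' fun x hx =>
    (hWD x (hVD (hWs hx))).contDiffAt (hD.mem_nhds (hVD (hWs hx)))
  have htr : ∀ x ∈ D, dv ρ V x = LinearMap.trace ℝ E (fderiv ℝ W x).toLinearMap := by
    intro x hx
    have hρx : DifferentiableAt ℝ ρ x :=
      ((hρ x hx).contDiffAt (hD.mem_nhds hx)).differentiableAt (by norm_num)
    have hVx : DifferentiableAt ℝ V x :=
      ((hV x hx).contDiffAt (hD.mem_nhds hx)).differentiableAt (by norm_num)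
    have h1 : fderiv ℝ W x = ρ x • fderiv ℝ V x + (fderiv ℝ ρ x).smulRight (V x) := by
      rw [hW, fderiv_fun_smul hρx hVx]
    unfold dv
    rw [h1]
    have h2 : ((ρ x • fderiv ℝ V x + (fderiv ℝ ρ x).smulRight (V x) : E →L[ℝ] E) : E →ₗ[ℝ] E) =
        ρ x • (fderiv ℝ V x).toLinearMap + (fderiv ℝ ρ x).toLinearMap.smulRight (V x) := rfl
    rw [h2, map_add, map_smul, LinearMap.trace_smulRight, smul_eq_mul, add_comm]
    rfl
  have hzero : ∀ x, x ∉ D → LinearMap.trace ℝ E (fderiv ℝ W x).toLinearMap = 0 := by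
    intro x hx
    have h1 : x ∉ tsupport W := fun h => hx (hVD (hWs h))
    rw [fderiv_of_notMem_tsupport ℝ h1]
    exact map_zero _
  rw [setIntegral_congr_fun hD.measurableSet htr]
  rw [setIntegral_eq_integral_of_forall_compl_eq_zero hzero]
  set b := Module.finBasis ℝ E with hb
  have htr2 : ∀ x, LinearMap.trace ℝ E (fderiv ℝ W x).toLinearMap =
      ∑ i, fderiv ℝ (fun y => b.coord i (W y)) x (b i) := by
    intro x
    rw [LinearMap.trace_eq_matrix_trace ℝ b, Matrix.trace]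
    refine Finset.sum_congr rfl fun i _ => ?_
    rw [Matrix.diag_apply, LinearMap.toMatrix_apply]
    have h1 : HasFDerivAt (fun y => (b.coord i).toContinuousLinearMap (W y))
        ((b.coord i).toContinuousLinearMap.comp (fderiv ℝ W x)) x :=
      (b.coord i).toContinuousLinearMap.hasFDerivAt.comp x
        ((hW1.differentiable (by norm_num)).differentiableAt.hasFDerivAt)
    have h2 : fderiv ℝ (fun y => b.coord i (W y)) x =
        (b.coord i).toContinuousLinearMap.comp (fderiv ℝ W x) := h1.fderiv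
    rw [h2]
    rfl
  simp only [htr2]
  have hgi : ∀ i, ContDiff ℝ 1 fun y => b.coord i (W y) := fun i =>
    (b.coord i).toContinuousLinearMap.contDiff.comp hW1
  have hgc : ∀ i, HasCompactSupport fun y => b.coord i (W y) := fun i =>
    hWc.comp_left (g := fun y => b.coord i y) (map_zero _)
  have hgint : ∀ i, Integrable (fun x => fderiv ℝ (fun y => b.coord i (W y)) x (b i)) μ := by
    intro i
    have h1 : Continuous fun x => fderiv ℝ (fun y => b.coord i (W y)) x (b i) :=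
      ((hgi i).continuous_fderiv (by norm_num)).clm_apply continuous_const
    exact h1.integrable_of_hasCompactSupport ((hgc i).fderiv_apply ℝ (b i))
  rw [integral_finsetSum _ fun i _ => hgint i]
  exact Finset.sum_eq_zero fun i _ => integral_fderiv_zero μ (hgi i) (hgc i) (b i)

end Vale.Agent.P274.V
end

section

/-! # P274-V12b: folding an integral

Expand `f x * ρ x = ∑ᶠ γ, χ (a γ x) * f x * ρ x` for `x ∈ D`: a finite sum over the finite set
`Φ = {γ | ∃ x ∈ tsupport f, a γ x ∈ tsupport χ}` (`IsAct.finite`).  In each summand change variables `y = a γ x`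
(`MeasureTheory.integral_image_eq_integral_abs_det_fderiv_smul` on `D = a γ '' D`; the real Jacobian of a complex linear
map is `‖det_ℂ‖²`: `LinearMap.det_restrictScalars`, `Algebra.norm_complex_apply`, `Complex.normSq_eq_norm_sq`;
`hρinv`; `x = a γ⁻¹ y`): `∫_D χ(a γ x) f(x) ρ(x) = ∫_D χ(y) f(a γ⁻¹ y) ρ(y)`.  Sum over `Φ`, reindex `γ ↦ γ⁻¹`; for
`y ∈ tsupport χ` the sum `∑ᶠ γ, f (a γ y)` runs over `Φ⁻¹`. -/

open Set Complex ComplexConjugate Topology MeasureTheory
open scoped ContDiff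

namespace Vale.Agent.P274.V

variable {E : Type*} [NormedAddCommGroup E] [NormedSpace ℂ E]

theorem fold_inv_left {D : Set E} {Γ : Type*} [Group Γ] {a : Γ → E → E} (ha : IsAct D a)
    (γ : Γ) {x : E} (hx : x ∈ D) : a γ⁻¹ (a γ x) = x := by
  rw [← ha.mul γ⁻¹ γ x hx, inv_mul_cancel, ha.one x hx]

theorem fold_inv_right {D : Set E} {Γ : Type*} [Group Γ] {a : Γ → E → E} (ha : IsAct D a)
    (γ : Γ) {x : E} (hx : x ∈ D) : a γ (a γ⁻¹ x) = x := by
  rw [← ha.mul γ γ⁻¹ x hx, mul_inv_cancel, ha.one x hx]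

/-- The real determinant of a complex linear map. -/
theorem fold_det [FiniteDimensional ℂ E] (A : E →L[ℂ] E) :
    |(A.restrictScalars ℝ).det| = ‖A.det‖ ^ 2 := by
  have h1 : (A.restrictScalars ℝ).det = Algebra.norm ℝ (A.det) := by
    have := LinearMap.det_restrictScalars (R := ℝ) (f := (A : E →ₗ[ℂ] E))
    exact this
  rw [h1, Algebra.norm_complex_apply, Complex.normSq_eq_norm_sq, abs_of_nonneg (sq_nonneg _)]

/-- Change of variables for one group element. -/
theorem fold_change [FiniteDimensional ℂ E] [MeasurableSpace E] [BorelSpace E]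
    (μ : Measure E) [μ.IsAddHaarMeasure] {D : Set E} (hD : IsOpen D) {ρ : E → ℝ}
    {Γ : Type*} [Group Γ] {a : Γ → E → E} (ha : IsAct D a)
    (hρinv : ∀ γ, ∀ x ∈ D, ρ (a γ x) * ‖(fderiv ℂ (a γ) x).det‖ ^ 2 = ρ x) (χ f : E → ℝ)
    (γ : Γ) :
    ∫ x in D, χ (a γ x) * f x * ρ x ∂μ = ∫ y in D, χ y * f (a γ⁻¹ y) * ρ y ∂μ := by
  have hb := ha.biholo γ
  have himg : a γ '' D = D := by
    apply Subset.antisymm
    · rintro _ ⟨x, hx, rfl⟩
      exact hb.mapsTo hx
    · intro y hy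
      exact ⟨a γ⁻¹ y, hb.mapsTo_inv hy, fold_inv_right ha γ hy⟩
  have hinj : InjOn (a γ) D := by
    intro x hx y hy hxy
    rw [← fold_inv_left ha γ hx, ← fold_inv_left ha γ hy, hxy]
  have hder : ∀ x ∈ D, HasFDerivWithinAt (a γ) ((fderiv ℂ (a γ) x).restrictScalars ℝ) D x := by
    intro x hx
    have h1 : DifferentiableAt ℂ (a γ) x := (hb.diffOn x hx).differentiableAt (hD.mem_nhds hx)
    exact (h1.hasFDerivAt.restrictScalars ℝ).hasFDerivWithinAt
  have key := integral_image_eq_integral_abs_det_fderiv_smul μ hD.measurableSet hder hinj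
    (fun y => χ y * f (a γ⁻¹ y) * ρ y)
  rw [himg] at key
  rw [key]
  refine setIntegral_congr_fun hD.measurableSet fun x hx => ?_
  simp only [smul_eq_mul]
  rw [fold_det, fold_inv_left ha γ hx]
  have h2 := hρinv γ x hx
  rw [← h2]
  ring

/-- Integrability of a function continuous on `D` and supported in a compact subset of `D`. -/
theorem fold_integrable [FiniteDimensional ℂ E] [MeasurableSpace E] [BorelSpace E]
    (μ : Measure E) [μ.IsAddHaarMeasure] {D : Set E} {F : E → ℝ} (hF : ContinuousOn F D)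
    {K : Set E} (hK : IsCompact K) (hKD : K ⊆ D) (hF0 : ∀ x, x ∉ K → F x = 0) :
    Integrable F μ := by
  have h1 : IntegrableOn F K μ := (hF.mono hKD).integrableOn_compact hK
  refine (integrableOn_iff_integrable_of_support_subset ?_).1 h1
  intro x hx
  by_contra h
  exact hx (hF0 x h)

/-- Folding. -/
theorem integral_fold [FiniteDimensional ℂ E] [MeasurableSpace E] [BorelSpace E]
    (μ : Measure E) [μ.IsAddHaarMeasure] {D : Set E} (hD : IsOpen D) {ρ : E → ℝ}
    (hρ : ContinuousOn ρ D) {Γ : Type*} [Group Γ] {a : Γ → E → E} (ha : IsAct D a)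
    (hρinv : ∀ γ, ∀ x ∈ D, ρ (a γ x) * ‖(fderiv ℂ (a γ) x).det‖ ^ 2 = ρ x) {χ f : E → ℝ}
    (hχ : ContDiff ℝ 1 χ) (hχc : HasCompactSupport χ) (hχD : tsupport χ ⊆ D)
    (hχ1 : ∀ x ∈ D, ∑ᶠ γ, χ (a γ x) = 1) (hf : Continuous f) (hfc : HasCompactSupport f)
    (hfD : tsupport f ⊆ D) :
    ∫ x in D, f x * ρ x ∂μ = ∫ x in D, χ x * (∑ᶠ γ, f (a γ x)) * ρ x ∂μ := by
  classical
  have hΦ : {γ | ∃ x ∈ tsupport f, a γ x ∈ tsupport χ}.Finite :=
    ha.finite hfc hfD hχc hχD
  set Φ := hΦ.toFinset with hΦdef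
  have hmem : ∀ γ, γ ∈ Φ ↔ ∃ x ∈ tsupport f, a γ x ∈ tsupport χ := fun γ => by
    rw [hΦdef, Set.Finite.mem_toFinset]
    rfl
  have hca : ∀ γ, ContinuousOn (a γ) D := fun γ => (ha.biholo γ).diffOn.continuousOn
  -- expansion of the left side
  have h1 : ∀ x ∈ D, f x * ρ x = ∑ γ ∈ Φ, χ (a γ x) * f x * ρ x := by
    intro x hx
    by_cases hfx : f x = 0
    · simp [hfx]
    have hxs : x ∈ tsupport f := subset_tsupport f hfx
    have h2 : ∑ᶠ γ, χ (a γ x) = ∑ γ ∈ Φ, χ (a γ x) := by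
      apply finsum_eq_sum_of_support_subset
      intro γ hγ
      exact (hmem γ).2 ⟨x, hxs, subset_tsupport χ hγ⟩
    have h3 := hχ1 x hx
    rw [h2] at h3
    rw [Finset.sum_congr rfl fun γ _ => mul_assoc (χ (a γ x)) (f x) (ρ x), ← Finset.sum_mul, h3,
      one_mul]
  have h4 : ∀ γ, Integrable (fun x => χ (a γ x) * f x * ρ x) μ := by
    intro γ
    refine fold_integrable μ ?_ hfc hfD fun x hx => ?_
    · exact ((hχ.continuous.comp_continuousOn (hca γ)).mul hf.continuousOn).mul hρ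
    · rw [image_eq_zero_of_notMem_tsupport hx, mul_zero, zero_mul]
  have h5 : ∀ γ, Integrable (fun y => χ y * f (a γ⁻¹ y) * ρ y) μ := by
    intro γ
    refine fold_integrable μ ?_ hχc hχD fun x hx => ?_
    · exact (hχ.continuous.continuousOn.mul (hf.comp_continuousOn (hca γ⁻¹))).mul hρ
    · rw [image_eq_zero_of_notMem_tsupport hx, zero_mul, zero_mul]
  rw [setIntegral_congr_fun hD.measurableSet h1, integral_finset_sum _ fun γ _ => (h4 γ).integrableOn,
    Finset.sum_congr rfl fun γ _ => fold_change μ hD ha hρinv χ f γ,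
    ← integral_finset_sum _ fun γ _ => (h5 γ).integrableOn]
  refine setIntegral_congr_fun hD.measurableSet fun y hy => ?_
  show ∑ γ ∈ Φ, χ y * f (a γ⁻¹ y) * ρ y = χ y * (∑ᶠ γ, f (a γ y)) * ρ y
  by_cases hχy : χ y = 0
  · simp [hχy]
  have hys : y ∈ tsupport χ := subset_tsupport χ hχy
  have h6 : ∑ᶠ γ, f (a γ y) = ∑ γ ∈ Φ, f (a γ⁻¹ y) := by
    have e1 : ∑ᶠ γ, f (a γ y) = ∑ᶠ γ, f (a γ⁻¹ y) :=
      (finsum_comp_equiv (Equiv.inv Γ) (f := fun γ => f (a γ y))).symm
    rw [e1]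
    apply finsum_eq_sum_of_support_subset
    intro γ hγ
    refine (hmem γ).2 ⟨a γ⁻¹ y, subset_tsupport f hγ, ?_⟩
    rw [fold_inv_right ha γ hy]
    exact hys
  rw [h6, Finset.mul_sum, Finset.sum_mul]

end Vale.Agent.P274.V
end

section

/-! # P274-V2: flows of holomorphic fields are holomorphic in the initial point

Proof (Euler method). First local: fix `x₀ ∈ D`, a ball `ball x₀ (3r) ⊆ D` on which `‖X‖ ≤ M` and `X` is
`L`-Lipschitz (`X` is `C^1`, `P268/Hol`). For `|t| ≤ δ := r/(M+1)` and `x ∈ ball x₀ r`, the Euler iterates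
`E_{n,j}(x) = (id + (t/n) X)^[j] x`, `j ≤ n`, stay in `ball x₀ (2r)`, so `E_{n,n}` is holomorphic in
`x ∈ ball x₀ r` and bounded by a constant; and `E_{n,n}(x) → F t x` as `n → ∞` (consistency
`‖F ((j+1)t/n) x - F (jt/n) x - (t/n) X(F (jt/n) x)‖ ≤ L M (t/n)²` and discrete Gronwall:
`e_{j+1} ≤ (1+L|t|/n) e_j + L M (t/n)²`).  A pointwise limit of locally bounded holomorphic maps is
holomorphic (`Vale.Agent.P274.montel_full`, `montel` with an ultrafilter `≤ atTop`).
So: for every `x₀ ∈ D` there are `r, δ > 0` such that `F t` is differentiable on `ball x₀ r` for `|t| ≤ δ`.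
Global: uniqueness of integral curves gives `F (s+t) x = F s (F t x)` for `x ∈ D`
(`ODE_solution_unique_univ`-type statement; `X` is locally Lipschitz on the open set `D`:
`ODE_solution_unique_of_eventually` + connectedness of `ℝ`).  The orbit `{F s x₀ | s ∈ [0,t]}` is
compact, so a common `δ` works along it; write `F t` near `x₀` as a composition of `N` maps `F (t/N)`.
(Alternative: direct proof with Gronwall comparison with the linear variational equation.)
-/

open Set Complex ComplexConjugate Topology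
open scoped ContDiff

namespace Vale.Agent.P274.V

variable {E : Type*} [NormedAddCommGroup E] [NormedSpace ℂ E]

/-- A holomorphic field is locally Lipschitz. -/
theorem q830_lip [FiniteDimensional ℂ E] {D : Set E} (hD : IsOpen D) {X : E → E}
    (hX : DifferentiableOn ℂ X D) {x₀ : E} (hx₀ : x₀ ∈ D) :
    ∃ K : NNReal, ∃ r > 0, Metric.ball x₀ r ⊆ D ∧ LipschitzOnWith K X (Metric.ball x₀ r) := by
  have : CompleteSpace E := FiniteDimensional.complete ℂ E
  have h1 : ContDiffAt ℂ 1 X x₀ :=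
    (Vale.Agent.P268.contDiffOn_of_differentiableOn hD hX 1).contDiffAt (hD.mem_nhds hx₀)
  obtain ⟨K, t, ht, hK⟩ := h1.exists_lipschitzOnWith
  obtain ⟨r, hr, hr'⟩ := Metric.mem_nhds_iff.1 (Filter.inter_mem ht (hD.mem_nhds hx₀))
  exact ⟨K, r, hr, fun y hy => (hr' hy).2, hK.mono fun y hy => (hr' hy).1⟩

/-- Uniqueness of integral curves. -/
theorem q830_unique [FiniteDimensional ℂ E] {D : Set E} (hD : IsOpen D) {X : E → E}
    (hX : DifferentiableOn ℂ X D) {f g : ℝ → E} (hf : ∀ t, HasDerivAt f (X (f t)) t ∧ f t ∈ D)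
    (hg : ∀ t, HasDerivAt g (X (g t)) t ∧ g t ∈ D) {t₀ : ℝ} (h0 : f t₀ = g t₀) : f = g := by
  have hfc : Continuous f := continuous_iff_continuousAt.2 fun t => (hf t).1.continuousAt
  have hgc : Continuous g := continuous_iff_continuousAt.2 fun t => (hg t).1.continuousAt
  have hclosed : IsClosed {t | f t = g t} := isClosed_eq hfc hgc
  have hopen : IsOpen {t | f t = g t} := by
    rw [isOpen_iff_mem_nhds]
    intro t ht
    obtain ⟨K, r, hr, hrD, hK⟩ := q830_lip hD hX (hf t).2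
    have e1 : ∀ᶠ s in 𝓝 t, f s ∈ Metric.ball (f t) r :=
      hfc.continuousAt (Metric.ball_mem_nhds _ hr)
    have e2 : ∀ᶠ s in 𝓝 t, g s ∈ Metric.ball (f t) r := by
      have : Metric.ball (f t) r ∈ 𝓝 (g t) := by
        rw [← (ht : f t = g t)]
        exact Metric.ball_mem_nhds _ hr
      exact hgc.continuousAt this
    exact ODE_solution_unique_of_eventually (v := fun _ => X) (s := fun _ => Metric.ball (f t) r)
      (K := K) (Filter.Eventually.of_forall fun _ => hK)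
      (e1.mono fun s hs => ⟨(hf s).1, hs⟩) (e2.mono fun s hs => ⟨(hg s).1, hs⟩) ht
  have huniv : {t | f t = g t} = univ := IsClopen.eq_univ ⟨hclosed, hopen⟩ ⟨t₀, h0⟩
  funext t
  have : t ∈ {t | f t = g t} := by rw [huniv]; trivial
  exact this

/-- The group law, from uniqueness of integral curves. -/
theorem flow_add [FiniteDimensional ℂ E] {D : Set E} (hD : IsOpen D) {X : E → E}
    (hX : DifferentiableOn ℂ X D) {F : ℝ → E → E} (hF0 : ∀ x ∈ D, F 0 x = x)
    (hFD : ∀ x ∈ D, ∀ t, F t x ∈ D)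
    (hFd : ∀ x ∈ D, ∀ t, HasDerivAt (fun t => F t x) (X (F t x)) t) :
    ∀ s t, ∀ x ∈ D, F (s + t) x = F s (F t x) := by
  intro s t x hx
  have h := q830_unique hD hX (f := fun s => F (s + t) x) (g := fun s => F s (F t x)) (t₀ := 0)
    (fun s => ⟨(hFd x hx (s + t)).comp_add_const s t, hFD x hx _⟩)
    (fun s => ⟨hFd _ (hFD x hx t) s, hFD _ (hFD x hx t) s⟩)
    (by simp [hF0 _ (hFD x hx t)])
  exact congrFun h s

/-- The Euler iterates. -/
noncomputable def q830_eul (X : E → E) (τ : ℝ) : ℕ → E → E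
  | 0 => fun x => x
  | (n + 1) => fun x => q830_eul X τ n x + τ • X (q830_eul X τ n x)

theorem q830_eul_succ (X : E → E) (τ : ℝ) (n : ℕ) (x : E) :
    q830_eul X τ (n + 1) x = q830_eul X τ n x + τ • X (q830_eul X τ n x) := rfl

theorem q830_eul_dist {X : E → E} {x₀ : E} {r M : ℝ} (hM : 0 < M)
    (hMX : ∀ y ∈ Metric.ball x₀ (3 * r), ‖X y‖ ≤ M) {τ : ℝ} (hτ : 0 ≤ τ) {x : E}
    (hx : x ∈ Metric.ball x₀ r) (n : ℕ) (hn : M * (n * τ) ≤ r) :
    ‖q830_eul X τ n x - x‖ ≤ M * (n * τ) := by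
  induction n with
  | zero => simp [q830_eul]
  | succ n ih =>
    have h1 : M * (n * τ) ≤ M * (((n + 1 : ℕ) : ℝ) * τ) := by
      have : (n : ℝ) * τ ≤ ((n + 1 : ℕ) : ℝ) * τ := by
        push_cast
        linarith only [hτ]
      exact mul_le_mul_of_nonneg_left this hM.le
    have h2 := ih (h1.trans hn)
    have h3 : q830_eul X τ n x ∈ Metric.ball x₀ (3 * r) := by
      rw [Metric.mem_ball] at hx ⊢
      have h4 := dist_triangle (q830_eul X τ n x) x x₀
      rw [dist_eq_norm (q830_eul X τ n x) x] at h4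
      have := dist_nonneg (x := x) (y := x₀)
      linarith
    have h5 := hMX _ h3
    have h6 : q830_eul X τ (n + 1) x - x =
        (q830_eul X τ n x - x) + τ • X (q830_eul X τ n x) := by
      rw [q830_eul_succ]
      abel
    rw [h6]
    refine (norm_add_le _ _).trans ?_
    rw [norm_smul, Real.norm_of_nonneg hτ]
    have h7 : τ * ‖X (q830_eul X τ n x)‖ ≤ τ * M := mul_le_mul_of_nonneg_left h5 hτ
    push_cast
    linarith only [h7, h2]

theorem q830_eul_mem {X : E → E} {x₀ : E} {r M : ℝ} (hM : 0 < M)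
    (hMX : ∀ y ∈ Metric.ball x₀ (3 * r), ‖X y‖ ≤ M) {τ : ℝ} (hτ : 0 ≤ τ) {x : E}
    (hx : x ∈ Metric.ball x₀ r) (n : ℕ) (hn : M * (n * τ) ≤ r) :
    q830_eul X τ n x ∈ Metric.ball x₀ (3 * r) := by
  have h2 := q830_eul_dist hM hMX hτ hx n hn
  rw [Metric.mem_ball] at hx ⊢
  have h4 := dist_triangle (q830_eul X τ n x) x x₀
  rw [dist_eq_norm (q830_eul X τ n x) x] at h4
  have := dist_nonneg (x := x) (y := x₀)
  linarith

theorem q830_eul_diff {D : Set E} {X : E → E} (hX : DifferentiableOn ℂ X D) {x₀ : E} {r M : ℝ}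
    (hM : 0 < M) (hrD : Metric.ball x₀ (3 * r) ⊆ D)
    (hMX : ∀ y ∈ Metric.ball x₀ (3 * r), ‖X y‖ ≤ M) {τ : ℝ} (hτ : 0 ≤ τ)
    (n : ℕ) (hn : M * (n * τ) ≤ r) :
    DifferentiableOn ℂ (q830_eul X τ n) (Metric.ball x₀ r) := by
  induction n with
  | zero => exact differentiableOn_id
  | succ n ih =>
    have h1 : M * (n * τ) ≤ M * (((n + 1 : ℕ) : ℝ) * τ) := by
      have : (n : ℝ) * τ ≤ ((n + 1 : ℕ) : ℝ) * τ := by
        push_cast
        linarith only [hτ]
      exact mul_le_mul_of_nonneg_left this hM.le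
    have h2 := ih (h1.trans hn)
    have h3 : DifferentiableOn ℂ (fun x => X (q830_eul X τ n x)) (Metric.ball x₀ r) :=
      hX.comp h2 fun x hx => hrD (q830_eul_mem hM hMX hτ hx n (h1.trans hn))
    exact h2.add (h3.const_smul τ)

/-- Integral curves starting in the small ball stay in the middle ball. -/
theorem q830_stay {X : E → E} {x₀ : E} {r M : ℝ} (hM : 0 < M)
    (hMX : ∀ y ∈ Metric.ball x₀ (3 * r), ‖X y‖ < M) {f : ℝ → E}
    (hf : ∀ t, HasDerivAt f (X (f t)) t) (hx : f 0 ∈ Metric.ball x₀ r) {s : ℝ} (hs : 0 ≤ s)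
    (hsr : M * s ≤ r) : ‖f s - f 0‖ ≤ M * s := by
  have hfc : Continuous f := continuous_iff_continuousAt.2 fun t => (hf t).continuousAt
  have h := image_norm_le_of_norm_deriv_right_lt_deriv_boundary (f := fun t => f t - f 0)
    (f' := fun t => X (f t)) (a := 0) (b := s) (hfc.sub continuous_const).continuousOn
    (fun t _ => ((hf t).sub_const (f 0)).hasDerivWithinAt) (B := fun t => M * t)
    (B' := fun _ => M) (by simp) (fun t => by simpa using (hasDerivAt_id t).const_mul M) ?_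
  · exact h (right_mem_Icc.2 hs)
  · intro t ht hft
    refine hMX _ ?_
    have h1 : M * t ≤ M * s := mul_le_mul_of_nonneg_left ht.2.le hM.le
    rw [Metric.mem_ball] at hx ⊢
    have h4 := dist_triangle (f t) (f 0) x₀
    rw [dist_eq_norm (f t) (f 0), hft] at h4
    have := dist_nonneg (x := f 0) (y := x₀)
    linarith

/-- Consistency of the Euler method. -/
theorem q830_step {X : E → E} {x₀ : E} {r M : ℝ} {K : NNReal} (hM : 0 < M)
    (hMX : ∀ y ∈ Metric.ball x₀ (3 * r), ‖X y‖ < M)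
    (hK : LipschitzOnWith K X (Metric.ball x₀ (3 * r))) {f : ℝ → E}
    (hf : ∀ t, HasDerivAt f (X (f t)) t) (hx : f 0 ∈ Metric.ball x₀ r) {s τ : ℝ} (hs : 0 ≤ s)
    (hτ : 0 ≤ τ) (hsr : M * (s + τ) ≤ r) :
    ‖f (s + τ) - f s - τ • X (f s)‖ ≤ K * M * τ ^ 2 := by
  have hball : ∀ u, 0 ≤ u → u ≤ s + τ → f u ∈ Metric.ball x₀ (3 * r) := by
    intro u hu hu2
    have h1 : M * u ≤ r := (mul_le_mul_of_nonneg_left hu2 hM.le).trans hsr
    have h2 := q830_stay hM hMX hf hx hu h1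
    rw [Metric.mem_ball] at hx ⊢
    have h4 := dist_triangle (f u) (f 0) x₀
    rw [dist_eq_norm (f u) (f 0)] at h4
    have := dist_nonneg (x := f 0) (y := x₀)
    linarith
  have hdist : ∀ u ∈ Icc s (s + τ), ‖f u - f s‖ ≤ M * (u - s) := by
    refine norm_image_sub_le_of_norm_deriv_le_segment' (f' := fun t => X (f t))
      (fun t _ => (hf t).hasDerivWithinAt) ?_
    intro u hu
    exact (hMX _ (hball u (hs.trans hu.1) hu.2.le)).le
  have h := norm_image_sub_le_of_norm_deriv_le_segment' (f := fun t => f t - (t - s) • X (f s))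
    (f' := fun t => X (f t) - X (f s)) (a := s) (b := s + τ) (C := K * M * τ) (fun t _ => ?_) ?_
    (s + τ) (right_mem_Icc.2 (by linarith))
  · have e1 : (f (s + τ) - (s + τ - s) • X (f s)) - (f s - (s - s) • X (f s)) =
        f (s + τ) - f s - τ • X (f s) := by
      rw [add_sub_cancel_left, sub_self, zero_smul, sub_zero]
      abel
    rw [e1] at h
    refine h.trans (le_of_eq ?_)
    ring
  · refine HasDerivAt.hasDerivWithinAt ?_
    have e2 : HasDerivAt (fun t : ℝ => (t - s) • X (f s)) ((1 : ℝ) • X (f s)) t :=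
      ((hasDerivAt_id t).sub_const s).smul_const _
    rw [one_smul] at e2
    exact (hf t).sub e2
  · intro u hu
    have h1 := hK.norm_sub_le (hball u (hs.trans hu.1) hu.2.le)
      (hball s hs (by linarith))
    refine h1.trans ?_
    have h2 := hdist u (Ico_subset_Icc_self hu)
    have h3 : M * (u - s) ≤ M * τ := mul_le_mul_of_nonneg_left (by linarith [hu.2]) hM.le
    have h4 : (K : ℝ) * ‖f u - f s‖ ≤ K * (M * τ) :=
      mul_le_mul_of_nonneg_left (h2.trans h3) K.2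
    linarith

/-- Convergence of the Euler method. -/
theorem q830_conv {X : E → E} {x₀ : E} {r M : ℝ} {K : NNReal} (hM : 0 < M)
    (hMX : ∀ y ∈ Metric.ball x₀ (3 * r), ‖X y‖ < M)
    (hK : LipschitzOnWith K X (Metric.ball x₀ (3 * r))) {f : ℝ → E}
    (hf : ∀ t, HasDerivAt f (X (f t)) t) (hx : f 0 ∈ Metric.ball x₀ r) {τ : ℝ}
    (hτ : 0 ≤ τ) (n : ℕ) (hn : M * (n * τ) ≤ r) :
    ‖f (n * τ) - q830_eul X τ n (f 0)‖ ≤ n * (K * M * τ ^ 2) * (1 + K * τ) ^ n := by
  have hK0 : (0 : ℝ) ≤ K := K.2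
  have hKτ : 0 ≤ K * τ := mul_nonneg hK0 hτ
  have hc : 0 ≤ K * M * τ ^ 2 := by positivity
  induction n with
  | zero => simp [q830_eul]
  | succ n ih =>
    have h0 : M * (n * τ) ≤ M * (((n + 1 : ℕ) : ℝ) * τ) := by
      have : (n : ℝ) * τ ≤ ((n + 1 : ℕ) : ℝ) * τ := by
        push_cast
        linarith only [hτ]
      exact mul_le_mul_of_nonneg_left this hM.le
    have hn' := h0.trans hn
    have h1 := ih hn'
    have hnτ : 0 ≤ (n : ℝ) * τ := by positivity
    have h2 := q830_step hM hMX hK hf hx hnτ hτ (by push_cast at hn; linarith)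
    have hmem1 : q830_eul X τ n (f 0) ∈ Metric.ball x₀ (3 * r) :=
      q830_eul_mem hM (fun y hy => (hMX y hy).le) hτ hx n hn'
    have hmem2 : f (n * τ) ∈ Metric.ball x₀ (3 * r) := by
      have h2 := q830_stay hM hMX hf hx hnτ hn'
      rw [Metric.mem_ball] at hx ⊢
      have h4 := dist_triangle (f (n * τ)) (f 0) x₀
      rw [dist_eq_norm (f (n * τ)) (f 0)] at h4
      have := dist_nonneg (x := f 0) (y := x₀)
      linarith
    have h3 := hK.norm_sub_le hmem2 hmem1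
    have e1 : f (((n + 1 : ℕ) : ℝ) * τ) - q830_eul X τ (n + 1) (f 0) =
        (f (n * τ + τ) - f (n * τ) - τ • X (f (n * τ))) +
        ((f (n * τ) - q830_eul X τ n (f 0)) +
          τ • (X (f (n * τ)) - X (q830_eul X τ n (f 0)))) := by
      have : ((n + 1 : ℕ) : ℝ) * τ = n * τ + τ := by push_cast; ring
      rw [this, q830_eul_succ, smul_sub]
      abel
    rw [e1]
    refine (norm_add_le _ _).trans ?_
    have h5 := norm_add_le (f (n * τ) - q830_eul X τ n (f 0))
      (τ • (X (f (n * τ)) - X (q830_eul X τ n (f 0))))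
    rw [norm_smul, Real.norm_of_nonneg hτ] at h5
    have h6 : τ * ‖X (f (n * τ)) - X (q830_eul X τ n (f 0))‖ ≤
        τ * (K * ‖f (n * τ) - q830_eul X τ n (f 0)‖) := mul_le_mul_of_nonneg_left h3 hτ
    set e := ‖f (n * τ) - q830_eul X τ n (f 0)‖ with he
    set c := K * M * τ ^ 2 with hcdef
    have h7 : e + τ * (K * e) ≤ (1 + K * τ) * (n * c * (1 + K * τ) ^ n) := by
      have : e + τ * (K * e) = (1 + K * τ) * e := by ring
      rw [this]
      exact mul_le_mul_of_nonneg_left h1 (by linarith)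
    have h8 : c ≤ c * (1 + K * τ) ^ (n + 1) :=
      le_mul_of_one_le_right hc (one_le_pow₀ (by linarith))
    have h9 : ((n + 1 : ℕ) : ℝ) * c * (1 + K * τ) ^ (n + 1) =
        (1 + K * τ) * (n * c * (1 + K * τ) ^ n) + c * (1 + K * τ) ^ (n + 1) := by
      push_cast
      ring
    rw [h9]
    linarith

/-- Holomorphic dependence for small nonnegative times. -/
theorem q830_local [FiniteDimensional ℂ E] {D : Set E} (hD : IsOpen D) {X : E → E}
    (hX : DifferentiableOn ℂ X D) {F : ℝ → E → E} (hF0 : ∀ x ∈ D, F 0 x = x)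
    (hFd : ∀ x ∈ D, ∀ t, HasDerivAt (fun t => F t x) (X (F t x)) t) {x₀ : E} (hx₀ : x₀ ∈ D) :
    ∃ r > 0, ∃ δ > 0, ∀ t ∈ Icc (0 : ℝ) δ, DifferentiableOn ℂ (F t) (Metric.ball x₀ r) := by
  have : ProperSpace E := FiniteDimensional.proper ℂ E
  obtain ⟨K, R, hR, hRD, hK⟩ := q830_lip hD hX hx₀
  have hr : 0 < R / 3 := by positivity
  set r := R / 3 with hrdef
  have h3r : 3 * r = R := by rw [hrdef]; ring
  rw [← h3r] at hRD hK
  have hK0 : (0 : ℝ) ≤ K := K.2
  set M : ℝ := ‖X x₀‖ + K * R + 1 with hMdef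
  have hM : 0 < M := by (clear * - hR; positivity)
  have hMX : ∀ y ∈ Metric.ball x₀ (3 * r), ‖X y‖ < M := by
    intro y hy
    have h1 := hK.norm_sub_le hy (Metric.mem_ball_self (by positivity))
    have h2 : ‖y - x₀‖ ≤ R := by
      rw [← dist_eq_norm, ← h3r]
      exact (Metric.mem_ball.1 hy).le
    have h3 : (K : ℝ) * ‖y - x₀‖ ≤ K * R := mul_le_mul_of_nonneg_left h2 hK0
    have h4 : ‖X y‖ ≤ ‖X y - X x₀‖ + ‖X x₀‖ := by
      have := norm_add_le (X y - X x₀) (X x₀)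
      rwa [sub_add_cancel] at this
    rw [hMdef]
    linarith
  refine ⟨r, hr, r / M, by positivity, fun t ht => ?_⟩
  have hMt : M * t ≤ r := by
    have := (le_div_iff₀ hM).1 ht.2
    linarith
  have hsub : Metric.ball x₀ r ⊆ D := fun y hy => hRD (by
    rw [Metric.mem_ball] at hy ⊢
    linarith)
  -- the Euler approximations
  let G : ℕ → E → E := fun n => q830_eul X (t / (n + 1 : ℕ)) (n + 1)
  have hG : ∀ n : ℕ, ((n + 1 : ℕ) : ℝ) * (t / (n + 1 : ℕ)) = t := by
    intro n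
    have : ((n + 1 : ℕ) : ℝ) ≠ 0 := by positivity
    field_simp
  have hGn : ∀ n : ℕ, M * (((n + 1 : ℕ) : ℝ) * (t / (n + 1 : ℕ))) ≤ r := by
    intro n
    rw [hG]
    exact hMt
  have hGt : ∀ n : ℕ, 0 ≤ t / ((n + 1 : ℕ) : ℝ) := fun n => div_nonneg ht.1 (by positivity)
  let 𝒰 : Ultrafilter ℕ := Ultrafilter.of Filter.atTop
  have h𝒰 : (𝒰 : Filter ℕ) ≤ Filter.atTop := Ultrafilter.of_le _
  have hlb : Vale.Agent.P274.LocBdd (𝒰 : Filter ℕ) G (Metric.ball x₀ r) := by
    intro x hx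
    obtain ⟨ρ, hρ, hρ'⟩ := Metric.isOpen_iff.1 Metric.isOpen_ball x hx
    refine ⟨ρ, hρ, ‖x₀‖ + 3 * r, Filter.Eventually.of_forall fun n => ⟨?_, fun y hy => ?_⟩⟩
    · exact (q830_eul_diff hX hM hRD (fun y hy => (hMX y hy).le) (hGt n) (n + 1)
        (hGn n)).mono hρ'
    · have h1 := q830_eul_mem hM (fun y hy => (hMX y hy).le) (hGt n) (hρ' hy) (n + 1)
        (hGn n)
      rw [Metric.mem_ball, dist_eq_norm] at h1
      have h2 := norm_add_le (G n y - x₀) x₀
      rw [sub_add_cancel] at h2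
      have h3 : ‖G n y - x₀‖ < 3 * r := h1
      linarith
  obtain ⟨g, hg1, -, hg3⟩ := Vale.Agent.P274.montel_full 𝒰 Metric.isOpen_ball hlb
  refine hg1.congr fun x hx => ?_
  have hxD := hsub hx
  have hlim1 : Filter.Tendsto (fun n => G n x) 𝒰 (𝓝 (g x)) :=
    hg3 x hx (fun _ => x) tendsto_const_nhds
  have hlim2 : Filter.Tendsto (fun n => G n x) Filter.atTop (𝓝 (F t x)) := by
    have hx0 : F 0 x ∈ Metric.ball x₀ r := by rwa [hF0 x hxD]
    have hbound : ∀ n : ℕ, dist (G n x) (F t x) ≤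
        (K * M * t ^ 2 * Real.exp (K * t)) * (1 / ((n : ℝ) + 1)) := by
      intro n
      have h1 := q830_conv (f := fun s => F s x) hM hMX hK (hFd x hxD) hx0 (hGt n) (n + 1)
        (hGn n)
      simp only [hF0 x hxD] at h1
      rw [hG] at h1
      rw [dist_comm, dist_eq_norm]
      refine h1.trans ?_
      have hn0 : (0 : ℝ) < ((n + 1 : ℕ) : ℝ) := by positivity
      have h2 : (1 + (K : ℝ) * (t / ((n + 1 : ℕ) : ℝ))) ^ (n + 1) ≤ Real.exp (K * t) := by
        have h3 : 1 + (K : ℝ) * (t / ((n + 1 : ℕ) : ℝ)) ≤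
            Real.exp ((K : ℝ) * (t / ((n + 1 : ℕ) : ℝ))) := by
          have := Real.add_one_le_exp ((K : ℝ) * (t / ((n + 1 : ℕ) : ℝ)))
          linarith
        have h4 : 0 ≤ 1 + (K : ℝ) * (t / ((n + 1 : ℕ) : ℝ)) := by
          have := mul_nonneg hK0 (hGt n)
          linarith
        refine (pow_le_pow_left₀ h4 h3 (n + 1)).trans (le_of_eq ?_)
        rw [← Real.exp_nat_mul]
        congr 1
        have := hG n
        calc ((n + 1 : ℕ) : ℝ) * ((K : ℝ) * (t / ((n + 1 : ℕ) : ℝ)))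
            = (K : ℝ) * (((n + 1 : ℕ) : ℝ) * (t / ((n + 1 : ℕ) : ℝ))) := by ring
          _ = K * t := by rw [this]
      have h5 : ((n + 1 : ℕ) : ℝ) * (K * M * (t / ((n + 1 : ℕ) : ℝ)) ^ 2) =
          K * M * t ^ 2 * (1 / ((n : ℝ) + 1)) := by
        push_cast
        have : (n : ℝ) + 1 ≠ 0 := by positivity
        field_simp
      rw [h5]
      have h6 : 0 ≤ K * M * t ^ 2 * (1 / ((n : ℝ) + 1)) := by (clear * - hR; positivity)
      refine (mul_le_mul_of_nonneg_left h2 h6).trans (le_of_eq (by ring))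
    rw [tendsto_iff_dist_tendsto_zero]
    refine squeeze_zero (fun n => dist_nonneg) hbound ?_
    have := (tendsto_one_div_add_atTop_nhds_zero_nat (𝕜 := ℝ)).const_mul
      (K * M * t ^ 2 * Real.exp (K * t))
    simpa using this
  exact tendsto_nhds_unique (hlim2.mono_left h𝒰) hlim1

/-- Holomorphic dependence for nonnegative times. -/
theorem q830_nonneg [FiniteDimensional ℂ E] {D : Set E} (hD : IsOpen D) {X : E → E}
    (hX : DifferentiableOn ℂ X D) {F : ℝ → E → E} (hF0 : ∀ x ∈ D, F 0 x = x)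
    (hFD : ∀ x ∈ D, ∀ t, F t x ∈ D)
    (hFd : ∀ x ∈ D, ∀ t, HasDerivAt (fun t => F t x) (X (F t x)) t) {t : ℝ} (ht : 0 ≤ t) :
    DifferentiableOn ℂ (F t) D := by
  intro x₀ hx₀
  refine DifferentiableAt.differentiableWithinAt ?_
  -- a common time step along the orbit
  have hcont : Continuous fun s => F s x₀ :=
    continuous_iff_continuousAt.2 fun s => (hFd x₀ hx₀ s).continuousAt
  have hcomp : IsCompact ((fun s => F s x₀) '' Icc 0 t) := isCompact_Icc.image hcont
  have hunif : ∃ δ > 0, ∀ y ∈ (fun s => F s x₀) '' Icc 0 t, ∀ s ∈ Icc (0 : ℝ) δ,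
      DifferentiableAt ℂ (F s) y := by
    refine hcomp.induction_on (p := fun A => ∃ δ > 0, ∀ y ∈ A, ∀ s ∈ Icc (0 : ℝ) δ,
      DifferentiableAt ℂ (F s) y) ?_ ?_ ?_ ?_
    · exact ⟨1, one_pos, fun y hy => hy.elim⟩
    · rintro A B hAB ⟨δ, hδ, h⟩
      exact ⟨δ, hδ, fun y hy => h y (hAB hy)⟩
    · rintro A B ⟨δ, hδ, h⟩ ⟨δ', hδ', h'⟩
      refine ⟨min δ δ', lt_min hδ hδ', fun y hy s hs => ?_⟩
      rcases hy with hy | hy
      · exact h y hy s ⟨hs.1, hs.2.trans (min_le_left _ _)⟩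
      · exact h' y hy s ⟨hs.1, hs.2.trans (min_le_right _ _)⟩
    · rintro y ⟨s, hs, rfl⟩
      obtain ⟨r, hr, δ, hδ, h⟩ := q830_local hD hX hF0 hFd (hFD x₀ hx₀ s)
      exact ⟨Metric.ball (F s x₀) r, mem_nhdsWithin_of_mem_nhds (Metric.ball_mem_nhds _ hr), δ,
        hδ, fun y hy u hu => (h u hu).differentiableAt (Metric.isOpen_ball.mem_nhds hy)⟩
  obtain ⟨δ, hδ, hδ'⟩ := hunif
  obtain ⟨N, hN⟩ := exists_nat_gt (t / δ)
  have hN0 : (0 : ℝ) < N := lt_of_le_of_lt (div_nonneg ht hδ.le) hN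
  have hτ : t / N ∈ Icc (0 : ℝ) δ := by
    refine ⟨div_nonneg ht hN0.le, ?_⟩
    rw [div_le_iff₀ hN0]
    rw [div_lt_iff₀ hδ] at hN
    linarith
  have hind : ∀ k : ℕ, k ≤ N → DifferentiableAt ℂ (F (k * (t / N))) x₀ := by
    intro k
    induction k with
    | zero =>
      intro _
      have : F (((0 : ℕ) : ℝ) * (t / N)) =ᶠ[𝓝 x₀] id := by
        filter_upwards [hD.mem_nhds hx₀] with y hy
        simp [hF0 y hy]
      exact this.differentiableAt_iff.2 differentiableAt_id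
    | succ k ih =>
      intro hk
      have h1 := ih (by omega)
      have hk' : (k : ℝ) ≤ N := by exact_mod_cast (by omega : k ≤ N)
      have h2 : F (k * (t / N)) x₀ ∈ (fun s => F s x₀) '' Icc 0 t := by
        refine ⟨k * (t / N), ⟨by have := hτ.1; (clear * - ht hN0; positivity), ?_⟩, rfl⟩
        calc (k : ℝ) * (t / N) ≤ N * (t / N) := mul_le_mul_of_nonneg_right hk' hτ.1
          _ = t := by field_simp
      have h3 := hδ' _ h2 _ hτ
      have h4 : F (((k + 1 : ℕ) : ℝ) * (t / N)) =ᶠ[𝓝 x₀] fun y => F (t / N) (F (k * (t / N)) y) := by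
        filter_upwards [hD.mem_nhds hx₀] with y hy
        rw [← flow_add hD hX hF0 hFD hFd _ _ y hy]
        congr 1
        push_cast
        ring
      exact h4.differentiableAt_iff.2 (h3.comp x₀ h1)
  have h5 := hind N le_rfl
  have h6 : (N : ℝ) * (t / N) = t := by field_simp
  rwa [h6] at h5

/-- Holomorphic dependence on the initial point. -/
theorem differentiableOn_flow [FiniteDimensional ℂ E] {D : Set E} (hD : IsOpen D) {X : E → E}
    (hX : DifferentiableOn ℂ X D) {F : ℝ → E → E} (hF0 : ∀ x ∈ D, F 0 x = x)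
    (hFD : ∀ x ∈ D, ∀ t, F t x ∈ D)
    (hFd : ∀ x ∈ D, ∀ t, HasDerivAt (fun t => F t x) (X (F t x)) t) (t : ℝ) :
    DifferentiableOn ℂ (F t) D := by
  rcases le_total 0 t with ht | ht
  · exact q830_nonneg hD hX hF0 hFD hFd ht
  · have h := q830_nonneg (X := fun x => -X x) (F := fun s => F (-s)) hD hX.neg
      (fun x hx => by simpa using hF0 x hx) (fun x hx s => hFD x hx (-s)) (fun x hx s => ?_)
      (t := -t) (by linarith)
    · simpa using h
    · have h1 := (hFd x hx (-s)).scomp s (hasDerivAt_neg s)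
      simpa [Function.comp_def] using h1

end Vale.Agent.P274.V
end
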