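import Mathlib
import Vale.Agent.P274.Bdl.B1
import Vale.Agent.P274.Bdl.B2
import Vale.Agent.P274.Bdl.B4
import Vale.Agent.P274.Bdl.B5
import Vale.Agent.P274.Bdl.B6

set_option linter.all false

namespace AFast183968x9a
@[reducible] def a0 {x1 : Type} [x2 : NormedAddCommGroup x1] [x3 : NormedSpace ℂ x1] : Module ℂ (x1 × x1) := inferInstance
theorem a1 {x1 : Type} [x2 : NormedAddCommGroup x1] [x3 : NormedSpace ℂ x1] : ContinuousSMul ℂ (x1 × x1) := inferInstance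
theorem a2 : ContinuousAdd ℂ := inferInstance
theorem a3 : IsTopologicalRing ℂ := inferInstance
@[reducible] noncomputable def a4 {x1 : ℕ} : Module ℝ (Fin x1 → ℂ) := inferInstance
theorem a5 : IsSemitopologicalSemiring ℂ := inferInstance
@[reducible] def a6 {x1 : ℕ} : Module ℂ (Fin x1 → ℂ) := inferInstance
@[reducible] noncomputable def a7 : SMulZeroClass ℝ ℂ := inferInstance
@[reducible] noncomputable def a8 {x1 : ℕ} {x2 : Fin x1} : DistribMulAction ℝ ((fun a => ℂ) x2) := inferInstance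
theorem a9 : IsSemitopologicalRing ℂ := inferInstance
theorem a10 : IsTopologicalSemiring ℂ := inferInstance
theorem a11 : ContinuousSMul ℂ ℂ := inferInstance
@[reducible] noncomputable def a12 : DistribSMul ℝ ℂ := inferInstance
@[reducible] noncomputable def a13 : DistribMulAction ℝ ℂ := inferInstance
theorem a14 : IsModuleTopology ℂ ℂ := inferInstance
@[reducible] def a15 {x1 : Type} [x2 : NormedAddCommGroup x1] : AddCommMonoid (x1 × x1) := inferInstance
theorem a16 {x1 : ℕ} : IsTopologicalAddGroup (Fin x1 → ℂ) := inferInstance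
theorem a17 : CovariantClass ℝ ℝ (Function.swap fun x1 x2 => x1 + x2) fun x1 x2 => x1 ≤ x2 := inferInstance
@[reducible] noncomputable def a18 {x1 : Type} [x2 : NormedAddCommGroup x1] {x3 : ℕ} [x4 : NormedSpace ℂ x1] : Module ℝ (x1 →L[ℝ] Fin x3 → ℝ) := inferInstance
@[reducible] def a19 : Monoid ℂ := inferInstance
@[reducible] noncomputable def a20 {x1 : ℕ} : MulAction ℝ (Fin x1 → ℂ) := inferInstance
@[reducible] noncomputable def a21 : MulAction ℝ ℂ := inferInstance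
@[reducible] noncomputable def a22 {x1 : ℕ} : DistribMulAction ℝ (Fin x1 → ℂ) := inferInstance
theorem a23 {x1 : Type} [x2 : NormedAddCommGroup x1] : ContinuousAdd (x1 × x1) := inferInstance
@[reducible] def a24 {x1 : Type} [x2 : NormedAddCommGroup x1] : TopologicalSpace (x1 × x1) := inferInstance
theorem a25 : CharZero ℝ := inferInstance
@[reducible] def a26 {x1 : Type} [x2 : NormedAddCommGroup x1] : AddCommGroup (x1 × x1) := inferInstance
@[reducible] noncomputable def a27 : NormedSpace ℝ ℝ := inferInstance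
@[reducible] def a28.{u1} {x1 : Type u1} [x2 : NormedAddCommGroup x1] [x3 : NormedSpace ℂ x1] : Module ℂ (x1 × x1) := inferInstance
theorem a29 : IsTopologicalDivisionRing ℂ := inferInstance
theorem a30 : ContinuousConstSMul ℂ ℂ := inferInstance
theorem a31 : AddLeftMono ℝ := inferInstance
@[reducible] def a32 : SMulZeroClass ℂ ℂ := inferInstance
@[reducible] noncomputable def a33 {x1 : Type} [x2 : NormedAddCommGroup x1] {x3 : ℕ} [x4 : NormedSpace ℂ x1] : AddCommGroup (x1 →L[ℝ] Fin x3 → ℝ) := inferInstance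
@[reducible] def a34 {x1 : Type} [x2 : NormedAddCommGroup x1] [x3 : NormedSpace ℂ x1] : DistribMulAction ℂ (x1 × x1) := inferInstance
theorem a35 {x1 : Type} [x2 : NormedAddCommGroup x1] [x3 : NormedSpace ℂ x1] : IsScalarTower ℂ ℂ (x1 × x1) := inferInstance
@[reducible] def a36.{u1} {x1 : Type u1} {x2 : ℕ} [x3 : NormedAddCommGroup x1] [x4 : NormedSpace ℂ x1] : Module ℂ (x1 × (Fin x2 → ℂ)) := inferInstance
@[reducible] def a37 : SMulZeroClass ℝ ℝ := inferInstance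
@[reducible] def a38 {x1 : Type} [x2 : NormedAddCommGroup x1] [x3 : NormedSpace ℂ x1] : SMul ℂ (x1 × x1) := inferInstance
@[reducible] noncomputable def a39 {x1 : ℕ} : SemigroupAction ℝ (Fin x1 → ℂ) := inferInstance
@[reducible] def a40 {x1 : Type} [x2 : NormedAddCommGroup x1] [x3 : NormedSpace ℂ x1] : DistribSMul ℂ (x1 × x1) := inferInstance
@[reducible] noncomputable def a41 {x1 : Type} [x2 : NormedAddCommGroup x1] {x3 : Type} [x4 : NormedAddCommGroup x3] [x5 : NormedSpace ℂ x1] [x6 : NormedSpace ℂ x3] : NormedSpace ℂ (x1 →L[ℂ] x3) := inferInstance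
theorem a42 : ContinuousSMul ℝ ℝ := inferInstance
@[reducible] def a43 {x1 : Type} [x2 : NormedAddCommGroup x1] [x3 : NormedSpace ℂ x1] : SMulZeroClass ℂ (x1 × x1) := inferInstance
@[reducible] noncomputable def a44.{u1} {x1 : Type u1} [x2 : NormedAddCommGroup x1] [x3 : NormedSpace ℂ x1] : SMul ℂ (x1 × x1 →L[ℂ] ℂ) := inferInstance
theorem a45 : PosMulReflectLT ℝ := inferInstance
theorem a46 : PosMulReflectLE ℝ := inferInstance
@[reducible] def a47 : DistribMulAction ℂ ℂ := inferInstance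
@[reducible] noncomputable def a48.{u1} {x1 : Type u1} [x2 : NormedAddCommGroup x1] [x3 : NormedSpace ℂ x1] : Add (x1 × x1 →L[ℂ] ℂ) := inferInstance
theorem a49 {x1 : Type} [x2 : NormedAddCommGroup x1] [x3 : NormedSpace ℂ x1] : SMulCommClass ℂ ℂ (x1 × x1) := inferInstance
@[reducible] noncomputable def a50 {x1 : ℕ} : NormedSpace ℝ (Fin x1 → ℝ) := inferInstance
@[reducible] def a51 : DistribMulAction ℝ ℝ := inferInstance
@[reducible] noncomputable def a52 {x1 : Type} [x2 : NormedAddCommGroup x1] {x3 : ℕ} [x4 : NormedSpace ℂ x1] : TopologicalSpace (x1 →L[ℝ] Fin x3 → ℝ) := inferInstance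
theorem a53 : PosMulStrictMono ℝ := inferInstance
@[reducible] def a54.{u1} {x1 : Type u1} [x2 : NormedAddCommGroup x1] : AddCommMonoid (x1 × x1) := inferInstance
theorem a55 {x1 : ℕ} : ContinuousSMul ℂ (Fin x1 → ℂ) := inferInstance
theorem a56 {x1 : ℕ} : ContinuousAdd (Fin x1 → ℂ) := inferInstance
@[reducible] noncomputable def a57.{u1} {x1 : Type u1} [x2 : NormedAddCommGroup x1] {x3 : ℕ} [x4 : NormedSpace ℂ x1] : TopologicalSpace (x1 →L[ℝ] Fin x3 → ℂ) := inferInstance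
@[reducible] noncomputable def a58 {x1 : Type} [x2 : NormedAddCommGroup x1] [x3 : NormedSpace ℂ x1] : NormedSpace ℂ (x1 × x1) := inferInstance
theorem a59.{u1} {x1 : Type u1} [x2 : NormedAddCommGroup x1] [x3 : NormedSpace ℂ x1] : ContinuousConstSMul ℂ (x1 × x1) := inferInstance
theorem a60 : SeparatelyContinuousMul ℂ := inferInstance
@[reducible] noncomputable def a61.{u1} {x1 : ℕ} {x2 : Type u1} [x3 : NormedAddCommGroup x2] [x4 : NormedSpace ℂ x2] : Norm (x2 × x2 [×x1]→L[ℂ] ℂ) := inferInstance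
theorem a62 {x1 : ℕ} : ContinuousConstSMul ℝ (Fin x1 → ℂ) := inferInstance
theorem a63 : T2Space ℝ := inferInstance
theorem a64.{u1} {x1 : Type u1} [x2 : NormedAddCommGroup x1] : ContinuousAdd (x1 × x1) := inferInstance
end AFast183968x9a
attribute [local instance] AFast183968x9a.a0 AFast183968x9a.a1 AFast183968x9a.a2 AFast183968x9a.a3
  AFast183968x9a.a4 AFast183968x9a.a5 AFast183968x9a.a6 AFast183968x9a.a7 AFast183968x9a.a8
  AFast183968x9a.a9 AFast183968x9a.a10 AFast183968x9a.a11 AFast183968x9a.a12 AFast183968x9a.a13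
  AFast183968x9a.a14 AFast183968x9a.a15 AFast183968x9a.a16 AFast183968x9a.a17 AFast183968x9a.a18
  AFast183968x9a.a19 AFast183968x9a.a20 AFast183968x9a.a21 AFast183968x9a.a22 AFast183968x9a.a23
  AFast183968x9a.a24 AFast183968x9a.a25 AFast183968x9a.a26 AFast183968x9a.a27 AFast183968x9a.a28
  AFast183968x9a.a29 AFast183968x9a.a30 AFast183968x9a.a31 AFast183968x9a.a32 AFast183968x9a.a33
  AFast183968x9a.a34 AFast183968x9a.a35 AFast183968x9a.a36 AFast183968x9a.a37 AFast183968x9a.a38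
  AFast183968x9a.a39 AFast183968x9a.a40 AFast183968x9a.a41 AFast183968x9a.a42 AFast183968x9a.a43
  AFast183968x9a.a44 AFast183968x9a.a45 AFast183968x9a.a46 AFast183968x9a.a47 AFast183968x9a.a48
  AFast183968x9a.a49 AFast183968x9a.a50 AFast183968x9a.a51 AFast183968x9a.a52 AFast183968x9a.a53
  AFast183968x9a.a54 AFast183968x9a.a55 AFast183968x9a.a56 AFast183968x9a.a57 AFast183968x9a.a58
  AFast183968x9a.a59 AFast183968x9a.a60 AFast183968x9a.a61 AFast183968x9a.a62 AFast183968x9a.a63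
  AFast183968x9a.a64
namespace AFast183968x9b
@[reducible] noncomputable def a0 : Module ℝ ℂ := inferInstance
theorem a1 {x1 : Type} [x2 : NormedAddCommGroup x1] {x3 : ℕ} [x4 : NormedSpace ℂ x1] : SemilinearMapClass (x1 × x1 →L[ℂ] Fin x3 → ℂ) (RingHom.id ℂ) (x1 × x1) (Fin x3 → ℂ) := inferInstance
@[reducible] noncomputable def a2.{u1} {x1 : Type u1} [x2 : NormedAddCommGroup x1] {x3 : ℕ} [x4 : NormedSpace ℂ x1] : Module ℝ (x1 →L[ℝ] Fin x3 → ℂ) := inferInstance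
theorem a3.{u1} {x1 : Type u1} {x2 : ℕ} [x3 : NormedAddCommGroup x1] [x4 : NormedSpace ℂ x1] : ContinuousSMul ℝ (x1 × (Fin x2 → ℂ)) := inferInstance
@[reducible] noncomputable def a4.{u1} {x1 : Type u1} {x2 : ℕ} [x3 : NormedAddCommGroup x1] [x4 : NormedSpace ℂ x1] : Module ℝ (x1 × (Fin x2 → ℂ)) := inferInstance
theorem a5 {x1 : Type} [x2 : NormedAddCommGroup x1] {x3 : ℕ} [x4 : NormedSpace ℂ x1] : AddHomClass (x1 × x1 →L[ℂ] Fin x3 → ℂ) (x1 × x1) (Fin x3 → ℂ) := inferInstance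
theorem a6.{u1} {x1 : Type u1} {x2 : ℕ} [x3 : NormedAddCommGroup x1] [x4 : NormedSpace ℂ x1] : IsBoundedSMul ℝ (x1 × (Fin x2 → ℂ)) := inferInstance
@[reducible] noncomputable def a7 {x1 : ℕ} {x2 : Fin x1} : SemigroupAction ℝ ((fun a => ℂ) x2) := inferInstance
@[reducible] noncomputable def a8 {x1 : ℕ} {x2 : Fin x1} : MulAction ℝ ((fun a => ℂ) x2) := inferInstance
theorem a9 {x1 : Type} [x2 : NormedAddCommGroup x1] {x3 : ℕ} [x4 : NormedSpace ℂ x1] : MulActionSemiHomClass (x1 × x1 →L[ℂ] Fin x3 → ℂ) (⇑(RingHom.id ℂ)) (x1 × x1) (Fin x3 → ℂ) := inferInstance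
theorem a10 {x1 : Type} [x2 : NormedAddCommGroup x1] [x3 : NormedSpace ℂ x1] : AddHomClass (x1 × x1 →L[ℂ] ℂ) (x1 × x1) ℂ := inferInstance
theorem a11 {x1 : ℕ} {x2 : Type} [x3 : NormedAddCommGroup x2] [x4 : NormedSpace ℝ x2] : SemilinearMapClass ((Fin x1 → ℝ) →L[ℝ] x2) (RingHom.id ℝ) (Fin x1 → ℝ) x2 := inferInstance
theorem a12 {x1 : Type} [x2 : NormedAddCommGroup x1] [x3 : NormedSpace ℂ x1] : SemilinearMapClass (x1 × x1 →L[ℂ] ℂ) (RingHom.id ℂ) (x1 × x1) ℂ := inferInstance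
@[reducible] def a13 {x1 : Type} [x2 : NormedAddCommGroup x1] {x3 : Type} [x4 : NormedAddCommGroup x3] [x5 : NormedSpace ℂ x1] [x6 : NormedSpace ℂ x3] : Module ℂ (x1 →L[ℂ] x3) := inferInstance
@[reducible] def a14 {x1 : Type} [x2 : NormedAddCommGroup x1] {x3 : Type} [x4 : NormedAddCommGroup x3] [x5 : NormedSpace ℂ x1] [x6 : NormedSpace ℂ x3] : Module ℂ (x1 × x1 →L[ℂ] x3) := inferInstance
theorem a15 {x1 : Type} [x2 : NormedAddCommGroup x1] : T2Space (x1 × x1) := inferInstance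
theorem a16 {x1 : ℕ} : SMulCommClass ℝ ℝ (Fin x1 → ℂ) := inferInstance
theorem a17 {x1 : Type} [x2 : NormedAddCommGroup x1] [x3 : NormedSpace ℂ x1] : IsScalarTower ℝ ℂ (x1 × x1) := inferInstance
end AFast183968x9b
attribute [local instance] AFast183968x9b.a0 AFast183968x9b.a1 AFast183968x9b.a2 AFast183968x9b.a3
  AFast183968x9b.a4 AFast183968x9b.a5 AFast183968x9b.a6 AFast183968x9b.a7 AFast183968x9b.a8
  AFast183968x9b.a9 AFast183968x9b.a10 AFast183968x9b.a11 AFast183968x9b.a12 AFast183968x9b.a13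
  AFast183968x9b.a14 AFast183968x9b.a15 AFast183968x9b.a16 AFast183968x9b.a17
section

open Filter Metric Set Topology Asymptotics

namespace Vale.Agent.P274

variable {E : Type} [NormedAddCommGroup E] [InnerProductSpace ℂ E]

/-- The set of peak points. -/
def peakSet (U : Set E) : Set E := {z | PeakPt U z}

theorem PeakPt.le_closure {U : Set E} {q : E} {c δ : ℝ} {P : E → ℂ}
    (hP : DifferentiableOn ℂ P (ball q δ))
    (h : ∀ z ∈ U, z ∈ ball q δ → c * ‖z - q‖ ^ 2 ≤ (P z).re) :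
    ∀ z ∈ closure U, z ∈ ball q δ → c * ‖z - q‖ ^ 2 ≤ (P z).re := by
  intro z hz hzb
  have h1 : z ∈ closure (U ∩ ball q δ) := by
    rw [mem_closure_iff_nhds] at hz ⊢
    intro t ht
    obtain ⟨y, hy1, hy2⟩ := hz (t ∩ ball q δ) (inter_mem ht (isOpen_ball.mem_nhds hzb))
    exact ⟨y, hy1.1, hy2, hy1.2⟩
  have h2 : ContinuousWithinAt (fun z => (P z).re) (U ∩ ball q δ) z :=
    (Complex.continuous_re.continuousAt.comp
      (hP.differentiableAt (isOpen_ball.mem_nhds hzb)).continuousAt).continuousWithinAt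
  have h3 : ContinuousWithinAt (fun z => c * ‖z - q‖ ^ 2) (U ∩ ball q δ) z := by
    apply Continuous.continuousWithinAt
    fun_prop
  have : (𝓝[U ∩ ball q δ] z).NeBot := mem_closure_iff_nhdsWithin_neBot.1 h1
  exact le_of_tendsto_of_tendsto h3 h2 (eventually_of_mem self_mem_nhdsWithin
    fun y hy => h y hy.1 hy.2)

/-- The conormal trick: near a peak point, the peak function controls the derivative of the
equations of the set of peak points. -/
theorem conormal_estimate [FiniteDimensional ℂ E] [Nontrivial E] {U : Set E} (hU : IsOpen U)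
    {q : E} (hq : PeakPt U q) {k : ℕ} {ρ : E → (Fin k → ℝ)} (hρ : Eqn (peakSet U) k ρ q) :
    ∃ c > 0, ∃ ε > 0, ∃ δ > 0, ∃ P : E → ℂ, DifferentiableOn ℂ P (ball q δ) ∧ P q = 0 ∧
      ∀ z ∈ U, z ∈ ball q δ →
        c * ‖z - q‖ ^ 2 + ε * ‖fderiv ℝ ρ q (z - q)‖ ≤ (P z).re := by
  have hprop : ProperSpace E := FiniteDimensional.proper_rclike ℂ E
  obtain ⟨hqU, hqnU, c, hc, δ, hδ, P, hP, hPq, hPU⟩ := hq
  have hqA : q ∈ peakSet U := ⟨hqU, hqnU, c, hc, δ, hδ, P, hP, hPq, hPU⟩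
  have hPcl := PeakPt.le_closure hP hPU
  set D := fderiv ℝ ρ q with hD
  have hρq : ρ q = 0 := hρ.van.self_of_nhds hqA
  -- quadratic bound on the peak set
  obtain ⟨C, hC0, hC⟩ := (taylor1_bound hρ.an).exists_pos
  have hquad : ∀ᶠ z in 𝓝 q, z ∈ peakSet U → ‖D (z - q)‖ ≤ C * ‖z - q‖ ^ 2 := by
    have htr : Tendsto (fun z : E => z - q) (𝓝 q) (𝓝 0) := by
      have : Tendsto (fun z : E => z - q) (𝓝 q) (𝓝 (q - q)) :=
        (continuous_id.sub continuous_const).tendsto q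
      rwa [sub_self] at this
    filter_upwards [htr.eventually hC.bound, hρ.van] with z h1 h2 h3
    rw [add_sub_cancel, hρq, h2 h3, sub_zero, zero_sub, norm_neg,
      Real.norm_of_nonneg (by (clear * -; positivity))] at h1
    exact h1
  obtain ⟨δ', hδ', hδ'q⟩ := Metric.eventually_nhds_iff_ball.1 hquad
  set δ₁ : ℝ := min (δ / 2) (δ' / 2) with hδ₁
  have hδ₁0 : 0 < δ₁ := by (clear * - hδ hδ'; positivity)
  have hδ₁δ : δ₁ < δ := lt_of_le_of_lt (min_le_left _ _) (by linarith only [hδ])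
  have hδ₁δ' : δ₁ < δ' := lt_of_le_of_lt (min_le_right _ _) (by linarith only [hδ'])
  set ε : ℝ := min (c / 2 / C) (c / 2 * δ₁ / (‖D‖ + 1)) / 2 with hε
  have hε0 : 0 < ε := by (clear * - hc hδ hC0 hδ'; positivity)
  have hε1 : ε * C < c / 2 := by
    have : ε < c / 2 / C := by
      have h1 : min (c / 2 / C) (c / 2 * δ₁ / (‖D‖ + 1)) ≤ c / 2 / C := min_le_left _ _
      have h2 : 0 < c / 2 / C := by (clear * - hc hC0; positivity)
      rw [hε]; linarith only [h1, h2]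
    rwa [lt_div_iff₀ hC0] at this
  have hε2 : ε * ‖D‖ < c / 2 * δ₁ := by
    have : ε < c / 2 * δ₁ / (‖D‖ + 1) := by
      have h1 : min (c / 2 / C) (c / 2 * δ₁ / (‖D‖ + 1)) ≤ c / 2 * δ₁ / (‖D‖ + 1) :=
        min_le_right _ _
      have h2 : 0 < c / 2 * δ₁ / (‖D‖ + 1) := by (clear * - hc hδ hδ'; positivity)
      rw [hε]; linarith only [h1, h2]
    rw [lt_div_iff₀ (by (clear * -; positivity))] at this
    exact (mul_le_mul_of_nonneg_left (le_add_of_nonneg_right zero_le_one) hε0.le).trans_lt this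
  refine ⟨c / 2, by (clear * - hc; positivity), ε, hε0, δ₁, hδ₁0, P, hP.mono (ball_subset_ball hδ₁δ.le), hPq, ?_⟩
  intro z1 hz1U hz1b
  by_contra hcon
  push Not at hcon
  -- a functional
  obtain ⟨a0, ha0n, ha0⟩ := exists_dual_vector'' ℝ (D (z1 - q))
  set ν : E →L[ℝ] ℝ := ε • a0.comp D with hν
  have hνb : ∀ x, |ν x| ≤ ε * ‖D x‖ := by
    intro x
    have h1 : ν x = ε * a0 (D x) := rfl
    rw [h1, abs_mul, abs_of_pos hε0]
    have h2 : |a0 (D x)| ≤ ‖a0‖ * ‖D x‖ := a0.le_opNorm _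
    have h3 : ‖a0‖ * ‖D x‖ ≤ 1 * ‖D x‖ := mul_le_mul_of_nonneg_right ha0n (norm_nonneg _)
    have h4 : |a0 (D x)| ≤ ‖D x‖ := by linarith only [h2, h3]
    exact mul_le_mul_of_nonneg_left h4 hε0.le
  have hν1 : ν (z1 - q) = ε * ‖D (z1 - q)‖ := by
    have h1 : ν (z1 - q) = ε * a0 (D (z1 - q)) := rfl
    rw [h1, ha0]
    rfl
  set νc : E →L[ℂ] ℂ := StrongDual.extendRCLike ν with hνc
  have hνre : ∀ x, (νc x).re = ν x := fun x => StrongDual.re_extendRCLike_apply (𝕜 := ℂ) ν x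
  set P' : E → ℂ := fun z => P z - νc (z - q) with hP'
  have hP'd : DifferentiableOn ℂ P' (ball q δ) := by
    refine hP.sub ?_
    have : Differentiable ℂ (fun z => νc (z - q)) := by fun_prop
    exact this.differentiableOn
  have hP're : ∀ z, (P' z).re = (P z).re - ν (z - q) := by
    intro z
    simp only [hP', Complex.sub_re, hνre]
  have hval : 0 < c / 2 * ‖z1 - q‖ ^ 2 - (P' z1).re := by
    rw [hP're, hν1]; linarith only [hcon]
  obtain ⟨a, hab, haP, -, hage⟩ := exists_peakPt_of_lt hU (q := q) (δ₁ := δ₁) (δ := δ)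
    (c := c / 2) (κ := 1) (P := P') (h := fun _ => 1) hδ₁δ (by (clear * - hc; positivity)) one_pos hP'd
    (differentiableOn_const _) (z0 := z1) (subset_closure hz1U) hz1b one_ne_zero (by
      intro z hz hzs
      simp only [norm_one, mul_one, one_mul]
      rw [Real.exp_lt_exp]
      refine lt_of_le_of_lt ?_ hval
      rw [hP're]
      have hzn : ‖z - q‖ = δ₁ := by rwa [mem_sphere_iff_norm] at hzs
      have h1 := hPcl z hz (by rw [mem_ball_iff_norm, hzn]; exact hδ₁δ)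
      have h2 := abs_le.1 (hνb (z - q))
      have h3 : ε * ‖D (z - q)‖ ≤ ε * ‖D‖ * δ₁ := by
        have := D.le_opNorm (z - q)
        rw [hzn] at this
        exact (mul_le_mul_of_nonneg_left this hε0.le).trans_eq (mul_assoc _ _ _).symm
      have h4 : ε * ‖D‖ * δ₁ ≤ c / 2 * δ₁ * δ₁ := mul_le_mul_of_nonneg_right hε2.le hδ₁0.le
      rw [hzn] at h1 ⊢
      have h22 := h2.2
      linarith only [h1, h22, h3, h4])
  simp only [norm_one, mul_one, one_mul] at hage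
  rw [Real.exp_le_exp] at hage
  have h1 : 0 < c / 2 * ‖a - q‖ ^ 2 - (P' a).re := lt_of_lt_of_le hval hage
  rw [hP're] at h1
  have h2 := hPcl a haP.1 (ball_subset_ball hδ₁δ.le hab)
  have h3 := hδ'q a (ball_subset_ball hδ₁δ'.le hab) haP
  have h4 := (abs_le.1 (hνb (a - q))).2
  have h5 : ε * ‖D (a - q)‖ ≤ ε * (C * ‖a - q‖ ^ 2) := mul_le_mul_of_nonneg_left h3 hε0.le
  have h6 : ε * (C * ‖a - q‖ ^ 2) ≤ c / 2 * ‖a - q‖ ^ 2 := by
    rw [← mul_assoc]
    exact mul_le_mul_of_nonneg_right hε1.le (sq_nonneg _)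
  linarith only [h1, h2, h4, h5, h6]

end Vale.Agent.P274
end

section

open Filter Metric Set Topology Asymptotics

namespace Vale.Agent.P274

open Complex

/-- A conjugation of a complex vector space. -/
structure CJ (E : Type*) [NormedAddCommGroup E] [NormedSpace ℂ E] where
  cj : E →L[ℝ] E
  I_smul : ∀ w, cj (I • w) = -(I • cj w)
  invol : ∀ w, cj (cj w) = w

variable {E : Type*} [NormedAddCommGroup E] [NormedSpace ℂ E]

/-- Extension of a real linear form to a complex linear form on `E × E`. -/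
noncomputable def extX (J : CJ E) (l : E →L[ℝ] ℝ) : (E × E) →L[ℂ] ℂ :=
  (1 / 2 : ℂ) • ((StrongDual.extendRCLike (𝕜 := ℂ) l : E →L[ℂ] ℂ).comp
    (ContinuousLinearMap.fst ℂ E E) +
    (StrongDual.extendRCLike (𝕜 := ℂ) (l.comp J.cj) : E →L[ℂ] ℂ).comp
      (ContinuousLinearMap.snd ℂ E E))

theorem extX_apply (J : CJ E) (l : E →L[ℝ] ℝ) (z w : E) :
    extX J l (z, w) = (1 / 2) * (((l z : ℂ) - I * (l (I • z) : ℂ)) +
      ((l (J.cj w) : ℂ) - I * (l (J.cj (I • w)) : ℂ))) := by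
  simp [extX, StrongDual.extendRCLike_apply]
  ring

theorem extX_real (J : CJ E) (l : E →L[ℝ] ℝ) (z : E) : extX J l (z, J.cj z) = (l z : ℂ) := by
  rw [extX_apply, J.invol, J.I_smul, map_neg, J.invol]
  push_cast
  ring

/-- Complexification of real analytic functions. -/
theorem exists_complexification [FiniteDimensional ℂ E] (J : CJ E) {u : E → ℝ} {q : E}
    (hu : AnalyticAt ℝ u q) :
    ∃ Uc : E × E → ℂ, AnalyticAt ℂ Uc (q, J.cj q) ∧
      ∀ᶠ z in 𝓝 q, Uc (z, J.cj z) = (u z : ℂ) := by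
  classical
  obtain ⟨p, hp⟩ := hu
  set b := Module.finBasis ℝ E with hb
  set ι := Fin (Module.finrank ℝ E) with hι
  set l : ι → E →L[ℝ] ℝ := fun a => LinearMap.toContinuousLinearMap (b.coord a) with hl
  have hexp : ∀ x : E, x = ∑ a, l a x • b a := by
    intro x
    conv_lhs => rw [← b.sum_repr x]
    rfl
  set X : ι → (E × E) →L[ℂ] ℂ := fun a => extX J (l a) with hX
  set P : FormalMultilinearSeries ℂ (E × E) ℂ := fun n =>
    ∑ f : Fin n → ι, ((p n (fun i => b (f i)) : ℝ) : ℂ) •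
      (ContinuousMultilinearMap.mkPiAlgebra ℂ (Fin n) ℂ).compContinuousLinearMap
        (fun i => X (f i)) with hP
  have hPreal : ∀ n, ∀ x : E, P n (fun _ => (x, J.cj x)) = ((p n fun _ => x : ℝ) : ℂ) := by
    intro n x
    have h1 : (p n fun _ => x) = ∑ f : Fin n → ι, (∏ i, l (f i) x) * p n (fun i => b (f i)) := by
      conv_lhs => rw [hexp x]
      rw [ContinuousMultilinearMap.map_sum]
      refine Finset.sum_congr rfl fun f _ => ?_
      rw [ContinuousMultilinearMap.map_smul_univ]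
      rfl
    rw [h1]
    simp only [hP, sum_apply, smul_apply,
      ContinuousMultilinearMap.compContinuousLinearMap_apply,
      ContinuousMultilinearMap.mkPiAlgebra_apply, hX, extX_real, smul_eq_mul]
    push_cast
    refine Finset.sum_congr rfl fun f _ => ?_
    ring
  set S : ℝ := ∑ a, ‖b a‖ * ‖X a‖ with hS
  have hS0 : 0 ≤ S := Finset.sum_nonneg fun a _ => by positivity
  have hPn : ∀ n, ‖P n‖ ≤ ‖p n‖ * S ^ n := by
    intro n
    have h1 : S ^ n = ∑ f : Fin n → ι, ∏ i, (‖b (f i)‖ * ‖X (f i)‖) := by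
      have := Finset.prod_univ_sum (fun _ : Fin n => (Finset.univ : Finset ι))
        (fun _ a => ‖b a‖ * ‖X a‖)
      rw [Finset.prod_const, Finset.card_fin] at this
      rw [hS, this]
      simp
    rw [h1, Finset.mul_sum]
    refine (norm_sum_le _ _).trans (Finset.sum_le_sum fun f _ => ?_)
    rw [norm_smul]
    have h2 : ‖((p n (fun i => b (f i)) : ℝ) : ℂ)‖ ≤ ‖p n‖ * ∏ i, ‖b (f i)‖ := by
      rw [Complex.norm_real]
      exact (p n).le_opNorm _
    have h3 : ‖(ContinuousMultilinearMap.mkPiAlgebra ℂ (Fin n) ℂ).compContinuousLinearMap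
        (fun i => X (f i))‖ ≤ ∏ i, ‖X (f i)‖ := by
      refine (ContinuousMultilinearMap.norm_compContinuousLinearMap_le _ _).trans ?_
      rw [ContinuousMultilinearMap.norm_mkPiAlgebra, one_mul]
    calc _ ≤ (‖p n‖ * ∏ i, ‖b (f i)‖) * ∏ i, ‖X (f i)‖ := by gcongr
      _ = _ := by rw [Finset.prod_mul_distrib, mul_assoc]
  obtain ⟨rp, hrp⟩ := hp
  have hprad : 0 < p.radius := hrp.r_pos.trans_le hrp.r_le
  obtain ⟨C, r, hC, hr, hCr⟩ := p.le_mul_pow_of_radius_pos hprad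
  set t : ℝ := 1 / (r * S + 1) with ht
  have ht0 : 0 < t := by (clear * - hr; positivity)
  have hrad : 0 < P.radius := by
    have h1 : ((t.toNNReal : NNReal) : ENNReal) ≤ P.radius := by
      refine P.le_radius_of_bound C fun n => ?_
      rw [Real.coe_toNNReal t ht0.le]
      calc ‖P n‖ * t ^ n ≤ (‖p n‖ * S ^ n) * t ^ n := by gcongr; exact hPn n
        _ ≤ ((C * r ^ n) * S ^ n) * t ^ n := by gcongr; exact hCr n
        _ = C * (r * S * t) ^ n := by rw [mul_pow, mul_pow]; ring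
        _ ≤ C * 1 ^ n := by
            gcongr
            rw [ht, mul_one_div, div_le_one (by (clear * - hr; positivity))]
            linarith
        _ = C := by simp
    refine lt_of_lt_of_le ?_ h1
    rw [ENNReal.coe_pos]
    exact Real.toNNReal_pos.2 ht0
  have hPs := P.hasFPowerSeriesOnBall hrad
  refine ⟨fun v => P.sum (v - (q, J.cj q)), ?_, ?_⟩
  · have h1 : AnalyticAt ℂ P.sum ((q, J.cj q) - (q, J.cj q)) := by
      rw [sub_self]
      exact hPs.analyticAt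
    have h2 : AnalyticAt ℂ (fun v : E × E => v - (q, J.cj q)) (q, J.cj q) :=
      analyticAt_id.sub analyticAt_const
    exact AnalyticAt.fun_comp (g := P.sum) (f := fun v : E × E => v - (q, J.cj q)) h1 h2
  · have htr : Tendsto (fun z : E => z - q) (𝓝 q) (𝓝 0) := by
      have : Tendsto (fun z : E => z - q) (𝓝 q) (𝓝 (q - q)) :=
        (continuous_id.sub continuous_const).tendsto q
      rwa [sub_self] at this
    have h1 : ∀ᶠ x in 𝓝 (0 : E), x ∈ eball (0 : E) rp := eball_mem_nhds _ hrp.r_pos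
    filter_upwards [htr.eventually h1] with z hz
    have h2 := hrp.hasSum hz
    rw [add_sub_cancel] at h2
    have h3 := Complex.hasSum_ofReal.2 h2
    have h4 : (z, J.cj z) - (q, J.cj q) = (z - q, J.cj (z - q)) := by
      rw [map_sub]; rfl
    simp only [h4, FormalMultilinearSeries.sum]
    simp only [hPreal]
    exact h3.tsum_eq

end Vale.Agent.P274
end

section

open Filter Metric Set Topology Asymptotics

namespace Vale.Agent.P274

open Complex

variable {E : Type} [NormedAddCommGroup E] [NormedSpace ℂ E]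

/-- `R(z, z̄)` vanishes on `A` near `q` and `∂R/∂z̄` is onto. -/
structure EqC (J : CJ E) (A : Set E) (k : ℕ) (R : E × E → (Fin k → ℂ)) (q : E) : Prop where
  an : AnalyticAt ℂ R (q, J.cj q)
  van : ∀ᶠ z in 𝓝 q, z ∈ A → R (z, J.cj z) = 0
  surj : Function.Surjective (fun v : E => fderiv ℂ R (q, J.cj q) (0, v))

/-- Maximality of `k` on `A ∩ V`. -/
def MaxC (J : CJ E) (A V : Set E) (k : ℕ) : Prop :=
  ∀ q' ∈ A ∩ V, ∀ k' : ℕ, ∀ R' : E × E → (Fin k' → ℂ), EqC J A k' R' q' → k' ≤ k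

theorem exists_maximal_eqC [FiniteDimensional ℂ E] (J : CJ E) {A V : Set E}
    (hA : (A ∩ V).Nonempty) :
    ∃ q ∈ A ∩ V, ∃ k : ℕ, ∃ R : E × E → (Fin k → ℂ), EqC J A k R q ∧ MaxC J A V k := by
  classical
  set Q : ℕ → Prop := fun k => ∃ q ∈ A ∩ V, ∃ R : E × E → (Fin k → ℂ), EqC J A k R q with hQ
  have hbd : ∀ k, Q k → k ≤ Module.finrank ℂ E := by
    rintro k ⟨q, hq, R, hR⟩
    have h1 := ((fderiv ℂ R (q, J.cj q)).comp (ContinuousLinearMap.inr ℂ E E) :
      E →ₗ[ℂ] (Fin k → ℂ)).finrank_le_finrank_of_surjective (by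
        intro b
        obtain ⟨v, hv⟩ := hR.surj b
        exact ⟨v, hv⟩)
    simpa using h1
  have h0 : Q 0 := by
    obtain ⟨q, hq⟩ := hA
    refine ⟨q, hq, fun _ => 0, analyticAt_const, Eventually.of_forall fun _ _ => rfl, ?_⟩
    intro b
    exact ⟨0, Subsingleton.elim _ _⟩
  set k := Nat.findGreatest Q (Module.finrank ℂ E) with hk
  have hkQ : Q k := Nat.findGreatest_spec (Nat.zero_le _) h0
  obtain ⟨q, hq, R, hR⟩ := hkQ
  exact ⟨q, hq, k, R, hR, fun q' hq' k' R' h' =>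
    Nat.le_findGreatest (hbd k' ⟨q', hq', R', h'⟩) ⟨q', hq', R', h'⟩⟩

theorem EqC.tangential {J : CJ E} {A V : Set E} {k : ℕ} {R : E × E → (Fin k → ℂ)} {q : E}
    (h : EqC J A k R q) (hmax : MaxC J A V k) (hq : q ∈ A ∩ V) {f : E × E → ℂ}
    (hf : AnalyticAt ℂ f (q, J.cj q)) (hf0 : ∀ᶠ z in 𝓝 q, z ∈ A → f (z, J.cj z) = 0) {v : E}
    (hv : fderiv ℂ R (q, J.cj q) (0, v) = 0) : fderiv ℂ f (q, J.cj q) (0, v) = 0 := by
  by_contra hne
  set b := (q, J.cj q) with hb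
  set R' : E × E → (Fin (k + 1) → ℂ) := fun x => Fin.cons (f x) (R x) with hR'
  have hcomp : ∀ i : Fin k, AnalyticAt ℂ (fun x => R x i) b := fun i =>
    ((ContinuousLinearMap.proj (R := ℂ) (φ := fun _ : Fin k => ℂ) i).analyticAt _).comp h.an
  have han : AnalyticAt ℂ R' b := by
    refine AnalyticAt.pi fun i => ?_
    refine Fin.cases ?_ (fun i => ?_) i
    · exact hf
    · exact hcomp i
  have hder : ∀ w, fderiv ℂ R' b w = Fin.cons (fderiv ℂ f b w) (fderiv ℂ R b w) := by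
    intro w
    have h1 : HasFDerivAt R' (ContinuousLinearMap.pi fun i : Fin (k + 1) =>
        (Fin.cases (fderiv ℂ f b) (fun j =>
          (ContinuousLinearMap.proj (R := ℂ) (φ := fun _ : Fin k => ℂ) j).comp
            (fderiv ℂ R b)) i : (E × E) →L[ℂ] ℂ)) b := by
      refine hasFDerivAt_pi.2 fun i => ?_
      refine Fin.cases ?_ (fun j => ?_) i
      · exact hf.differentiableAt.hasFDerivAt
      · exact hasFDerivAt_pi'.1 h.an.differentiableAt.hasFDerivAt j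
    rw [h1.fderiv]
    ext i
    refine Fin.cases ?_ (fun j => ?_) i <;> simp
  have hsurj : Function.Surjective (fun v : E => fderiv ℂ R' b (0, v)) := by
    intro y
    obtain ⟨v0, hv0⟩ := h.surj (Fin.tail y)
    have hv0' : fderiv ℂ R b (0, v0) = Fin.tail y := hv0
    refine ⟨v0 + ((y 0 - fderiv ℂ f b (0, v0)) / fderiv ℂ f b (0, v)) • v, ?_⟩
    have h2 : ((0 : E), v0 + ((y 0 - fderiv ℂ f b (0, v0)) / fderiv ℂ f b (0, v)) • v) =
        (0, v0) + ((y 0 - fderiv ℂ f b (0, v0)) / fderiv ℂ f b (0, v)) • ((0 : E), v) := by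
      simp
    simp only
    rw [hder, h2, map_add, map_add, map_smul, map_smul, hv, hv0', smul_zero, add_zero,
      smul_eq_mul, div_mul_cancel₀ _ hne]
    rw [add_sub_cancel]
    exact Fin.cons_self_tail y
  have hvan : ∀ᶠ z in 𝓝 q, z ∈ A → R' (z, J.cj z) = 0 := by
    filter_upwards [h.van, hf0] with x h1 h2 hxA
    simp only [hR', h1 hxA, h2 hxA]
    ext i
    refine Fin.cases ?_ (fun j => ?_) i <;> simp
  have := hmax q hq (k + 1) R' ⟨han, hvan, hsurj⟩
  omega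

/-- Flatness along the fibres. -/
theorem slice_flat [CompleteSpace E] {J : CJ E} {A : Set E} {k : ℕ} {R : E × E → (Fin k → ℂ)}
    {T : E × E → E × E} {pr : E →L[ℂ] E} (hpr : ∀ v, pr (pr v) = pr v) {a : E} (ha : a ∈ A)
    (hT : AnalyticAt ℂ T (a, J.cj a))
    (hg : ∀ᶠ z in 𝓝 a, z ∈ A →
      (∀ f : E × E → ℂ, AnalyticAt ℂ f (z, J.cj z) →
        (∀ᶠ z' in 𝓝 z, z' ∈ A → f (z', J.cj z') = 0) → ∀ v,
          fderiv ℂ R (z, J.cj z) (0, v) = 0 → fderiv ℂ f (z, J.cj z) (0, v) = 0) ∧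
      (∀ v, ∃ v', fderiv ℂ R (z, J.cj z) (0, v') = 0 ∧
        fderiv ℂ T (z, J.cj z) (0, v') = (0, pr v)) ∧
      pr (T (z, J.cj z)).2 = (T (z, J.cj z)).2) (N : ℕ) :
    ∀ (F : Type) [NormedAddCommGroup F] [NormedSpace ℂ F] [CompleteSpace F] (G : E × E → F),
      AnalyticAt ℂ G (T (a, J.cj a)) → (∀ᶠ z in 𝓝 a, z ∈ A → G (T (z, J.cj z)) = 0) →
      (∀ᶠ y in 𝓝 (T (a, J.cj a)), G (y.1, pr y.2) = G y) →
      (fun y => G ((T (a, J.cj a)).1, (T (a, J.cj a)).2 + y)) =O[𝓝 0] fun y => ‖y‖ ^ N := by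
  set y0 := T (a, J.cj a) with hy0
  have htr : Tendsto (fun y : E => (y0.1, y0.2 + y)) (𝓝 0) (𝓝 y0) := by
    have : Tendsto (fun y : E => (y0.1, y0.2 + y)) (𝓝 0) (𝓝 (y0.1, y0.2 + 0)) := by
      refine Continuous.tendsto ?_ 0
      fun_prop
    rwa [add_zero] at this
  have htcj : Tendsto (fun z : E => (z, J.cj z)) (𝓝 a) (𝓝 (a, J.cj a)) := by
    refine Continuous.tendsto ?_ a
    have := J.cj.continuous
    fun_prop
  induction N with
  | zero =>
    intro F _ _ _ G hG _ _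
    simp only [pow_zero]
    exact (hG.continuousAt.tendsto.comp htr).isBigO_one ℝ
  | succ N ih =>
    intro F _ _ _ G hG hGA hGπ
    set Pm : (E × E) →L[ℂ] (E × E) :=
      (ContinuousLinearMap.fst ℂ E E).prod (pr.comp (ContinuousLinearMap.snd ℂ E E)) with hPm
    have hPm_apply : ∀ y, Pm y = (y.1, pr y.2) := fun y => rfl
    have hPmPm : ∀ y, Pm (Pm y) = Pm y := by
      intro y
      simp only [hPm_apply, hpr]
    set G' : E × E → (E →L[ℂ] F) := fun y =>
      (fderiv ℂ G y).comp (ContinuousLinearMap.inr ℂ E E) with hG'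
    have hG'an : AnalyticAt ℂ G' y0 := by
      have h1 : AnalyticAt ℂ (fderiv ℂ G) y0 := hG.fderiv
      exact (((ContinuousLinearMap.compL ℂ E (E × E) F).flip
        (ContinuousLinearMap.inr ℂ E E)).analyticAt _).comp h1
    have hy0pr : Pm y0 = y0 := by
      have h1 := (hg.self_of_nhds ha).2.2
      rw [hPm_apply, h1]
    have hPmc : Tendsto Pm (𝓝 y0) (𝓝 y0) := by
      have := Pm.continuous.tendsto y0
      rwa [hy0pr] at this
    have hGπ2 := eventually_eventually_nhds.2 hGπ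
    have han := hG.eventually_analyticAt
    have hrel : ∀ᶠ y in 𝓝 y0, fderiv ℂ G y = (fderiv ℂ G (Pm y)).comp Pm := by
      filter_upwards [hGπ2, hPmc.eventually han] with y h1 h2
      have h3 : fderiv ℂ (G ∘ Pm) y = fderiv ℂ G y := Filter.EventuallyEq.fderiv_eq h1
      rw [← h3, fderiv_comp y h2.differentiableAt Pm.differentiableAt, Pm.fderiv]
    have hrel2 : ∀ᶠ y in 𝓝 y0, fderiv ℂ G (Pm y) = fderiv ℂ G y := by
      filter_upwards [hrel, hPmc.eventually hrel] with y h1 h2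
      rw [h1]
      rw [hPmPm] at h2
      exact h2
    have hA' : ∀ᶠ z in 𝓝 a, z ∈ A → G' (T (z, J.cj z)) = 0 := by
      have hTc : Tendsto (fun z : E => T (z, J.cj z)) (𝓝 a) (𝓝 y0) :=
        hT.continuousAt.tendsto.comp htcj
      filter_upwards [hTc.eventually hrel, hg, eventually_eventually_nhds.2 hGA,
        hTc.eventually han, htcj.eventually hT.eventually_analyticAt] with z h1 h2 h3 h4 h5 hzA
      obtain ⟨h6, h7, h8⟩ := h2 hzA
      have hPz : Pm (T (z, J.cj z)) = T (z, J.cj z) := by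
        rw [hPm_apply, h8]
      ext v
      have h9 : fderiv ℂ G (T (z, J.cj z)) (0, pr v) = 0 := by
        obtain ⟨v', hv'1, hv'2⟩ := h7 v
        refine SeparatingDual.eq_zero_of_forall_dual_eq_zero (R := ℂ) fun ℓ => ?_
        have h10 := h6 (fun x => ℓ (G (T x)))
          ((ℓ.analyticAt _).comp (h4.comp h5)) (by
            filter_upwards [h3] with x hx hxA
            rw [hx hxA, map_zero]) v' hv'1
        have h11 : fderiv ℂ (fun x => ℓ (G (T x))) (z, J.cj z) =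
            ℓ.comp ((fderiv ℂ G (T (z, J.cj z))).comp (fderiv ℂ T (z, J.cj z))) := by
          have h12 : HasFDerivAt (fun x => G (T x))
              ((fderiv ℂ G (T (z, J.cj z))).comp (fderiv ℂ T (z, J.cj z))) (z, J.cj z) :=
            h4.differentiableAt.hasFDerivAt.comp _ h5.differentiableAt.hasFDerivAt
          have h13 : HasFDerivAt (fun x => ℓ (G (T x)))
              (ℓ.comp ((fderiv ℂ G (T (z, J.cj z))).comp (fderiv ℂ T (z, J.cj z))))
              (z, J.cj z) := ℓ.hasFDerivAt.comp _ h12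
          exact h13.fderiv
        rw [h11] at h10
        simp only [ContinuousLinearMap.comp_apply, hv'2] at h10
        exact h10
      have h14 : fderiv ℂ G (T (z, J.cj z)) (0, v) = fderiv ℂ G (T (z, J.cj z)) (0, pr v) := by
        conv_lhs => rw [h1]
        rw [hPz]
        rfl
      simp only [hG', ContinuousLinearMap.comp_apply, ContinuousLinearMap.inr_apply,
        zero_apply]
      rw [h14, h9]
    have hih := ih (E →L[ℂ] F) G' hG'an hA' (by
      filter_upwards [hrel2] with y h1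
      simp only [hG']
      rw [← hPm_apply, h1])
    obtain ⟨C, hC0, hC⟩ := hih.exists_nonneg
    replace hC := hC.bound
    have hG0 : G y0 = 0 := hGA.self_of_nhds ha
    obtain ⟨r, hr, hrb⟩ := Metric.eventually_nhds_iff_ball.1 (hC.and (htr.eventually han))
    refine IsBigO.of_bound C ?_
    filter_upwards [ball_mem_nhds (0 : E) hr] with y hy
    have hy' : ‖y‖ < r := by simpa using hy
    have hsub : closedBall (0 : E) ‖y‖ ⊆ ball 0 r := closedBall_subset_ball hy'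
    have hderiv : ∀ z ∈ closedBall (0 : E) ‖y‖,
        HasFDerivAt (fun y : E => G (y0.1, y0.2 + y)) (G' (y0.1, y0.2 + z)) z := by
      intro z hz
      have h1 := (hrb z (hsub hz)).2.differentiableAt.hasFDerivAt
      have h2 : HasFDerivAt (fun y : E => (y0.1, y0.2 + y)) (ContinuousLinearMap.inr ℂ E E) z := by
        have h3 : HasFDerivAt (fun y : E => y0.2 + y) (ContinuousLinearMap.id ℂ E) z :=
          (hasFDerivAt_id z).const_add _
        have h4 : HasFDerivAt (fun _ : E => y0.1) (0 : E →L[ℂ] E) z := hasFDerivAt_const _ _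
        exact h4.prodMk h3
      exact h1.comp z h2
    have h1 := (convex_closedBall (0 : E) ‖y‖).norm_image_sub_le_of_norm_hasFDerivWithin_le
      (f := fun y : E => G (y0.1, y0.2 + y)) (𝕜 := ℂ) (C := C * ‖y‖ ^ N) (x := 0) (y := y)
      (fun z hz => (hderiv z hz).hasFDerivWithinAt) (fun z hz => by
        refine (hrb z (hsub hz)).1.trans ?_
        have h2 : ‖z‖ ≤ ‖y‖ := by simpa using hz
        rw [Real.norm_of_nonneg (by positivity)]
        gcongr)
      (mem_closedBall_self (norm_nonneg y)) (by simp)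
    simp only [add_zero, sub_zero] at h1
    have h2 : G (y0.1, y0.2) = 0 := hG0
    rw [h2, sub_zero] at h1
    rw [Real.norm_of_nonneg (by (clear * -; positivity)), pow_succ, ← mul_assoc]
    exact h1

/-- `z ↦ Rn` factors to first order through `R`, if no nonzero holomorphic function vanishes
on `A` near `q`. -/
theorem factor_of_maximal [FiniteDimensional ℂ E] {J : CJ E} {A V : Set E} {k : ℕ}
    {R : E × E → (Fin k → ℂ)} {q : E} (h : EqC J A k R q) (hV : IsOpen V)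
    (hmax : MaxC J A V k) (hq : q ∈ A ∩ V) {Rn : E × E → ℂ} (hn : AnalyticAt ℂ Rn (q, J.cj q))
    (hn0 : ∀ᶠ z in 𝓝 q, z ∈ A → Rn (z, J.cj z) = 0)
    (hol : ∀ h : E → ℂ, AnalyticAt ℂ h q → (∀ᶠ z in 𝓝 q, z ∈ A → h z = 0) →
      ∀ᶠ z in 𝓝 q, h z = 0) :
    ∃ μ : (Fin k → ℂ) →L[ℂ] ℂ, ∀ v,
      fderiv ℂ Rn (q, J.cj q) v = μ (fderiv ℂ R (q, J.cj q) v) := by
  have hcs : CompleteSpace E := FiniteDimensional.complete ℂ E
  set b := (q, J.cj q) with hb
  have hRb : R b = 0 := h.van.self_of_nhds hq.1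
  set Sz : E →L[ℂ] (Fin k → ℂ) := (fderiv ℂ R b).comp (ContinuousLinearMap.inl ℂ E E) with hSz
  set S : E →L[ℂ] (Fin k → ℂ) := (fderiv ℂ R b).comp (ContinuousLinearMap.inr ℂ E E) with hS
  have hdR : ∀ v : E × E, fderiv ℂ R b v = Sz v.1 + S v.2 := by
    intro v
    simp only [hSz, hS, ContinuousLinearMap.comp_apply, ContinuousLinearMap.inl_apply,
      ContinuousLinearMap.inr_apply, ← map_add]
    simp
  have hSs : Function.Surjective S := h.surj
  obtain ⟨σ0, hσ0⟩ := (S : E →ₗ[ℂ] (Fin k → ℂ)).exists_rightInverse_of_surjective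
    (LinearMap.range_eq_top.2 hSs)
  set σ : (Fin k → ℂ) →L[ℂ] E := LinearMap.toContinuousLinearMap σ0 with hσ
  have hSσ : ∀ r, S (σ r) = r := fun r => LinearMap.congr_fun hσ0 r
  set pr : E →L[ℂ] E := ContinuousLinearMap.id ℂ E - σ.comp S with hprd
  have hSpr : ∀ v, S (pr v) = 0 := by
    intro v; simp [hprd, hSσ]
  have hprpr : ∀ v, pr (pr v) = pr v := by
    intro v
    have h1 : pr (pr v) = pr v - σ (S (pr v)) := rfl
    rw [h1, hSpr, map_zero, sub_zero]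
  have hprσ : ∀ v, σ (S v) + pr v = v := by
    intro v; simp [hprd]
  set T : E × E → E × E := fun x => (x.1 - q, σ (R x) + pr (x.2 - J.cj q)) with hT
  have hTb : T b = (0, 0) := by
    have h1 : T b = (b.1 - q, σ (R b) + pr (b.2 - J.cj q)) := rfl
    rw [h1, hRb]
    simp [hb]
  have hTan : AnalyticAt ℂ T b := by
    have h1 : AnalyticAt ℂ (fun x : E × E => x.1 - q) b := analyticAt_fst.sub analyticAt_const
    have h2 : AnalyticAt ℂ (fun x : E × E => σ (R x)) b := (σ.analyticAt _).comp h.an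
    have h3 : AnalyticAt ℂ (fun x : E × E => pr (x.2 - J.cj q)) b :=
      (pr.analyticAt _).comp (analyticAt_snd.sub analyticAt_const)
    exact h1.prod (h2.add h3)
  have hTd : ∀ x, AnalyticAt ℂ R x → HasFDerivAt T
      ((ContinuousLinearMap.fst ℂ E E).prod (σ.comp (fderiv ℂ R x) +
        pr.comp (ContinuousLinearMap.snd ℂ E E))) x := by
    intro x hx
    have h1 : HasFDerivAt (fun x : E × E => x.1 - q) (ContinuousLinearMap.fst ℂ E E) x :=
      hasFDerivAt_fst.sub_const _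
    have h2 : HasFDerivAt (fun x : E × E => σ (R x)) (σ.comp (fderiv ℂ R x)) x :=
      σ.hasFDerivAt.comp x hx.differentiableAt.hasFDerivAt
    have h3 : HasFDerivAt (fun x : E × E => pr (x.2 - J.cj q))
        (pr.comp (ContinuousLinearMap.snd ℂ E E)) x :=
      pr.hasFDerivAt.comp x (hasFDerivAt_snd.sub_const _)
    exact h1.prodMk (h2.add h3)
  -- the derivative at `b` is invertible
  set e : (E × E) ≃L[ℂ] (E × E) := ContinuousLinearEquiv.equivOfInverse
    ((ContinuousLinearMap.fst ℂ E E).prod (σ.comp (fderiv ℂ R b) +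
        pr.comp (ContinuousLinearMap.snd ℂ E E)))
    ((ContinuousLinearMap.fst ℂ E E).prod (ContinuousLinearMap.snd ℂ E E -
      (σ.comp Sz).comp (ContinuousLinearMap.fst ℂ E E)))
    (by
      rintro ⟨x, y⟩
      simp only [ContinuousLinearMap.prod_apply, ContinuousLinearMap.coe_fst', add_apply,
        ContinuousLinearMap.comp_apply, ContinuousLinearMap.coe_snd', hdR, sub_apply, map_add]
      refine Prod.ext rfl ?_
      simp only
      rw [add_assoc, hprσ]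
      abel)
    (by
      rintro ⟨x, y⟩
      simp only [ContinuousLinearMap.prod_apply, ContinuousLinearMap.coe_fst', add_apply,
        ContinuousLinearMap.comp_apply, ContinuousLinearMap.coe_snd', hdR, sub_apply, map_add,
        map_sub, hSσ]
      refine Prod.ext rfl ?_
      simp only
      have h1 : pr (σ (Sz x)) = 0 := by
        have h2 := hprσ (σ (Sz x))
        rw [hSσ] at h2
        simpa using h2
      rw [h1, sub_zero]
      have h3 := hprσ y
      calc σ (Sz x) + (σ (S y) - σ (Sz x)) + pr y = σ (S y) + pr y := by abel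
        _ = y := h3) with he
  have hTe : HasFDerivAt T (e : (E × E) →L[ℂ] (E × E)) b := hTd b h.an
  have hcd : ContDiffAt ℂ ⊤ T b := hTan.contDiffAt
  have hne : (⊤ : WithTop ℕ∞) ≠ 0 := by simp
  set G := hcd.localInverse hTe hne with hG
  have hGan0 : ContDiffAt ℂ ⊤ G (T b) := hcd.to_localInverse hTe hne
  have hGan : AnalyticAt ℂ G (T b) := hGan0.analyticAt
  have hstrict := hcd.hasStrictFDerivAt' hTe hne
  have hleft : ∀ᶠ x in 𝓝 b, G (T x) = x := hstrict.eventually_left_inverse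
  have hright : ∀ᶠ y in 𝓝 (T b), T (G y) = y := hstrict.eventually_right_inverse
  have hGb : G (T b) = b := hleft.self_of_nhds
  have hdG : HasFDerivAt G (e.symm : (E × E) →L[ℂ] (E × E)) (T b) :=
    hstrict.to_localInverse.hasFDerivAt
  have htcj : Tendsto (fun z : E => (z, J.cj z)) (𝓝 q) (𝓝 b) := by
    refine Continuous.tendsto ?_ q
    have := J.cj.continuous
    fun_prop
  have htcj' : ∀ a : E, Tendsto (fun z : E => (z, J.cj z)) (𝓝 a) (𝓝 (a, J.cj a)) := by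
    intro a
    refine Continuous.tendsto ?_ a
    have := J.cj.continuous
    fun_prop
  -- the function `f0`
  set f0 : E × E → ℂ := fun y => Rn (G y) with hf0
  have hf0an : AnalyticAt ℂ f0 (T b) := by
    have h1 : AnalyticAt ℂ Rn (G (T b)) := by rw [hGb]; exact hn
    exact h1.comp hGan
  set g : E × E → ℂ := fun y => f0 (y.1, pr y.2) with hg
  set Pm : (E × E) →L[ℂ] (E × E) :=
    (ContinuousLinearMap.fst ℂ E E).prod (pr.comp (ContinuousLinearMap.snd ℂ E E)) with hPm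
  have hPmb : Pm (T b) = T b := by rw [hTb]; exact map_zero Pm
  have hgan : AnalyticAt ℂ g (T b) := by
    have h1 : AnalyticAt ℂ f0 (Pm (T b)) := by rw [hPmb]; exact hf0an
    exact h1.comp (Pm.analyticAt _)
  -- good points
  have hbij : ∀ᶠ z in 𝓝 q, Function.Bijective (fderiv ℂ T (z, J.cj z)) := by
    have h1 : ContinuousAt (fderiv ℂ T) b := hTan.fderiv.continuousAt
    have h2 := e.nhds
    rw [← hTe.fderiv] at h2
    filter_upwards [htcj.eventually (h1.eventually_mem h2)] with z hz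
    obtain ⟨e', he'⟩ := hz
    rw [← he']
    exact e'.bijective
  have hgood : ∀ᶠ z in 𝓝 q, z ∈ A →
      (∀ f : E × E → ℂ, AnalyticAt ℂ f (z, J.cj z) →
        (∀ᶠ z' in 𝓝 z, z' ∈ A → f (z', J.cj z') = 0) → ∀ v,
          fderiv ℂ R (z, J.cj z) (0, v) = 0 → fderiv ℂ f (z, J.cj z) (0, v) = 0) ∧
      (∀ v, ∃ v', fderiv ℂ R (z, J.cj z) (0, v') = 0 ∧
        fderiv ℂ T (z, J.cj z) (0, v') = (0, pr v)) ∧
      pr (T (z, J.cj z)).2 = (T (z, J.cj z)).2 := by
    filter_upwards [hbij, htcj.eventually h.an.eventually_analyticAt,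
      eventually_eventually_nhds.2 h.van, hV.eventually_mem hq.2] with z h1 h2 h3 h4 hzA
    have hTz := (hTd _ h2).fderiv
    have hkey : ∀ w, ∃ v', fderiv ℂ T (z, J.cj z) (0, v') = (0, w) := by
      intro w
      obtain ⟨⟨x, y⟩, hxy⟩ := h1.2 (0, w)
      have hx : x = 0 := by
        rw [hTz] at hxy
        have := congrArg Prod.fst hxy
        simpa using this
      subst hx
      exact ⟨y, hxy⟩
    have hsec : ∀ v', fderiv ℂ T (z, J.cj z) (0, v') =
        (0, σ (fderiv ℂ R (z, J.cj z) (0, v')) + pr v') := by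
      intro v'
      rw [hTz]
      simp
    have hRz : R (z, J.cj z) = 0 := h3.self_of_nhds hzA
    have hEqz : EqC J A k R z := by
      refine ⟨h2, h3, fun r => ?_⟩
      obtain ⟨v', hv'⟩ := hkey (σ r)
      rw [hsec] at hv'
      have h5 := congrArg Prod.snd hv'
      simp only at h5
      refine ⟨v', ?_⟩
      have h6 := congrArg S h5
      rw [map_add, hSσ, hSpr, add_zero, hSσ] at h6
      exact h6
    refine ⟨fun f hf hfA v hv => hEqz.tangential hmax ⟨hzA, h4⟩ hf hfA hv, fun v => ?_, ?_⟩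
    · obtain ⟨v', hv'⟩ := hkey (pr v)
      refine ⟨v', ?_, hv'⟩
      rw [hsec] at hv'
      have h5 := congrArg Prod.snd hv'
      simp only at h5
      have h6 := congrArg S h5
      rw [map_add, hSσ, hSpr, add_zero, hSpr] at h6
      exact h6
    · simp only [hT, hRz, map_zero, zero_add, hprpr]
  -- first order information at `q`
  have hfirst : ∀ v, fderiv ℂ f0 (T b) (0, pr v) = 0 := by
    intro v
    obtain ⟨h1, h2, -⟩ := hgood.self_of_nhds hq.1
    obtain ⟨v', hv'1, hv'2⟩ := h2 v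
    have h3 := h1 Rn hn hn0 v' hv'1
    have h4 : HasFDerivAt f0 ((fderiv ℂ Rn b).comp (e.symm : (E × E) →L[ℂ] (E × E))) (T b) := by
      have h5 : HasFDerivAt Rn (fderiv ℂ Rn b) (G (T b)) := by
        rw [hGb]; exact hn.differentiableAt.hasFDerivAt
      exact h5.comp (T b) hdG
    rw [h4.fderiv]
    have h6 : e (0, v') = (0, pr v) := by
      have : fderiv ℂ T b (0, v') = (0, pr v) := hv'2
      rw [hTe.fderiv] at this
      exact this
    have h7 : e.symm (0, pr v) = (0, v') := by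
      rw [← h6]; exact e.symm_apply_apply _
    simp only [ContinuousLinearMap.comp_apply, ContinuousLinearEquiv.coe_coe, h7]
    exact h3
  -- vanishing on slices
  have hT0 : Tendsto (fun z : E => T (z, J.cj z)) (𝓝 q) (𝓝 (T b)) :=
    hTan.continuousAt.tendsto.comp htcj
  obtain ⟨ε, hε, hεb⟩ := Metric.eventually_nhds_iff_ball.1 hgan.eventually_analyticAt
  have hslice : ∀ᶠ a in 𝓝 q, a ∈ A → f0 (a - q, 0) = 0 := by
    filter_upwards [eventually_eventually_nhds.2 hgood, hT0.eventually (ball_mem_nhds _ hε),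
      hT0.eventually hgan.eventually_analyticAt, eventually_eventually_nhds.2 hn0,
      eventually_eventually_nhds.2 h.van, eventually_eventually_nhds.2 (htcj.eventually hleft),
      htcj.eventually hTan.eventually_analyticAt]
      with a h1 h2 h3 h4 h5 h6 h7 haA
    have hya : T (a, J.cj a) = (a - q, pr (J.cj a - J.cj q)) := by
      simp only [hT, h5.self_of_nhds haA, map_zero, zero_add]
    have hflat := fun N => slice_flat (F := ℂ) hprpr haA h7 h1 N g h3 (by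
      filter_upwards [h4, h5, h6] with z hz1 hz2 hz3 hzA
      have hz4 : pr (T (z, J.cj z)).2 = (T (z, J.cj z)).2 := by
        simp only [hT, hz2 hzA, map_zero, zero_add, hprpr]
      simp only [hg, hz4, hf0]
      have hz5 : ((T (z, J.cj z)).1, (T (z, J.cj z)).2) = T (z, J.cj z) := rfl
      rw [hz5, hz3, hz1 hzA]) (Eventually.of_forall fun y => by simp only [hg, hprpr])
    have hmaps : ∀ y, AnalyticAt ℂ (fun y : E => (((T (a, J.cj a)).1, y) : E × E)) y := by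
      intro y
      exact analyticAt_const.prod analyticAt_id
    have hevz : ∀ᶠ y in 𝓝 (0 : E), g ((T (a, J.cj a)).1, (T (a, J.cj a)).2 + y) = 0 := by
      refine eventually_zero_of_flat ?_ hflat
      have h8 : AnalyticAt ℂ (fun y : E => g ((T (a, J.cj a)).1, (T (a, J.cj a)).2 + y)) 0 := by
        have h9 : AnalyticAt ℂ g ((T (a, J.cj a)).1, (T (a, J.cj a)).2 + 0) := by
          rw [add_zero]; exact h3
        have h10 : AnalyticAt ℂ (fun y : E =>
            (((T (a, J.cj a)).1, (T (a, J.cj a)).2 + y) : E × E)) 0 :=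
          analyticAt_const.prod (analyticAt_const.add analyticAt_id)
        exact AnalyticAt.fun_comp (g := g) h9 h10
      exact h8.restrictScalars
    have hevz' : (fun y : E => g ((T (a, J.cj a)).1, y)) =ᶠ[𝓝 (T (a, J.cj a)).2] 0 := by
      have htr : Tendsto (fun y : E => y - (T (a, J.cj a)).2) (𝓝 (T (a, J.cj a)).2) (𝓝 0) := by
        have : Tendsto (fun y : E => y - (T (a, J.cj a)).2) (𝓝 (T (a, J.cj a)).2)
            (𝓝 ((T (a, J.cj a)).2 - (T (a, J.cj a)).2)) :=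
          (continuous_id.sub continuous_const).tendsto _
        rwa [sub_self] at this
      filter_upwards [htr.eventually hevz] with y hy
      rwa [add_sub_cancel] at hy
    have hanball : AnalyticOnNhd ℂ (fun y : E => g ((T (a, J.cj a)).1, y)) (ball 0 ε) := by
      intro y hy
      refine AnalyticAt.fun_comp (g := g) (f := fun y : E => ((T (a, J.cj a)).1, y)) ?_ (hmaps y)
      refine hεb _ ?_
      rw [hTb, mem_ball, Prod.dist_eq]
      have h2' : dist (T (a, J.cj a)) (0, 0) < ε := by rw [← hTb]; exact h2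
      rw [Prod.dist_eq] at h2'
      exact max_lt ((le_max_left _ _).trans_lt h2') hy
    have hmemb : (T (a, J.cj a)).2 ∈ ball (0 : E) ε := by
      have h2' : dist (T (a, J.cj a)) (0, 0) < ε := by rw [← hTb]; exact h2
      rw [Prod.dist_eq] at h2'
      exact (le_max_right _ _).trans_lt h2'
    have hzero := hanball.eqOn_zero_of_preconnected_of_eventuallyEq_zero
      (convex_ball (0 : E) ε).isPreconnected hmemb hevz' (mem_ball_self hε)
    simp only [Pi.zero_apply, hg, map_zero] at hzero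
    rw [hya] at hzero
    exact hzero
  -- the holomorphic function
  set hh : E → ℂ := fun z => f0 (z - q, 0) with hhh
  have hhan : AnalyticAt ℂ hh q := by
    have h1 : AnalyticAt ℂ f0 (q - q, 0) := by
      rw [sub_self]
      have : ((0 : E), (0 : E)) = T b := hTb.symm
      rw [this]
      exact hf0an
    have h2 : AnalyticAt ℂ (fun z : E => ((z - q, (0 : E)) : E × E)) q :=
      (analyticAt_id.sub analyticAt_const).prod analyticAt_const
    exact AnalyticAt.fun_comp (g := f0) (f := fun z : E => ((z - q, (0 : E)) : E × E)) h1 h2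
  have hhz := hol hh hhan hslice
  have hhd : ∀ v, fderiv ℂ f0 (T b) (v, 0) = 0 := by
    intro v
    have h1 : HasFDerivAt hh (0 : E →L[ℂ] ℂ) q := by
      have h2 : hh =ᶠ[𝓝 q] fun _ => 0 := hhz
      exact (hasFDerivAt_const (0 : ℂ) q).congr_of_eventuallyEq h2
    have h3 : HasFDerivAt hh ((fderiv ℂ f0 (T b)).comp (ContinuousLinearMap.inl ℂ E E)) q := by
      have h4 : HasFDerivAt (fun z : E => ((z - q, (0 : E)) : E × E))
          (ContinuousLinearMap.inl ℂ E E) q := by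
        have h5 : HasFDerivAt (fun z : E => z - q) (ContinuousLinearMap.id ℂ E) q :=
          (hasFDerivAt_id q).sub_const q
        exact h5.prodMk (hasFDerivAt_const (0 : E) q)
      have h6 : HasFDerivAt f0 (fderiv ℂ f0 (T b)) (q - q, 0) := by
        rw [sub_self]
        have : ((0 : E), (0 : E)) = T b := hTb.symm
        rw [this]
        exact hf0an.differentiableAt.hasFDerivAt
      exact HasFDerivAt.comp (g := f0) (f := fun z : E => ((z - q, (0 : E)) : E × E)) q h6 h4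
    have h7 := h1.unique h3
    have h8 := congrArg (fun L : E →L[ℂ] ℂ => L v) h7
    simp only [zero_apply, ContinuousLinearMap.comp_apply, ContinuousLinearMap.inl_apply] at h8
    exact h8.symm
  -- conclusion
  have hdf0 : HasFDerivAt f0 ((fderiv ℂ Rn b).comp (e.symm : (E × E) →L[ℂ] (E × E))) (T b) := by
    have h5 : HasFDerivAt Rn (fderiv ℂ Rn b) (G (T b)) := by
      rw [hGb]; exact hn.differentiableAt.hasFDerivAt
    exact h5.comp (T b) hdG
  rw [hdf0.fderiv] at hfirst hhd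
  refine ⟨(fderiv ℂ Rn b).comp ((ContinuousLinearMap.inr ℂ E E).comp σ), fun v => ?_⟩
  have h1 : fderiv ℂ Rn b v = fderiv ℂ Rn b (e.symm (e v)) := by rw [e.symm_apply_apply]
  have h2 : e v = (v.1, 0) + ((0, pr v.2) + (0, σ (fderiv ℂ R b v))) := by
    have : e v = (v.1, σ (fderiv ℂ R b v) + pr v.2) := rfl
    rw [this]
    refine Prod.ext ?_ ?_
    · simp
    · simp only [Prod.snd_add]
      abel
  rw [h1, h2, map_add, map_add, map_add, map_add]
  have h3 := hhd v.1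
  have h4 := hfirst v.2
  simp only [ContinuousLinearMap.comp_apply, ContinuousLinearEquiv.coe_coe] at h3 h4
  rw [h3, h4, zero_add, zero_add]
  have h5 : e.symm ((0 : E), σ (fderiv ℂ R b v)) = (0, σ (fderiv ℂ R b v)) := by
    have : e.symm ((0 : E), σ (fderiv ℂ R b v)) =
      ((0 : E), σ (fderiv ℂ R b v) - σ (Sz 0)) := rfl
    rw [this, map_zero, map_zero, sub_zero]
  rw [h5]
  rfl

end Vale.Agent.P274
end

section

open Filter Metric Set Topology Asymptotics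

namespace Vale.Agent.P274

open Complex

variable {E : Type} [NormedAddCommGroup E] [NormedSpace ℂ E]

theorem hasFDerivAt_graph (J : CJ E) (z : E) :
    HasFDerivAt (fun z : E => (z, J.cj z)) ((ContinuousLinearMap.id ℝ E).prod J.cj) z :=
  (hasFDerivAt_id z).prodMk J.cj.hasFDerivAt

/-- At suitable points of `A`, the complex linear part of the derivative of the equations is
onto, if no nonzero holomorphic function vanishes locally on `A`. -/
theorem exists_generic [FiniteDimensional ℂ E] (J : CJ E) {A : Set E} {c : ℕ}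
    {ρ : E → (Fin c → ℝ)} {q : E} (h : Eqn A c ρ q) (hmax : MaxCodim A c) (hq : q ∈ A)
    (hol : ∀ q' ∈ A, ∀ h : E → ℂ, AnalyticAt ℂ h q' → (∀ᶠ z in 𝓝 q', z ∈ A → h z = 0) →
      ∀ᶠ z in 𝓝 q', h z = 0) {V : Set E} (hV : V ∈ 𝓝 q) :
    ∃ q' ∈ A ∩ V, Eqn A c ρ q' ∧ Function.Surjective (Lam (fderiv ℝ ρ q')) := by
  obtain ⟨V', hV'sub, hV'o, hqV'⟩ := _root_.mem_nhds_iff.1 (inter_mem hV (h.eventually hq))
  obtain ⟨q', hq', k, R, hR, hmaxC⟩ := exists_maximal_eqC J (A := A) (V := V') ⟨q, hq, hqV'⟩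
  have hEq : Eqn A c ρ q' := (hV'sub hq'.2).2
  refine ⟨q', ⟨hq'.1, (hV'sub hq'.2).1⟩, hEq, ?_⟩
  set b := (q', J.cj q') with hb
  set D := fderiv ℝ ρ q' with hD
  have htcj : Tendsto (fun z : E => (z, J.cj z)) (𝓝 q') (𝓝 b) := by
    refine Continuous.tendsto ?_ q'
    have := J.cj.continuous
    fun_prop
  -- real derivative along the graph
  have hgr : ∀ (F : Type) [NormedAddCommGroup F] [NormedSpace ℂ F] (f : E × E → F),
      AnalyticAt ℂ f b → HasFDerivAt (𝕜 := ℝ) (fun z : E => f (z, J.cj z))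
        (((fderiv ℂ f b).restrictScalars ℝ).comp ((ContinuousLinearMap.id ℝ E).prod J.cj)) q' := by
    intro F _ _ f hf
    have h1 : HasFDerivAt (𝕜 := ℝ) f ((fderiv ℂ f b).restrictScalars ℝ) b :=
      hf.differentiableAt.hasFDerivAt.restrictScalars ℝ
    exact HasFDerivAt.comp (g := f) (f := fun z : E => (z, J.cj z)) q' h1 (hasFDerivAt_graph J q')
  have hgran : ∀ (f : E × E → ℂ), AnalyticAt ℂ f b →
      AnalyticAt ℝ (fun z : E => f (z, J.cj z)) q' := by
    intro f hf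
    have h1 : AnalyticAt ℝ f b := hf.restrictScalars
    have h2 : AnalyticAt ℝ (fun z : E => (z, J.cj z)) q' :=
      analyticAt_id.prod (J.cj.analyticAt q')
    exact AnalyticAt.fun_comp (g := f) (f := fun z : E => (z, J.cj z)) h1 h2
  -- factorization of the complexified equations
  have hμ : ∀ i : Fin c, ∃ μ : (Fin k → ℂ) →L[ℂ] ℂ, ∀ v : E,
      ((D v i : ℝ) : ℂ) = μ (fderiv ℂ R b (v, J.cj v)) := by
    intro i
    have hρi : AnalyticAt ℝ (fun x => ρ x i) q' :=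
      ((ContinuousLinearMap.proj (R := ℝ) (φ := fun _ : Fin c => ℝ) i).analyticAt _).comp hEq.an
    obtain ⟨Uc, hUc, hUceq⟩ := exists_complexification J hρi
    obtain ⟨μ, hμ⟩ := factor_of_maximal hR hV'o hmaxC hq' hUc (by
      filter_upwards [hUceq, hEq.van] with z h1 h2 h3
      rw [h1, h2 h3]; simp) (hol q' hq'.1)
    refine ⟨μ, fun v => ?_⟩
    rw [← hμ]
    have h1 := hgr ℂ Uc hUc
    have h2 : HasFDerivAt (𝕜 := ℝ) (fun z : E => ((ρ z i : ℝ) : ℂ))
        (Complex.ofRealCLM.comp ((ContinuousLinearMap.proj (R := ℝ) i).comp D)) q' := by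
      have h3 : HasFDerivAt (fun z : E => ρ z i) ((ContinuousLinearMap.proj (R := ℝ) i).comp D) q' :=
        hasFDerivAt_pi'.1 hEq.an.differentiableAt.hasFDerivAt i
      exact Complex.ofRealCLM.hasFDerivAt.comp q' h3
    have h4 : (fun z : E => Uc (z, J.cj z)) =ᶠ[𝓝 q'] fun z : E => ((ρ z i : ℝ) : ℂ) := hUceq
    have h5 := (h2.congr_of_eventuallyEq h4).unique h1
    have h6 := congrArg (fun L : E →L[ℝ] ℂ => L v) h5
    exact h6
  choose μ hμ using hμ
  -- tangential vanishing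
  have htan : ∀ v, D v = 0 → fderiv ℂ R b (v, J.cj v) = 0 := by
    intro v hv
    have hcomp : ∀ j : Fin k, AnalyticAt ℂ (fun x => R x j) b := fun j =>
      ((ContinuousLinearMap.proj (R := ℂ) (φ := fun _ : Fin k => ℂ) j).analyticAt _).comp hR.an
    ext j
    have hd := hgr ℂ _ (hcomp j)
    have hdj : fderiv ℂ (fun x => R x j) b =
        (ContinuousLinearMap.proj (R := ℂ) (φ := fun _ : Fin k => ℂ) j).comp (fderiv ℂ R b) :=
      (hasFDerivAt_pi'.1 hR.an.differentiableAt.hasFDerivAt j).fderiv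
    rw [hdj] at hd
    have hRe : HasFDerivAt (fun z : E => (R (z, J.cj z) j).re) _ q' :=
      Complex.reCLM.hasFDerivAt.comp q' hd
    have hIm : HasFDerivAt (fun z : E => (R (z, J.cj z) j).im) _ q' :=
      Complex.imCLM.hasFDerivAt.comp q' hd
    have hanRe : AnalyticAt ℝ (fun z : E => (R (z, J.cj z) j).re) q' :=
      (Complex.reCLM.analyticAt _).comp (hgran _ (hcomp j))
    have hanIm : AnalyticAt ℝ (fun z : E => (R (z, J.cj z) j).im) q' :=
      (Complex.imCLM.analyticAt _).comp (hgran _ (hcomp j))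
    have h1 := hEq.tangential hmax hq'.1 hanRe (by
      filter_upwards [hR.van] with z hz hzA
      rw [hz hzA]; simp) hv
    have h2 := hEq.tangential hmax hq'.1 hanIm (by
      filter_upwards [hR.van] with z hz hzA
      rw [hz hzA]; simp) hv
    rw [hRe.fderiv] at h1
    rw [hIm.fderiv] at h2
    apply Complex.ext
    · exact h1
    · exact h2
  obtain ⟨τ0, hτ0⟩ := (D : E →ₗ[ℝ] (Fin c → ℝ)).exists_rightInverse_of_surjective
    (LinearMap.range_eq_top.2 hEq.surj)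
  have hDτ : ∀ r, D (τ0 r) = r := fun r => LinearMap.congr_fun hτ0 r
  -- the real linear map `R'`
  set R' : E → (Fin k → ℂ) := fun v => fderiv ℂ R b (v, J.cj v) with hR'
  have hR'sub : ∀ v w, R' (v - w) = R' v - R' w := by
    intro v w
    have h1 : ((v - w, J.cj (v - w)) : E × E) = (v, J.cj v) - (w, J.cj w) := by
      rw [map_sub]; rfl
    simp only [hR']
    rw [h1]
    exact map_sub _ _ _
  have hR'τ : ∀ v, R' (τ0 (D v)) = R' v := by
    intro v
    have h1 : D (τ0 (D v) - v) = 0 := by rw [map_sub, hDτ, sub_self]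
    have h2 := htan _ h1
    have h3 := hR'sub (τ0 (D v)) v
    simp only [hR'] at h3 ⊢
    rw [h2] at h3
    exact (sub_eq_zero.1 h3.symm)
  intro y
  -- solve
  set ya : Fin c → ℝ := fun i => (y i).re with hya
  set yb : Fin c → ℝ := fun i => -(y i).im with hyb
  set x : Fin k → ℂ := (1 / 2 : ℂ) • (R' (τ0 ya) + I • R' (τ0 yb)) with hx
  obtain ⟨w, hw⟩ := hR.surj x
  obtain ⟨v, hcv⟩ : ∃ v, J.cj v = w := ⟨J.cj w, J.invol w⟩
  have hkey : R' v + I • R' (I • v) = (2 : ℂ) • x := by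
    have h1 : R' v = fderiv ℂ R b (v, 0) + fderiv ℂ R b (0, w) := by
      have e : ((v, J.cj v) : E × E) = (v, 0) + (0, w) := by rw [hcv]; simp
      simp only [hR']
      rw [e]
      exact map_add _ _ _
    have h2 : R' (I • v) = I • fderiv ℂ R b (v, 0) - I • fderiv ℂ R b (0, w) := by
      have e : ((I • v, J.cj (I • v)) : E × E) = I • ((v, 0) : E × E) - I • ((0, w) : E × E) := by
        rw [J.I_smul, hcv]; simp
      simp only [hR']
      rw [e, map_sub, map_smul, map_smul]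
    have h3 : fderiv ℂ R b (0, w) = x := hw
    rw [h1, h2, smul_sub, smul_smul, smul_smul, I_mul_I, h3, two_smul]
    simp only [neg_smul, one_smul]
    abel
  refine ⟨v, ?_⟩
  ext i
  rw [Lam_apply]
  have e1 : ((D v i : ℝ) : ℂ) = μ i (R' v) := hμ i v
  have e2 : ((D (I • v) i : ℝ) : ℂ) = μ i (R' (I • v)) := hμ i (I • v)
  have e3 : ((y i).re : ℂ) = μ i (R' (τ0 ya)) := by
    rw [← hμ i (τ0 ya), hDτ]
  have e4 : ((-(y i).im : ℝ) : ℂ) = μ i (R' (τ0 yb)) := by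
    rw [← hμ i (τ0 yb), hDτ]
  have e5 := congrArg (μ i) hkey
  rw [map_add, map_smul, map_smul, hx, map_smul, map_add, map_smul, ← e1, ← e2, ← e3, ← e4] at e5
  simp only [smul_eq_mul] at e5
  have e6 : (D v i : ℂ) + I * (D (I • v) i : ℂ) = (y i).re + I * ((-(y i).im : ℝ) : ℂ) := by
    rw [e5]; ring
  apply Complex.ext
  · have := congrArg Complex.re e6
    simp at this ⊢
    exact this
  · have := congrArg Complex.im e6
    simp at this ⊢
    linarith

end Vale.Agent.P274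
end

section

open Filter Metric Set Topology Asymptotics

namespace Vale.Agent.P274

variable {E : Type} [NormedAddCommGroup E] [InnerProductSpace ℂ E]

/-- No nonzero holomorphic function vanishes on the set of peak points near a peak point. -/
theorem PeakPt.holo_zero [FiniteDimensional ℂ E] [Nontrivial E] {U : Set E} (hU : IsOpen U)
    {q : E} (hq : PeakPt U q) {h : E → ℂ} (hh : AnalyticAt ℂ h q)
    (h0 : ∀ᶠ z in 𝓝 q, z ∈ peakSet U → h z = 0) : ∀ᶠ z in 𝓝 q, h z = 0 := by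
  have hprop : ProperSpace E := FiniteDimensional.proper_rclike ℂ E
  by_contra hne
  obtain ⟨hqU, hqnU, c, hc, δ, hδ, P, hP, hPq, hPU⟩ := hq
  have hPcl := PeakPt.le_closure hP hPU
  obtain ⟨δ', hδ', hδ'b⟩ := Metric.eventually_nhds_iff_ball.1 (hh.eventually_analyticAt.and h0)
  set δ₂ : ℝ := min δ δ' with hδ₂
  have hδ₂0 : 0 < δ₂ := lt_min hδ hδ'
  set δ₁ : ℝ := δ₂ / 2 with hδ₁
  have hδ₁0 : 0 < δ₁ := by (clear * - hδ hδ'; positivity)
  have hδ₁₂ : δ₁ < δ₂ := by linarith only [hδ₁, hδ₁0]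
  have hP2 : DifferentiableOn ℂ P (ball q δ₂) := hP.mono (ball_subset_ball (min_le_left _ _))
  have hh2 : DifferentiableOn ℂ h (ball q δ₂) := fun z hz =>
    (hδ'b z (ball_subset_ball (min_le_right _ _) hz)).1.differentiableAt.differentiableWithinAt
  -- the set `W`
  have hcont : ContinuousOn (fun z => c / 2 * ‖z - q‖ ^ 2 - (P z).re) (ball q δ₂) := by
    have h3 : ContinuousOn (fun z => (P z).re) (ball q δ₂) :=
      Complex.continuous_re.comp_continuousOn hP2.continuousOn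
    fun_prop
  have hWev : ∀ᶠ z in 𝓝 q, z ∈ ball q δ₁ ∧
      -(c / 8 * δ₁ ^ 2) < c / 2 * ‖z - q‖ ^ 2 - (P z).re := by
    have h1 := hcont.continuousAt (isOpen_ball.mem_nhds (mem_ball_self hδ₂0))
    have h2 : -(c / 8 * δ₁ ^ 2) < c / 2 * ‖q - q‖ ^ 2 - (P q).re := by
      rw [hPq]
      simp
      (clear * - hc hδ hδ'; positivity)
    exact Eventually.and (ball_mem_nhds q hδ₁0) (h1.eventually (lt_mem_nhds h2))
  obtain ⟨W, hWsub, hWo, hqW⟩ := _root_.eventually_nhds_iff.1 hWev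
  have hz0 : ∃ z0 ∈ U ∩ W, h z0 ≠ 0 := by
    by_contra hcon
    push Not at hcon
    obtain ⟨z1, hz1U, hz1W⟩ : (U ∩ W).Nonempty := by
      obtain ⟨y, hy1, hy2⟩ := mem_closure_iff_nhds.1 hqU W (hWo.mem_nhds hqW)
      exact ⟨y, hy2, hy1⟩
    have han : AnalyticOnNhd ℂ h (ball q δ₂) := fun z hz =>
      (hδ'b z (ball_subset_ball (min_le_right _ _) hz)).1
    have hz1b : z1 ∈ ball q δ₂ := ball_subset_ball hδ₁₂.le (hWsub z1 hz1W).1
    have hev : h =ᶠ[𝓝 z1] 0 := by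
      filter_upwards [(hU.inter hWo).mem_nhds ⟨hz1U, hz1W⟩] with z hz
      exact hcon z hz
    have hz := han.eqOn_zero_of_preconnected_of_eventuallyEq_zero
      (convex_ball q δ₂).isPreconnected hz1b hev
    exact hne (eventually_of_mem (ball_mem_nhds q hδ₂0) fun z hz' => hz hz')
  obtain ⟨z0, ⟨hz0U, hz0W⟩, hz0⟩ := hz0
  obtain ⟨hz0b, hz0v⟩ := hWsub z0 hz0W
  have hsub : closedBall q δ₁ ⊆ ball q δ₂ := closedBall_subset_ball hδ₁₂
  obtain ⟨M, hM⟩ := (isCompact_closedBall q δ₁).exists_bound_of_continuousOn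
    (hh2.continuousOn.mono hsub)
  have hhz0 : 0 < ‖h z0‖ := norm_pos_iff.2 hz0
  set m : ℝ := 3 * c / 8 * δ₁ ^ 2 with hm
  have hm0 : 0 < m := by (clear * - hc hδ hδ'; positivity)
  set κ : ℝ := (|M| / ‖h z0‖) / m + 1 with hκ
  have hκ0 : 0 < κ := by (clear * - hc hδ hδ' hz0; positivity)
  have hexp : M < Real.exp (κ * m) * ‖h z0‖ := by
    have h1 := Real.add_one_le_exp (κ * m)
    have h2 : κ * m = |M| / ‖h z0‖ + m := by
      rw [hκ, add_mul, div_mul_cancel₀ _ hm0.ne', one_mul]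
    have h3 : |M| / ‖h z0‖ < Real.exp (κ * m) := by linarith only [hm0, h1, h2]
    rw [div_lt_iff₀ hhz0] at h3
    exact (le_abs_self M).trans_lt h3
  obtain ⟨a, hab, haP, hha, -⟩ := exists_peakPt_of_lt hU (q := q) (δ₁ := δ₁) (δ := δ₂)
    (c := c / 2) (κ := κ) (P := P) (h := h) hδ₁₂ (by (clear * - hc; positivity)) hκ0 hP2 hh2 (z0 := z0)
    (subset_closure hz0U) hz0b hz0 (by
      intro z hz hzs
      have hzn : ‖z - q‖ = δ₁ := by rwa [mem_sphere_iff_norm] at hzs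
      have h1 := hPcl z hz (by
        rw [mem_ball_iff_norm, hzn]; exact hδ₁₂.trans_le (min_le_left _ _))
      have h2 : ‖h z‖ ≤ M := hM z (sphere_subset_closedBall hzs)
      have h3 : c / 2 * ‖z - q‖ ^ 2 - (P z).re ≤ -(c / 8 * δ₁ ^ 2) - m := by
        rw [hzn] at h1 ⊢
        rw [hm]
        linarith only [h1]
      calc Real.exp (κ * (c / 2 * ‖z - q‖ ^ 2 - (P z).re)) * ‖h z‖
          ≤ Real.exp (κ * (-(c / 8 * δ₁ ^ 2) - m)) * M := by (clear * - hc hδ hδ' hz0 h2 h3; gcongr)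
        _ < Real.exp (κ * (-(c / 8 * δ₁ ^ 2) - m)) * (Real.exp (κ * m) * ‖h z0‖) := by
            (clear * - hexp; gcongr)
        _ = Real.exp (κ * (-(c / 8 * δ₁ ^ 2))) * ‖h z0‖ := by
            rw [← mul_assoc, ← Real.exp_add]
            congr 2
            ring
        _ < _ := by (clear * - hc hδ hδ' hz0 hz0v; gcongr))
  exact hha ((hδ'b a (ball_subset_ball ((hδ₁₂.le).trans (min_le_right _ _)) hab)).2 haP)

end Vale.Agent.P274
end

section

open Filter Metric Set Topology Asymptotics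

namespace Vale.Agent.P274

section real

variable {E : Type} [NormedAddCommGroup E] [NormedSpace ℝ E]

/-- Leading term of a function with respect to a maximal system of equations. -/
theorem exists_asymp [FiniteDimensional ℝ E] {A : Set E} {c : ℕ} {ρ : E → (Fin c → ℝ)} {q : E}
    (h : Eqn A c ρ q) (hmax : MaxCodim A c) (hq : q ∈ A) {F : E → ℝ} (hF : AnalyticAt ℝ F q)
    {b : ℕ} (hb : ∀ᶠ x in 𝓝 q, x ∈ A → Zo b ℝ F x) (hnb : ¬ Zo (b + 1) ℝ F q) :
    ∃ G : (Fin c → ℝ) → ℝ, (∀ r, AnalyticAt ℝ G r) ∧ (∀ (t : ℝ) r, G (t • r) = t ^ b * G r) ∧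
      (∃ r, G r ≠ 0) ∧ ∀ ε > 0, ∀ᶠ x in 𝓝 q, |F x - G (ρ x)| ≤ ε * ‖ρ x‖ ^ b := by
  have hcs : CompleteSpace E := FiniteDimensional.complete ℝ E
  obtain ⟨C⟩ := exists_chart h.an (h.van.self_of_nhds hq) h.surj
  have hFχ : AnalyticAt ℝ F (C.χ 0) := by rwa [C.χ0]
  have hG : AnalyticAt ℝ (fun y => F (C.χ y)) 0 := AnalyticAt.fun_comp (g := F) hFχ C.anχ
  have htr : ∀ᶠ y in 𝓝 (0 : E), Zo b ℝ (fun y => F (C.χ y)) (C.π y) := by
    refine Zo_transfer (A := {y | C.χ y ∈ A}) (by simp only [mem_ofPred_eq, C.χ0]; exact hq) C.ππ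
      (C.adapted1 h) (C.adapted2 h hmax hq) b ℝ _ hG ?_
    filter_upwards [C.tendsto_χ.eventually hb, C.tendsto_χ.eventually hF.eventually_analyticAt,
      C.anχ.eventually_analyticAt] with y h1 h2 h3 h4
    exact Zo_comp ℝ F C.χ y h2 h3 (h1 h4)
  obtain ⟨Gs, hL, hnz⟩ := exists_lead C.ππ b ℝ _ hG htr
  have hGsR : ∀ y, Gs y = Gs (C.R (fderiv ℝ ρ q y)) := by
    intro y
    rw [← hL.inv y]
    congr 1
    rw [sub_eq_iff_eq_add', C.π_add]
  have hne : ∃ y, Gs y ≠ 0 := by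
    by_contra hcon
    push Not at hcon
    have h1 := hnz hcon
    refine hnb ?_
    have h2 : AnalyticAt ℝ (fun y => F (C.χ y)) (C.Ψ q) := by rwa [C.Ψq]
    have h3 : Zo (b + 1) ℝ (fun x => F (C.χ (C.Ψ x))) q :=
      Zo_comp ℝ (fun y => F (C.χ y)) C.Ψ q h2 C.anΨ (by rwa [C.Ψq])
    refine Zo_congr ℝ _ _ q ?_ h3
    filter_upwards [C.left] with x hx
    rw [hx]
  refine ⟨fun r => Gs (C.R r), fun r => ?_, fun t r => ?_, ?_, fun ε hε => ?_⟩
  · exact AnalyticAt.fun_comp (g := Gs) (hL.an _) (C.R.analyticAt r)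
  · simp only [map_smul]
    rw [hL.hom, smul_eq_mul]
  · obtain ⟨y, hy⟩ := hne
    exact ⟨fderiv ℝ ρ q y, by rw [hGsR] at hy; exact hy⟩
  · set M : ℝ := ‖C.R‖ ^ b with hM
    have hM0 : 0 ≤ M := by (clear * -; positivity)
    have h1 := C.tendsto_Ψ.eventually (hL.lim (ε / (M + 1)) (by (clear * - hε; positivity)))
    filter_upwards [h1, C.left] with x h2 h3
    have h4 : C.Ψ x - C.π (C.Ψ x) = C.R (ρ x) := by
      rw [sub_eq_iff_eq_add', ← C.DΨ, C.π_add]
    rw [hGsR, C.DΨ, h3, h4, Real.norm_eq_abs] at h2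
    refine h2.trans ?_
    have h5 : ‖C.R (ρ x)‖ ^ b ≤ M * ‖ρ x‖ ^ b := by
      rw [hM, ← mul_pow]
      gcongr
      exact C.R.le_opNorm _
    calc ε / (M + 1) * ‖C.R (ρ x)‖ ^ b ≤ ε / (M + 1) * (M * ‖ρ x‖ ^ b) := by (clear * - hε h5; gcongr)
      _ = ε * ‖ρ x‖ ^ b * (M / (M + 1)) := by field_simp
      _ ≤ ε * ‖ρ x‖ ^ b * 1 := by
          gcongr
          rw [div_le_one (by (clear * -; positivity))]
          linarith only
      _ = ε * ‖ρ x‖ ^ b := mul_one _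

/-- Minimal vanishing order. -/
theorem exists_min_order [CompleteSpace E] {A V : Set E} {F : E → ℝ} {q : E} (hq : q ∈ A ∩ V)
    (hF : AnalyticAt ℝ F q) (hn : ¬ ∀ᶠ x in 𝓝 q, F x = 0) :
    ∃ b : ℕ, (∀ x ∈ A ∩ V, Zo b ℝ F x) ∧ ∃ q' ∈ A ∩ V, ¬ Zo (b + 1) ℝ F q' := by
  classical
  have hex : ∃ b : ℕ, ∃ q' ∈ A ∩ V, ¬ Zo (b + 1) ℝ F q' := by
    by_contra hcon
    push Not at hcon
    refine hn (eventually_zero_of_Zo hF fun b => ?_)
    exact Zo_mono _ _ _ (hcon b q hq)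
  refine ⟨Nat.find hex, fun x hx => ?_, Nat.find_spec hex⟩
  rcases hb : Nat.find hex with _ | b'
  · trivial
  · by_contra hcon
    exact Nat.find_min hex (m := b') (by omega) ⟨x, hx, hcon⟩

end real

section cpx

variable {E : Type} [NormedAddCommGroup E]

/-- Existence of a conjugation. -/
theorem exists_CJ [NormedSpace ℂ E] [FiniteDimensional ℂ E] : Nonempty (CJ E) := by
  set bs := Module.finBasis ℂ E with hbs
  set cj0 : E →ₗ[ℝ] E :=
    { toFun := fun w => ∑ i, (starRingEnd ℂ) (bs.repr w i) • bs i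
      map_add' := fun x y => by
        simp only [map_add, Finsupp.add_apply, add_smul, Finset.sum_add_distrib]
      map_smul' := fun r x => by
        have h1 : (r • x : E) = (r : ℂ) • x := rfl
        rw [h1]
        simp only [map_smul, Finsupp.smul_apply, smul_eq_mul, map_mul, Complex.conj_ofReal,
          RingHom.id_apply, Finset.smul_sum]
        refine Finset.sum_congr rfl fun i _ => ?_
        rw [mul_smul]
        rfl } with hcj0
  have hfd : FiniteDimensional ℝ E := FiniteDimensional.complexToReal E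
  refine ⟨⟨LinearMap.toContinuousLinearMap cj0, fun w => ?_, fun w => ?_⟩⟩
  · change cj0 (Complex.I • w) = -(Complex.I • cj0 w)
    simp only [hcj0, LinearMap.coe_mk, AddHom.coe_mk, map_smul, Finsupp.smul_apply, smul_eq_mul,
      map_mul, Complex.conj_I, Finset.smul_sum, ← Finset.sum_neg_distrib]
    refine Finset.sum_congr rfl fun i _ => ?_
    rw [mul_smul, neg_smul]
  · change cj0 (cj0 w) = w
    have h1 : ∀ i, bs.repr (cj0 w) i = (starRingEnd ℂ) (bs.repr w i) := by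
      intro i
      simp only [hcj0, LinearMap.coe_mk, AddHom.coe_mk, map_sum, map_smul, Module.Basis.repr_self]
      rw [Finsupp.finsetSum_apply]
      simp [Finsupp.single_apply]
    have h2 : cj0 (cj0 w) = ∑ i, (starRingEnd ℂ) (bs.repr (cj0 w) i) • bs i := rfl
    rw [h2]
    simp only [h1, Complex.conj_conj]
    exact bs.sum_repr w

/-- Scaling limit of a function with given leading term. -/
theorem scaled_lead [NormedSpace ℂ E] [FiniteDimensional ℂ E] {k : ℕ} {ρ : E → (Fin k → ℝ)}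
    {q : E} (hρ : AnalyticAt ℝ ρ q) (hρq : ρ q = 0) {σ : (Fin k → ℂ) →L[ℂ] E}
    (hσ : ∀ w, Lam (fderiv ℝ ρ q) (σ w) = w)
    {F : E → ℝ} {G : (Fin k → ℝ) → ℝ} (hG : Continuous G) {b : ℕ}
    (hhom : ∀ (t : ℝ) r, G (t • r) = t ^ b * G r)
    (hlim : ∀ ε > 0, ∀ᶠ x in 𝓝 q, |F x - G (ρ x)| ≤ ε * ‖ρ x‖ ^ b) (R : ℝ) {ε : ℝ} (hε : 0 < ε) :
    ∀ᶠ s in 𝓝[>] (0 : ℝ), ∀ y ∈ closedBall (0 : E) R,
      |(s ^ (2 * b))⁻¹ * F (q + Th (fderiv ℝ ρ q) (fderiv ℝ (fderiv ℝ ρ) q) σ s y) -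
        G (fderiv ℝ ρ q y + Lev (fderiv ℝ (fderiv ℝ ρ) q) (prj (fderiv ℝ ρ q) σ y))| ≤ ε := by
  have hpr : ProperSpace E := FiniteDimensional.proper_rclike ℂ E
  set D := fderiv ℝ ρ q with hD
  set B := fderiv ℝ (fderiv ℝ ρ) q with hB
  set r : E → (Fin k → ℝ) := fun y => D y + Lev B (prj D σ y) with hr
  have hTy : (fun x => (fun x => ρ (q + x)) x - D x - (1 / 2 : ℝ) • B x x)
      =o[𝓝 0] fun x => ‖x‖ ^ 2 := by
    have := taylor2 hρ
    simp only [hρq, sub_zero] at this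
    exact this
  have hrc : Continuous r := by
    have h1 : Continuous fun y : E => Lev B (prj D σ y) := by
      have h2 : Continuous (Lev B) := by
        unfold Lev
        fun_prop
      exact h2.comp (prj D σ).continuous
    exact D.continuous.add h1
  obtain ⟨M, hM⟩ := (isCompact_closedBall (0 : E) R).exists_bound_of_continuousOn
    (f := r) hrc.continuousOn
  set M' : ℝ := max M 0 + 1 with hM'
  have hM'0 : 0 < M' := by (clear * -; positivity)
  -- uniform continuity of `G` on the ball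
  have huc := (isCompact_closedBall (0 : Fin k → ℝ) M').uniformContinuousOn_of_continuous
    hG.continuousOn
  rw [Metric.uniformContinuousOn_iff_le] at huc
  obtain ⟨δ, hδ, hδG⟩ := huc (ε / 2) (half_pos hε)
  have hts := taylor_scaled hσ hTy R (ε := min δ 1) (lt_min hδ one_pos)
  have hM'b : 0 < M' ^ b := by (clear * -; positivity)
  -- neighbourhood
  obtain ⟨η, hη, hηF⟩ := Metric.eventually_nhds_iff_ball.1 (hlim (ε / 2 / M' ^ b) (by (clear * - hε; positivity)))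
  have hThsmall : ∀ᶠ s in 𝓝[>] (0 : ℝ), ∀ y ∈ closedBall (0 : E) R,
      q + Th D B σ s y ∈ ball q η := by
    have hQc : Continuous (Qf B) := (differentiable_Qf B).continuous
    obtain ⟨A1, hA1⟩ := (isCompact_closedBall (0 : E) R).exists_bound_of_continuousOn
      (f := fun y => σ (Lam D y - Qf B (prj D σ y))) (by fun_prop)
    obtain ⟨Z1, hZ1⟩ := (isCompact_closedBall (0 : E) R).exists_bound_of_continuousOn
      (f := fun y => prj D σ y) (by fun_prop)
    have h1 : ∀ᶠ s in 𝓝[>] (0 : ℝ), s ^ 2 * |A1| + s * |Z1| < η := by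
      have hc : Continuous fun s : ℝ => s ^ 2 * |A1| + s * |Z1| := by fun_prop
      have := hc.tendsto 0
      simp only [ne_eq, OfNat.ofNat_ne_zero, not_false_eq_true, zero_pow, zero_mul, add_zero]
        at this
      exact (this.mono_left nhdsWithin_le_nhds).eventually (gt_mem_nhds hη)
    filter_upwards [h1, self_mem_nhdsWithin] with s hs hs0 y hy
    have hs0' : 0 < s := hs0
    rw [mem_ball, dist_eq_norm, add_sub_cancel_left]
    refine lt_of_le_of_lt ?_ hs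
    refine (norm_add_le _ _).trans ?_
    rw [norm_smul, norm_smul, Real.norm_of_nonneg hs0'.le, Real.norm_of_nonneg (by (clear * - hs0'; positivity))]
    have h2 := (hA1 y hy).trans (le_abs_self _)
    have h3 := (hZ1 y hy).trans (le_abs_self _)
    (clear * - hs0' h2 h3; gcongr)
  filter_upwards [hts, hThsmall, self_mem_nhdsWithin] with s hs1 hs2 hs0 y hy
  have hs0' : 0 < s := hs0
  have h1 := hs1 y hy
  have h2 := hηF _ (hs2 y hy)
  set x := q + Th D B σ s y with hx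
  have h3 : ‖(s ^ 2)⁻¹ • ρ x‖ ≤ M' := by
    have h4 : ‖r y‖ ≤ max M 0 := (hM y hy).trans (le_max_left _ _)
    have h5 : (s ^ 2)⁻¹ • ρ x = ((s ^ 2)⁻¹ • ρ x - r y) + r y := by abel
    rw [h5]
    refine (norm_add_le _ _).trans ?_
    have h6 : ‖(s ^ 2)⁻¹ • ρ x - r y‖ ≤ 1 := h1.trans (min_le_right _ _)
    rw [hM']
    linarith only [h4, h6]
  have hry : ‖r y‖ ≤ M' := (hM y hy).trans ((le_max_left _ _).trans (by rw [hM']; linarith only))
  have h4 := hδG ((s ^ 2)⁻¹ • ρ x) (by simpa using h3) (r y) (by simpa using hry) (by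
    rw [dist_eq_norm]; exact h1.trans (min_le_left _ _))
  rw [hhom, Real.dist_eq] at h4
  have hsb : ((s ^ 2)⁻¹) ^ b = (s ^ (2 * b))⁻¹ := by rw [inv_pow, ← pow_mul]
  have hpos : 0 < (s ^ (2 * b))⁻¹ := by (clear * - hs0'; positivity)
  have h5 : |(s ^ (2 * b))⁻¹ * F x - (s ^ (2 * b))⁻¹ * G (ρ x)| ≤ ε / 2 := by
    rw [← mul_sub, abs_mul, abs_of_pos hpos]
    have h6 : (s ^ (2 * b))⁻¹ * ‖ρ x‖ ^ b = ‖(s ^ 2)⁻¹ • ρ x‖ ^ b := by
      rw [norm_smul, mul_pow, norm_inv, Real.norm_of_nonneg (by (clear * - hs0'; positivity)), hsb]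
    calc (s ^ (2 * b))⁻¹ * |F x - G (ρ x)|
        ≤ (s ^ (2 * b))⁻¹ * (ε / 2 / M' ^ b * ‖ρ x‖ ^ b) := by (clear * - hs0' h2; gcongr)
      _ = ε / 2 / M' ^ b * ‖(s ^ 2)⁻¹ • ρ x‖ ^ b := by rw [← h6]; ring
      _ ≤ ε / 2 / M' ^ b * M' ^ b := by (clear * - hε h3; gcongr)
      _ = ε / 2 := by field_simp
  rw [hsb] at h4
  calc |(s ^ (2 * b))⁻¹ * F x - G (r y)|
      = |((s ^ (2 * b))⁻¹ * F x - (s ^ (2 * b))⁻¹ * G (ρ x)) +
          ((s ^ (2 * b))⁻¹ * G (ρ x) - G (r y))| := by congr 1; ring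
    _ ≤ _ := abs_add_le _ _
    _ ≤ ε / 2 + ε / 2 := add_le_add h5 h4
    _ = ε := by ring

end cpx

section final

variable {E : Type} [NormedAddCommGroup E] [InnerProductSpace ℂ E]

end final

end Vale.Agent.P274
end

section

open Filter Metric Set Topology Asymptotics

namespace Vale.Agent.P274

section real

variable {E : Type} [NormedAddCommGroup E] [NormedSpace ℝ E]

theorem Eqn.of_inter {A W : Set E} (hW : IsOpen W) {c : ℕ} {ρ : E → (Fin c → ℝ)} {q : E}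
    (h : Eqn (A ∩ W) c ρ q) (hq : q ∈ W) : Eqn A c ρ q := by
  refine ⟨h.an, ?_, h.surj⟩
  filter_upwards [h.van, hW.mem_nhds hq] with x h1 h2 h3
  exact h1 ⟨h3, h2⟩

end real

variable {E : Type} [NormedAddCommGroup E] [InnerProductSpace ℂ E]

/-- No nonzero holomorphic function vanishes on the set of peak points near a peak point,
window version. -/
theorem PeakPt.holo_zero' [FiniteDimensional ℂ E] [Nontrivial E] {U W : Set E} (hU : IsOpen U)
    (hW : IsOpen W) {q : E} (hq : PeakPt U q) (hqW : q ∈ W) {h : E → ℂ} (hh : AnalyticAt ℂ h q)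
    (h0 : ∀ᶠ z in 𝓝 q, z ∈ peakSet U ∩ W → h z = 0) : ∀ᶠ z in 𝓝 q, h z = 0 := by
  refine PeakPt.holo_zero hU hq hh ?_
  filter_upwards [h0, hW.mem_nhds hqW] with z h1 h2 h3
  exact h1 ⟨h3, h2⟩

end Vale.Agent.P274
end

section

/-! Auxiliary lemmas for the wing lemma, second part. -/

open Filter Topology Polynomial Set

namespace Vale.Agent.P274.W

/-- Uniformity in the first variable. -/
lemma wing_uniform {Y : Type*} [TopologicalSpace Y] {y0 : Y} {Q : ℝ × Y → Prop}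
    (h : ∀ᶠ p in 𝓝 ((0 : ℝ), y0), Q p) :
    ∃ r0 > 0, ∀ r ≤ r0, ∀ᶠ y in 𝓝 y0, ∀ x : ℝ, |x| ≤ r → Q (x, y) := by
  rw [nhds_prod_eq] at h
  obtain ⟨pa, hpa, pb, hpb, hab⟩ := Filter.eventually_prod_iff.1 h
  obtain ⟨ε, hε, hB⟩ := Metric.eventually_nhds_iff_ball.1 hpa
  refine ⟨ε / 2, half_pos hε, fun r hr => ?_⟩
  filter_upwards [hpb] with y hy x hx
  refine hab (hB x ?_) hy
  rw [Metric.mem_ball, Real.dist_eq, sub_zero]
  linarith

section sign

variable {V T : Type*} [NormedAddCommGroup V] [NormedAddCommGroup T] [NormedSpace ℝ T]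

/-- The axis case. -/
lemma wing_sign {F : ℝ × (V × T) → ℝ} {Ω : Set (ℝ × (V × T))} (hΩ : IsOpen Ω) {q1 : T} {r : ℝ}
    (hr : 0 < r)
    (h1 : ∀ᶠ t in 𝓝 q1, ∀ x : ℝ, |x| ≤ r → x ≠ 0 →
      F (x, ((0 : V), t)) ≠ 0 ∧ (x, ((0 : V), t)) ∉ frontier Ω)
    {e : ℝ} (he : |e| = 1) (h2 : (e * r, ((0 : V), q1)) ∈ Ω) :
    ∀ᶠ p in 𝓝 ((0 : ℝ), q1), 0 < p.1 →
      (e * p.1, ((0 : V), p.2)) ∈ Ω ∧ F (e * p.1, ((0 : V), p.2)) ≠ 0 := by
  obtain ⟨ρ, hρ, hB⟩ := Metric.eventually_nhds_iff_ball.1 h1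
  have hne : ∀ x : ℝ, 0 < x → x ≤ r → |e * x| ≤ r ∧ e * x ≠ 0 := by
    intro x hx hxr
    have he0 : e ≠ 0 := by
      rintro rfl
      simp at he
    refine ⟨?_, mul_ne_zero he0 hx.ne'⟩
    rw [abs_mul, he, one_mul, abs_of_pos hx]
    exact hxr
  set f : ℝ × T → ℝ × (V × T) := fun p => (e * p.1, ((0 : V), p.2)) with hf
  have hc : Continuous f := by
    rw [hf]
    fun_prop
  have hZ : IsPreconnected (f '' (Ioc 0 r ×ˢ Metric.ball q1 ρ)) :=
    (isPreconnected_Ioc.prod (convex_ball q1 ρ).isPreconnected).image _ hc.continuousOn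
  have hsub := wing_subset hΩ hZ ?_ ⟨f (r, q1), ⟨(r, q1), ⟨⟨hr, le_rfl⟩,
    Metric.mem_ball_self hρ⟩, rfl⟩, h2⟩
  · have hev : ∀ᶠ p in 𝓝 ((0 : ℝ), q1), p.1 < r ∧ p.2 ∈ Metric.ball q1 ρ := by
      have h3 : ∀ᶠ p in 𝓝 ((0 : ℝ), q1), p.1 < r :=
        continuousAt_fst.eventually (gt_mem_nhds hr)
      have h4 : ∀ᶠ p in 𝓝 ((0 : ℝ), q1), p.2 ∈ Metric.ball q1 ρ :=
        continuousAt_snd.eventually (Metric.ball_mem_nhds q1 hρ)
      exact h3.and h4
    filter_upwards [hev] with p hp hp0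
    refine ⟨hsub ⟨p, ⟨⟨hp0, hp.1.le⟩, hp.2⟩, rfl⟩, ?_⟩
    have h5 := hne p.1 hp0 hp.1.le
    exact (hB p.2 hp.2 _ h5.1 h5.2).1
  · rintro z ⟨p, ⟨hp, hp'⟩, rfl⟩
    have h5 := hne p.1 hp.1 hp.2
    exact (hB p.2 hp' _ h5.1 h5.2).2

end sign

section proj

variable {Y : Type*} [TopologicalSpace Y]

/-- Points of the closure of the projection. -/
lemma wing_closure {Ω : Set (ℝ × Y)} (hΩ : IsOpen Ω) {W : Set Y} (hW : IsOpen W) {Δ : Y → ℝ}
    {r : ℝ} (hr : 0 < r) {y0 : Y} (hy0 : y0 ∈ W) (h : ((0 : ℝ), y0) ∈ closure Ω)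
    (hΔ : ∀ᶠ y in 𝓝 y0, ¬ ∀ᶠ z in 𝓝 y, Δ z = 0) :
    y0 ∈ closure {y | y ∈ W ∧ Δ y ≠ 0 ∧ ∃ x : ℝ, |x| < r ∧ (x, y) ∈ Ω} := by
  rw [mem_closure_iff_frequently]
  intro hcon
  rw [mem_closure_iff_frequently] at h
  have h1 : ∀ᶠ p in 𝓝 ((0 : ℝ), y0), |p.1| < r := by
    have : ContinuousAt (fun p : ℝ × Y => |p.1|) ((0 : ℝ), y0) := by fun_prop
    refine this.eventually (gt_mem_nhds ?_)
    simpa using hr
  have h2 : ∀ᶠ p in 𝓝 ((0 : ℝ), y0), (¬ ∀ᶠ z in 𝓝 p.2, Δ z = 0) ∧ p.2 ∈ W ∧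
      ∀ᶠ y in 𝓝 p.2, ¬ (y ∈ W ∧ Δ y ≠ 0 ∧ ∃ x : ℝ, |x| < r ∧ (x, y) ∈ Ω) := by
    have h3 : ContinuousAt (fun p : ℝ × Y => p.2) ((0 : ℝ), y0) := continuousAt_snd
    have h4 : ∀ᶠ y in 𝓝 y0, (¬ ∀ᶠ z in 𝓝 y, Δ z = 0) ∧ y ∈ W ∧
        ∀ᶠ y' in 𝓝 y, ¬ (y' ∈ W ∧ Δ y' ≠ 0 ∧ ∃ x : ℝ, |x| < r ∧ (x, y') ∈ Ω) := by
      filter_upwards [hΔ, hW.mem_nhds hy0, hcon.eventually_nhds] with y a b c
      exact ⟨a, b, c⟩
    exact h3.eventually h4
  obtain ⟨p, hp, hp1, hp2, hp3, hp4⟩ := (h.and_eventually (h1.and h2)).exists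
  refine hp2 ?_
  have h3 : ∀ᶠ y in 𝓝 p.2, (p.1, y) ∈ Ω := by
    have : ContinuousAt (fun y : Y => (p.1, y)) p.2 := by fun_prop
    exact this.eventually (hΩ.mem_nhds hp)
  filter_upwards [h3, hp4, hW.mem_nhds hp3] with y a b c
  by_contra h0
  exact b ⟨c, h0, p.1, hp1, a⟩

end proj

section final

/-- Choice of the two consecutive roots. -/
lemma wing_indices {l : ℕ} {S : Type*} {D : Set S} {γ : Fin l → S → ℝ}
    (hmono : ∀ p ∈ D, StrictMono fun i => γ i p) {p1 : S} (hp1 : p1 ∈ D) {x1 : ℝ}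
    (hx1 : ∀ i, x1 ≠ γ i p1) (hlo : ∃ i, γ i p1 < x1) (hhi : ∃ i, x1 < γ i p1) :
    ∃ a b : Fin l, γ a p1 < x1 ∧ x1 < γ b p1 ∧ (∀ p ∈ D, γ a p < γ b p) ∧
      ∀ p ∈ D, ∀ i, ¬ (γ a p < γ i p ∧ γ i p < γ b p) := by
  classical
  obtain ⟨a, ha, hamax⟩ := (Finset.univ.filter fun i => γ i p1 < x1).exists_max_image
    (fun i => i) (by
      obtain ⟨i, hi⟩ := hlo
      exact ⟨i, by simpa using hi⟩)
  obtain ⟨b, hb, hbmin⟩ := (Finset.univ.filter fun i => x1 < γ i p1).exists_min_image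
    (fun i => i) (by
      obtain ⟨i, hi⟩ := hhi
      exact ⟨i, by simpa using hi⟩)
  simp only [Finset.mem_filter, Finset.mem_univ, true_and] at ha hamax hb hbmin
  refine ⟨a, b, ha, hb, fun p hp => (hmono p hp) ?_, fun p hp i hi => ?_⟩
  · exact (hmono p1 hp1).lt_iff_lt.1 (ha.trans hb)
  · have h1 : a < i := (hmono p hp).lt_iff_lt.1 hi.1
    have h2 : i < b := (hmono p hp).lt_iff_lt.1 hi.2
    rcases lt_or_gt_of_ne (hx1 i) with h | h
    · exact absurd (hbmin i h) (not_le.2 h2)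
    · exact absurd (hamax i h) (not_le.2 h1)

/-- A non-root in an open set. -/
lemma wing_nonroot {U : Set ℝ} (hU : IsOpen U) (hne : U.Nonempty) {P : ℝ[X]} (hP : P ≠ 0) :
    ∃ x ∈ U, P.eval x ≠ 0 := by
  have h1 : (P.rootSet ℝ).Countable := (P.rootSet_finite ℝ).countable
  obtain ⟨x, hx, hxU⟩ := (h1.dense_compl ℝ).inter_open_nonempty U hU hne
  refine ⟨x, hx, fun h => hxU ?_⟩
  rw [mem_rootSet]
  exact ⟨hP, by simpa using h⟩

variable {Y T : Type*} [TopologicalSpace Y] [NormedAddCommGroup T] [NormedSpace ℝ T]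

/-- Good behaviour of the data at a point. -/
def WingGood (Ω : Set (ℝ × Y)) (F : ℝ × Y → ℝ) (P : Y → ℝ[X]) (r : ℝ) (y : Y) : Prop :=
  (∀ i, ContinuousAt (fun z => (P z).coeff i) y) ∧
  (∀ x : ℝ, |x| ≤ r → (F (x, y) = 0 ↔ (P y).eval x = 0)) ∧
  (∀ x : ℝ, |x| ≤ r → (x, y) ∈ frontier Ω → (P y).eval x = 0) ∧
  ((r, y) ∉ closure Ω ∧ (-r, y) ∉ closure Ω) ∧ ∀ x : ℝ, (P y).eval x = 0 → |x| < r

lemma wing_eval_continuousAt {S : Type*} [TopologicalSpace S] {P : Y → ℝ[X]} {b : ℕ}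
    (hm : ∀ y, (P y).Monic ∧ (P y).natDegree = b) {y : S → Y} {γ : S → ℝ} {p : S}
    (hy : ContinuousAt y p) (hγ : ContinuousAt γ p)
    (hP : ∀ i, ContinuousAt (fun z => (P z).coeff i) (y p)) :
    ContinuousAt (fun s => (P (y s)).eval (γ s)) p := by
  have h1 : (fun s => (P (y s)).eval (γ s)) =
      fun s => ∑ i ∈ Finset.range (b + 1), (P (y s)).coeff i * γ s ^ i := by
    funext s
    exact eval_eq_sum_range' (by rw [(hm _).2]; exact Nat.lt_succ_self b) _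
  rw [h1]
  refine tendsto_finsetSum _ fun i _ => ?_
  have h2 : ContinuousAt (fun s => (P (y s)).coeff i) p := (hP i).comp hy
  exact h2.mul (hγ.pow i)

/-- The last step of the construction. -/
lemma wing_final {Ω : Set (ℝ × Y)} (hΩ : IsOpen Ω) {F : ℝ × Y → ℝ} {P : Y → ℝ[X]} {b : ℕ}
    (hm : ∀ y, (P y).Monic ∧ (P y).natDegree = b) {r : ℝ} {q3 : T}
    {y : ℝ × T → Y} {l : ℕ} {γ : Fin l → ℝ × T → ℝ}
    (hG : ∀ᶠ p in 𝓝 ((0 : ℝ), q3), ContinuousAt y p ∧ (∀ i, ContinuousAt (γ i) p) ∧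
      WingGood Ω F P r (y p))
    (hpos : ∀ᶠ p in 𝓝 ((0 : ℝ), q3), 0 < p.1 → (∃ x : ℝ, |x| < r ∧ (x, y p) ∈ Ω) ∧
      (∀ x : ℝ, (P (y p)).eval x = 0 ↔ ∃ i, x = γ i p) ∧ StrictMono fun i => γ i p)
    (h0 : ∀ᶠ t in 𝓝 q3, ∀ x : ℝ, |x| ≤ r → x ≠ 0 → F (x, y (0, t)) ≠ 0) :
    ∃ a c : Fin l, (∀ᶠ t in 𝓝 q3, γ a (0, t) = 0 ∧ γ c (0, t) = 0) ∧
      ∀ᶠ p in 𝓝 ((0 : ℝ), q3), 0 < p.1 →
        ((γ a p + γ c p) / 2, y p) ∈ Ω ∧ F ((γ a p + γ c p) / 2, y p) ≠ 0 := by
  obtain ⟨δ, hδ, hB⟩ := Metric.eventually_nhds_iff_ball.1 (hG.and hpos)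
  -- the roots vanish at zero
  have hzero : ∀ᶠ t in 𝓝 q3, ∀ i, γ i (0, t) = 0 := by
    filter_upwards [h0, Metric.ball_mem_nhds q3 hδ] with t ht htδ i
    have hmem : ((0 : ℝ), t) ∈ Metric.ball ((0 : ℝ), q3) δ := by
      rw [Metric.mem_ball, Prod.dist_eq, dist_self]
      exact max_lt hδ htδ
    obtain ⟨⟨hyc, hγc, hgood⟩, -⟩ := hB _ hmem
    have hc := wing_eval_continuousAt hm hyc (hγc i) hgood.1
    have hline : ContinuousAt (fun s : ℝ => (s, t)) 0 := by fun_prop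
    have hc2 : ContinuousAt (fun s : ℝ => (P (y (s, t))).eval (γ i (s, t))) 0 :=
      ContinuousAt.comp (f := fun s : ℝ => (s, t)) (g := fun p => (P (y p)).eval (γ i p)) hc hline
    have hev : ∀ᶠ s in 𝓝[>] (0 : ℝ), (P (y (s, t))).eval (γ i (s, t)) = 0 := by
      have h1 : ∀ᶠ s in 𝓝[>] (0 : ℝ), (s, t) ∈ Metric.ball ((0 : ℝ), q3) δ :=
        (hline.eventually (Metric.isOpen_ball.mem_nhds hmem)).filter_mono nhdsWithin_le_nhds
      filter_upwards [h1, self_mem_nhdsWithin] with s hs hs0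
      exact (((hB _ hs).2 hs0).2.1 _).2 ⟨i, rfl⟩
    have hlim := tendsto_nhds_unique (hc2.tendsto.mono_left nhdsWithin_le_nhds)
      (tendsto_const_nhds.congr' (hev.mono fun s hs => hs.symm))
    have hlt := hgood.2.2.2.2 _ hlim
    by_contra hne
    exact ht _ hlt.le hne ((hgood.2.1 _ hlt.le).2 hlim)
  -- the domain
  set D : Set (ℝ × T) := Metric.ball ((0 : ℝ), q3) δ ∩ {p | 0 < p.1} with hD
  have hDc : IsPreconnected D := by
    have h1 : Convex ℝ {p : ℝ × T | 0 < p.1} :=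
      (convex_Ioi (0 : ℝ)).linear_preimage (LinearMap.fst ℝ ℝ T)
    exact ((convex_ball _ _).inter h1).isPreconnected
  have hp1 : (δ / 2, q3) ∈ D := by
    refine ⟨?_, ?_⟩
    · rw [Metric.mem_ball, Prod.dist_eq, dist_self, Real.dist_eq, sub_zero,
        abs_of_pos (half_pos hδ)]
      exact max_lt (half_lt_self hδ) hδ
    · exact half_pos hδ
  set p1 : ℝ × T := (δ / 2, q3) with hp1def
  have hDa : ∀ p ∈ D, ContinuousAt y p ∧ (∀ i, ContinuousAt (γ i) p) ∧ WingGood Ω F P r (y p) :=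
    fun p hp => (hB p hp.1).1
  have hDb : ∀ p ∈ D, (∃ x : ℝ, |x| < r ∧ (x, y p) ∈ Ω) ∧
      (∀ x : ℝ, (P (y p)).eval x = 0 ↔ ∃ i, x = γ i p) ∧ StrictMono fun i => γ i p :=
    fun p hp => (hB p hp.1).2 hp.2
  obtain ⟨hyc1, hγc1, hcoef1, hF1, hfr1, ⟨hr1, hr2⟩, hb1⟩ := hDa p1 hp1
  obtain ⟨⟨x0, hx0, hx0Ω⟩, hroots1, hmono1⟩ := hDb p1 hp1
  -- a point of the open set which is not a root
  obtain ⟨x1, ⟨hx1, hx1Ω⟩, hx1root⟩ : ∃ x ∈ {x : ℝ | |x| < r ∧ (x, y p1) ∈ Ω},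
      (P (y p1)).eval x ≠ 0 := by
    have h1 : IsOpen {x : ℝ | |x| < r} := isOpen_lt continuous_abs continuous_const
    have h2 : IsOpen {x : ℝ | (x, y p1) ∈ Ω} := hΩ.preimage (by fun_prop)
    have h3 : {x : ℝ | |x| < r ∧ (x, y p1) ∈ Ω}.Nonempty := ⟨x0, hx0, hx0Ω⟩
    exact wing_nonroot (h1.inter h2) h3 (hm _).1.ne_zero
  have hx1' := abs_lt.1 hx1
  obtain ⟨xl, hxl, hxlf⟩ := wing_between hΩ hx1'.1 (Or.inr ⟨hx1Ω, hr2⟩)
  obtain ⟨xh, hxh, hxhf⟩ := wing_between hΩ hx1'.2 (Or.inl ⟨hx1Ω, hr1⟩)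
  have hxlr : |xl| ≤ r := abs_le.2 ⟨hxl.1.le, (hxl.2.trans hx1'.2).le⟩
  have hxhr : |xh| ≤ r := abs_le.2 ⟨(hx1'.1.trans hxh.1).le, hxh.2.le⟩
  obtain ⟨a, c, ha, hc, hac, hbetw⟩ := wing_indices (D := D) (γ := γ)
    (fun p hp => (hDb p hp).2.2) hp1 (x1 := x1)
    (fun i hi => hx1root ((hroots1 x1).2 ⟨i, hi⟩))
    (by
      obtain ⟨i, hi⟩ := (hroots1 xl).1 (hfr1 xl hxlr hxlf)
      exact ⟨i, by rw [← hi]; exact hxl.2⟩)
    (by
      obtain ⟨i, hi⟩ := (hroots1 xh).1 (hfr1 xh hxhr hxhf)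
      exact ⟨i, by rw [← hi]; exact hxh.1⟩)
  have hnr : ∀ p ∈ D, ∀ x ∈ Ioo (γ a p) (γ c p), |x| ≤ r ∧ (P (y p)).eval x ≠ 0 := by
    intro p hp x hx
    obtain ⟨-, hroots, hmono⟩ := hDb p hp
    have hgood := (hDa p hp).2.2
    have h1 := abs_lt.1 (hgood.2.2.2.2 _ ((hroots _).2 ⟨a, rfl⟩))
    have h2 := abs_lt.1 (hgood.2.2.2.2 _ ((hroots _).2 ⟨c, rfl⟩))
    refine ⟨abs_le.2 ⟨by linarith [hx.1], by linarith [hx.2]⟩, fun h => ?_⟩
    obtain ⟨i, hi⟩ := (hroots x).1 h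
    rw [hi] at hx
    exact hbetw p hp i ⟨hx.1, hx.2⟩
  have hslab := wing_slab (Ω := Ω) hΩ hDc (yy := y) (α := γ a) (β := γ c)
    (fun p hp => (hDa p hp).1.continuousWithinAt)
    (fun p hp => ((hDa p hp).2.1 a).continuousWithinAt)
    (fun p hp => ((hDa p hp).2.1 c).continuousWithinAt)
    (fun p hp x hx hxf => (hnr p hp x hx).2 ((hDa p hp).2.2.2.2.1 x (hnr p hp x hx).1 hxf))
    hp1 (x1 := x1) ⟨ha, hc⟩ hx1Ω hac
  refine ⟨a, c, hzero.mono fun t ht => ⟨ht a, ht c⟩, ?_⟩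
  filter_upwards [Metric.ball_mem_nhds ((0 : ℝ), q3) hδ] with p hpδ hp0
  have hp : p ∈ D := ⟨hpδ, hp0⟩
  have hlt := hac p hp
  have hmid : (γ a p + γ c p) / 2 ∈ Ioo (γ a p) (γ c p) := ⟨by linarith, by linarith⟩
  refine ⟨hslab p hp _ hmid, fun hzeroF => ?_⟩
  have h1 := hnr p hp _ hmid
  exact h1.2 (((hDa p hp).2.2.2.1 _ h1.1).1 hzeroF)

end final

end Vale.Agent.P274.W
end

section

/-! TASK W8. -/

open Filter Topology Polynomial Set

namespace Vale.Agent.P274.W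

variable {T : Type} [NormedAddCommGroup T] [NormedSpace ℝ T] [FiniteDimensional ℝ T]

/-- The statement of the wing lemma for a given space. -/
def WingStatement (A : Set T) (V : Type) [NormedAddCommGroup V] [NormedSpace ℝ V] : Prop :=
  ∀ q0 ∈ A, ∀ F : V × T → ℝ, AnalyticAt ℝ F (0, q0) →
    (¬ ∀ᶠ p in 𝓝 ((0 : V), q0), F p = 0) → ∀ Ω : Set (V × T), IsOpen Ω →
    (∀ᶠ p in 𝓝 ((0 : V), q0), p ∈ frontier Ω → F p = 0) →
    (∀ᶠ q in 𝓝 q0, q ∈ A → ((0 : V), q) ∈ closure Ω) →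
    ∀ O ∈ 𝓝 q0, ∃ q ∈ A ∩ O, ∃ σ : ℝ × T → V, AnalyticAt ℝ σ (0, q) ∧
      (∀ᶠ t in 𝓝 q, σ (0, t) = 0) ∧
      ∀ᶠ p in 𝓝 ((0 : ℝ), q), 0 < p.1 → (σ p, p.2) ∈ Ω ∧ F (σ p, p.2) ≠ 0

/-- The induction step. -/
theorem Gen.wing_step {A : Set T} (hA : Gen A) {V : Type} [NormedAddCommGroup V]
    [NormedSpace ℝ V] [FiniteDimensional ℝ V] (IH : WingStatement A V) {q0 : T} (hq0 : q0 ∈ A)
    {F : ℝ × (V × T) → ℝ} (hF : AnalyticAt ℝ F (0, (0, q0)))
    (hF0 : ¬ ∀ᶠ p in 𝓝 ((0 : ℝ), q0), F (p.1, (0, p.2)) = 0)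
    {Ω : Set (ℝ × (V × T))} (hΩ : IsOpen Ω)
    (hfr : ∀ᶠ p in 𝓝 ((0 : ℝ), ((0 : V), q0)), p ∈ frontier Ω → F p = 0)
    (hcl : ∀ᶠ q in 𝓝 q0, q ∈ A → ((0 : ℝ), ((0 : V), q)) ∈ closure Ω)
    {O : Set T} (hO : O ∈ 𝓝 q0) :
    ∃ q ∈ A ∩ O, ∃ (σ1 : ℝ × T → ℝ) (σ2 : ℝ × T → V), AnalyticAt ℝ σ1 (0, q) ∧
      AnalyticAt ℝ σ2 (0, q) ∧ (∀ᶠ t in 𝓝 q, σ1 (0, t) = 0 ∧ σ2 (0, t) = 0) ∧
      ∀ᶠ p in 𝓝 ((0 : ℝ), q), 0 < p.1 →
        (σ1 p, (σ2 p, p.2)) ∈ Ω ∧ F (σ1 p, (σ2 p, p.2)) ≠ 0 := by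
  -- the restriction to the axis
  set f : ℝ × T → ℝ := fun p => F (p.1, ((0 : V), p.2)) with hf
  have hemb : ∀ q : T, AnalyticAt ℝ (fun p : ℝ × T => (p.1, ((0 : V), p.2))) (0, q) := fun q =>
    analyticAt_fst.prod (analyticAt_const.prod analyticAt_snd)
  have hfa : ∀ q, AnalyticAt ℝ F (0, (0, q)) → AnalyticAt ℝ f (0, q) := fun q hq =>
    AnalyticAt.comp (f := fun p : ℝ × T => (p.1, ((0 : V), p.2))) (x := ((0 : ℝ), q)) hq (hemb q)
  have htend : ∀ q : T, Tendsto (fun t : T => ((0 : ℝ), ((0 : V), t))) (𝓝 q)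
      (𝓝 ((0 : ℝ), ((0 : V), q))) := fun q => by
    have : ContinuousAt (fun t : T => ((0 : ℝ), ((0 : V), t))) q := by fun_prop
    exact this
  have htend2 : ∀ q : T, Tendsto (fun t : T => ((0 : V), t)) (𝓝 q) (𝓝 ((0 : V), q)) := fun q => by
    have : ContinuousAt (fun t : T => ((0 : V), t)) q := by fun_prop
    exact this
  have htend3 : ∀ q : T, Tendsto (fun t : T => ((0 : ℝ), t)) (𝓝 q) (𝓝 ((0 : ℝ), q)) := fun q => by
    have : ContinuousAt (fun t : T => ((0 : ℝ), t)) q := by fun_prop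
    exact this
  have e1 : ∀ᶠ t in 𝓝 q0, AnalyticAt ℝ F (0, (0, t)) :=
    (htend q0).eventually hF.eventually_analyticAt
  have e2 : ∀ᶠ t in 𝓝 q0, ¬ ∀ᶠ p in 𝓝 ((0 : ℝ), t), f p = 0 :=
    ((htend3 q0).eventually (wing_not_zero (hfa q0 hF) hF0)).mono fun t ht => ht.2
  have e3 : ∀ᶠ t in 𝓝 q0, ∀ᶠ p in 𝓝 ((0 : ℝ), ((0 : V), t)), p ∈ frontier Ω → F p = 0 :=
    (htend q0).eventually hfr.eventually_nhds
  have e4 := hcl.eventually_nhds
  have e5 : ∀ᶠ t in 𝓝 q0, O ∈ 𝓝 t := eventually_mem_nhds_iff.2 hO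
  obtain ⟨q1, ⟨hq1A, hF1, hF01, hfr1, hcl1, hO1⟩, hq1⟩ :=
    hA.exists_hasOrd hq0 (ι := Unit) (f := fun _ => f) (fun _ => hfa q0 hF)
      (O := {t | AnalyticAt ℝ F (0, (0, t)) ∧ (¬ ∀ᶠ p in 𝓝 ((0 : ℝ), t), f p = 0) ∧
        (∀ᶠ p in 𝓝 ((0 : ℝ), ((0 : V), t)), p ∈ frontier Ω → F p = 0) ∧
        (∀ᶠ q in 𝓝 t, q ∈ A → ((0 : ℝ), ((0 : V), q)) ∈ closure Ω) ∧ O ∈ 𝓝 t})
      (by filter_upwards [e1, e2, e3, e4, e5] with t a b c d e using ⟨a, b, c, d, e⟩)
  obtain ⟨hord, hfa1⟩ := hq1 ()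
  rcases hord with hz | ⟨b, u, hu, hu0, hfu⟩
  · exact absurd hz hF01
  -- Weierstrass preparation
  have hline : AnalyticAt ℝ (fun x : ℝ => (x, q1)) 0 := analyticAt_id.prod analyticAt_const
  obtain ⟨P, hm, hP, hP1, rW, hrW, hWei⟩ := weierstrass (Y := V × T) (F := F)
    (p0 := ((0 : V), q1)) hF1 (b := b) (u := fun x => u (x, q1))
    (AnalyticAt.comp (f := fun x : ℝ => (x, q1)) (x := (0 : ℝ)) hu hline) hu0
    (by
      have h1 : Tendsto (fun x : ℝ => (x, q1)) (𝓝 0) (𝓝 ((0 : ℝ), q1)) := hline.continuousAt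
      exact h1.eventually hfu)
  obtain ⟨ra, hra, hRa⟩ := wing_uniform (Q := fun p : ℝ × T => p.1 ≠ 0 → f p ≠ 0)
    (y0 := q1) (by
      filter_upwards [hfu, hu.continuousAt.eventually_ne hu0] with p h1 h2 h3
      rw [h1]
      exact smul_ne_zero (pow_ne_zero _ h3) h2)
  obtain ⟨rb, hrb, hRb⟩ := wing_uniform (Q := fun p : ℝ × (V × T) => p ∈ frontier Ω → F p = 0)
    (y0 := ((0 : V), q1)) hfr1
  obtain ⟨r, hr, hrW', hra', hrb'⟩ : ∃ r > 0, r ≤ rW ∧ r ≤ ra ∧ r ≤ rb :=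
    ⟨min rW (min ra rb), lt_min hrW (lt_min hra hrb), min_le_left _ _,
      (min_le_right _ _).trans (min_le_left _ _), (min_le_right _ _).trans (min_le_right _ _)⟩
  have hS1 := hRa r hra'
  have hS2 := hRb r hrb'
  have hS3 : ∀ᶠ y in 𝓝 ((0 : V), q1), ∀ x : ℝ, |x| ≤ r → (F (x, y) = 0 ↔ (P y).eval x = 0) :=
    hWei.mono fun y hy x hx => hy x (hx.trans hrW')
  have hS4 : ∀ᶠ y in 𝓝 ((0 : V), q1), ∀ x : ℝ, |x| ≤ r → (x, y) ∈ frontier Ω →
      (P y).eval x = 0 := by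
    filter_upwards [hS2, hS3] with y a c x hx h using (c x hx).1 (a x hx h)
  -- the axis case
  have hax : ∀ᶠ t in 𝓝 q1, ∀ x : ℝ, |x| ≤ r → x ≠ 0 →
      F (x, ((0 : V), t)) ≠ 0 ∧ (x, ((0 : V), t)) ∉ frontier Ω := by
    filter_upwards [hS1, (htend2 q1).eventually hS2] with t a c x hx hx0
    exact ⟨a x hx hx0, fun h => a x hx hx0 (c x hx h)⟩
  by_cases hcase : ∃ e : ℝ, |e| = 1 ∧ (e * r, ((0 : V), q1)) ∈ Ω
  · obtain ⟨e, he, heΩ⟩ := hcase
    refine ⟨q1, ⟨hq1A, mem_of_mem_nhds hO1⟩, fun p => e * p.1, fun _ => 0,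
      analyticAt_const.mul analyticAt_fst, analyticAt_const, ?_, wing_sign hΩ hr hax he heΩ⟩
    exact Eventually.of_forall fun t => ⟨by simp, rfl⟩
  have hne : ∀ e : ℝ, |e| = 1 → (e * r, ((0 : V), q1)) ∉ closure Ω := by
    intro e he
    refine wing_not_mem_closure hΩ ?_ fun h => hcase ⟨e, he, h⟩
    refine (hax.self_of_nhds (e * r) ?_ ?_).2
    · rw [abs_mul, he, one_mul, abs_of_pos hr]
    · refine mul_ne_zero ?_ hr.ne'
      rintro rfl
      simp at he
  have hends : ∀ᶠ y in 𝓝 ((0 : V), q1), (r, y) ∉ closure Ω ∧ (-r, y) ∉ closure Ω := by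
    have h1 : ∀ x : ℝ, (x, ((0 : V), q1)) ∉ closure Ω →
        ∀ᶠ y in 𝓝 ((0 : V), q1), (x, y) ∉ closure Ω := by
      intro x hx
      have h2 : ContinuousAt (fun y : V × T => (x, y)) ((0 : V), q1) := by fun_prop
      exact h2.eventually (isClosed_closure.isOpen_compl.mem_nhds hx)
    have h3 := hne 1 (by norm_num)
    have h4 := hne (-1) (by norm_num)
    rw [one_mul] at h3
    rw [neg_one_mul] at h4
    exact (h1 _ h3).and (h1 _ h4)
  -- elimination and projection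
  obtain ⟨g, Δ, N, hg, hgN, hΔ, hΔ0, hgΔ⟩ := elimination_analytic hm hP
  obtain ⟨W, hWo, hWp, hΩ'o, hΩ'f⟩ := projection_frontier hΩ hr hg hgN hΔ hends hS4 hgΔ
  set Ω' : Set (V × T) := {y | y ∈ W ∧ Δ y ≠ 0 ∧ ∃ x : ℝ, |x| < r ∧ (x, y) ∈ Ω} with hΩ'
  have hcl' : ∀ᶠ q in 𝓝 q1, q ∈ A → ((0 : V), q) ∈ closure Ω' := by
    have h1 : ∀ᶠ y in 𝓝 ((0 : V), q1), ¬ ∀ᶠ z in 𝓝 y, Δ z = 0 :=
      (wing_not_zero hΔ hΔ0).mono fun y hy => hy.2
    filter_upwards [hcl1, (htend2 q1).eventually h1.eventually_nhds,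
      (htend2 q1).eventually (hWo.mem_nhds hWp)] with q a c d hqA
    exact wing_closure hΩ hWo hr d (a hqA) c
  -- good behaviour
  have hGood : ∀ᶠ y in 𝓝 ((0 : V), q1), (∀ i, AnalyticAt ℝ (fun z => (P z).coeff i) y) ∧
      WingGood Ω F P r y := by
    have h1 : ∀ᶠ y in 𝓝 ((0 : V), q1), ∀ i ∈ Finset.range (b + 1),
        AnalyticAt ℝ (fun z => (P z).coeff i) y :=
      (Finset.eventually_all _).2 fun i _ => (hP i).eventually_analyticAt
    have h2 : ∀ᶠ y in 𝓝 ((0 : V), q1), ∀ i, AnalyticAt ℝ (fun z => (P z).coeff i) y := by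
      filter_upwards [h1] with y hy i
      by_cases hi : i ∈ Finset.range (b + 1)
      · exact hy i hi
      · have h3 : (fun z => (P z).coeff i) = fun _ => (0 : ℝ) := by
          funext z
          refine coeff_eq_zero_of_natDegree_lt ?_
          rw [(hm z).2]
          rw [Finset.mem_range] at hi
          omega
        rw [h3]
        exact analyticAt_const
    filter_upwards [h2, hS3, hS4, hends,
      wing_root_bound hm (fun i => (hP i).continuousAt) hP1 hr] with y a c d e k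
    exact ⟨a, fun i => (a i).continuousAt, c, d, e, k⟩
  -- induction hypothesis
  obtain ⟨q2, ⟨hq2A, hO2, hax2, hGood2⟩, s, hs, hs0, hsΩ⟩ := IH q1 hq1A Δ hΔ hΔ0 Ω' hΩ'o
    (by filter_upwards [hWo.mem_nhds hWp] with y hy using hΩ'f y hy) hcl'
    {t | O ∈ 𝓝 t ∧ (∀ᶠ t' in 𝓝 t, ∀ x : ℝ, |x| ≤ r → x ≠ 0 →
        F (x, ((0 : V), t')) ≠ 0 ∧ (x, ((0 : V), t')) ∉ frontier Ω) ∧
      ∀ᶠ y in 𝓝 ((0 : V), t), (∀ i, AnalyticAt ℝ (fun z => (P z).coeff i) y) ∧
        WingGood Ω F P r y}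
    (by
      filter_upwards [eventually_mem_nhds_iff.2 hO1, hax.eventually_nhds,
        (htend2 q1).eventually hGood.eventually_nhds] with t a c d using ⟨a, c, d⟩)
  have hs00 : s (0, q2) = 0 := hs0.self_of_nhds
  have hys : AnalyticAt ℝ (fun p : ℝ × T => (s p, p.2)) (0, q2) := hs.prod analyticAt_snd
  have hPt : ∀ i, AnalyticAt ℝ (fun p : ℝ × T => (P (s p, p.2)).coeff i) (0, q2) := by
    intro i
    refine AnalyticAt.comp (g := fun z => (P z).coeff i) (f := fun p : ℝ × T => (s p, p.2))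
      (x := ((0 : ℝ), q2)) ?_ hys
    simp only [hs00]
    exact hGood2.self_of_nhds.1 i
  obtain ⟨q3, ⟨hq3A, hO3, hax3, hGood3, hs3, hs03, hsΩ3⟩, M, hM, l, γ, hγ, hγroots⟩ :=
    hA.real_roots hq2A (P := fun p : ℝ × T => P (s p, p.2)) (fun p => hm _) hPt
      (O := {t | O ∈ 𝓝 t ∧ (∀ᶠ t' in 𝓝 t, ∀ x : ℝ, |x| ≤ r → x ≠ 0 →
          F (x, ((0 : V), t')) ≠ 0 ∧ (x, ((0 : V), t')) ∉ frontier Ω) ∧
        (∀ᶠ y in 𝓝 ((0 : V), t), (∀ i, AnalyticAt ℝ (fun z => (P z).coeff i) y) ∧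
          WingGood Ω F P r y) ∧ AnalyticAt ℝ s (0, t) ∧ (∀ᶠ t' in 𝓝 t, s (0, t') = 0) ∧
        ∀ᶠ p in 𝓝 ((0 : ℝ), t), 0 < p.1 → (s p, p.2) ∈ Ω'})
      (by
        have h1 : ∀ᶠ p in 𝓝 ((0 : ℝ), q2), 0 < p.1 → (s p, p.2) ∈ Ω' :=
          hsΩ.mono fun p hp hp0 => (hp hp0).1
        filter_upwards [eventually_mem_nhds_iff.2 hO2, hax2.eventually_nhds,
          (htend2 q2).eventually hGood2.eventually_nhds,
          (htend3 q2).eventually hs.eventually_analyticAt, hs0.eventually_nhds,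
          (htend3 q2).eventually h1.eventually_nhds] with t a c d e k m
        exact ⟨a, c, d, e, k, m⟩)
  have hs003 : s (0, q3) = 0 := hs03.self_of_nhds
  -- the change of variable
  have hφ : AnalyticAt ℝ (fun p : ℝ × T => (p.1 ^ M, p.2)) (0, q3) :=
    (analyticAt_fst.pow M).prod analyticAt_snd
  have hφ0 : (((0 : ℝ) ^ M, q3) : ℝ × T) = (0, q3) := by rw [zero_pow hM.ne']
  have hσ2 : AnalyticAt ℝ (fun p : ℝ × T => s (p.1 ^ M, p.2)) (0, q3) := by
    refine AnalyticAt.comp (g := s) (f := fun p : ℝ × T => (p.1 ^ M, p.2))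
      (x := ((0 : ℝ), q3)) ?_ hφ
    simp only [hφ0]
    exact hs3
  set y : ℝ × T → V × T := fun p => (s (p.1 ^ M, p.2), p.2) with hy
  have hya : AnalyticAt ℝ y (0, q3) := hσ2.prod analyticAt_snd
  have hy0 : y (0, q3) = (0, q3) := by
    simp only [hy, hφ0, hs003]
  have hyt : Tendsto y (𝓝 (0, q3)) (𝓝 ((0 : V), q3)) := by
    have := hya.continuousAt.tendsto
    rwa [hy0] at this
  have hφt : Tendsto (fun p : ℝ × T => (p.1 ^ M, p.2)) (𝓝 (0, q3)) (𝓝 ((0 : ℝ), q3)) := by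
    have := hφ.continuousAt.tendsto
    simp only [hφ0] at this
    exact this
  have hGf : ∀ᶠ p in 𝓝 ((0 : ℝ), q3), ContinuousAt y p ∧ (∀ i, ContinuousAt (γ i) p) ∧
      WingGood Ω F P r (y p) := by
    filter_upwards [hya.eventually_analyticAt, eventually_all.2 fun i =>
      (hγ i).eventually_analyticAt, hyt.eventually hGood3] with p a c d
    exact ⟨a.continuousAt, fun i => (c i).continuousAt, d.2⟩
  have hpos : ∀ᶠ p in 𝓝 ((0 : ℝ), q3), 0 < p.1 → (∃ x : ℝ, |x| < r ∧ (x, y p) ∈ Ω) ∧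
      (∀ x : ℝ, (P (y p)).eval x = 0 ↔ ∃ i, x = γ i p) ∧ StrictMono fun i => γ i p := by
    filter_upwards [hφt.eventually hsΩ3, hγroots] with p a c hp0
    have h1 : y p ∈ Ω' := a (pow_pos hp0 M)
    exact ⟨h1.2.2, c hp0⟩
  have h0 : ∀ᶠ t in 𝓝 q3, ∀ x : ℝ, |x| ≤ r → x ≠ 0 → F (x, y (0, t)) ≠ 0 := by
    filter_upwards [hax3, hs03] with t a c x hx hx0
    have h1 : y (0, t) = (0, t) := by
      simp only [hy, zero_pow hM.ne', c]
    rw [h1]
    exact (a x hx hx0).1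
  obtain ⟨a, c, hac0, hac⟩ := wing_final hΩ hm hGf hpos h0
  refine ⟨q3, ⟨hq3A, mem_of_mem_nhds hO3⟩, fun p => (γ a p + γ c p) / 2,
    fun p => s (p.1 ^ M, p.2), ?_, hσ2, ?_, hac⟩
  · exact ((hγ a).add (hγ c)).div analyticAt_const two_ne_zero
  · filter_upwards [hac0, hs03] with t h1 h2
    refine ⟨?_, ?_⟩
    · simp only [h1.1, h1.2]
      norm_num
    · simp only [zero_pow hM.ne', h2]

/-- Wing lemma: analytic curve selection with parameters. -/
theorem Gen.wing {A : Set T} (hA : Gen A) (n : ℕ) {q0 : T} (hq0 : q0 ∈ A)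
    {F : (Fin n → ℝ) × T → ℝ} (hF : AnalyticAt ℝ F (0, q0))
    (hF0 : ¬ ∀ᶠ p in 𝓝 ((0 : Fin n → ℝ), q0), F p = 0)
    {Ω : Set ((Fin n → ℝ) × T)} (hΩ : IsOpen Ω)
    (hfr : ∀ᶠ p in 𝓝 ((0 : Fin n → ℝ), q0), p ∈ frontier Ω → F p = 0)
    (hcl : ∀ᶠ q in 𝓝 q0, q ∈ A → ((0 : Fin n → ℝ), q) ∈ closure Ω)
    {O : Set T} (hO : O ∈ 𝓝 q0) :
    ∃ q ∈ A ∩ O, ∃ σ : ℝ × T → (Fin n → ℝ), AnalyticAt ℝ σ (0, q) ∧
      (∀ᶠ t in 𝓝 q, σ (0, t) = 0) ∧
      ∀ᶠ p in 𝓝 ((0 : ℝ), q), 0 < p.1 → (σ p, p.2) ∈ Ω ∧ F (σ p, p.2) ≠ 0 := by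
  revert q0 F Ω O
  suffices h : WingStatement A (Fin n → ℝ) by
    intro q0 hq0 F hF hF0 Ω hΩ hfr hcl O hO
    exact h q0 hq0 F hF hF0 Ω hΩ hfr hcl O hO
  induction n with
  | zero =>
    intro q0 hq0 F hF hF0 Ω hΩ hfr hcl O hO
    have hline : AnalyticAt ℝ (fun t : T => ((0 : Fin 0 → ℝ), t)) q0 :=
      analyticAt_const.prod analyticAt_id
    have htend : Tendsto (fun t : T => ((0 : Fin 0 → ℝ), t)) (𝓝 q0) (𝓝 (0, q0)) :=
      hline.continuousAt
    have hfa : AnalyticAt ℝ (fun t : T => F (0, t)) q0 :=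
      AnalyticAt.comp (f := fun t : T => ((0 : Fin 0 → ℝ), t)) (x := q0) hF hline
    have hnz : ¬ ∀ᶠ t in 𝓝 q0, t ∈ A → F (0, t) = 0 := by
      intro hcon
      refine hF0 ?_
      have h1 := hA q0 hq0 _ hfa hcon
      have h2 : Tendsto (fun p : (Fin 0 → ℝ) × T => p.2) (𝓝 (0, q0)) (𝓝 q0) :=
        continuousAt_snd
      filter_upwards [h2.eventually h1] with p hp
      have h3 : p = (0, p.2) := Prod.ext (Subsingleton.elim _ _) rfl
      rw [h3]
      exact hp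
    have hnz2 : ∃ᶠ t in 𝓝 q0, t ∈ A ∧ F (0, t) ≠ 0 := by
      rw [not_eventually] at hnz
      exact hnz.mono fun t ht => by
        rw [Classical.not_imp] at ht
        exact ht
    obtain ⟨q, ⟨hqA, hqF⟩, hqfr, hqcl, hqO, hqc⟩ := (hnz2.and_eventually
      ((htend.eventually hfr).and (hcl.and ((eventually_mem_set.2 hO).and
        (htend.eventually hF.eventually_analyticAt))))).exists
    have hqΩ : ((0 : Fin 0 → ℝ), q) ∈ Ω := by
      by_contra hcon
      exact wing_not_mem_closure hΩ (fun h => hqF (hqfr h)) hcon (hqcl hqA)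
    refine ⟨q, ⟨hqA, hqO⟩, fun _ => 0, analyticAt_const, Eventually.of_forall fun _ => rfl, ?_⟩
    have hc : Tendsto (fun p : ℝ × T => ((0 : Fin 0 → ℝ), p.2)) (𝓝 (0, q)) (𝓝 (0, q)) := by
      have : ContinuousAt (fun p : ℝ × T => ((0 : Fin 0 → ℝ), p.2)) (0, q) := by fun_prop
      exact this
    filter_upwards [hc.eventually (hΩ.mem_nhds hqΩ),
      hc.eventually (hqc.continuousAt.eventually_ne hqF)] with p a c _ using ⟨a, c⟩
  | succ n ih =>
    intro q0 hq0 F hF hF0 Ω hΩ hfr hcl O hO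
    obtain ⟨v, hv, hv0⟩ := wing_direction hF hF0
    obtain ⟨L, hL⟩ := wing_coords n hv
    set E : (ℝ × ((Fin n → ℝ) × T)) ≃L[ℝ] (Fin (n + 1) → ℝ) × T :=
      (ContinuousLinearEquiv.prodAssoc ℝ ℝ (Fin n → ℝ) T).symm.trans
        (L.prodCongr (ContinuousLinearEquiv.refl ℝ T)) with hE
    have hEa : ∀ (x : ℝ) (w : Fin n → ℝ) (t : T), E (x, (w, t)) = (L (x, w), t) :=
      fun x w t => rfl
    have hE0 : ∀ t : T, E (0, (0, t)) = (0, t) := by
      intro t
      rw [hEa, ← Prod.zero_eq_mk, map_zero]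
    have hEt : ∀ t : T, Tendsto E (𝓝 (0, (0, t))) (𝓝 (0, t)) := by
      intro t
      have := E.continuous.continuousAt (x := ((0 : ℝ), ((0 : Fin n → ℝ), t)))
      rw [ContinuousAt, hE0] at this
      exact this
    obtain ⟨q, hq, σ1, σ2, h1, h2, h3, h4⟩ := hA.wing_step ih hq0 (F := fun p => F (E p))
      (by
        refine AnalyticAt.comp (g := F) (f := E) (x := ((0 : ℝ), ((0 : Fin n → ℝ), q0))) ?_
          (E.analyticAt _)
        rw [hE0]
        exact hF)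
      (by
        intro hcon
        refine hv0 ?_
        filter_upwards [hcon] with p hp
        rw [hEa, hL] at hp
        exact hp)
      (Ω := E ⁻¹' Ω) (hΩ.preimage E.continuous)
      (by
        have h5 : frontier (E ⁻¹' Ω) = E ⁻¹' frontier Ω :=
          (E.toHomeomorph.preimage_frontier Ω).symm
        rw [h5]
        exact (hEt q0).eventually hfr)
      (by
        have h5 : closure (E ⁻¹' Ω) = E ⁻¹' closure Ω :=
          (E.toHomeomorph.preimage_closure Ω).symm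
        rw [h5]
        filter_upwards [hcl] with t ht htA
        rw [mem_preimage, hE0]
        exact ht htA) hO
    refine ⟨q, hq, fun p => L (σ1 p, σ2 p), ?_, ?_, ?_⟩
    · exact AnalyticAt.comp (g := L) (f := fun p => (σ1 p, σ2 p)) (x := ((0 : ℝ), q))
        (L.analyticAt _) (h1.prod h2)
    · filter_upwards [h3] with t ht
      rw [ht.1, ht.2, ← Prod.zero_eq_mk, map_zero]
    · filter_upwards [h4] with p hp hp0
      exact hp hp0

end Vale.Agent.P274.W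
end

section

/-! Analytic horns at boundary points. -/

open Filter Metric Set Topology

namespace Vale.Agent.P274.H

open Vale.Agent.P274.W

variable {E : Type} [NormedAddCommGroup E] [NormedSpace ℝ E] [FiniteDimensional ℝ E]

/-- Existence of analytic horns in `U` at points of `A`. -/
theorem exists_horn {A : Set E} {c : ℕ} {ρ : E → (Fin c → ℝ)} {q0 : E} (h : Eqn A c ρ q0)
    (hmax : MaxCodim A c) (hq0 : q0 ∈ A) {U : Set E} (hU : IsOpen U)
    (hAU : ∀ᶠ x in 𝓝 q0, x ∈ A → x ∈ closure U) {F : E → ℝ} (hF : AnalyticAt ℝ F q0)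
    (hFn : ¬ ∀ᶠ x in 𝓝 q0, F x = 0) (hF0 : ∀ᶠ x in 𝓝 q0, x ∈ frontier U → F x = 0)
    {V : Set E} (hV : V ∈ 𝓝 q0) :
    ∃ q ∈ A ∩ V, ∃ R : E × ℝ → (Fin c → ℝ), AnalyticAt ℝ R (q, 0) ∧
      (∀ᶠ z in 𝓝 q, R (z, 0) = ρ z) ∧
      ∃ κ > 0, ∃ m : ℕ, 0 < m ∧
        ∀ᶠ p in 𝓝 ((q, 0) : E × ℝ), 0 < p.2 → ‖R p‖ < κ * p.2 ^ m → p.1 ∈ U := by
  have hcs : CompleteSpace E := FiniteDimensional.complete ℝ E
  obtain ⟨C⟩ := exists_chart h.an (h.van.self_of_nhds hq0) h.surj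
  set D := fderiv ℝ ρ q0 with hD
  -- properties near `q0`
  have hgood : ∀ᶠ x in 𝓝 q0, Eqn A c ρ x ∧ AnalyticAt ℝ C.Ψ x ∧ AnalyticAt ℝ F x ∧
      (x ∈ frontier U → F x = 0) ∧ (x ∈ A → x ∈ closure U) ∧ (∀ᶠ z in 𝓝 x, C.χ (C.Ψ z) = z) := by
    filter_upwards [h.eventually hq0, C.anΨ.eventually_analyticAt, hF.eventually_analyticAt, hF0,
      hAU, eventually_eventually_nhds.2 C.left] with x h1 h2 h3 h4 h5 h6
    exact ⟨h1, h2, h3, h4, h5, h6⟩
  have hev : ∀ᶠ y in 𝓝 (0 : E), AnalyticAt ℝ C.χ y ∧ C.Ψ (C.χ y) = y ∧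
      (Eqn A c ρ (C.χ y) ∧ AnalyticAt ℝ C.Ψ (C.χ y) ∧ AnalyticAt ℝ F (C.χ y) ∧
      (C.χ y ∈ frontier U → F (C.χ y) = 0) ∧ (C.χ y ∈ A → C.χ y ∈ closure U) ∧
        (∀ᶠ z in 𝓝 (C.χ y), C.χ (C.Ψ z) = z)) := by
    filter_upwards [C.anχ.eventually_analyticAt, C.right, C.tendsto_χ.eventually hgood]
      with y h1 h2 h3
    exact ⟨h1, h2, h3⟩
  obtain ⟨N, hN, hNo, h0N⟩ := _root_.mem_nhds_iff.1 hev
  have hNχ : ∀ y ∈ N, AnalyticAt ℝ C.χ y := fun y hy => (hN hy).1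
  have hNr : ∀ y ∈ N, C.Ψ (C.χ y) = y := fun y hy => (hN hy).2.1
  have hNE : ∀ y ∈ N, Eqn A c ρ (C.χ y) := fun y hy => (hN hy).2.2.1
  have hNΨ : ∀ y ∈ N, AnalyticAt ℝ C.Ψ (C.χ y) := fun y hy => (hN hy).2.2.2.1
  have hNF : ∀ y ∈ N, AnalyticAt ℝ F (C.χ y) := fun y hy => (hN hy).2.2.2.2.1
  have hNf : ∀ y ∈ N, C.χ y ∈ frontier U → F (C.χ y) = 0 := fun y hy => (hN hy).2.2.2.2.2.1
  have hNc : ∀ y ∈ N, C.χ y ∈ A → C.χ y ∈ closure U := fun y hy => (hN hy).2.2.2.2.2.2.1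
  have hNl : ∀ y ∈ N, ∀ᶠ z in 𝓝 (C.χ y), C.χ (C.Ψ z) = z := fun y hy => (hN hy).2.2.2.2.2.2.2
  -- the parameter space
  let T : Submodule ℝ E := LinearMap.ker (D : E →ₗ[ℝ] (Fin c → ℝ))
  have hfdT : FiniteDimensional ℝ T := inferInstance
  have hDT : ∀ t : T, D (t : E) = 0 := fun t => t.2
  let P : E →L[ℝ] T := C.π.codRestrict T (fun x => C.Dπ x)
  have hP : ∀ x, ((P x : T) : E) = C.π x := fun x => rfl
  have hPt : ∀ t : T, P (t : E) = t := by
    intro t
    apply Subtype.ext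
    rw [hP]
    have h1 := C.π_add (t : E)
    rwa [show fderiv ℝ ρ q0 (t : E) = 0 from hDT t, map_zero, add_zero] at h1
  let inc : T →L[ℝ] E := T.subtypeL
  have hinc : ∀ t : T, inc t = (t : E) := fun t => rfl
  have hPiR : ∀ r, P (C.R r) = 0 := by
    intro r
    apply Subtype.ext
    rw [hP]
    have h1 := C.π_add (C.R r)
    rw [C.DR] at h1
    simpa using h1
  let L : (Fin c → ℝ) × T →L[ℝ] E :=
    (C.R.comp (ContinuousLinearMap.fst ℝ _ _)) + (inc.comp (ContinuousLinearMap.snd ℝ _ _))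
  have hL : ∀ p, L p = C.R p.1 + (p.2 : E) := fun p => rfl
  let Φ : (Fin c → ℝ) × T → E := fun p => C.χ (L p)
  let Θ : E → (Fin c → ℝ) × T := fun x => (ρ x, P (C.Ψ x))
  have hLΘ : ∀ x, L (Θ x) = C.Ψ x := by
    intro x
    rw [hL]
    change C.R (ρ x) + C.π (C.Ψ x) = C.Ψ x
    rw [add_comm, ← C.DΨ x, C.π_add]
  have hDL : ∀ p, D (L p) = p.1 := by
    intro p
    rw [hL, map_add, hDT, add_zero]
    exact C.DR p.1
  have hPL : ∀ p, P (L p) = p.2 := by
    intro p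
    rw [hL, map_add, hPiR, hPt, zero_add]
  have hΘΦ : ∀ p, L p ∈ N → Θ (Φ p) = p := by
    intro p hp
    have h1 := hNr _ hp
    have h2 : ρ (Φ p) = p.1 := by
      rw [← C.DΨ (Φ p)]
      change D (C.Ψ (C.χ (L p))) = p.1
      rw [h1, hDL]
    have h3 : P (C.Ψ (Φ p)) = p.2 := by
      change P (C.Ψ (C.χ (L p))) = p.2
      rw [h1, hPL]
    exact Prod.ext h2 h3
  have hΦan : ∀ p, L p ∈ N → AnalyticAt ℝ Φ p := fun p hp =>
    AnalyticAt.fun_comp (g := C.χ) (hNχ _ hp) (L.analyticAt p)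
  have hΘan : ∀ y ∈ N, AnalyticAt ℝ Θ (C.χ y) := fun y hy =>
    (hNE y hy).an.prod (AnalyticAt.fun_comp (g := P) (P.analyticAt _) (hNΨ y hy))
  set A' : Set T := {t | (t : E) ∈ N ∧ C.χ t ∈ A} with hA'
  set Ω : Set ((Fin c → ℝ) × T) := {p | L p ∈ N ∧ Φ p ∈ U} with hΩ
  have hLN : IsOpen {p | L p ∈ N} := hNo.preimage L.continuous
  have hΩo : IsOpen Ω := by
    have h1 : ContinuousOn Φ {p | L p ∈ N} := fun p hp => (hΦan p hp).continuousAt.continuousWithinAt
    exact h1.isOpen_inter_preimage hLN hU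
  have hL0 : ∀ t : T, L (0, t) = t := by
    intro t
    rw [hL]
    simp
  have h0A' : (0 : T) ∈ A' := by
    refine ⟨h0N, ?_⟩
    rw [Submodule.coe_zero, C.χ0]
    exact hq0
  have hGen : Gen A' := by
    intro t0 ht0 f hf hf0
    set x0 := C.χ (t0 : E) with hx0
    have hΨx0 : C.Ψ x0 = t0 := hNr _ ht0.1
    have hPx0 : P (C.Ψ x0) = t0 := by rw [hΨx0, hPt]
    have hu : AnalyticAt ℝ (fun x => f (P (C.Ψ x))) x0 := by
      have h1 : AnalyticAt ℝ (fun x => P (C.Ψ x)) x0 :=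
        AnalyticAt.fun_comp (g := P) (P.analyticAt _) (hNΨ _ ht0.1)
      refine AnalyticAt.fun_comp (g := f) ?_ h1
      rwa [hPx0]
    have hcont : Tendsto (fun x => P (C.Ψ x)) (𝓝 x0) (𝓝 t0) := by
      have h1 : ContinuousAt (fun x => P (C.Ψ x)) x0 :=
        P.continuous.continuousAt.comp (hNΨ _ ht0.1).continuousAt
      have := h1.tendsto
      rwa [hPx0] at this
    have hcont2 : ∀ᶠ x in 𝓝 x0, C.Ψ x ∈ N := by
      refine (hNΨ _ ht0.1).continuousAt.eventually_mem (hNo.mem_nhds ?_)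
      rw [hΨx0]
      exact ht0.1
    have hu0 : ∀ᶠ x in 𝓝 x0, x ∈ A → f (P (C.Ψ x)) = 0 := by
      filter_upwards [(hNE _ ht0.1).van, hNl _ ht0.1, hcont.eventually hf0, hcont2]
        with x h1 h2 h3 h4 h5
      have h6 : ((P (C.Ψ x) : T) : E) = C.Ψ x := by
        rw [hP]
        have h7 := C.π_add (C.Ψ x)
        rwa [C.DΨ, h1 h5, map_zero, add_zero] at h7
      refine h3 ⟨by rw [h6]; exact h4, ?_⟩
      rw [h6, h2]
      exact h5
    have h1 := (hNE _ ht0.1).vanish hmax ht0.2 hu hu0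
    have h2 : Tendsto (fun t : T => C.χ (t : E)) (𝓝 t0) (𝓝 x0) :=
      (hNχ _ ht0.1).continuousAt.tendsto.comp inc.continuous.continuousAt
    have h3 : ∀ᶠ t : T in 𝓝 t0, (t : E) ∈ N := by
      have : Tendsto (fun t : T => (t : E)) (𝓝 t0) (𝓝 (t0 : E)) := inc.continuous.continuousAt
      exact this.eventually (hNo.mem_nhds ht0.1)
    filter_upwards [h2.eventually h1, h3] with t h4 h5
    have h6 : ρ (C.χ (t : E)) = 0 := by
      rw [← C.DΨ, hNr _ h5]
      exact hDT t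
    have h7 := h4 h6
    rwa [hNr _ h5, hPt] at h7
  have hΦ0 : Φ (0, 0) = q0 := by
    change C.χ (L (0, 0)) = q0
    rw [hL0]
    exact C.χ0
  have hL00 : L ((0 : Fin c → ℝ), (0 : T)) = 0 := by rw [hL0]; rfl
  have hF' : ∀ p, L p ∈ N → AnalyticAt ℝ (fun p => F (Φ p)) p := fun p hp =>
    AnalyticAt.fun_comp (g := F) (hNF _ hp) (hΦan p hp)
  have hFn' : ¬ ∀ᶠ p in 𝓝 ((0 : Fin c → ℝ), (0 : T)), F (Φ p) = 0 := by
    intro hcon
    refine hFn ?_
    have h1 : Tendsto Θ (𝓝 q0) (𝓝 ((0 : Fin c → ℝ), (0 : T))) := by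
      have h2 := (hΘan 0 h0N).continuousAt.tendsto
      rw [C.χ0] at h2
      have h3 := hΘΦ ((0 : Fin c → ℝ), (0 : T)) (by rw [hL00]; exact h0N)
      rw [hΦ0] at h3
      rwa [h3] at h2
    have h4 : ∀ᶠ x in 𝓝 q0, C.χ (C.Ψ x) = x := C.left
    filter_upwards [h1.eventually hcon, h4] with x h5 h6
    have h7 : Φ (Θ x) = x := by
      change C.χ (L (Θ x)) = x
      rw [hLΘ, h6]
    rwa [h7] at h5
  have hfrΩ : ∀ p, L p ∈ N → p ∈ frontier Ω → F (Φ p) = 0 := by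
    intro p hp hpf
    rw [hΩo.frontier_eq] at hpf
    refine hNf _ hp ?_
    rw [hU.frontier_eq]
    refine ⟨?_, fun hcon => hpf.2 ⟨hp, hcon⟩⟩
    have h1 : Φ p ∈ closure (Φ '' Ω) := mem_closure_image (hΦan p hp).continuousAt hpf.1
    refine closure_mono ?_ h1
    rintro _ ⟨x, hx, rfl⟩
    exact hx.2
  have hLt : Tendsto L (𝓝 ((0 : Fin c → ℝ), (0 : T))) (𝓝 0) := by
    have := L.continuous.tendsto ((0 : Fin c → ℝ), (0 : T))
    rwa [hL00] at this
  have hfr' : ∀ᶠ p in 𝓝 ((0 : Fin c → ℝ), (0 : T)), p ∈ frontier Ω → F (Φ p) = 0 := by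
    filter_upwards [hLt.eventually (hNo.mem_nhds h0N)] with p hp
    exact hfrΩ p hp
  have hcl' : ∀ᶠ t in 𝓝 (0 : T), t ∈ A' → ((0 : Fin c → ℝ), t) ∈ closure Ω := by
    refine Eventually.of_forall fun t ht => ?_
    have hx : C.χ (t : E) ∈ closure U := hNc _ ht.1 ht.2
    have h1 : Θ (C.χ (t : E)) = (0, t) := by
      have := hΘΦ (0, t) (by rw [hL0]; exact ht.1)
      change Θ (C.χ (L (0, t))) = _ at this
      rwa [hL0] at this
    have h2 : ContinuousAt Θ (C.χ (t : E)) := (hΘan _ ht.1).continuousAt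
    have h3 : ∀ᶠ x in 𝓝 (C.χ (t : E)), C.Ψ x ∈ N := by
      refine (hNΨ _ ht.1).continuousAt.eventually_mem (hNo.mem_nhds ?_)
      rw [hNr _ ht.1]
      exact ht.1
    rw [mem_closure_iff_frequently] at hx ⊢
    rw [← h1]
    have h4 : ∃ᶠ x in 𝓝 (C.χ (t : E)), Θ x ∈ Ω := by
      refine (hx.and_eventually (h3.and (hNl _ ht.1))).mono ?_
      rintro x ⟨hxU, hxN, hxl⟩
      refine ⟨by rw [hLΘ]; exact hxN, ?_⟩
      change C.χ (L (Θ x)) ∈ U
      rw [hLΘ, hxl]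
      exact hxU
    exact h2.tendsto.frequently h4
  have hχt : Tendsto (fun t : T => C.χ (t : E)) (𝓝 (0 : T)) (𝓝 q0) := by
    have h1 : Tendsto (fun t : T => (t : E)) (𝓝 (0 : T)) (𝓝 (0 : E)) := by
      have := inc.continuous.tendsto (0 : T)
      exact this
    exact C.tendsto_χ.comp h1
  obtain ⟨t1, ⟨ht1A, ht1V⟩, sg, hsg, hsg0, hwing⟩ := hGen.wing c h0A' (F := fun p => F (Φ p))
    (hF' _ (by rw [hL00]; exact h0N)) hFn' hΩo hfr' hcl' (O := {t : T | C.χ (t : E) ∈ interior V})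
    (hχt.eventually (isOpen_interior.mem_nhds (mem_interior_iff_mem_nhds.2 hV)))
  have hsg00 : sg (0, t1) = 0 := hsg0.self_of_nhds
  have hLt1 : ∀ t : T, L ((0 : Fin c → ℝ), t) ∈ N ↔ (t : E) ∈ N := fun t => by rw [hL0]
  -- the function along the wing
  set φ : ℝ × T → ℝ := fun p => F (Φ (sg p, p.2)) with hφ
  have hφan : AnalyticAt ℝ φ (0, t1) := by
    have h1 : AnalyticAt ℝ (fun p : ℝ × T => (sg p, p.2)) (0, t1) := hsg.prod analyticAt_snd
    refine AnalyticAt.fun_comp (g := fun p => F (Φ p)) (hF' _ ?_) h1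
    rw [hsg00, hLt1]
    exact ht1A.1
  have hz : Tendsto (fun t : T => ((0 : ℝ), t)) (𝓝 t1) (𝓝 (0, t1)) :=
    (Continuous.prodMk_right (0 : ℝ)).tendsto t1
  have hO2 : {t : T | C.χ (t : E) ∈ V ∧ AnalyticAt ℝ sg (0, t) ∧ (∀ᶠ t' in 𝓝 t, sg (0, t') = 0) ∧
      ∀ᶠ p in 𝓝 ((0 : ℝ), t), 0 < p.1 → (sg p, p.2) ∈ Ω ∧ F (Φ (sg p, p.2)) ≠ 0} ∈ 𝓝 t1 := by
    have h2 : Tendsto (fun t : T => C.χ (t : E)) (𝓝 t1) (𝓝 (C.χ (t1 : E))) :=
      (hNχ _ ht1A.1).continuousAt.tendsto.comp inc.continuous.continuousAt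
    filter_upwards [h2.eventually (isOpen_interior.mem_nhds ht1V),
      hz.eventually hsg.eventually_analyticAt, eventually_eventually_nhds.2 hsg0,
      hz.eventually (eventually_eventually_nhds.2 hwing)] with t h3 h4 h5 h6
    exact ⟨interior_subset h3, h4, h5, h6⟩
  obtain ⟨t2, ⟨ht2A, ht2V, hsg2, hsg02, hwing2⟩, hord⟩ := hGen.exists_hasOrd_one ht1A hφan hO2
  have hsg002 : sg (0, t2) = 0 := hsg02.self_of_nhds
  have ht2N : L ((0 : Fin c → ℝ), t2) ∈ N := (hLt1 t2).2 ht2A.1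
  set q := C.χ (t2 : E) with hq
  have hΘq : Θ q = (0, t2) := by
    have := hΘΦ (0, t2) ht2N
    change Θ (C.χ (L (0, t2))) = _ at this
    rwa [hL0] at this
  have hρq : ρ q = 0 := congrArg Prod.fst hΘq
  have hPq : P (C.Ψ q) = t2 := congrArg Prod.snd hΘq
  -- the case of order zero cannot happen
  obtain ⟨l, g, hg, hg0, hφg⟩ : ∃ (l : ℕ) (g : ℝ × T → ℝ), AnalyticAt ℝ g (0, t2) ∧ g (0, t2) ≠ 0 ∧
      ∀ᶠ p in 𝓝 ((0 : ℝ), t2), φ p = p.1 ^ l • g p := by
    rcases hord with h0 | h1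
    · exfalso
      have h2 : Tendsto (fun s : ℝ => (s, t2)) (𝓝[>] 0) (𝓝 ((0 : ℝ), t2)) :=
        ((Continuous.prodMk_left t2).tendsto 0).mono_left nhdsWithin_le_nhds
      obtain ⟨s, hs1, hs2, hs3⟩ := ((h2.eventually h0).and
        ((h2.eventually hwing2).and self_mem_nhdsWithin)).exists
      exact (hs2 hs3).2 hs1
    · exact h1
  -- Lipschitz bound
  obtain ⟨K, S, hS, hLip⟩ := (hF' _ ht2N).contDiffAt (n := 1) |>.exists_lipschitzOnWith
  have hSN : S ∩ {p | L p ∈ N} ∈ 𝓝 ((0 : Fin c → ℝ), t2) :=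
    inter_mem hS (hLN.mem_nhds ht2N)
  obtain ⟨ε, hε, hεS⟩ := Metric.mem_nhds_iff.1 hSN
  have hg0' : 0 < |g (0, t2)| := abs_pos.2 hg0
  set κ : ℝ := min (|g (0, t2)| / 2 / (K + 1)) 1 with hκ
  have hK1 : (0 : ℝ) < K + 1 := add_pos_of_nonneg_of_pos K.coe_nonneg one_pos
  have hκ0 : 0 < κ := lt_min (div_pos (half_pos hg0') hK1) one_pos
  have hκK : K * κ < |g (0, t2)| / 2 := by
    have h1 : κ * (K + 1) ≤ |g (0, t2)| / 2 := by
      rw [← le_div_iff₀ hK1]
      exact min_le_left _ _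
    have h2 : κ * ((K : ℝ) + 1) = K * κ + κ := by ring
    linarith only [h1, h2, hκ0]
  -- properties near `(0, t2)`
  have hnear : ∀ᶠ p in 𝓝 ((0 : ℝ), t2), 0 < p.1 → ∀ r, ‖r - sg p‖ < κ * p.1 ^ (l + 1) →
      (r, p.2) ∈ Ω := by
    have h1 : ∀ᶠ p in 𝓝 ((0 : ℝ), t2), ‖sg p‖ < ε / 2 := by
      have h2 : Tendsto (fun p => ‖sg p‖) (𝓝 ((0 : ℝ), t2)) (𝓝 0) := by
        have := hsg2.continuousAt.norm.tendsto
        rwa [hsg002, norm_zero] at this
      exact h2.eventually (gt_mem_nhds (half_pos hε))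
    have h2 : ∀ᶠ p in 𝓝 ((0 : ℝ), t2), |g (0, t2)| / 2 < |g p| :=
      hg.continuousAt.abs.eventually (lt_mem_nhds (half_lt_self hg0'))
    have h3 : ∀ᶠ p in 𝓝 ((0 : ℝ), t2), |p.1| < min 1 (ε / 2) := by
      have h4 : Tendsto (fun p : ℝ × T => |p.1|) (𝓝 ((0 : ℝ), t2)) (𝓝 0) := by
        have := (continuous_fst.abs : Continuous fun p : ℝ × T => |p.1|).tendsto (0, t2)
        simpa using this
      exact h4.eventually (gt_mem_nhds (lt_min one_pos (half_pos hε)))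
    have h4 : ∀ᶠ p in 𝓝 ((0 : ℝ), t2), dist p.2 t2 < ε := by
      have h5 : Tendsto (fun p : ℝ × T => p.2) (𝓝 ((0 : ℝ), t2)) (𝓝 t2) :=
        continuous_snd.tendsto ((0 : ℝ), t2)
      exact h5.eventually (ball_mem_nhds _ hε)
    filter_upwards [h1, h2, h3, h4, hwing2, hφg] with p h1 h2 h3 h4 h5 h6 hp0 r hr
    obtain ⟨h7, h8⟩ := h5 hp0
    rw [abs_of_pos hp0] at h3
    have hp1 : p.1 < 1 := h3.trans_le (min_le_left _ _)
    have hp2 : p.1 < ε / 2 := h3.trans_le (min_le_right _ _)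
    have hpl : p.1 ^ (l + 1) ≤ p.1 := by
      have : p.1 ^ (l + 1) ≤ p.1 ^ 1 := pow_le_pow_of_le_one hp0.le hp1.le (by omega)
      simpa using this
    have hpl' : p.1 ^ (l + 1) ≤ p.1 ^ l := pow_le_pow_of_le_one hp0.le hp1.le (by omega)
    have hpl0 : 0 < p.1 ^ l := pow_pos hp0 l
    set η := κ * p.1 ^ (l + 1) with hη
    have hη0 : 0 < η := mul_pos hκ0 (pow_pos hp0 _)
    have hηε : η < ε / 2 :=
      ((mul_le_mul (min_le_right _ _) hpl (pow_pos hp0 _).le zero_le_one).trans_eq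
        (one_mul p.1)).trans_lt hp2
    have hmem : ∀ r' ∈ ball (sg p) η, (r', p.2) ∈ S ∩ {p | L p ∈ N} := by
      intro r' hr'
      refine hεS ?_
      rw [mem_ball, Prod.dist_eq, max_lt_iff]
      refine ⟨?_, h4⟩
      have h9 : dist r' 0 ≤ dist r' (sg p) + dist (sg p) 0 := dist_triangle _ _ _
      rw [mem_ball] at hr'
      rw [dist_zero_right (sg p)] at h9
      change dist r' 0 < ε
      linarith only [h9, hr', hηε, h1]
    have hne : ∀ r' ∈ ball (sg p) η, F (Φ (r', p.2)) ≠ 0 := by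
      intro r' hr' h0
      have h9 := hLip.dist_le_mul _ (hmem r' hr').1 _ (hmem (sg p) (mem_ball_self hη0)).1
      rw [Prod.dist_eq, dist_self, max_eq_left dist_nonneg, h0, Real.dist_eq, zero_sub, abs_neg]
        at h9
      have h10 : |F (Φ (sg p, p.2))| = p.1 ^ l * |g p| := by
        have : F (Φ (sg p, p.2)) = p.1 ^ l • g p := h6
        rw [this, smul_eq_mul, abs_mul, abs_of_pos hpl0]
      rw [h10] at h9
      have h11 : dist r' (sg p) < κ * p.1 ^ l := 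
        lt_of_lt_of_le hr' (mul_le_mul_of_nonneg_left hpl' hκ0.le)
      have h12 : (K : ℝ) * dist r' (sg p) ≤ K * (κ * p.1 ^ l) :=
        mul_le_mul_of_nonneg_left h11.le K.coe_nonneg
      have h13 : p.1 ^ l * (|g (0, t2)| / 2) < p.1 ^ l * |g p| := mul_lt_mul_of_pos_left h2 hpl0
      have h14 := mul_lt_mul_of_pos_left hκK hpl0
      have h15 : (K : ℝ) * (κ * p.1 ^ l) = p.1 ^ l * (K * κ) := by ring
      linarith only [h9, h12, h13, h14, h15]
    have hconn : IsPreconnected ((fun r' => (r', p.2)) '' ball (sg p) η) :=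
      (convex_ball (sg p) η).isPreconnected.image _ (Continuous.prodMk_left p.2).continuousOn
    have hdisj : Disjoint ((fun r' => (r', p.2)) '' ball (sg p) η) (frontier Ω) := by
      rw [Set.disjoint_left]
      rintro _ ⟨r', hr', rfl⟩ hfr
      exact hne r' hr' (hfrΩ _ (hmem r' hr').2 hfr)
    rcases preconnected_dichotomy hconn hdisj with h9 | h9
    · exact h9 ⟨r, by rw [mem_ball, dist_eq_norm]; exact hr, rfl⟩
    · exact absurd h7 (Set.disjoint_left.1 h9 ⟨sg p, mem_ball_self hη0, rfl⟩)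
  -- conclusion
  have hΨq : AnalyticAt ℝ C.Ψ q := hNΨ _ ht2A.1
  have hPΨ : AnalyticAt ℝ (fun x => P (C.Ψ x)) q := AnalyticAt.fun_comp (g := P) (P.analyticAt _) hΨq
  have hpair : AnalyticAt ℝ (fun p : E × ℝ => (p.2, P (C.Ψ p.1))) (q, 0) := by
    refine analyticAt_snd.prod ?_
    exact AnalyticAt.fun_comp (g := fun x => P (C.Ψ x)) (f := fun p : E × ℝ => p.1) hPΨ
      analyticAt_fst
  have hpair0 : (((0 : ℝ), P (C.Ψ q)) : ℝ × T) = (0, t2) := by rw [hPq]
  refine ⟨q, ⟨ht2A.2, ht2V⟩, fun p => ρ p.1 - sg (p.2, P (C.Ψ p.1)), ?_, ?_, κ, hκ0, l + 1,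
    Nat.succ_pos _, ?_⟩
  · refine AnalyticAt.sub ?_ ?_
    · exact AnalyticAt.fun_comp (g := ρ) (f := fun p : E × ℝ => p.1) (hNE _ ht2A.1).an
        analyticAt_fst
    · refine AnalyticAt.fun_comp (g := sg) ?_ hpair
      change AnalyticAt ℝ sg ((0 : ℝ), P (C.Ψ q))
      rw [hpair0]
      exact hsg2
  · have h1 : Tendsto (fun x => P (C.Ψ x)) (𝓝 q) (𝓝 t2) := by
      have := hPΨ.continuousAt.tendsto
      rwa [hPq] at this
    filter_upwards [h1.eventually hsg02] with z hz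
    rw [hz, sub_zero]
  · have h1 : Tendsto (fun p : E × ℝ => (p.2, P (C.Ψ p.1))) (𝓝 (q, 0)) (𝓝 ((0 : ℝ), t2)) := by
      have := hpair.continuousAt.tendsto
      rwa [show (((q, (0 : ℝ)) : E × ℝ).2, P (C.Ψ ((q, (0 : ℝ)) : E × ℝ).1)) = ((0 : ℝ), t2) from hpair0]
        at this
    have h2 : ∀ᶠ p in 𝓝 ((q, 0) : E × ℝ), C.χ (C.Ψ p.1) = p.1 :=
      (continuous_fst.tendsto ((q, 0) : E × ℝ)).eventually (hNl _ ht2A.1)
    filter_upwards [h1.eventually hnear, h2] with p h3 h4 h5 h6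
    have h7 := (h3 h5 (ρ p.1) h6).2
    change C.χ (L (Θ p.1)) ∈ U at h7
    rwa [hLΘ, h4] at h7

end Vale.Agent.P274.H
end

section

/-! # P274-V18b: a Siegel domain biholomorphic to a bounded domain has no Killing field `(0, a)`, `a` real -/

open Set Complex ComplexConjugate Topology
open scoped ContDiff

namespace Vale.Agent.P274.V

variable {Z : Type*} [NormedAddCommGroup Z] [NormedSpace ℂ Z] [FiniteDimensional ℂ Z] {k : ℕ}

/-- If `(0, a)` is a Killing field then `a = 0`.  Proof: its flow is `(z, w) ↦ (z, w + t a)` (the curve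
`t ↦ F t x - t (0, a)` has derivative zero), so `(z, w + t a) ∈ S` for all real `t`; imaginary translations
also preserve `S`, so `(z, w + ζ a) ∈ S` for all `ζ ∈ ℂ`, and `ζ ↦ Φ (z, w + ζ a)` is a bounded entire function
(`Φ` biholomorphic onto a bounded set), constant by Liouville
(`Differentiable.apply_eq_apply_of_bounded`); `Φ` is injective, so `a = 0`. -/
theorem conF_eq_zero {F : Z →L[ℝ] Z →L[ℝ] (Fin k → ℂ)} {Ω : Set (Fin k → ℝ)} {h ρ}
    (C : Ctx (Sg F Ω) h ρ) {a : Fin k → ℝ} (ha : conF (Sg F Ω) a ∈ Kil (Sg F Ω) h) : a = 0 := by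
  obtain ⟨x, hx⟩ := C.ne
  obtain ⟨G, hG⟩ := C.flow _ ha
  set v : Z × (Fin k → ℂ) := (0, cpx a) with hv
  -- real translations
  have hline : ∀ t : ℝ, G t x = x + t • v := by
    have hd : ∀ t : ℝ, HasDerivAt (fun t : ℝ => G t x - t • v) 0 t := by
      intro t
      have h1 := hG.deriv x hx t
      have h2 : conF (Sg F Ω) a (G t x) = v := by
        unfold conF
        rw [indicator_of_mem ((hG.biholo t).mapsTo hx)]
      rw [h2] at h1
      have h3 : HasDerivAt (fun t : ℝ => t • v) ((1 : ℝ) • v) t := (hasDerivAt_id t).smul_const v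
      have h4 := h1.sub h3
      rw [one_smul, sub_self] at h4
      exact h4
    intro t
    have hc := is_const_of_deriv_eq_zero (fun t => (hd t).differentiableAt) (fun t => (hd t).deriv) t 0
    simp only [zero_smul, sub_zero] at hc
    rw [hG.zero x hx] at hc
    exact sub_eq_iff_eq_add.mp hc
  have hreal : ∀ t : ℝ, x + t • v ∈ Sg F Ω := fun t => by
    rw [← hline t]; exact (hG.biholo t).mapsTo hx
  have hcomplex : ∀ ζ : ℂ, x + ζ • v ∈ Sg F Ω := by
    intro ζ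
    have h1 := hreal ζ.re
    simp only [Sg, mem_ofPred_eq] at h1 ⊢
    convert h1 using 1
    funext j
    simp [hv, cpx]
  obtain ⟨U, -, hb, Φ, Ψ, hΦ⟩ := C.bdd
  have hdiff : Differentiable ℂ (fun ζ : ℂ => Φ (x + ζ • v)) := by
    intro ζ
    have h1 : DifferentiableAt ℂ Φ (x + ζ • v) :=
      hΦ.diffOn.differentiableAt (C.isOpen.mem_nhds (hcomplex ζ))
    have h2 : DifferentiableAt ℂ (fun ζ : ℂ => x + ζ • v) ζ := by fun_prop
    exact DifferentiableAt.comp ζ h1 h2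
  have hbd : Bornology.IsBounded (range (fun ζ : ℂ => Φ (x + ζ • v))) := by
    refine hb.subset ?_
    rintro _ ⟨ζ, rfl⟩
    exact hΦ.mapsTo (hcomplex ζ)
  have heq : Φ (x + (1 : ℂ) • v) = Φ (x + (0 : ℂ) • v) :=
    hdiff.apply_eq_apply_of_bounded hbd 1 0
  have h1 := hΦ.left_inv _ (hcomplex 1)
  rw [heq, hΦ.left_inv _ (hcomplex 0)] at h1
  simp only [zero_smul, add_zero, one_smul] at h1
  have h2 : v = 0 := by
    have := h1.symm
    rwa [add_eq_left] at this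
  funext j
  have h3 : v.2 j = 0 := by rw [h2]; rfl
  simpa [hv, cpx] using h3

end Vale.Agent.P274.V
end
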