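import Mathlib
import Vale.Agent.P274.Bdl.B4
import Vale.Agent.P274.Bdl.B1
import Vale.Agent.P274.Bdl.B5
import Vale.Agent.P274.Bdl.B3

set_option linter.all false

section

/-! Normal families on manifolds (TASK Z6). -/

open Filter Metric Set Topology

namespace Vale.Agent.P274.Z

variable {ι : Type*} {X Y T E : Type*} [NormedAddCommGroup X] [NormedSpace ℂ X]
  [NormedAddCommGroup Y] [NormedSpace ℂ Y] [NormedAddCommGroup T] [NormedSpace ℂ T]
  [NormedAddCommGroup E] [NormedSpace ℂ E]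

theorem LocBddZ.par {l : Filter ι} {f : ι → X → Y} {U : Set X} (h : LocBddZ l f U)
    {σ : E → X} {π : X → E} {W : Set X} (hp : Par U σ π W) :
    LocBdd l (fun j e => f j (σ e)) (ball 0 1) := by
  intro e he
  obtain ⟨W', hW', hxW', C, hC⟩ := h (σ e) (hp.mapsσ he).1
  obtain ⟨r, hr, hrS⟩ := Metric.isOpen_iff.1 (hp.isOpen_preimage hW') e ⟨he, hxW'⟩
  refine ⟨r, hr, C, ?_⟩
  filter_upwards [hC] with j hj
  refine ⟨hj.1.comp_diffOn isOpen_ball (hp.diffσ.mono fun y hy => (hrS hy).1)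
    fun y hy => ⟨(hp.mapsσ (hrS hy).1).1, (hrS hy).2⟩, fun y hy => ?_⟩
  exact hj.2 _ ⟨(hp.mapsσ (hrS hy).1).1, (hrS hy).2⟩

theorem Par.locBddZ {l : Filter ι} {f : ι → X → Y} {U : Set X} {σ : E → X} {π : X → E}
    {W : Set X} (hp : Par U σ π W) (h : LocBdd l (fun j e => f j (σ e)) (ball 0 1)) :
    LocBddZ l f (U ∩ W) := by
  intro x hx
  obtain ⟨r, hr, C, hC⟩ := h (π x) (hp.mapsπ hx)
  refine ⟨W ∩ π ⁻¹' ball (π x) r, hp.contπ.isOpen_inter_preimage hp.isOpen isOpen_ball,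
    ⟨hx.2, mem_ball_self hr⟩, C, ?_⟩
  filter_upwards [hC] with j hj
  constructor
  · have h1 : DifferentiableOn ℂ (fun y => f j (σ (π y))) (W ∩ π ⁻¹' ball (π x) r) :=
      hj.1.comp (hp.diffπ.mono inter_subset_left) fun y hy => hy.2
    refine (HolOn.of_diffOn (hp.contπ.isOpen_inter_preimage hp.isOpen isOpen_ball)
      (fun y hy => hy.2) h1).congr fun y hy => ?_
    rw [hp.right y hy.1]
  · intro y hy
    have h1 : ‖f j (σ (π y))‖ ≤ C := hj.2 (π y) hy.2.2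
    rwa [hp.right y hy.1] at h1

/-- Montel's theorem on manifolds. -/
theorem montelZ [ProperSpace E] [ProperSpace Y] (𝒰 : Ultrafilter ι) {f : ι → X → Y} {U : Set X}
    (hU : ∀ x ∈ U, ManPt E U x) (hf : LocBddZ (𝒰 : Filter ι) f U) :
    ∃ g : X → Y, HolOn g U ∧
      (∀ x ∈ U, ∀ u : ι → X, (∀ᶠ j in (𝒰 : Filter ι), u j ∈ U) → Tendsto u 𝒰 (𝓝 x) →
        Tendsto (fun j => f j (u j)) 𝒰 (𝓝 (g x))) ∧
      ∀ x ∈ U, ∀ ε > 0, ∃ W : Set X, IsOpen W ∧ x ∈ W ∧ ∀ᶠ j in (𝒰 : Filter ι),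
        ∀ y ∈ U ∩ W, ‖f j y - g y‖ < ε := by
  have hlim : ∀ x : X, ∃ y : Y, x ∈ U → Tendsto (fun j => f j x) 𝒰 (𝓝 y) := by
    intro x
    by_cases hx : x ∈ U
    · obtain ⟨W, hW, hxW, C, hC⟩ := hf x hx
      have h1 : ∀ᶠ j in (𝒰 : Filter ι), f j x ∈ closedBall (0 : Y) C := by
        filter_upwards [hC] with j hj
        simpa using hj.2 x ⟨hx, hxW⟩
      obtain ⟨y, -, hy⟩ := (isCompact_closedBall (0 : Y) C).ultrafilter_le_nhds
        (𝒰.map (fun j => f j x)) (by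
          rw [le_principal_iff]
          exact h1)
      exact ⟨y, fun _ => hy⟩
    · exact ⟨0, fun h => absurd h hx⟩
  choose g hg using hlim
  have key : ∀ x ∈ U, ∃ (σ : E → X) (π : X → E) (W : Set X), Par U σ π W ∧ σ 0 = x ∧
      ∃ g0 : E → Y, DifferentiableOn ℂ g0 (ball 0 1) ∧
      TendstoLocallyUniformlyOn (fun j e => f j (σ e)) g0 (𝒰 : Filter ι) (ball 0 1) ∧
      (∀ e ∈ ball (0 : E) 1, ∀ u : ι → E, Tendsto u 𝒰 (𝓝 e) →
        Tendsto (fun j => f j (σ (u j))) 𝒰 (𝓝 (g0 e))) ∧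
      ∀ e ∈ ball (0 : E) 1, g (σ e) = g0 e := by
    intro x hx
    obtain ⟨σ, π, W, hp, hσ⟩ := hU x hx
    obtain ⟨g0, h1, h2, h3⟩ := montel_full 𝒰 isOpen_ball (hf.par hp)
    refine ⟨σ, π, W, hp, hσ, g0, h1, h2, h3, fun e he => ?_⟩
    exact tendsto_nhds_unique (hg (σ e) (hp.mapsσ he).1) (h3 e he (fun _ => e) tendsto_const_nhds)
  have hpre : ∀ {σ : E → X} {π : X → E} {W : Set X}, Par U σ π W → ∀ r : ℝ,
      IsOpen (W ∩ π ⁻¹' ball 0 r) := fun hp r =>
    hp.contπ.isOpen_inter_preimage hp.isOpen isOpen_ball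
  refine ⟨g, ?_, ?_, ?_⟩
  · intro x hx
    obtain ⟨σ, π, W, hp, hσ, g0, h1, h2, h3, h4⟩ := key x hx
    have h0 : (0 : E) ∈ ball (0 : E) 1 := mem_ball_self one_pos
    have hxW : x ∈ U ∩ W := hσ ▸ hp.mapsσ h0
    refine ⟨W ∩ π ⁻¹' ball 0 1, hpre hp 1, ⟨hxW.2, hp.mapsπ hxW⟩, fun y => g0 (π y), ?_, ?_⟩
    · exact h1.comp (hp.diffπ.mono inter_subset_left) fun y hy => hy.2
    · intro y hy
      change g y = g0 (π y)
      rw [← h4 (π y) hy.2.2, hp.right y ⟨hy.1, hy.2.1⟩]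
  · intro x hx u hu hux
    obtain ⟨σ, π, W, hp, hσ, g0, h1, h2, h3, h4⟩ := key x hx
    have h0 : (0 : E) ∈ ball (0 : E) 1 := mem_ball_self one_pos
    have hxW : x ∈ U ∩ W := hσ ▸ hp.mapsσ h0
    have hπ : Tendsto (fun j => π (u j)) 𝒰 (𝓝 0) := by
      have h5 : ContinuousAt π x := hp.contπ.continuousAt (hp.isOpen.mem_nhds hxW.2)
      have h6 : π x = 0 := by rw [← hσ, hp.left 0 h0]
      have h7 := h5.tendsto.comp hux
      rw [h6] at h7
      exact h7
    have h5 := h3 0 h0 _ hπ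
    rw [← h4 0 h0, hσ] at h5
    refine h5.congr' ?_
    filter_upwards [hu, hux (hp.isOpen.mem_nhds hxW.2)] with j hj1 hj2
    rw [hp.right (u j) ⟨hj1, hj2⟩]
  · intro x hx ε hε
    obtain ⟨σ, π, W, hp, hσ, g0, h1, h2, h3, h4⟩ := key x hx
    have h0 : (0 : E) ∈ ball (0 : E) 1 := mem_ball_self one_pos
    have hxW : x ∈ U ∩ W := hσ ▸ hp.mapsσ h0
    rw [Metric.tendstoLocallyUniformlyOn_iff] at h2
    obtain ⟨t, ht, ht2⟩ := h2 ε hε 0 h0
    rw [isOpen_ball.nhdsWithin_eq h0] at ht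
    obtain ⟨ρ, hρ, hρt⟩ := Metric.mem_nhds_iff.1 ht
    have h6 : π x = 0 := by rw [← hσ, hp.left 0 h0]
    refine ⟨W ∩ π ⁻¹' ball 0 (min ρ 1), hpre hp _, ⟨hxW.2, ?_⟩, ?_⟩
    · change π x ∈ ball 0 (min ρ 1)
      rw [h6]
      exact mem_ball_self (lt_min hρ one_pos)
    · filter_upwards [ht2] with j hj y hy
      have h7 : π y ∈ ball (0 : E) (min ρ 1) := hy.2.2
      have h8 := hj (π y) (hρt (ball_subset_ball (min_le_left _ _) h7))
      rw [← h4 (π y) (ball_subset_ball (min_le_right _ _) h7), hp.right y ⟨hy.1, hy.2.1⟩,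
        dist_comm, dist_eq_norm] at h8
      exact h8

omit [NormedSpace ℂ X] in
/-- A relatively open and relatively closed property on a preconnected set. -/
theorem forall_of_isPreconnectedZ {U : Set X} (hUc : IsPreconnected U) {P : X → Prop}
    (ho : ∀ x ∈ U, P x → ∀ᶠ y in 𝓝 x, y ∈ U → P y)
    (hc : ∀ x ∈ U, (∀ W : Set X, IsOpen W → x ∈ W → ∃ y ∈ U ∩ W, P y) → P x) {x0 : X}
    (hx0 : x0 ∈ U) (h0 : P x0) : ∀ x ∈ U, P x := by
  have : PreconnectedSpace U := Subtype.preconnectedSpace hUc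
  set A : Set U := {x | P x} with hA
  have h1 : IsOpen A := by
    rw [isOpen_iff_mem_nhds]
    rintro ⟨x, hx⟩ hxA
    have h2 := ho x hx hxA
    have h4 : Tendsto (Subtype.val : U → X) (𝓝 ⟨x, hx⟩) (𝓝 x) :=
      continuous_subtype_val.tendsto _
    have h3 : ∀ᶠ y : U in 𝓝 (⟨x, hx⟩ : U), (y : X) ∈ U → P y := h4.eventually h2
    filter_upwards [h3] with y hy
    exact hy y.2
  have h2 : IsClosed A := by
    rw [← closure_subset_iff_isClosed]
    rintro ⟨x, hx⟩ hxA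
    refine hc x hx fun W hW hxW => ?_
    rw [_root_.mem_closure_iff] at hxA
    obtain ⟨y, hy1, hy2⟩ := hxA (Subtype.val ⁻¹' W) (hW.preimage continuous_subtype_val) hxW
    exact ⟨y, ⟨y.2, hy1⟩, hy2⟩
  have h3 : A = univ := IsClopen.eq_univ ⟨h2, h1⟩ ⟨⟨x0, hx0⟩, h0⟩
  intro x hx
  have h4 : (⟨x, hx⟩ : U) ∈ A := h3 ▸ mem_univ _
  exact h4

theorem locBddZ_of_chart (𝒰 : Ultrafilter ι) {h : ι → X → ℂ} {U : Set X}
    (hh : ∀ x ∈ U, ∃ W : Set X, IsOpen W ∧ x ∈ W ∧ ∀ᶠ j in (𝒰 : Filter ι),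
      HolOn (h j) (U ∩ W) ∧ ∀ y ∈ U ∩ W, 0 ≤ (h j y).re)
    {σ : E → X} {π : X → E} {W : Set X} (hp : Par U σ π W)
    {k : ι → E} {k0 : E} (hk0 : k0 ∈ ball (0 : E) 1) (hk : Tendsto k 𝒰 (𝓝 k0)) {C : ℝ}
    (hkC : ∀ᶠ j in (𝒰 : Filter ι), ‖h j (σ (k j))‖ ≤ C) :
    LocBddZ (𝒰 : Filter ι) h (U ∩ W) := by
  refine hp.locBddZ (locBdd_of_re_nonneg 𝒰 (convex_ball _ _).isPreconnected ?_ hk0 hk hkC)
  intro e he
  obtain ⟨W', hW', hxW', hW2⟩ := hh (σ e) (hp.mapsσ he).1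
  obtain ⟨r, hr, hrS⟩ := Metric.isOpen_iff.1 (hp.isOpen_preimage hW') e ⟨he, hxW'⟩
  refine ⟨r, hr, ?_⟩
  filter_upwards [hW2] with j hj
  refine ⟨hj.1.comp_diffOn isOpen_ball (hp.diffσ.mono fun y hy => (hrS hy).1)
    fun y hy => ⟨(hp.mapsσ (hrS hy).1).1, (hrS hy).2⟩, fun y hy => ?_⟩
  exact hj.2 _ ⟨(hp.mapsσ (hrS hy).1).1, (hrS hy).2⟩

/-- Harnack principle on connected manifolds. -/
theorem locBddZ_of_re_nonneg (𝒰 : Ultrafilter ι) {h : ι → X → ℂ} {U : Set X}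
    (hUc : IsPreconnected U) (hU : ∀ x ∈ U, ManPt E U x)
    (hh : ∀ x ∈ U, ∃ W : Set X, IsOpen W ∧ x ∈ W ∧ ∀ᶠ j in (𝒰 : Filter ι),
      HolOn (h j) (U ∩ W) ∧ ∀ y ∈ U ∩ W, 0 ≤ (h j y).re)
    {k : ι → X} {k0 : X} (hk0 : k0 ∈ U) (hkU : ∀ᶠ j in (𝒰 : Filter ι), k j ∈ U)
    (hk : Tendsto k 𝒰 (𝓝 k0)) {C : ℝ}
    (hkC : ∀ᶠ j in (𝒰 : Filter ι), ‖h j (k j)‖ ≤ C) : LocBddZ (𝒰 : Filter ι) h U := by
  have h0 : (0 : E) ∈ ball (0 : E) 1 := mem_ball_self one_pos
  have hfin : ∀ (W : Set X), IsOpen W → ∀ x ∈ U ∩ W, LocBddZ (𝒰 : Filter ι) h (U ∩ W) →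
      ∃ W' : Set X, IsOpen W' ∧ x ∈ W' ∧ ∃ C : ℝ, ∀ᶠ j in (𝒰 : Filter ι),
        HolOn (h j) (U ∩ W') ∧ ∀ y ∈ U ∩ W', ‖h j y‖ ≤ C := by
    intro W hW x hx hl
    obtain ⟨W', hW', hxW', C', hC'⟩ := hl x hx
    refine ⟨W ∩ W', hW.inter hW', ⟨hx.2, hxW'⟩, C', ?_⟩
    rw [← inter_assoc]
    exact hC'
  refine forall_of_isPreconnectedZ hUc (P := fun x => ∃ W : Set X, IsOpen W ∧ x ∈ W ∧
    ∃ C : ℝ, ∀ᶠ j in (𝒰 : Filter ι), HolOn (h j) (U ∩ W) ∧ ∀ y ∈ U ∩ W, ‖h j y‖ ≤ C) ?_ ?_ hk0 ?_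
  · rintro x - ⟨W, hW, hxW, C', hC'⟩
    filter_upwards [hW.mem_nhds hxW] with y hy _
    exact ⟨W, hW, hy, C', hC'⟩
  · intro x hx hcl
    obtain ⟨σ, π, W, hp, hσ⟩ := hU x hx
    have hxW : x ∈ U ∩ W := hσ ▸ hp.mapsσ h0
    obtain ⟨a, ha, Wa, hWa, haWa, C', hC'⟩ := hcl W hp.isOpen hxW.2
    refine hfin W hp.isOpen x hxW (locBddZ_of_chart 𝒰 hh hp (k := fun _ => π a) (hp.mapsπ ha)
      tendsto_const_nhds (C := C') ?_)
    filter_upwards [hC'] with j hj
    rw [hp.right a ha]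
    exact hj.2 a ⟨ha.1, haWa⟩
  · obtain ⟨σ, π, W, hp, hσ⟩ := hU k0 hk0
    have hxW : k0 ∈ U ∩ W := hσ ▸ hp.mapsσ h0
    have hπ : Tendsto (fun j => π (k j)) 𝒰 (𝓝 0) := by
      have h5 : ContinuousAt π k0 := hp.contπ.continuousAt (hp.isOpen.mem_nhds hxW.2)
      have h6 : π k0 = 0 := by rw [← hσ, hp.left 0 h0]
      have h7 := h5.tendsto.comp hk
      rw [h6] at h7
      exact h7
    refine hfin W hp.isOpen k0 hxW (locBddZ_of_chart 𝒰 hh hp (k := fun j => π (k j)) h0 hπ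
      (C := C) ?_)
    filter_upwards [hkC, hkU, hk (hp.isOpen.mem_nhds hxW.2)] with j hj1 hj2 hj3
    rw [hp.right (k j) ⟨hj2, hj3⟩]
    exact hj1

end Vale.Agent.P274.Z
end

section

/-! Normality of the rescaled automorphisms at a point with a conormal peak function. -/

set_option linter.unusedSectionVars false

namespace Vale.Agent.P274

open Filter Metric Set Topology Complex

variable {ι : Type*} {E : Type*} [NormedAddCommGroup E] [NormedSpace ℂ E]
  [FiniteDimensional ℂ E] {k : ℕ} {D : E →L[ℝ] (Fin k → ℝ)} {B : E →L[ℝ] E →L[ℝ] (Fin k → ℝ)}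
  {σ : (Fin k → ℂ) →L[ℂ] E}

/-- Second order Taylor bound for holomorphic functions. -/
lemma holo_quadratic_bound {f : E → ℂ} {q : E} {r : ℝ} (hr : 0 < r)
    (hd : DifferentiableOn ℂ f (ball q r)) : ∃ C ≥ 0, ∃ δ > 0, ∀ x : E, ‖x‖ < δ →
      ‖f (q + x) - f q - fderiv ℂ f q x‖ ≤ C * ‖x‖ ^ 2 := by
  have hps : ProperSpace E := FiniteDimensional.proper ℂ E
  have hc : ContinuousAt f q := (hd.differentiableAt (ball_mem_nhds q hr)).continuousAt
  obtain ⟨r1, hr1, hr1b⟩ := Metric.continuousAt_iff.1 hc 1 one_pos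
  set ρ := min r r1 with hρ
  have hρ0 : 0 < ρ := lt_min hr hr1
  have hd' : DifferentiableOn ℂ f (ball q ρ) := hd.mono (ball_subset_ball (min_le_left _ _))
  have hbd : ∀ y ∈ ball q ρ, ‖f y‖ ≤ ‖f q‖ + 1 := by
    intro y hy
    have h1 := hr1b (ball_subset_ball (min_le_right _ _) hy)
    rw [dist_eq_norm] at h1
    have := norm_le_norm_add_norm_sub' (f y) (f q)
    linarith only [h1, this]
  refine ⟨32 * (‖f q‖ + 1) / ρ ^ 2, by positivity, ρ / 8, by positivity, fun x hx => ?_⟩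
  have h1 := (convex_closedBall q ‖x‖).norm_image_sub_le_of_norm_fderiv_le'
    (f := f) (𝕜 := ℂ) (C := 32 * (‖f q‖ + 1) / ρ ^ 2 * ‖x‖) (φ := fderiv ℂ f q) (x := q) (y := q + x)
    (fun z hz => hd'.differentiableAt (isOpen_ball.mem_nhds (by
      rw [mem_closedBall] at hz
      rw [mem_ball]; linarith only [hρ0, hx, hz]))) (fun z hz => by
      rw [mem_closedBall] at hz
      refine (fderiv_lip hρ0 (by positivity) hd' hbd (y := z) (by rw [mem_ball]; linarith only [hx, hz])).trans ?_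
      gcongr) (mem_closedBall_self (norm_nonneg x)) (by simp)
  rw [add_sub_cancel_left] at h1
  refine h1.trans (le_of_eq ?_)
  ring

lemma norm_Th_le (s : ℝ) (hs0 : 0 ≤ s) (hs1 : s ≤ 1) (y : E) :
    ‖Th D B σ s y‖ ≤ s * (‖σ (Lam D y - Qf B (prj D σ y))‖ + ‖prj D σ y‖) := by
  rw [Th]
  refine (norm_add_le _ _).trans ?_
  rw [norm_smul, norm_smul, Real.norm_of_nonneg (by positivity), Real.norm_of_nonneg hs0]
  have h1 : s ^ 2 ≤ s := by linarith only [mul_nonneg (sub_nonneg.2 hs0) (sub_nonneg.2 hs1)]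
  have h2 := mul_le_mul_of_nonneg_right h1 (norm_nonneg (σ (Lam D y - Qf B (prj D σ y))))
  linarith only [h2]

/-- Along the model dilations, a holomorphic function with `f q = 0` whose derivative vanishes on
the complex kernel is of size `s ^ 2`. -/
lemma holo_scaled_bound {f : E → ℂ} {q : E} {r : ℝ} (hr : 0 < r)
    (hd : DifferentiableOn ℂ f (ball q r)) (hfq : f q = 0)
    (hf' : ∀ u, Lam D u = 0 → fderiv ℂ f q u = 0) (hσ : ∀ w, Lam D (σ w) = w) (y : E) :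
    ∃ C, ∀ᶠ s in 𝓝[>] (0 : ℝ), ‖f (q + Th D B σ s y)‖ ≤ C * s ^ 2 := by
  obtain ⟨C, hC, δ, hδ, h⟩ := holo_quadratic_bound hr hd
  set A : ℝ := ‖σ (Lam D y - Qf B (prj D σ y))‖ + ‖prj D σ y‖ with hA
  have hA0 : 0 ≤ A := by positivity
  set a : E := σ (Lam D y - Qf B (prj D σ y)) with ha
  refine ⟨C * A ^ 2 + ‖fderiv ℂ f q a‖, ?_⟩
  have hs1 : ∀ᶠ s in 𝓝[>] (0 : ℝ), s ∈ Ioo (0 : ℝ) (min 1 (δ / (A + 1))) :=
    Ioo_mem_nhdsGT (by positivity)
  filter_upwards [hs1] with s hs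
  have hs0 : 0 < s := hs.1
  have hs1 : s < 1 := hs.2.trans_le (min_le_left _ _)
  have hs2 : s * (A + 1) < δ := by
    have := hs.2.trans_le (min_le_right _ _)
    rwa [lt_div_iff₀ (by (clear * -; positivity))] at this
  have h1 := norm_Th_le (D := D) (B := B) (σ := σ) s hs0.le hs1.le y
  rw [← hA] at h1
  have h2 : ‖Th D B σ s y‖ < δ := by linarith only [hs0, hs2, h1]
  have h3 := h _ h2
  rw [hfq, sub_zero] at h3
  have h4 : fderiv ℂ f q (Th D B σ s y) = ((s ^ 2 : ℝ) : ℂ) * fderiv ℂ f q a := by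
    have e1 : Th D B σ s y = ((s ^ 2 : ℝ) : ℂ) • a + (s : ℂ) • prj D σ y := rfl
    rw [e1, map_add, map_smul, map_smul, hf' (prj D σ y) (Lam_prj hσ y), smul_zero, add_zero,
      smul_eq_mul]
  have h5 : ‖f (q + Th D B σ s y)‖ ≤ ‖f (q + Th D B σ s y) - fderiv ℂ f q (Th D B σ s y)‖ +
      ‖fderiv ℂ f q (Th D B σ s y)‖ := by
    have := norm_add_le (f (q + Th D B σ s y) - fderiv ℂ f q (Th D B σ s y))
      (fderiv ℂ f q (Th D B σ s y))
    rwa [sub_add_cancel] at this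
  have h6 : ‖Th D B σ s y‖ ^ 2 ≤ (s * A) ^ 2 := by (clear * - h1; gcongr)
  rw [h4, norm_mul, norm_real, Real.norm_of_nonneg (by (clear * - hs0; positivity) : (0 : ℝ) ≤ s ^ 2), ← h4] at h5
  calc ‖f (q + Th D B σ s y)‖ ≤ C * ‖Th D B σ s y‖ ^ 2 + s ^ 2 * ‖fderiv ℂ f q a‖ :=
        h5.trans (by linarith only [h3])
    _ ≤ C * (s * A) ^ 2 + s ^ 2 * ‖fderiv ℂ f q a‖ := by (clear * - hC h6; gcongr)
    _ = _ := by ring

/-- The peak function has no first order term in the directions of the complex kernel. -/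
lemma peak_deriv_zero (hσ : ∀ w, Lam D (σ w) = w) {U : Set E} {q : E} {r0 : ℝ} (hr0 : 0 < r0)
    {P : E → ℂ} (hP : DifferentiableOn ℂ P (ball q r0)) (hPq : P q = 0)
    (hPre : ∀ z ∈ U, z ∈ ball q r0 → 0 ≤ (P z).re)
    (𝒰 : Ultrafilter ι) {s : ι → ℝ} (hs : Tendsto s 𝒰 (𝓝[>] 0)) {ρ : Fin k → ℝ}
    (hin : ∀ y, rr D B σ y = ρ → ∀ᶠ j in (𝒰 : Filter ι), q + Th D B σ (s j) y ∈ U) :
    ∀ u, Lam D u = 0 → fderiv ℂ P q u = 0 := by
  have hs0 : Tendsto s 𝒰 (𝓝 0) := hs.mono_right nhdsWithin_le_nhds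
  have hspos : ∀ᶠ j in (𝒰 : Filter ι), 0 < s j := hs.eventually self_mem_nhdsWithin
  have hdq : HasFDerivAt P (fderiv ℂ P q) q :=
    (hP.differentiableAt (ball_mem_nhds q hr0)).hasFDerivAt
  have key : ∀ u, Lam D u = 0 → 0 ≤ (fderiv ℂ P q u).re := by
    intro u hu
    set y : E := jn D B σ ρ 0 u with hy
    have hry : rr D B σ y = ρ := rr_jn hσ ρ 0 u
    have hpu : prj D σ u = u := by rw [prj_apply, hu, map_zero, sub_zero]
    have hpy : prj D σ y = u := by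
      rw [hy, jn, map_add, prj_σ hσ, zero_add, prj_prj hσ, hpu]
    have hUj := hin y hry
    -- the curve `s ↦ Th s y`
    set a : E := σ (Lam D y - Qf B (prj D σ y)) with ha
    have hTh : ∀ t : ℝ, Th D B σ t y = (t ^ 2) • a + t • u := fun t => by rw [Th, ha, hpy]
    have hcurve : HasDerivAt (fun t : ℝ => q + Th D B σ t y) u 0 := by
      have h1 : HasDerivAt (fun t : ℝ => (t ^ 2) • a + t • u) ((2 * (0 : ℝ)) • a + (1 : ℝ) • u) 0 := by
        have e1 := ((hasDerivAt_id (0 : ℝ)).pow 2).smul_const a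
        have e2 := (hasDerivAt_id (0 : ℝ)).smul_const u
        have e3 := e1.add e2
        refine (e3.congr_deriv ?_)
        simp
      rw [mul_zero, zero_smul, zero_add, one_smul] at h1
      have h2 : (fun t : ℝ => q + Th D B σ t y) = fun t : ℝ => q + ((t ^ 2) • a + t • u) := by
        funext t; rw [hTh]
      rw [h2]
      exact h1.const_add q
    have hq0 : q + Th D B σ 0 y = q := by simp [hTh]
    have hcomp : HasDerivAt (fun t : ℝ => P (q + Th D B σ t y)) (fderiv ℂ P q u) 0 := by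
      have h1 : HasFDerivAt P ((fderiv ℂ P q).restrictScalars ℝ) (q + Th D B σ 0 y) := by
        rw [hq0]; exact hdq.restrictScalars ℝ
      exact h1.comp_hasDerivAt 0 hcurve
    have hslope : Tendsto (fun t : ℝ => t⁻¹ • (P (q + Th D B σ t y))) (𝓝[≠] 0)
        (𝓝 (fderiv ℂ P q u)) := by
      have h1 := hcomp.tendsto_slope_zero
      simp only [zero_add, hq0, hPq, sub_zero] at h1
      exact h1
    have hs' : Tendsto s 𝒰 (𝓝[≠] 0) :=
      hs.mono_right (nhdsWithin_mono _ fun x hx => ne_of_gt hx)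
    have h2 := (Complex.continuous_re.tendsto _).comp (hslope.comp hs')
    refine ge_of_tendsto h2 ?_
    have h3 : ∀ᶠ j in (𝒰 : Filter ι), q + Th D B σ (s j) y ∈ ball q r0 := by
      have h4 : Tendsto (fun j => q + Th D B σ (s j) y) 𝒰 (𝓝 (q + Th D B σ 0 y)) :=
        (hcurve.continuousAt.tendsto).comp hs0
      rw [hq0] at h4
      exact h4.eventually (ball_mem_nhds q hr0)
    filter_upwards [hUj, h3, hspos] with j h4 h5 h6
    simp only [Function.comp_apply, real_smul, re_ofReal_mul]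
    exact mul_nonneg (inv_nonneg.2 h6.le) (hPre _ h4 h5)
  intro u hu
  have hneg : Lam D (-u) = 0 := by rw [map_neg, hu, neg_zero]
  have hI : Lam D (I • u) = 0 := by rw [map_smul, hu, smul_zero]
  have hnI : Lam D (-(I • u)) = 0 := by rw [map_neg, hI, neg_zero]
  have h1 := key u hu
  have h2 := key _ hneg
  have h3 := key _ hI
  have h4 := key _ hnI
  rw [map_neg, neg_re] at h2 h4
  rw [map_smul, smul_eq_mul, mul_re, I_re, I_im] at h3 h4
  apply Complex.ext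
  · simp; linarith only [h1, h2]
  · simp; linarith only [h3, h4]

end Vale.Agent.P274
end

section

/-! Normality of the rescaled automorphisms, for subsets `U = Z ∩ O`. -/

open Filter Metric Set Topology

namespace Vale.Agent.P274.Z

open Complex

section ptwise

variable {E : Type*} [NormedAddCommGroup E] [NormedSpace ℂ E]
  [FiniteDimensional ℂ E] {k : ℕ} {D : E →L[ℝ] (Fin k → ℝ)} {B : E →L[ℝ] E →L[ℝ] (Fin k → ℝ)}
  {σ : (Fin k → ℂ) →L[ℂ] E}

/-- Pointwise bound for the rescaling map. -/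
theorem exists_Ps_bound {c : ℝ} (hc : 0 < c) (C2 C5 : ℝ) : ∃ C : ℝ, ∀ (s : ℝ) (x : E) (p : ℂ),
    0 < s → c * (‖x‖ ^ 2 + ‖D x‖) ≤ p.re → ‖(((s ^ 2)⁻¹ : ℝ) : ℂ) * p‖ ≤ C2 →
    (∀ i, ‖(((s ^ 2)⁻¹ : ℝ) : ℂ) * Lam D x i +
      ((c⁻¹ : ℝ) : ℂ) * ((((s ^ 2)⁻¹ : ℝ) : ℂ) * p)‖ ≤ C5) →
    ‖Ps D B σ s x‖ ≤ C := by
  have hps : ProperSpace E := FiniteDimensional.proper ℂ E
  have hQ : Continuous (Qf B) := (differentiable_Qf B).continuous
  obtain ⟨C4, hC4⟩ := (isCompact_closedBall (0 : E)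
    (‖prj D σ‖ * (max C2 0 / c + 1))).exists_bound_of_continuousOn hQ.continuousOn
  refine ⟨‖σ‖ * ((max C5 0 + c⁻¹ * max C2 0) + max C4 0) + ‖prj D σ‖ * (max C2 0 / c + 1), ?_⟩
  intro s x p hs h4 hp hL
  have hsj : 0 < s ^ 2 := by positivity
  have hb1 : ‖(((s ^ 2)⁻¹ : ℝ) : ℂ) * p‖ ≤ max C2 0 := hp.trans (le_max_left _ _)
  have hb2 : (s ^ 2)⁻¹ * p.re ≤ max C2 0 := by
    rw [← re_ofReal_mul]
    exact (re_le_norm _).trans hb1
  have hxn : ‖x‖ ^ 2 ≤ s ^ 2 * (max C2 0 / c) := by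
    have e1 : p.re ≤ s ^ 2 * max C2 0 := by
      rwa [inv_mul_le_iff₀ hsj] at hb2
    have e2 : c * ‖x‖ ^ 2 ≤ s ^ 2 * max C2 0 := by
      have : 0 ≤ c * ‖D x‖ := by positivity
      linarith
    have e3 : ‖x‖ ^ 2 ≤ s ^ 2 * max C2 0 / c := by
      rw [le_div_iff₀ hc]; linarith
    rwa [mul_div_assoc] at e3
  have hxn2 : ‖s⁻¹ • x‖ ≤ max C2 0 / c + 1 := by
    have e1 : ‖s⁻¹ • x‖ ^ 2 ≤ max C2 0 / c := by
      rw [norm_smul, mul_pow, norm_inv, Real.norm_of_nonneg hs.le, inv_pow,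
        inv_mul_le_iff₀ hsj]
      exact hxn
    have e2 : 0 ≤ max C2 0 / c := by positivity
    (by_contra nlg; linarith [mul_nonneg (sub_nonneg.2 e1) (sub_nonneg.2 (norm_nonneg (s⁻¹ • x))), mul_nonneg (le_of_lt (sub_pos.2 (not_le.1 nlg))) (sub_nonneg.2 e2), mul_pos (sub_pos.2 (not_le.1 nlg)) (sub_pos.2 (not_le.1 nlg)), mul_nonneg (sq_nonneg (1 * ‖s⁻¹ • x‖ : ℝ)) (sub_nonneg.2 e2), mul_nonneg (sq_nonneg (1 * ‖s⁻¹ • x‖ : ℝ)) (le_of_lt (sub_pos.2 (not_le.1 nlg))), mul_nonneg (mul_self_nonneg (1 : ℝ)) (sub_nonneg.2 (norm_nonneg (s⁻¹ • x))), mul_nonneg (mul_self_nonneg (1 : ℝ)) (le_of_lt (sub_pos.2 (not_le.1 nlg)))])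
  have hprj : ‖s⁻¹ • prj D σ x‖ ≤ ‖prj D σ‖ * (max C2 0 / c + 1) := by
    rw [← prj_smul_real]
    exact ((prj D σ).le_opNorm _).trans (by gcongr)
  have hQb : ‖(s ^ 2)⁻¹ • Qf B (prj D σ x)‖ ≤ max C4 0 := by
    have e1 : (s ^ 2)⁻¹ • Qf B (prj D σ x) = Qf B (s⁻¹ • prj D σ x) := by
      rw [Qf_smul, inv_pow]
    rw [e1]
    exact (hC4 _ (by rw [mem_closedBall_zero_iff]; exact hprj)).trans (le_max_left _ _)
  have hLb : ‖(s ^ 2)⁻¹ • Lam D x‖ ≤ max C5 0 + c⁻¹ * max C2 0 := by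
    rw [pi_norm_le_iff_of_nonneg (by (clear * - hc; positivity))]
    intro i
    have e1 := hL i
    have e2 : ((s ^ 2)⁻¹ • Lam D x) i = ((((s ^ 2)⁻¹ : ℝ) : ℂ) * Lam D x i +
      ((c⁻¹ : ℝ) : ℂ) * ((((s ^ 2)⁻¹ : ℝ) : ℂ) * p)) -
        ((c⁻¹ : ℝ) : ℂ) * ((((s ^ 2)⁻¹ : ℝ) : ℂ) * p) := by
      rw [add_sub_cancel_right]
      rfl
    rw [e2]
    refine (norm_sub_le _ _).trans ?_
    rw [norm_mul ((c⁻¹ : ℝ) : ℂ), norm_real, Real.norm_of_nonneg (by positivity : (0 : ℝ) ≤ c⁻¹)]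
    have e3 := e1.trans (le_max_left C5 0)
    have e4 : c⁻¹ * ‖(((s ^ 2)⁻¹ : ℝ) : ℂ) * p‖ ≤ c⁻¹ * max C2 0 := by gcongr
    linarith only [e4, e3]
  rw [Ps, smul_add]
  refine (norm_add_le _ _).trans (add_le_add ?_ hprj)
  refine (σ.le_opNorm _).trans ?_
  gcongr
  exact (norm_add_le _ _).trans (add_le_add hLb hQb)

end ptwise

variable {ι : Type*} {X E : Type*} [NormedAddCommGroup X] [NormedSpace ℂ X]
  [NormedAddCommGroup E] [NormedSpace ℂ E] [FiniteDimensional ℂ E] {k : ℕ}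
  {D : E →L[ℝ] (Fin k → ℝ)} {B : E →L[ℝ] E →L[ℝ] (Fin k → ℝ)} {σ : (Fin k → ℂ) →L[ℂ] E}

/-- Normality of the rescaled automorphisms. -/
theorem USet.normality [ProperSpace X] {Z O U K : Set X} (hU : USet Z O U K)
    {τ : E → X} {π : X → E} {W : Set X} (hp : Par Z τ π W) {q : E} (hq : q ∈ ball (0 : E) 1)
    (hσ : ∀ w, Lam D (σ w) = w)
    {r0 c : ℝ} (hr0 : 0 < r0) (hc : 0 < c) {P : E → ℂ} (hP : DifferentiableOn ℂ P (ball q r0))
    (hPq : P q = 0)
    (hPre : ∀ z, z ∈ ball (0 : E) 1 → τ z ∈ U → z ∈ ball q r0 →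
      c * (‖z - q‖ ^ 2 + ‖D (z - q)‖) ≤ (P z).re)
    (hP' : ∀ u, Lam D u = 0 → fderiv ℂ P q u = 0)
    (𝒰 : Ultrafilter ι) {s : ι → ℝ} (hs : Tendsto s 𝒰 (𝓝[>] 0)) {s0 : E} {g g' : ι → X → X}
    {kk : ι → X} (hg : ∀ᶠ j in (𝒰 : Filter ι), IsBihol U U (g j) (g' j) ∧ kk j ∈ K ∧
      g j (kk j) = τ (q + Th D B σ (s j) s0)) :
    (∀ x ∈ U, ManPt E U x) ∧ (∀ x ∈ U, ∀ ε > 0, ∃ δ > 0, ∀ᶠ j in (𝒰 : Filter ι),
      ∀ y ∈ U, dist y x < δ → dist (g j y) (τ q) < ε) ∧
    LocBddZ (𝒰 : Filter ι) (fun j x => Ps D B σ (s j) (π (g j x) - q)) U := by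
  have hps : ProperSpace E := FiniteDimensional.proper ℂ E
  have hs0 : Tendsto s 𝒰 (𝓝 0) := hs.mono_right nhdsWithin_le_nhds
  have hspos : ∀ᶠ j in (𝒰 : Filter ι), 0 < s j := hs.eventually self_mem_nhdsWithin
  have hUZ : U ⊆ Z := by rw [hU.eq]; exact inter_subset_left
  have hTh0 : Tendsto (fun j => q + Th D B σ (s j) s0) 𝒰 (𝓝 q) := by
    have h1 : Tendsto (fun j => q + ((s j ^ 2) • σ (Lam D s0 - Qf B (prj D σ s0)) +
        s j • prj D σ s0)) 𝒰 (𝓝 (q + (((0 : ℝ) ^ 2) • σ (Lam D s0 - Qf B (prj D σ s0)) +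
        (0 : ℝ) • prj D σ s0))) :=
      tendsto_const_nhds.add (((hs0.pow 2).smul_const _).add (hs0.smul_const _))
    have h2 : q + (((0 : ℝ) ^ 2) • σ (Lam D s0 - Qf B (prj D σ s0)) + (0 : ℝ) • prj D σ s0) = q := by
      simp
    rw [h2] at h1
    exact h1
  have hτc : ContinuousAt τ q :=
    (hp.diffσ.differentiableAt (isOpen_ball.mem_nhds hq)).continuousAt
  have hlim : Tendsto (fun j => g j (kk j)) 𝒰 (𝓝 (τ q)) := by
    refine Tendsto.congr' (hg.mono fun j hj => hj.2.2.symm) ?_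
    exact hτc.tendsto.comp hTh0
  have hPre' : ∀ z, z ∈ ball (0 : E) 1 → τ z ∈ U → z ∈ ball q r0 →
      c * ‖z - q‖ ^ 2 ≤ (P z).re := by
    intro z h1 h2 h3
    have h4 := hPre z h1 h2 h3
    have h5 : 0 ≤ c * ‖D (z - q)‖ := by positivity
    linarith
  obtain ⟨hman, hunif⟩ := hU.limit hp hq hr0 hc hP hPq hPre' 𝒰
    (hg.mono fun j hj => ⟨hj.1, hj.2.1⟩) hlim
  refine ⟨hman, hunif, ?_⟩
  obtain ⟨k0, hk0K, hk0⟩ := hU.cpt.ultrafilter_le_nhds (𝒰.map kk) (by
    rw [le_principal_iff]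
    exact hg.mono fun j hj => hj.2.1)
  have hk : Tendsto kk 𝒰 (𝓝 k0) := hk0
  have hk0U : k0 ∈ U := hU.sub hk0K
  have hkU : ∀ᶠ j in (𝒰 : Filter ι), kk j ∈ U := hg.mono fun j hj => hU.sub hj.2.1
  have hτq : τ q ∈ Z ∩ W := hp.mapsσ hq
  have hπc : ContinuousAt π (τ q) :=
    (hp.diffπ.differentiableAt (hp.isOpen.mem_nhds hτq.2)).continuousAt
  -- the local parameters of the images
  set γ : ι → X → E := fun j x => π (g j x) with hγ
  have hloc : ∀ x ∈ U, ∃ V : Set X, IsOpen V ∧ x ∈ V ∧ ∀ᶠ j in (𝒰 : Filter ι),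
      HolOn (γ j) (U ∩ V) ∧ ∀ z ∈ U ∩ V, γ j z ∈ ball (0 : E) 1 ∧ τ (γ j z) ∈ U ∧
        γ j z ∈ ball q r0 := by
    intro x hx
    have h1 : ∀ᶠ z in 𝓝 (τ q), z ∈ W ∧ π z ∈ ball q r0 := by
      refine (hp.isOpen.eventually_mem hτq.2).and (hπc.eventually_mem ?_)
      rw [hp.left q hq]
      exact ball_mem_nhds q hr0
    obtain ⟨ε, hε, hεb⟩ := Metric.eventually_nhds_iff_ball.1 h1
    obtain ⟨δ, hδ, h2⟩ := hunif x hx ε hε
    refine ⟨ball x δ, isOpen_ball, mem_ball_self hδ, ?_⟩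
    filter_upwards [h2, hg] with j h3 h4
    have h5 : ∀ z ∈ U ∩ ball x δ, g j z ∈ W ∧ π (g j z) ∈ ball q r0 := fun z hz =>
      hεb _ (h3 z hz.1 hz.2)
    refine ⟨?_, fun z hz => ?_⟩
    · have h6 : HolOn π (U ∩ W) := HolOn.of_diffOn hp.isOpen inter_subset_right hp.diffπ
      exact h6.comp (h4.1.hol.mono inter_subset_left) fun z hz => ⟨h4.1.mapsTo hz.1, (h5 z hz).1⟩
    · have h6 : g j z ∈ U := h4.1.mapsTo hz.1
      have h7 : g j z ∈ Z ∩ W := ⟨hUZ h6, (h5 z hz).1⟩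
      refine ⟨hp.mapsπ h7, ?_, (h5 z hz).2⟩
      simp only [hγ]
      rw [hp.right _ h7]
      exact h6
  have hbase : ∀ᶠ j in (𝒰 : Filter ι), γ j (kk j) = q + Th D B σ (s j) s0 := by
    filter_upwards [hg, hTh0.eventually (isOpen_ball.mem_nhds hq)] with j h1 h2
    simp only [hγ]
    rw [h1.2.2, hp.left _ h2]
  -- the peak function, rescaled
  set h : ι → X → ℂ := fun j x => ((((s j) ^ 2)⁻¹ : ℝ) : ℂ) * P (γ j x) with hh
  have hhre : ∀ j x, (h j x).re = ((s j) ^ 2)⁻¹ * (P (γ j x)).re := fun j x => re_ofReal_mul _ _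
  obtain ⟨C1, hC1⟩ := holo_scaled_bound (B := B) hr0 hP hPq hP' hσ s0
  have hhol : ∀ x ∈ U, ∃ V : Set X, IsOpen V ∧ x ∈ V ∧ ∀ᶠ j in (𝒰 : Filter ι),
      HolOn (h j) (U ∩ V) := by
    intro x hx
    obtain ⟨V, hV, hxV, h1⟩ := hloc x hx
    refine ⟨V, hV, hxV, ?_⟩
    filter_upwards [h1] with j h2
    have h3 : HolOn (fun e : E => ((((s j) ^ 2)⁻¹ : ℝ) : ℂ) * P e) (ball q r0) :=
      HolOn.of_diffOn isOpen_ball Subset.rfl (hP.const_mul _)
    exact h3.comp h2.1 fun z hz => (h2.2 z hz).2.2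
  have hhLB : LocBddZ (𝒰 : Filter ι) h U := by
    refine locBddZ_of_re_nonneg 𝒰 hU.conn hman (fun y hy => ?_) hk0U hkU hk (C := C1) ?_
    · obtain ⟨V, hV, hyV, h1⟩ := hloc y hy
      obtain ⟨V', hV', hyV', h1'⟩ := hhol y hy
      refine ⟨V ∩ V', hV.inter hV', ⟨hyV, hyV'⟩, ?_⟩
      filter_upwards [h1, h1', hspos] with j h2 h2' h3
      refine ⟨h2'.mono (inter_subset_inter_right _ inter_subset_right), fun z hz => ?_⟩
      rw [hhre]
      have h4 := h2.2 z ⟨hz.1, hz.2.1⟩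
      have h5 := hPre _ h4.1 h4.2.1 h4.2.2
      have h6 : 0 ≤ c * (‖γ j z - q‖ ^ 2 + ‖D (γ j z - q)‖) := by (clear * - hc; positivity)
      have h7 : 0 ≤ ((s j) ^ 2)⁻¹ := by positivity
      exact mul_nonneg h7 (h6.trans h5)
    · filter_upwards [hbase, hspos, hs.eventually hC1] with j h1 h2 h3
      simp only [hh]
      rw [norm_mul, norm_real, Real.norm_of_nonneg (by (clear * - h2; positivity) : (0 : ℝ) ≤ ((s j) ^ 2)⁻¹), h1,
        inv_mul_le_iff₀ (by (clear * - h2; positivity))]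
      linarith only [h3]
  -- the coordinates of `Lam D (γ - q)`
  set L : Fin k → ι → X → ℂ := fun i j x =>
    ((((s j) ^ 2)⁻¹ : ℝ) : ℂ) * Lam D (γ j x - q) i + ((c⁻¹ : ℝ) : ℂ) * h j x with hL
  have hLhol : ∀ i, ∀ x ∈ U, ∃ V : Set X, IsOpen V ∧ x ∈ V ∧ ∀ᶠ j in (𝒰 : Filter ι),
      HolOn (L i j) (U ∩ V) := by
    intro i x hx
    obtain ⟨V, hV, hxV, h1⟩ := hloc x hx
    refine ⟨V, hV, hxV, ?_⟩
    filter_upwards [h1] with j h2
    have h3 : DifferentiableOn ℂ (fun e : E => ((((s j) ^ 2)⁻¹ : ℝ) : ℂ) * Lam D (e - q) i +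
        ((c⁻¹ : ℝ) : ℂ) * (((((s j) ^ 2)⁻¹ : ℝ) : ℂ) * P e)) (ball q r0) := by
      have h4 : DifferentiableOn ℂ (fun e : E => Lam D (e - q)) (ball q r0) :=
        (Lam D).differentiable.comp_differentiableOn (differentiableOn_id.sub_const q)
      exact (((differentiableOn_pi.1 h4) i).const_mul _).add ((hP.const_mul _).const_mul _)
    exact (HolOn.of_diffOn isOpen_ball Subset.rfl h3).comp h2.1 fun z hz => (h2.2 z hz).2.2
  have hLLB : ∀ i, LocBddZ (𝒰 : Filter ι) (L i) U := by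
    intro i
    refine locBddZ_of_re_nonneg 𝒰 hU.conn hman (fun y hy => ?_) hk0U hkU hk
      (C := ‖Lam D s0 - Qf B (prj D σ s0)‖ + c⁻¹ * C1) ?_
    · obtain ⟨V, hV, hyV, h1⟩ := hloc y hy
      obtain ⟨V', hV', hyV', h1'⟩ := hLhol i y hy
      refine ⟨V ∩ V', hV.inter hV', ⟨hyV, hyV'⟩, ?_⟩
      filter_upwards [h1, h1', hspos] with j h2 h2' h3
      refine ⟨h2'.mono (inter_subset_inter_right _ inter_subset_right), fun z hz => ?_⟩
      simp only [hL, add_re, re_ofReal_mul, hhre, Lam_re]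
      have h4 := h2.2 z ⟨hz.1, hz.2.1⟩
      have h5 := hPre _ h4.1 h4.2.1 h4.2.2
      have h6 : 0 ≤ ((s j) ^ 2)⁻¹ := by positivity
      have h7 : -‖D (γ j z - q)‖ ≤ D (γ j z - q) i := by
        have := norm_le_pi_norm (D (γ j z - q)) i
        rw [Real.norm_eq_abs] at this
        exact (abs_le.1 this).1.trans' (by linarith)
      have h8 : ‖D (γ j z - q)‖ ≤ c⁻¹ * (P (γ j z)).re := by
        rw [le_inv_mul_iff₀ hc]
        linarith only [mul_nonneg (le_of_lt (sub_pos.2 hc)) (sq_nonneg ‖γ j z - q‖), h5]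
      have h9 : 0 ≤ D (γ j z - q) i + c⁻¹ * (P (γ j z)).re := by linarith only [h8, h7]
      have h10 := mul_nonneg h6 h9
      calc (0 : ℝ) ≤ ((s j) ^ 2)⁻¹ * (D (γ j z - q) i + c⁻¹ * (P (γ j z)).re) := h10
        _ = _ := by ring
    · filter_upwards [hbase, hspos, hs.eventually hC1] with j h1 h2 h3
      simp only [hL, hh]
      rw [h1, add_sub_cancel_left, Lam_Th hσ]
      refine (norm_add_le _ _).trans ?_
      rw [norm_mul, norm_mul, norm_mul, norm_real, norm_real,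
        Real.norm_of_nonneg (by (clear * - h2; positivity) : (0 : ℝ) ≤ ((s j) ^ 2)⁻¹),
        Real.norm_of_nonneg (by (clear * - hc; positivity) : (0 : ℝ) ≤ c⁻¹)]
      have h4 : ((s j) ^ 2)⁻¹ * ‖P (q + Th D B σ (s j) s0)‖ ≤ C1 := by
        rw [inv_mul_le_iff₀ (by (clear * - h2; positivity))]
        linarith only [h3]
      have h5 : ‖(s j ^ 2 • (Lam D s0 - Qf B (prj D σ s0))) i‖ =
          s j ^ 2 * ‖(Lam D s0 - Qf B (prj D σ s0)) i‖ := by
        rw [Pi.smul_apply, norm_smul, Real.norm_of_nonneg (by (clear * - h2; positivity))]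
      rw [h5, ← mul_assoc, inv_mul_cancel₀ (by (clear * - h2; positivity)), one_mul]
      have h6 := norm_le_pi_norm (Lam D s0 - Qf B (prj D σ s0)) i
      have h7 : 0 ≤ c⁻¹ := by (clear * - hc; positivity)
      have h8 := mul_le_mul_of_nonneg_left h4 h7
      linarith only [h6, h8]
  -- conclusion
  intro y hy
  obtain ⟨V, hV, hyV, h1⟩ := hloc y hy
  obtain ⟨V1, hV1, hyV1, C2, hC2⟩ := hhLB y hy
  choose V2 hV2 hyV2 C3 hC3 using fun i => hLLB i y hy
  obtain ⟨C5, hC5⟩ : ∃ C5, ∀ i, C3 i ≤ C5 := by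
    obtain ⟨C5, hC5⟩ := (Set.finite_range C3).bddAbove
    exact ⟨C5, fun i => hC5 (mem_range_self i)⟩
  obtain ⟨C, hC⟩ := exists_Ps_bound (D := D) (B := B) (σ := σ) hc C2 C5
  refine ⟨V ∩ V1 ∩ ⋂ i, V2 i, (hV.inter hV1).inter (isOpen_iInter_of_finite hV2),
    ⟨⟨hyV, hyV1⟩, mem_iInter.2 hyV2⟩, C, ?_⟩
  have hC3' : ∀ᶠ j in (𝒰 : Filter ι), ∀ i, HolOn (L i j) (U ∩ V2 i) ∧
      ∀ z ∈ U ∩ V2 i, ‖L i j z‖ ≤ C3 i := eventually_all.2 hC3
  filter_upwards [h1, hC2, hC3', hspos] with j h2 h3 h4 h5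
  refine ⟨?_, fun z hz => ?_⟩
  · have h6 : Differentiable ℂ (fun e : E => Ps D B σ (s j) (e - q)) :=
      (differentiable_Ps (D := D) (B := B) (σ := σ) (s j)).comp (differentiable_id.sub_const q)
    have h7 : HolOn (fun e : E => Ps D B σ (s j) (e - q)) univ :=
      HolOn.of_diffOn isOpen_univ Subset.rfl h6.differentiableOn
    exact h7.comp (h2.1.mono (inter_subset_inter_right _
      (inter_subset_left.trans inter_subset_left))) (mapsTo_univ _ _)
  · have h6 := h2.2 z ⟨hz.1, hz.2.1.1⟩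
    refine hC (s j) (γ j z - q) (P (γ j z)) h5 (hPre _ h6.1 h6.2.1 h6.2.2)
      (h3.2 z ⟨hz.1, hz.2.1.2⟩) fun i => ?_
    have h7 := (h4 i).2 z ⟨hz.1, mem_iInter.1 hz.2.2 i⟩
    exact h7.trans (hC5 i)

end Vale.Agent.P274.Z
end

section

/-! Tautness of relatively open bounded subsets of closed sets with cocompact automorphism group
(TASK Z7). -/

open Filter Metric Set Topology

namespace Vale.Agent.P274.Z

variable {ι : Type*} {X E F : Type*} [NormedAddCommGroup X] [NormedSpace ℂ X]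
  [NormedAddCommGroup E] [NormedSpace ℂ E] [NormedAddCommGroup F] [NormedSpace ℂ F]

theorem tautZ [ProperSpace X] {Z O U K : Set X} (hZ : IsClosed Z) (hO : IsOpen O)
    (hU : U = Z ∩ O) (hb : Bornology.IsBounded U) (hK : IsCompact K) (hKU : K ⊆ U)
    (hco : CocompactHol U K) (𝒰 : Ultrafilter ι)
    {S : Set F} (hSo : IsOpen S) (hS : IsPreconnected S) {H : ι → F → X}
    (hH : ∀ s ∈ S, ∃ r > 0, ∀ᶠ j in (𝒰 : Filter ι),
      DifferentiableOn ℂ (H j) (ball s r) ∧ MapsTo (H j) (ball s r) U)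
    {H0 : F → X} (hlim : ∀ s ∈ S, Tendsto (fun j => H j s) 𝒰 (𝓝 (H0 s)))
    {s0 : F} (hs0 : s0 ∈ S) (h0 : H0 s0 ∈ U) : ∀ s ∈ S, H0 s ∈ U := by
  obtain ⟨R, hR⟩ := hb.subset_closedBall (0 : X)
  have hKO : K ⊆ O := fun x hx => (hU ▸ hKU hx).2
  have hUZ : U ⊆ Z := fun x hx => (hU ▸ hx).1
  obtain ⟨ε, hε, hεU⟩ := hK.exists_cthickening_subset_open hO hKO
  -- local propagation
  have key : ∀ s ∈ S, ∃ δ > 0, ∀ s1 ∈ S, s1 ∈ ball s δ → H0 s1 ∈ U →
      ∀ s2 ∈ S, s2 ∈ ball s δ → H0 s2 ∈ U := by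
    intro s hs
    obtain ⟨r, hr, hr2⟩ := hH s hs
    set R' : ℝ := max R 1 with hR'
    have hR'0 : 0 < R' := lt_max_of_lt_right one_pos
    set δ : ℝ := min (r / 4) (ε * r / (16 * R')) with hδ
    have hδ0 : 0 < δ := by (clear * - hr hε; positivity)
    refine ⟨δ, hδ0, ?_⟩
    intro s1 hs1 hs1b hs1U s2 hs2 hs2b
    obtain ⟨g, g', hg, hgK⟩ := hco _ hs1U
    have hδr : ball s δ ⊆ ball s r := ball_subset_ball ((min_le_left _ _).trans (by linarith))
    have h1 : Tendsto (fun j => g' (H j s1)) 𝒰 (𝓝 (g' (H0 s1))) := by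
      refine (hg.hol_inv.continuousWithinAt hs1U).tendsto.comp
        (tendsto_nhdsWithin_iff.2 ⟨hlim _ hs1, ?_⟩)
      filter_upwards [hr2] with j hj
      exact hj.2 (hδr hs1b)
    -- the limit of `g' (H j s2)`
    have hmemU : ∀ᶠ j in (𝒰 : Filter ι), g' (H j s2) ∈ U := by
      filter_upwards [hr2] with j hj
      exact hg.mapsTo_inv (hj.2 (hδr hs2b))
    have hmem1 : ∀ᶠ j in (𝒰 : Filter ι), g' (H j s2) ∈ closedBall (0 : X) R :=
      hmemU.mono fun j hj => hR hj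
    obtain ⟨p, -, hp⟩ := (isCompact_closedBall (0 : X) R).ultrafilter_le_nhds
        (𝒰.map (fun j => g' (H j s2))) (by
          rw [le_principal_iff]
          exact hmem1)
    have hp' : Tendsto (fun j => g' (H j s2)) 𝒰 (𝓝 p) := hp
    have hdist : dist p (g' (H0 s1)) ≤ ε / 2 := by
      refine le_of_tendsto (hp'.dist h1) ?_
      filter_upwards [hr2] with j hj
      have hd : DifferentiableOn ℂ (fun y => g' (H j y)) (ball s r) :=
        hg.hol_inv.comp_diffOn isOpen_ball hj.1 hj.2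
      have hbd : ∀ y ∈ ball s r, ‖(fun y => g' (H j y)) y‖ ≤ R' := by
        intro y hy
        have := hR (hg.mapsTo_inv (hj.2 hy))
        rw [mem_closedBall_zero_iff] at this
        exact this.trans (le_max_left _ _)
      have hb1 : s1 ∈ ball s (r / 4) := ball_subset_ball (min_le_left _ _) hs1b
      have hb2 : s2 ∈ ball s (r / 4) := ball_subset_ball (min_le_left _ _) hs2b
      have h2 := lip_of_bdd hr hd hbd hb1 hb2
      have h3 : dist s2 s1 ≤ 2 * (ε * r / (16 * R')) := by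
        have h4 := dist_triangle_right s2 s1 s
        have h5 : δ ≤ ε * r / (16 * R') := min_le_right _ _
        rw [mem_ball] at hs1b hs2b
        linarith
      refine h2.trans ?_
      calc 4 * R' / r * dist s2 s1 ≤ 4 * R' / r * (2 * (ε * r / (16 * R'))) := by
            gcongr
        _ = ε / 2 := by field_simp; ring
    have hpO : p ∈ O := hεU (mem_cthickening_of_dist_le _ _ _ _ hgK (by linarith))
    have hpZ : p ∈ Z := hZ.mem_of_tendsto hp' (hmemU.mono fun j hj => hUZ hj)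
    have hpU : p ∈ U := by
      rw [hU]
      exact ⟨hpZ, hpO⟩
    have h6 : Tendsto (fun j => g (g' (H j s2))) 𝒰 (𝓝 (g p)) :=
      (hg.hol.continuousWithinAt hpU).tendsto.comp (tendsto_nhdsWithin_iff.2 ⟨hp', hmemU⟩)
    have h7 : Tendsto (fun j => H j s2) 𝒰 (𝓝 (g p)) := by
      refine h6.congr' ?_
      filter_upwards [hr2] with j hj
      exact hg.right_inv _ (hj.2 (hδr hs2b))
    rw [tendsto_nhds_unique (hlim _ hs2) h7]
    exact hg.mapsTo hpU
  set A : Set F := {x | ∃ s δ, x ∈ ball s δ ∧ ∀ s2 ∈ S, s2 ∈ ball s δ → H0 s2 ∈ U} with hA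
  have hAo : IsOpen A := by
    rw [isOpen_iff_mem_nhds]
    rintro x ⟨s, δ, hx, hs⟩
    exact mem_of_superset (isOpen_ball.mem_nhds hx) fun y hy => ⟨s, δ, hy, hs⟩
  have h0A : s0 ∈ A := by
    obtain ⟨δ, hδ, h⟩ := key s0 hs0
    exact ⟨s0, δ, mem_ball_self hδ, h s0 hs0 (mem_ball_self hδ) h0⟩
  have hsub : S ⊆ A := by
    refine hS.subset_of_closure_inter_subset hAo ⟨s0, hs0, h0A⟩ ?_
    rintro x ⟨hx1, hx2⟩
    obtain ⟨δ, hδ, h⟩ := key x hx2
    obtain ⟨a, ha1, ha2⟩ := mem_closure_iff_nhds.1 hx1 (ball x δ ∩ S)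
      (inter_mem (ball_mem_nhds x hδ) (hSo.mem_nhds hx2))
    obtain ⟨s, δ', ha3, ha4⟩ := ha2
    exact ⟨x, δ, mem_ball_self hδ, h a ha1.2 ha1.1 (ha4 a ha1.2 ha3)⟩
  intro s hs
  obtain ⟨s', δ', hs1, hs2⟩ := hsub hs
  exact hs2 s hs hs1

theorem kontZ [ProperSpace X] {Z O U K : Set X} (hZ : IsClosed Z) (hO : IsOpen O)
    (hU : U = Z ∩ O) (hb : Bornology.IsBounded U) (hK : IsCompact K) (hKU : K ⊆ U)
    (hco : CocompactHol U K) {σ : E → X} {π : X → E} {W : Set X} (hp : Par Z σ π W)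
    {q : E} {δ : ℝ} (hδ : ball q δ ⊆ ball 0 1) :
    H.Kont {e | e ∈ ball (0 : E) 1 ∧ σ e ∈ U} q δ := by
  intro H H0 hH hlim hH0 h0 ζ hζ
  obtain ⟨s0, hs0, hs0U⟩ := h0
  refine ⟨hδ (hH0 hζ), ?_⟩
  refine tautZ hZ hO hU hb hK hKU hco (hyperfilter ℕ) (S := ball (0 : ℂ) 1) isOpen_ball
    (convex_ball _ _).isPreconnected (H := fun j z => σ (H j z)) (H0 := fun z => σ (H0 z))
    (fun s hs => ?_) (fun s hs => ?_) hs0 hs0U.2 ζ hζ
  · obtain ⟨r, hr, hrs⟩ := Metric.isOpen_iff.1 isOpen_ball s hs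
    refine ⟨r, hr, Eventually.of_forall fun j => ⟨?_, fun z hz => ((hH j).2 (hrs hz)).1.2⟩⟩
    exact hp.diffσ.comp ((hH j).1.mono hrs) fun z hz => ((hH j).2 (hrs hz)).1.1
  · have h1 : ContinuousAt σ (H0 s) := hp.contσ.continuousAt (isOpen_ball.mem_nhds (hδ (hH0 hs)))
    exact h1.tendsto.comp ((hlim s hs).mono_left Nat.hyperfilter_le_atTop)

end Vale.Agent.P274.Z
end

section

/-! First scaling for subsets `U = Z ∩ O`: `U` is biholomorphic to a component of the kernel. -/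

open Filter Metric Set Topology

namespace Vale.Agent.P274.Z

section det

variable {E : Type*} [NormedAddCommGroup E] [NormedSpace ℂ E]

theorem det_ne_zero_of_inv {f g : E → E} {e : E} (hf : DifferentiableAt ℂ f e)
    (hg : DifferentiableAt ℂ g (f e)) (h : ∀ᶠ x in 𝓝 e, g (f x) = x) :
    (fderiv ℂ f e).det ≠ 0 ∧ (fderiv ℂ g (f e)).det ≠ 0 := by
  have h1 : HasFDerivAt (fun x => g (f x)) ((fderiv ℂ g (f e)).comp (fderiv ℂ f e)) e :=
    hg.hasFDerivAt.comp e hf.hasFDerivAt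
  have h2 : HasFDerivAt (fun x => g (f x)) (ContinuousLinearMap.id ℂ E) e :=
    (hasFDerivAt_id e).congr_of_eventuallyEq h
  have h3 := h1.unique h2
  have h5 : ((fderiv ℂ g (f e)).comp (fderiv ℂ f e)).det = 1 := by
    rw [h3]
    exact LinearMap.det_id
  have h6 : ((fderiv ℂ g (f e)).comp (fderiv ℂ f e)).det =
      (fderiv ℂ g (f e)).det * (fderiv ℂ f e).det := LinearMap.det_comp _ _
  rw [h6] at h5
  constructor
  · intro h7
    rw [h7, mul_zero] at h5
    exact zero_ne_one h5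
  · intro h7
    rw [h7, zero_mul] at h5
    exact zero_ne_one h5

end det

variable {ι : Type*} {X E : Type*} [NormedAddCommGroup X] [NormedSpace ℂ X]
  [NormedAddCommGroup E] [NormedSpace ℂ E] [FiniteDimensional ℂ E] {k : ℕ}
  {D : E →L[ℝ] (Fin k → ℝ)} {B : E →L[ℝ] E →L[ℝ] (Fin k → ℝ)} {σ : (Fin k → ℂ) →L[ℂ] E}

/-- The domain of the chart. -/
def dom (τ : E → X) (U : Set X) : Set E := {e | e ∈ ball (0 : E) 1 ∧ τ e ∈ U}

/-- First scaling: `U` is biholomorphic to a connected component of the kernel. -/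
theorem USet.first_scaling [ProperSpace X] {Z O U K : Set X} (hU : USet Z O U K)
    {τ : E → X} {π : X → E} {W : Set X} (hp : Par Z τ π W) {q : E} (hq : q ∈ ball (0 : E) 1)
    (hσ : ∀ w, Lam D (σ w) = w)
    {r0 c : ℝ} (hr0 : 0 < r0) (hc : 0 < c) {P : E → ℂ} (hP : DifferentiableOn ℂ P (ball q r0))
    (hPq : P q = 0)
    (hPre : ∀ z ∈ dom τ U, z ∈ ball q r0 → c * (‖z - q‖ ^ 2 + ‖D (z - q)‖) ≤ (P z).re)
    (hP' : ∀ u, Lam D u = 0 → fderiv ℂ P q u = 0)
    (𝒰 : Ultrafilter ι) {s : ι → ℝ} (hs : Tendsto s 𝒰 (𝓝[>] 0)) {s0 : E}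
    (hs0 : s0 ∈ InS 𝒰 (fun j => (fun y => q + Th D B σ (s j) y) ⁻¹' dom τ U)) :
    Bihol U (connectedComponentIn
      (InS 𝒰 (fun j => (fun y => q + Th D B σ (s j) y) ⁻¹' dom τ U)) s0) := by
  have hps : ProperSpace E := FiniteDimensional.proper ℂ E
  have hspos : ∀ᶠ j in (𝒰 : Filter ι), 0 < s j := hs.eventually self_mem_nhdsWithin
  have hUZ : U ⊆ Z := by rw [hU.eq]; exact inter_subset_left
  set V : ι → Set E := fun j => (fun y => q + Th D B σ (s j) y) ⁻¹' dom τ U with hV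
  set S := connectedComponentIn (InS 𝒰 V) s0 with hS
  have hSo : IsOpen S := (isOpen_InS 𝒰 V).connectedComponentIn
  have hSc : IsPreconnected S := isPreconnected_connectedComponentIn
  have hs0S : s0 ∈ S := mem_connectedComponentIn hs0
  have hSsub : S ⊆ InS 𝒰 V := connectedComponentIn_subset _ _
  have hdomo : IsOpen (dom τ U) := hp.isOpen_dom hU.open_ hU.eq
  have hThd : ∀ j, Differentiable ℂ (fun y : E => q + Th D B σ (s j) y) := fun j =>
    (differentiable_Th (s j)).const_add q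
  have hVo : ∀ j, IsOpen (V j) := fun j => hdomo.preimage (hThd j).continuous
  -- choose the automorphisms
  have h1 : ∀ j, ∃ g g' : X → X, τ (q + Th D B σ (s j) s0) ∈ U →
      IsBihol U U g g' ∧ g' (τ (q + Th D B σ (s j) s0)) ∈ K := by
    intro j
    by_cases h : τ (q + Th D B σ (s j) s0) ∈ U
    · obtain ⟨g, g', h1, h2⟩ := hU.co _ h
      exact ⟨g, g', fun _ => ⟨h1, h2⟩⟩
    · exact ⟨id, id, fun h' => absurd h' h⟩
  choose g g' hg using h1
  set kk : ι → X := fun j => g' j (τ (q + Th D B σ (s j) s0)) with hk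
  obtain ⟨r1, hr1, hr1V⟩ := hs0
  have hgood : ∀ᶠ j in (𝒰 : Filter ι), IsBihol U U (g j) (g' j) ∧ kk j ∈ K ∧
      g j (kk j) = τ (q + Th D B σ (s j) s0) := by
    filter_upwards [hr1V] with j h2
    have h3 : s0 ∈ V j := h2 (mem_ball_self hr1)
    have h4 : τ (q + Th D B σ (s j) s0) ∈ U := h3.2
    obtain ⟨h5, h6⟩ := hg j h4
    refine ⟨h5, h6, ?_⟩
    simp only [hk]
    rw [h5.right_inv _ h4]
  obtain ⟨hman, hunif, hLB⟩ := hU.normality hp hq hσ hr0 hc hP hPq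
    (fun z h1 h2 h3 => hPre z ⟨h1, h2⟩ h3) hP' 𝒰 hs hgood
  set fj : ι → X → E := fun j x => Ps D B σ (s j) (π (g j x) - q) with hfj
  obtain ⟨f, hfd, hfc, hfu⟩ := montelZ 𝒰 hman hLB
  -- the limit of `kk`
  obtain ⟨k0, hk0K, hk0⟩ := hU.cpt.ultrafilter_le_nhds (𝒰.map kk) (by
    rw [le_principal_iff]
    exact hgood.mono fun j hj => hj.2.1)
  have hk0' : Tendsto kk 𝒰 (𝓝 k0) := hk0
  have hk0U := hU.sub hk0K
  have hkU : ∀ᶠ j in (𝒰 : Filter ι), kk j ∈ U := hgood.mono fun j hj => hU.sub hj.2.1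
  -- computation of the composition
  have hfG : ∀ᶠ j in (𝒰 : Filter ι), ∀ y ∈ V j, fj j (g' j (τ (q + Th D B σ (s j) y))) = y := by
    filter_upwards [hgood, hspos] with j hj h0 y hy
    have h2 : τ (q + Th D B σ (s j) y) ∈ U := hy.2
    simp only [hfj]
    rw [hj.1.right_inv _ h2, hp.left _ hy.1, add_sub_cancel_left, Ps_Th hσ h0.ne']
  have hfk : f k0 = s0 := by
    have h2 := hfc k0 hk0U kk hkU hk0'
    have h3 : Tendsto (fun j => fj j (kk j)) 𝒰 (𝓝 s0) := by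
      refine tendsto_const_nhds.congr' ?_
      filter_upwards [hfG, hr1V] with j h4 h5
      exact (h4 s0 (h5 (mem_ball_self hr1))).symm
    exact tendsto_nhds_unique h2 h3
  -- points near which the images are in the chart
  have hloc : ∀ x ∈ U, ∃ δ > 0, ∀ᶠ j in (𝒰 : Filter ι), ∀ y ∈ U, dist y x < δ →
      g j y ∈ Z ∩ W := by
    intro x hx
    have hτq : τ q ∈ Z ∩ W := hp.mapsσ hq
    obtain ⟨ε, hε, hεb⟩ := Metric.isOpen_iff.1 hp.isOpen _ hτq.2
    obtain ⟨δ, hδ, h2⟩ := hunif x hx ε hε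
    refine ⟨δ, hδ, ?_⟩
    filter_upwards [h2, hgood] with j h3 h4 y hy hyx
    exact ⟨hUZ (h4.1.mapsTo hy), hεb (h3 y hy hyx)⟩
  have hGf : ∀ᶠ j in (𝒰 : Filter ι), ∀ x ∈ U, g j x ∈ Z ∩ W →
      fj j x ∈ V j ∧ g' j (τ (q + Th D B σ (s j) (fj j x))) = x := by
    filter_upwards [hgood, hspos] with j hj h0 x hx hxW
    have h2 : q + Th D B σ (s j) (fj j x) = π (g j x) := by
      simp only [hfj]
      rw [Th_Ps hσ h0.ne', add_sub_cancel]
    have h3 : τ (π (g j x)) = g j x := hp.right _ hxW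
    refine ⟨?_, ?_⟩
    · change q + Th D B σ (s j) (fj j x) ∈ dom τ U
      rw [h2]
      exact ⟨hp.mapsπ hxW, by rw [h3]; exact hj.1.mapsTo hx⟩
    · rw [h2, h3, hj.1.left_inv _ hx]
  -- the inverse maps
  set G : ι → E → X := fun j y => g' j (τ (q + Th D B σ (s j) y)) with hG
  have hGd : ∀ᶠ j in (𝒰 : Filter ι), DifferentiableOn ℂ (G j) (V j) ∧ MapsTo (G j) (V j) U := by
    filter_upwards [hgood] with j hj
    refine ⟨?_, fun y hy => hj.1.mapsTo_inv hy.2⟩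
    refine hj.1.hol_inv.comp_diffOn (f := fun y => τ (q + Th D B σ (s j) y)) (hVo j) ?_
      fun y hy => hy.2
    exact hp.diffσ.comp (hThd j).differentiableOn fun y hy => hy.1
  have hG1 : ∀ y ∈ S, ∃ r > 0, ∀ᶠ j in (𝒰 : Filter ι),
      DifferentiableOn ℂ (G j) (ball y r) ∧ MapsTo (G j) (ball y r) U := by
    intro y hy
    obtain ⟨r, hr, hrV⟩ := hSsub hy
    refine ⟨r, hr, ?_⟩
    filter_upwards [hGd, hrV] with j h1 h2
    exact ⟨h1.1.mono h2, fun x hx => h1.2 (h2 hx)⟩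
  obtain ⟨R, hR⟩ := hU.bdd.subset_closedBall (0 : X)
  have hGLB : LocBdd (𝒰 : Filter ι) G S := by
    intro y hy
    obtain ⟨r, hr, h⟩ := hG1 y hy
    refine ⟨r, hr, R, h.mono fun j hj => ⟨hj.1, fun y hy => ?_⟩⟩
    simpa using hR (hj.2 hy)
  obtain ⟨h, hhd, hhc⟩ := montel 𝒰 hSo hGLB
  have hhs0 : h s0 = k0 :=
    tendsto_nhds_unique (hhc s0 hs0S (fun _ => s0) tendsto_const_nhds) hk0'
  have hhU : ∀ y ∈ S, h y ∈ U :=
    tautZ hU.closed hU.open_ hU.eq hU.bdd hU.cpt hU.sub hU.co 𝒰 hSo hSc hG1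
      (fun y hy => hhc y hy (fun _ => y) tendsto_const_nhds) hs0S (hhs0 ▸ hk0U)
  have hfh : ∀ y ∈ S, f (h y) = y := by
    intro y hy
    obtain ⟨r, hr, hrV⟩ := hSsub hy
    have h2 := hfc _ (hhU y hy) (fun j => G j y) (by
      filter_upwards [hGd, hrV] with j h3 h4
      exact h3.2 (h4 (mem_ball_self hr))) (hhc y hy (fun _ => y) tendsto_const_nhds)
    have h3 : Tendsto (fun j => fj j (G j y)) 𝒰 (𝓝 y) := by
      refine tendsto_const_nhds.congr' ?_
      filter_upwards [hfG, hrV] with j hj hj2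
      exact (hj y (hj2 (mem_ball_self hr))).symm
    exact tendsto_nhds_unique h2 h3
  have hfpt : ∀ x ∈ U, Tendsto (fun j => fj j x) 𝒰 (𝓝 (f x)) := fun x hx =>
    hfc x hx (fun _ => x) (Eventually.of_forall fun _ => hx) tendsto_const_nhds
  have hhf : ∀ x ∈ U, f x ∈ S → h (f x) = x := by
    intro x hx hfx
    have h2 := hhc _ hfx (fun j => fj j x) (hfpt x hx)
    obtain ⟨δ, hδ, h4⟩ := hloc x hx
    have h3 : Tendsto (fun j => G j (fj j x)) 𝒰 (𝓝 x) := by
      refine tendsto_const_nhds.congr' ?_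
      filter_upwards [hGf, h4] with j hj hj2
      exact ((hj x hx (hj2 x hx (by rw [dist_self]; exact hδ))).2).symm
    exact tendsto_nhds_unique h2 h3
  -- `f` takes values in `S`
  have hfS : U ⊆ {x | f x ∈ S} := by
    refine preconnected_induction hU.conn ⟨k0, hk0U, by
      change f k0 ∈ S
      rw [hfk]; exact hs0S⟩ (fun x hx hxG => ?_) (fun x hx hfr => ?_)
    · exact (hfd.continuousWithinAt hx).eventually (hSo.mem_nhds hxG)
    · -- the chart at `x`
      obtain ⟨σx, ρ, Wx, hpx, hσ0⟩ := hman x hx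
      have hxW : x ∈ Wx := by
        rw [← hσ0]; exact (hpx.mapsσ (mem_ball_self one_pos)).2
      obtain ⟨δ, hδ, hδW⟩ := hloc x hx
      have hc0 : ContinuousAt σx 0 :=
        (hpx.diffσ.differentiableAt (ball_mem_nhds _ one_pos)).continuousAt
      obtain ⟨r, hr, hrb⟩ := Metric.eventually_nhds_iff_ball.1
        ((hc0.eventually_mem (by rw [hσ0]; exact ball_mem_nhds x hδ)).and
          (ball_mem_nhds (0 : E) one_pos))
      have hr1 : ball (0 : E) r ⊆ ball 0 1 := fun e he => (hrb e he).2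
      have hρx : ρ x = 0 := by rw [← hσ0, hpx.left 0 (mem_ball_self one_pos)]
      -- a good point in the chart
      have hρc : ContinuousAt ρ x :=
        (hpx.diffπ.differentiableAt (hpx.isOpen.mem_nhds hxW)).continuousAt
      obtain ⟨y, hyS, hyU, hyW, hyr⟩ : ∃ y, f y ∈ S ∧ y ∈ U ∧ y ∈ Wx ∧ ρ y ∈ ball (0 : E) r := by
        have h2 : ∀ᶠ y in 𝓝[U] x, y ∈ U ∧ y ∈ Wx ∧ ρ y ∈ ball (0 : E) r := by
          have h3 : ∀ᶠ y in 𝓝 x, y ∈ Wx ∧ ρ y ∈ ball (0 : E) r := by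
            refine (hpx.isOpen.eventually_mem hxW).and (hρc.eventually_mem ?_)
            rw [hρx]
            exact ball_mem_nhds _ hr
          filter_upwards [self_mem_nhdsWithin, mem_nhdsWithin_of_mem_nhds h3] with y h4 h5
          exact ⟨h4, h5⟩
        obtain ⟨y, h3, h4⟩ := (hfr.and_eventually h2).exists
        exact ⟨y, h3, h4⟩
      set e1 := ρ y with he1
      have hσe1 : σx e1 = y := hpx.right y ⟨hyU, hyW⟩
      set Fj : ι → E → E := fun j e => fj j (σx e) with hFj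
      have hFLB : LocBdd (𝒰 : Filter ι) Fj (ball (0 : E) r) := fun e he =>
        hLB.par hpx e (hr1 he)
      obtain ⟨F, hFd, hFu, hFc⟩ := montel_full 𝒰 isOpen_ball hFLB
      have hFf : ∀ e ∈ ball (0 : E) r, F e = f (σx e) := by
        intro e he
        have h2 := hFc e he (fun _ => e) tendsto_const_nhds
        exact tendsto_nhds_unique h2 (hfpt _ (hpx.mapsσ (hr1 he)).1)
      -- the Jacobian at the good point
      have hdet0 : (fderiv ℂ F e1).det ≠ 0 := by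
        have hhy : h (f y) = y := hhf y hyU hyS
        have hhc0 : ContinuousAt h (f y) :=
          (hhd.differentiableAt (hSo.mem_nhds hyS)).continuousAt
        have hρy : DifferentiableAt ℂ ρ y :=
          hpx.diffπ.differentiableAt (hpx.isOpen.mem_nhds hyW)
        have h2 : DifferentiableAt ℂ (fun z => ρ (h z)) (f y) := by
          have h3 : DifferentiableAt ℂ ρ (h (f y)) := by rw [hhy]; exact hρy
          exact h3.comp (f y) (hhd.differentiableAt (hSo.mem_nhds hyS))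
        have h3 : ρ (h (f y)) = e1 := by rw [hhy]
        have h4 : DifferentiableAt ℂ F (ρ (h (f y))) := by
          rw [h3]
          exact hFd.differentiableAt (isOpen_ball.mem_nhds hyr)
        have h5 : ∀ᶠ z in 𝓝 (f y), F (ρ (h z)) = z := by
          have h6 : ∀ᶠ z in 𝓝 (f y), ρ (h z) ∈ ball (0 : E) r := by
            refine h2.continuousAt.eventually_mem ?_
            rw [h3]
            exact isOpen_ball.mem_nhds hyr
          have h7 : ∀ᶠ z in 𝓝 (f y), h z ∈ Wx := hhc0.eventually_mem (by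
            rw [hhy]; exact hpx.isOpen.mem_nhds hyW)
          filter_upwards [h6, h7, hSo.mem_nhds hyS] with z h8 h9 h10
          rw [hFf _ h8, hpx.right _ ⟨hhU z h10, h9⟩, hfh z h10]
        have h6 := (det_ne_zero_of_inv h2 h4 h5).2
        rwa [h3] at h6
      have hFdet : ∀ᶠ j in (𝒰 : Filter ι), (DifferentiableOn ℂ (Fj j) (ball (0 : E) r) ∧
          ∀ e ∈ ball (0 : E) r, (fderiv ℂ (Fj j) e).det ≠ 0) ∧
          ∀ e ∈ ball (0 : E) r, Fj j e ∈ V j := by
        filter_upwards [hδW, hGf, hGd, hgood] with j h2 h3 h4 h5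
        have h6 : ∀ e ∈ ball (0 : E) r, g j (σx e) ∈ Z ∩ W := fun e he =>
          h2 _ (hpx.mapsσ (hr1 he)).1 (hrb e he).1
        have h7 : ∀ e ∈ ball (0 : E) r, Fj j e ∈ V j ∧ G j (Fj j e) = σx e := fun e he =>
          h3 _ (hpx.mapsσ (hr1 he)).1 (h6 e he)
        have h8 : DifferentiableOn ℂ (Fj j) (ball (0 : E) r) := by
          have h9 : DifferentiableOn ℂ (fun e => g j (σx e)) (ball (0 : E) r) :=
            h5.1.hol.comp_diffOn isOpen_ball (hpx.diffσ.mono hr1)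
              fun e he => (hpx.mapsσ (hr1 he)).1
          have h10 : DifferentiableOn ℂ (fun e => π (g j (σx e))) (ball (0 : E) r) :=
            hp.diffπ.comp h9 fun e he => (h6 e he).2
          exact (differentiable_Ps (D := D) (B := B) (σ := σ) (s j)).comp_differentiableOn
            (h10.sub_const q)
        refine ⟨⟨h8, fun e he => ?_⟩, fun e he => (h7 e he).1⟩
        have h9 : DifferentiableAt ℂ (Fj j) e := h8.differentiableAt (isOpen_ball.mem_nhds he)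
        have h10 : DifferentiableAt ℂ (fun z => ρ (G j z)) (Fj j e) := by
          have h11 : DifferentiableAt ℂ (G j) (Fj j e) :=
            h4.1.differentiableAt ((hVo j).mem_nhds (h7 e he).1)
          have h12 : DifferentiableAt ℂ ρ (G j (Fj j e)) := by
            rw [(h7 e he).2]
            exact hpx.diffπ.differentiableAt (hpx.isOpen.mem_nhds (hpx.mapsσ (hr1 he)).2)
          exact h12.comp _ h11
        refine (det_ne_zero_of_inv h9 h10 ?_).1
        filter_upwards [isOpen_ball.mem_nhds he] with z hz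
        rw [(h7 z hz).2, hpx.left z (hr1 hz)]
      have hdet := hurwitz_det 𝒰 isOpen_ball (convex_ball (0 : E) r).isPreconnected hFLB hFd hFu
        (hFdet.mono fun j hj => hj.1) hyr hdet0
      obtain ⟨r', hr', h2⟩ := eventually_ball_subset_image 𝒰 isOpen_ball hFLB hFd hFu
        (mem_ball_self hr) (hdet 0 (mem_ball_self hr))
      have hF0 : F 0 = f x := by rw [hFf 0 (mem_ball_self hr), hσ0]
      rw [hF0] at h2
      have hfxI : f x ∈ InS 𝒰 V := by
        refine ⟨r', hr', ?_⟩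
        filter_upwards [h2, hFdet] with j h3 h4
        refine h3.trans ?_
        rintro _ ⟨e, he, rfl⟩
        exact h4.2 e he
      have hfxc : f x ∈ closure S := by
        rw [mem_closure_iff_nhds]
        intro t ht
        have h3 : ∀ᶠ y in 𝓝[U] x, f y ∈ t := (hfd.continuousWithinAt hx).eventually ht
        obtain ⟨y, h4, h5⟩ := (hfr.and_eventually h3).exists
        exact ⟨f y, h5, h4⟩
      have h3 : IsPreconnected (insert (f x) S) :=
        hSc.subset_closure (subset_insert _ _) (insert_subset hfxc subset_closure)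
      have h4 : insert (f x) S ⊆ S :=
        h3.subset_connectedComponentIn (mem_insert_of_mem _ hs0S) (insert_subset hfxI hSsub)
      exact h4 (mem_insert _ _)
  exact ⟨f, h, hfd, (holOn_iff_of_isOpen hSo).2 hhd, fun x hx => hfS hx, fun y hy => hhU y hy,
    fun x hx => hhf x hx (hfS hx), hfh⟩

end Vale.Agent.P274.Z
end

section

/-! # P274-V20 (c): the algebra of a Siegel domain (helper234) -/

open Set Complex ComplexConjugate Topology
open scoped ContDiff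

namespace Vale.Agent.P274.V

variable {Z : Type*} [NormedAddCommGroup Z] [NormedSpace ℂ Z] [FiniteDimensional ℂ Z] {k : ℕ}

namespace Sys

variable {F : Z →L[ℝ] Z →L[ℝ] (Fin k → ℂ)} {Ω : Set (Fin k → ℝ)}
  {h : Z × (Fin k → ℂ) → Z × (Fin k → ℂ) →L[ℝ] Z × (Fin k → ℂ) →L[ℝ] ℂ}
  {ρ : Z × (Fin k → ℂ) → ℝ} {e : Fin k → ℝ} (s : Sys F Ω h ρ e)

include s

/-- (c) `N_e X ∈ g_0`, `jp (N_e X) = 2 i jp X`. -/
theorem eig_one {X : Kil (Sg F Ω) h} (hX : s.A X = (1 : ℝ) • X) :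
    ∃ a, jp e X = I • cpx a := by
  obtain ⟨b, hb⟩ := s.eig_zero (X := s.N e X) (by rw [s.N_eig hX]; norm_num)
  have h1 := s.isJ_p.eig hX
  rw [hb] at h1
  refine ⟨-((1 / 2 : ℝ) • b), ?_⟩
  have h2 : cpx (-((1 / 2 : ℝ) • b)) = -((1 / 2 : ℂ) • cpx b) := by
    funext j
    simp [cpx]
  rw [h2, h1]
  funext j
  push_cast
  simp only [Pi.smul_apply, Pi.neg_apply, smul_eq_mul]
  linear_combination (jp e X j) * I_mul_I

end Sys

end Vale.Agent.P274.V
end

section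

/-! # P274-V20 (d): the algebra of a Siegel domain (helper234) -/

open Set Complex ComplexConjugate Topology
open scoped ContDiff

namespace Vale.Agent.P274.V

variable {Z : Type*} [NormedAddCommGroup Z] [NormedSpace ℂ Z] [FiniteDimensional ℂ Z] {k : ℕ}

namespace Sys

variable {F : Z →L[ℝ] Z →L[ℝ] (Fin k → ℂ)} {Ω : Set (Fin k → ℝ)}
  {h : Z × (Fin k → ℂ) → Z × (Fin k → ℂ) →L[ℝ] Z × (Fin k → ℂ) →L[ℝ] ℂ}
  {ρ : Z × (Fin k → ℂ) → ℝ} {e : Fin k → ℝ} (s : Sys F Ω h ρ e)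

include s

/-- an operator `T` with `T` and `i T` skew vanishes -/
theorem skew_both {T : Z × (Fin k → ℂ) → Z × (Fin k → ℂ)}
    (h1 : ∀ u v, h (0, cpx e) (T u) v + h (0, cpx e) u (T v) = 0)
    (h2 : ∀ u v, h (0, cpx e) (I • T u) v + h (0, cpx e) u (I • T v) = 0)
    (u : Z × (Fin k → ℂ)) : T u = 0 := by
  apply s.eq_zero_of_h
  have a := h1 u (T u)
  have b := h2 u (T u)
  rw [s.C.met.I_left _ s.hpe, s.h_I_right] at b
  have c : I * (h (0, cpx e) (T u) (T u) - h (0, cpx e) u (T (T u))) = 0 := by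
    linear_combination b
  have d := (mul_eq_zero.1 c).resolve_left I_ne_zero
  have : (2 : ℂ) * h (0, cpx e) (T u) (T u) = 0 := by linear_combination a + d
  exact (mul_eq_zero.1 this).resolve_left two_ne_zero

/-- the derivative of `N_e X` for `X` of even type -/
theorem D_even {μ : ℝ} {X : Kil (Sg F Ω) h} (hX : s.A X = μ • X)
    (hr : ∀ z, (D e X (z, 0)).2 = 0) (hC : ∀ w, (D e X (0, w)).1 = 0)
    (v : Z × (Fin k → ℂ)) : D e (s.N e X) v = (I * (μ : ℂ)) • D e X v := by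
  rw [s.D_split (s.N e X), s.D_split X, smul_add]
  congr 1
  · refine Prod.ext ?_ ?_
    · have := (s.isJ_b v.1).eig hX
      simp only [add_zero] at this
      exact this
    · have := (s.isJ_r v.1).eig hX
      simp only [hr, smul_zero] at this
      rw [Prod.smul_snd, hr, smul_zero]
      exact this
  · refine Prod.ext ?_ ?_
    · have := (s.isJ_C v.2).eig hX
      simp only [hC, smul_zero] at this
      rw [Prod.smul_fst, hC, smul_zero]
      exact this
    · have := (s.isJ_P v.2).eig hX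
      simp only [add_zero] at this
      exact this

/-- (d) if `jp X = 0` then `X` and `N_e X` vanish at `p_e`; derivatives `(b, P)` and `(i b, i P)` are both
skew, so zero. -/
theorem eig_one_inj {X : Kil (Sg F Ω) h} (hX : s.A X = (1 : ℝ) • X) (h0 : jp e X = 0) :
    X = 0 := by
  have hc : jc e X = 0 := s.van s.isJ_c hX (natne 1 (by norm_num))
  have hr : ∀ z, (D e X (z, 0)).2 = 0 := fun z => s.van (s.isJ_r z) hX (natne 1 (by norm_num))
  have hC : ∀ w, (D e X (0, w)).1 = 0 := fun w => s.van (s.isJ_C w) hX (natne 0 (by norm_num))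
  have hc1 : jc e (s.N e X) = 0 := by rw [s.isJ_c.eig hX, hc, smul_zero]
  have hp1 : jp e (s.N e X) = 0 := by rw [s.isJ_p.eig hX, h0, smul_zero]
  have hD : ∀ v, D e X v = 0 := by
    refine s.skew_both (s.skew hc h0) fun u v => ?_
    have := s.skew hc1 hp1 u v
    rw [s.D_even hX hr hC, s.D_even hX hr hC] at this
    simpa using this
  refine s.ext_jet hc h0 ?_ ?_ ?_ ?_ <;> intro v <;> rw [hD] <;> rfl

end Sys

end Vale.Agent.P274.V
end

section

/-! # P274-V20 (f): the algebra of a Siegel domain (helper234) -/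

open Set Complex ComplexConjugate Topology
open scoped ContDiff

namespace Vale.Agent.P274.V

variable {Z : Type*} [NormedAddCommGroup Z] [NormedSpace ℂ Z] [FiniteDimensional ℂ Z] {k : ℕ}

namespace Sys

variable {F : Z →L[ℝ] Z →L[ℝ] (Fin k → ℂ)} {Ω : Set (Fin k → ℝ)}
  {h : Z × (Fin k → ℂ) → Z × (Fin k → ℂ) →L[ℝ] Z × (Fin k → ℂ) →L[ℝ] ℂ}
  {ρ : Z × (Fin k → ℂ) → ℝ} {e : Fin k → ℝ} (s : Sys F Ω h ρ e)

include s

/-- (f) if `jc X = 0` then `N_e X ∈ g_{-1}` has `jc (N_e X) = i jc X = 0`, so `N_e X = 0` by (a), so `r = 0`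
(`isJ_r.eig`: `r (N_e X) = i r X`); `X p_e = 0`, so `D X` is skew, only `C : w ↦ (D (0,w)).1` left, so `C = 0`. -/
theorem eig_half_inj {X : Kil (Sg F Ω) h} (hX : s.A X = (1 / 2 : ℝ) • X) (h0 : jc e X = 0) :
    X = 0 := by
  have hp : jp e X = 0 := s.van s.isJ_p hX (natne 1 (by norm_num))
  have hb : ∀ z, (D e X (z, 0)).1 = 0 := fun z => s.van (s.isJ_b z) hX (natne 0 (by norm_num))
  have hP : ∀ w, (D e X (0, w)).2 = 0 := fun w => s.van (s.isJ_P w) hX (natne 0 (by norm_num))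
  have hX1 : s.A (s.N e X) = (-(1 / 2) : ℝ) • s.N e X := by
    rw [s.N_eig hX]; norm_num
  have h1 := s.eig_neg_half hX1
  have hc1 : jc e (s.N e X) = 0 := by rw [s.isJ_c.eig hX, h0, smul_zero]
  rw [hc1] at h1
  have hr : ∀ z, (D e X (z, 0)).2 = 0 := by
    intro z
    have h2 := (s.isJ_r z).eig hX
    simp only [h1, s.D_n, map_zero, smul_zero] at h2
    refine (smul_eq_zero.1 h2.symm).resolve_left ?_
    norm_num
  have hC : ∀ w, (D e X (0, w)).1 = 0 := by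
    intro w
    have h2 := s.skew h0 hp (0, w) ((D e X (0, w)).1, 0)
    have h3 : D e X ((D e X (0, w)).1, 0) = 0 := Prod.ext (hb _) (hr _)
    have h4 : D e X (0, w) = ((D e X (0, w)).1, 0) := Prod.ext rfl (hP w)
    rw [h3, map_zero, add_zero, h4] at h2
    exact congrArg Prod.fst (s.eq_zero_of_h h2)
  exact s.ext_jet h0 hp hb hr hC hP

end Sys

end Vale.Agent.P274.V
end

section

/-! # P274-V20 (e): the algebra of a Siegel domain (helper234) -/

open Set Complex ComplexConjugate Topology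
open scoped ContDiff

namespace Vale.Agent.P274.V

variable {Z : Type*} [NormedAddCommGroup Z] [NormedSpace ℂ Z] [FiniteDimensional ℂ Z] {k : ℕ}

namespace Sys

variable {F : Z →L[ℝ] Z →L[ℝ] (Fin k → ℂ)} {Ω : Set (Fin k → ℝ)}
  {h : Z × (Fin k → ℂ) → Z × (Fin k → ℂ) →L[ℝ] Z × (Fin k → ℂ) →L[ℝ] ℂ}
  {ρ : Z × (Fin k → ℂ) → ℝ} {e : Fin k → ℝ} (s : Sys F Ω h ρ e)

include s

/-- (e) `jp (N_e X) = 3 i jp X ∈ i ℝ^k` (by `eig_one`), `jp X = cpx a`;
`X + (1/6) N_e N_e X` vanishes at `p_e` and has derivative `(2/3)(b, P)`; `N_e X - s.t (3 a)` vanishes at `p_e` and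
has derivative `2 i (b, P)`. So `b = P = 0`; `P e = 3 jp X` (`val_A`), so `jp X = 0`. -/
theorem eig_two {X : Kil (Sg F Ω) h} (hX : s.A X = (2 : ℝ) • X) : X = 0 := by
  have hc : jc e X = 0 := s.van s.isJ_c hX (natne 2 (by norm_num))
  have hr : ∀ z, (D e X (z, 0)).2 = 0 := fun z => s.van (s.isJ_r z) hX (natne 2 (by norm_num))
  have hC : ∀ w, (D e X (0, w)).1 = 0 := fun w => s.van (s.isJ_C w) hX (natne 1 (by norm_num))
  have hX1 : s.A (s.N e X) = (1 : ℝ) • s.N e X := by rw [s.N_eig hX]; norm_num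
  have hc1 : jc e (s.N e X) = 0 := by rw [s.isJ_c.eig hX, hc, smul_zero]
  have hr1 : ∀ z, (D e (s.N e X) (z, 0)).2 = 0 :=
    fun z => s.van (s.isJ_r z) hX1 (natne 1 (by norm_num))
  have hC1 : ∀ w, (D e (s.N e X) (0, w)).1 = 0 :=
    fun w => s.van (s.isJ_C w) hX1 (natne 0 (by norm_num))
  have hD1 := fun v => s.D_even hX hr hC v
  have hD2 := fun v => s.D_even hX1 hr1 hC1 v
  have hp1 := s.isJ_p.eig hX
  have hp2 := s.isJ_p.eig hX1
  obtain ⟨a, ha⟩ := s.eig_one hX1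
  -- first combination
  have k1 : ∀ u v, h (0, cpx e) (D e X u) v + h (0, cpx e) u (D e X v) = 0 := by
    intro u v
    have e1 : jc e (X + (1 / 6 : ℝ) • s.N e (s.N e X)) = 0 := by
      rw [s.isJ_c.add, s.isJ_c.smul, s.isJ_c.eig hX1, hc1, hc]; simp
    have e2 : jp e (X + (1 / 6 : ℝ) • s.N e (s.N e X)) = 0 := by
      rw [s.isJ_p.add, s.isJ_p.smul, hp2, hp1]
      funext j
      push_cast
      simp only [Pi.add_apply, Pi.smul_apply, smul_eq_mul, Pi.zero_apply]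
      linear_combination (jp e X j) * I_mul_I
    have e3 : ∀ v, D e (X + (1 / 6 : ℝ) • s.N e (s.N e X)) v = (2 / 3 : ℝ) • D e X v := by
      intro v
      rw [s.D_add, s.D_smul]
      simp only [add_apply, smul_apply]
      rw [hD2, hD1, smul_smul, smul_smul]
      have : ((1 / 6 : ℝ) : ℂ) * (I * ((1 : ℝ) : ℂ)) * (I * ((2 : ℝ) : ℂ)) =
          ((-(1 / 3) : ℝ) : ℂ) := by
        push_cast
        linear_combination (1 / 3) * I_mul_I
      rw [this]
      have h5 : ((-(1 / 3) : ℝ) : ℂ) • D e X v = (-(1 / 3) : ℝ) • D e X v := rfl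
      rw [h5]
      module
    have := s.skew e1 e2 u v
    rw [e3, e3] at this
    simp only [map_smul, smul_apply] at this
    rw [← smul_add] at this
    exact (smul_eq_zero.1 this).resolve_left (by norm_num)
  have k2 : ∀ u v, h (0, cpx e) (I • D e X u) v + h (0, cpx e) u (I • D e X v) = 0 := by
    intro u v
    have e1 : jc e (s.N e X - s.t a) = 0 := by
      rw [s.isJ_c.sub, hc1, s.jc_t, sub_zero]
    have e2 : jp e (s.N e X - s.t a) = 0 := by
      rw [s.isJ_p.sub, ha, s.jp_t, sub_self]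
    have e3 : ∀ v, D e (s.N e X - s.t a) v = (2 : ℝ) • (I • D e X v) := by
      intro v
      rw [s.D_sub, s.D_t, sub_zero, hD1]
      have h5 : (2 : ℝ) • (I • D e X v) = ((2 : ℝ) : ℂ) • (I • D e X v) := rfl
      rw [h5, smul_smul, mul_comm]
    have := s.skew e1 e2 u v
    rw [e3, e3] at this
    simp only [map_smul (h (0, cpx e)), map_smul (h (0, cpx e) u), smul_apply] at this
    rw [← smul_add] at this
    exact (smul_eq_zero.1 this).resolve_left (by norm_num)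
  have hD : ∀ v, D e X v = 0 := s.skew_both k1 k2
  have hp : jp e X = 0 := by
    have h1 := congrArg Prod.snd (s.val_A X)
    rw [hX, hD, dl_apply] at h1
    have h2 : (2 : ℝ) • jp e X = 0 - jp e X := h1
    have h3 : (3 : ℝ) • jp e X = 0 := by
      have : (3 : ℝ) • jp e X = (2 : ℝ) • jp e X + jp e X := by module
      rw [this, h2]; simp
    exact (smul_eq_zero.1 h3).resolve_left (by norm_num)
  refine s.ext_jet hc hp ?_ ?_ ?_ ?_ <;> intro v <;> rw [hD] <;> rfl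

end Sys

end Vale.Agent.P274.V
end

section

/-! # P274-V20 (g): the algebra of a Siegel domain (helper234) -/

open Set Complex ComplexConjugate Topology
open scoped ContDiff

namespace Vale.Agent.P274.V

variable {Z : Type*} [NormedAddCommGroup Z] [NormedSpace ℂ Z] [FiniteDimensional ℂ Z] {k : ℕ}

namespace Sys

variable {F : Z →L[ℝ] Z →L[ℝ] (Fin k → ℂ)} {Ω : Set (Fin k → ℝ)}
  {h : Z × (Fin k → ℂ) → Z × (Fin k → ℂ) →L[ℝ] Z × (Fin k → ℂ) →L[ℝ] ℂ}
  {ρ : Z × (Fin k → ℂ) → ℝ} {e : Fin k → ℝ} (s : Sys F Ω h ρ e)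

include s

/-- (g) `X + (1/2) N_e N_e X` vanishes at `p_e`, its derivative is `C` (`r - r = 0`), skew so `C = 0`; Euler
(`val_A`): `C e = 2 jc X`, so `jc X = 0`; then `D X = r` is skew, so `0`. -/
theorem eig_three_half {X : Kil (Sg F Ω) h} (hX : s.A X = (3 / 2 : ℝ) • X) : X = 0 := by
  have hp : jp e X = 0 := s.van s.isJ_p hX (natne 2 (by norm_num))
  have hb : ∀ z, (D e X (z, 0)).1 = 0 := fun z => s.van (s.isJ_b z) hX (natne 1 (by norm_num))
  have hP : ∀ w, (D e X (0, w)).2 = 0 := fun w => s.van (s.isJ_P w) hX (natne 1 (by norm_num))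
  have hX1 : s.A (s.N e X) = (1 / 2 : ℝ) • s.N e X := by
    rw [s.N_eig hX]; norm_num
  set Y := X + (1 / 2 : ℝ) • s.N e (s.N e X) with hY
  have yc : jc e Y = 0 := by
    rw [hY, s.isJ_c.add, s.isJ_c.smul, s.isJ_c.eig hX1, s.isJ_c.eig hX, smul_smul, smul_smul]
    have : ((1 / 2 : ℝ) : ℂ) * (I * ((1 / 2 + 1 / 2 : ℝ) : ℂ)) *
        (I * ((3 / 2 + 1 / 2 : ℝ) : ℂ)) = -1 := by
      push_cast
      linear_combination I_mul_I
    rw [this]
    simp
  have yp : jp e Y = 0 := by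
    rw [hY, s.isJ_p.add, s.isJ_p.smul, s.isJ_p.eig hX1, s.isJ_p.eig hX, hp]
    simp
  have yb : ∀ z, (D e Y (z, 0)).1 = 0 := by
    intro z
    have h1 := (s.isJ_b z).add X ((1 / 2 : ℝ) • s.N e (s.N e X))
    have h2 := (s.isJ_b z).smul (1 / 2 : ℝ) (s.N e (s.N e X))
    have h3 := (s.isJ_b z).eig hX1
    have h4 := (s.isJ_b z).eig hX
    rw [h1, h2, h3, h4, hb]
    simp
  have yr : ∀ z, (D e Y (z, 0)).2 = 0 := by
    intro z
    have h1 := (s.isJ_r z).add X ((1 / 2 : ℝ) • s.N e (s.N e X))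
    have h2 := (s.isJ_r z).smul (1 / 2 : ℝ) (s.N e (s.N e X))
    have h3 := (s.isJ_r z).eig hX1
    have h4 := (s.isJ_r z).eig hX
    rw [h1, h2, h3, h4, smul_smul, smul_smul]
    have : ((1 / 2 : ℝ) : ℂ) * (I * ((1 / 2 + 1 / 2 : ℝ) : ℂ)) *
        (I * ((3 / 2 + 1 / 2 : ℝ) : ℂ)) = -1 := by
      push_cast
      linear_combination I_mul_I
    rw [this]
    simp
  have yC : ∀ w, (D e Y (0, w)).1 = (D e X (0, w)).1 := by
    intro w
    have h1 := (s.isJ_C w).add X ((1 / 2 : ℝ) • s.N e (s.N e X))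
    have h2 := (s.isJ_C w).smul (1 / 2 : ℝ) (s.N e (s.N e X))
    have h3 := (s.isJ_C w).eig hX1
    rw [h1, h2, h3]
    simp
  have yP : ∀ w, (D e Y (0, w)).2 = 0 := by
    intro w
    have h1 := (s.isJ_P w).add X ((1 / 2 : ℝ) • s.N e (s.N e X))
    have h2 := (s.isJ_P w).smul (1 / 2 : ℝ) (s.N e (s.N e X))
    have h3 := (s.isJ_P w).eig hX1
    have h4 := (s.isJ_P w).eig hX
    rw [h1, h2, h3, h4, hP]
    simp
  have hC : ∀ w, (D e X (0, w)).1 = 0 := by
    intro w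
    have h2 := s.skew yc yp (0, w) ((D e Y (0, w)).1, 0)
    have h3 : D e Y ((D e Y (0, w)).1, 0) = 0 := Prod.ext (yb _) (yr _)
    have h4 : D e Y (0, w) = ((D e Y (0, w)).1, 0) := Prod.ext rfl (yP w)
    rw [h3, map_zero, add_zero, h4] at h2
    rw [← yC]
    exact congrArg Prod.fst (s.eq_zero_of_h h2)
  have hc : jc e X = 0 := by
    have h1 := congrArg Prod.fst (s.val_A X)
    rw [hX, dl_apply] at h1
    have h2 : (3 / 2 : ℝ) • jc e X = (D e X (0, cpx e)).1 - (1 / 2 : ℂ) • jc e X := h1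
    rw [hC, zero_sub] at h2
    have h4 : ((1 / 2 : ℂ)) • jc e X = (1 / 2 : ℝ) • jc e X := by
      have : (1 / 2 : ℝ) • jc e X = ((1 / 2 : ℝ) : ℂ) • jc e X := rfl
      rw [this]; push_cast; rfl
    rw [h4] at h2
    have h3 : (2 : ℝ) • jc e X = 0 := by
      have : (2 : ℝ) • jc e X = (3 / 2 : ℝ) • jc e X + (1 / 2 : ℝ) • jc e X := by module
      rw [this, h2]; simp
    exact (smul_eq_zero.1 h3).resolve_left (by norm_num)
  have hr : ∀ z, (D e X (z, 0)).2 = 0 := by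
    intro z
    have h1 := s.skew hc hp (z, 0) (0, (D e X (z, 0)).2)
    have h2 : D e X (0, (D e X (z, 0)).2) = 0 := Prod.ext (hC _) (hP _)
    have h3 : D e X (z, 0) = (0, (D e X (z, 0)).2) := Prod.ext (hb z) rfl
    rw [h2, map_zero, add_zero, h3] at h1
    exact congrArg Prod.snd (s.eq_zero_of_h h1)
  exact s.ext_jet hc hp hb hr hC hP

end Sys

end Vale.Agent.P274.V
end

section

/-! # P274-V20 (h): the algebra of a Siegel domain (helper234) -/

open Set Complex ComplexConjugate Topology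
open scoped ContDiff

namespace Vale.Agent.P274.V

variable {Z : Type*} [NormedAddCommGroup Z] [NormedSpace ℂ Z] [FiniteDimensional ℂ Z] {k : ℕ}

namespace Sys

variable {F : Z →L[ℝ] Z →L[ℝ] (Fin k → ℂ)} {Ω : Set (Fin k → ℝ)}
  {h : Z × (Fin k → ℂ) → Z × (Fin k → ℂ) →L[ℝ] Z × (Fin k → ℂ) →L[ℝ] ℂ}
  {ρ : Z × (Fin k → ℂ) → ℝ} {e : Fin k → ℝ} (s : Sys F Ω h ρ e)

include s

omit s in
theorem van_of_N {G V : Type*} [AddCommGroup G] [Module ℝ G] [AddCommGroup V] [Module ℂ V]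
    {A N : Module.End ℝ G} {δ : ℝ} {j : G → V} (hj : IsJ A N δ j) {μ : ℝ} {x : G}
    (hx : A x = μ • x) (hN : N x = 0) (hμ : μ + δ ≠ 0) : j x = 0 := by
  have h1 := hj.eig hx
  rw [hN, hj.zero] at h1
  rcases smul_eq_zero.1 h1.symm with h2 | h2
  · exfalso
    rcases mul_eq_zero.1 h2 with h3 | h3
    · exact I_ne_zero h3
    · exact hμ (by exact_mod_cast h3)
  · exact h2

/-- (h) strong induction from (e), (g): `N_e X = 0` and all factors `μ + δ` are nonzero. -/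
theorem eig_big (m : ℕ) (hm : 5 ≤ m) {X : Kil (Sg F Ω) h}
    (hX : s.A X = (((m : ℝ) - 2) / 2) • X) : X = 0 := by
  induction m using Nat.strong_induction_on generalizing X with
  | _ m ih =>
    rcases Nat.lt_or_ge m 7 with h7 | h7
    · have h56 : m = 5 ∨ m = 6 := by omega
      rcases h56 with rfl | rfl
      · exact s.eig_three_half (by rw [hX]; norm_num)
      · exact s.eig_two (by rw [hX]; norm_num)
    · have hN : s.N e X = 0 := by
        refine ih (m - 2) (by omega) (by omega) ?_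
        rw [s.N_eig hX, Nat.cast_sub (by omega)]
        congr 1
        push_cast
        ring
      have h7' : (7 : ℝ) ≤ m := by exact_mod_cast h7
      refine s.ext_jet ?_ ?_ (fun z => ?_) (fun z => ?_) (fun w => ?_) (fun w => ?_)
      · exact van_of_N s.isJ_c hX hN (by linarith only [h7'])
      · exact van_of_N s.isJ_p hX hN (by linarith)
      · exact van_of_N (s.isJ_b z) hX hN (by linarith)
      · exact van_of_N (s.isJ_r z) hX hN (by linarith)
      · exact van_of_N (s.isJ_C w) hX hN (by linarith)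
      · exact van_of_N (s.isJ_P w) hX hN (by linarith)

end Sys

end Vale.Agent.P274.V
end

section

/-! # P274-V20 (i): the algebra of a Siegel domain (helper234) -/

open Set Complex ComplexConjugate Topology
open scoped ContDiff

namespace Vale.Agent.P274.V

variable {Z : Type*} [NormedAddCommGroup Z] [NormedSpace ℂ Z] [FiniteDimensional ℂ Z] {k : ℕ}

namespace Sys

variable {F : Z →L[ℝ] Z →L[ℝ] (Fin k → ℂ)} {Ω : Set (Fin k → ℝ)}
  {h : Z × (Fin k → ℂ) → Z × (Fin k → ℂ) →L[ℝ] Z × (Fin k → ℂ) →L[ℝ] ℂ}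
  {ρ : Z × (Fin k → ℂ) → ℝ} {e : Fin k → ℝ} (s : Sys F Ω h ρ e)

include s

/-- `tauF` as a linear map -/
noncomputable def tL : (Fin k → ℝ) →ₗ[ℝ] Kil (Sg F Ω) h where
  toFun a := s.t a
  map_add' a b := by
    ext1
    funext x
    by_cases hx : x ∈ Sg F Ω
    · show tauF _ _ x = tauF _ _ x + tauF _ _ x
      simp only [tauF, indicator_of_mem hx]
      refine Prod.ext (by simp) ?_
      funext j
      simp [cpx, mul_add]
    · show tauF _ _ x = tauF _ _ x + tauF _ _ x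
      simp [tauF, hx]
  map_smul' r a := by
    ext1
    funext x
    by_cases hx : x ∈ Sg F Ω
    · show tauF _ _ x = r • tauF _ _ x
      simp only [tauF, indicator_of_mem hx]
      refine Prod.ext (by simp) ?_
      funext j
      simp [cpx]
      ring
    · show tauF _ _ x = r • tauF _ _ x
      simp [tauF, hx]

/-- `nilF` as a linear map -/
noncomputable def nL : Z →ₗ[ℝ] Kil (Sg F Ω) h where
  toFun a := s.n a
  map_add' a b := by
    ext1
    funext x
    by_cases hx : x ∈ Sg F Ω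
    · show nilF _ _ _ x = nilF _ _ _ x + nilF _ _ _ x
      simp only [nilF, indicator_of_mem hx]
      refine Prod.ext (by simp) ?_
      simp
    · show nilF _ _ _ x = nilF _ _ _ x + nilF _ _ _ x
      simp [nilF, hx]
  map_smul' r a := by
    ext1
    funext x
    by_cases hx : x ∈ Sg F Ω
    · show nilF _ _ _ x = r • nilF _ _ _ x
      simp only [nilF, indicator_of_mem hx]
      refine Prod.ext (by simp) ?_
      simp only [Prod.smul_snd, map_smul]
      rw [smul_comm]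
    · show nilF _ _ _ x = r • nilF _ _ _ x
      simp [nilF, hx]

theorem finrank_neg_one : k ≤ Module.finrank ℝ (Module.End.eigenspace s.A (-1)) := by
  have := Kil_finiteDimensional s.C
  have h1 : ∀ a, s.tL a ∈ Module.End.eigenspace s.A (-1) := fun a =>
    Module.End.mem_eigenspace_iff.2 (s.A_t a)
  have h2 : Function.Injective (s.tL.codRestrict _ h1) := by
    intro a b hab
    have h3 : s.t a = s.t b := congrArg Subtype.val hab
    have h4 := congrArg (jp e) h3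
    rw [s.jp_t, s.jp_t] at h4
    have h5 := smul_right_injective _ I_ne_zero h4
    funext j
    have := congrFun h5 j
    simpa [cpx] using this
  have h3 := LinearMap.finrank_le_finrank_of_injective h2
  simpa using h3

theorem finrank_neg_half : Module.finrank ℝ Z ≤
    Module.finrank ℝ (Module.End.eigenspace s.A (-(1 / 2))) := by
  have := Kil_finiteDimensional s.C
  have h1 : ∀ a, s.nL a ∈ Module.End.eigenspace s.A (-(1 / 2)) := fun a =>
    Module.End.mem_eigenspace_iff.2 (s.A_n a)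
  have h2 : Function.Injective (s.nL.codRestrict _ h1) := by
    intro a b hab
    have h3 : s.n a = s.n b := congrArg Subtype.val hab
    have h4 := congrArg (jc e) h3
    rwa [s.jc_n, s.jc_n] at h4
  exact LinearMap.finrank_le_finrank_of_injective h2

/-- `jc` on an eigenspace -/
noncomputable def jcL (μ : ℝ) : Module.End.eigenspace s.A μ →ₗ[ℝ] Z where
  toFun X := jc e X.1
  map_add' X Y := rfl
  map_smul' r X := rfl

theorem finrank_half : Module.finrank ℝ (Module.End.eigenspace s.A (1 / 2)) ≤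
    Module.finrank ℝ Z := by
  have : FiniteDimensional ℝ Z := FiniteDimensional.complexToReal Z
  have h2 : Function.Injective (s.jcL (1 / 2)) := by
    rw [injective_iff_map_eq_zero]
    intro X hX
    exact Subtype.ext (s.eig_half_inj (Module.End.mem_eigenspace_iff.1 X.2) hX)
  exact LinearMap.finrank_le_finrank_of_injective h2

/-- imaginary part of `jp` on an eigenspace -/
noncomputable def jpL (μ : ℝ) : Module.End.eigenspace s.A μ →ₗ[ℝ] (Fin k → ℝ) where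
  toFun X := fun j => (jp e X.1 j).im
  map_add' X Y := by
    funext j
    show ((jp e X.1 j) + (jp e Y.1 j)).im = _
    simp
  map_smul' r X := by
    funext j
    show (r • (jp e X.1 j)).im = _
    simp

theorem jpL_inj : Function.Injective (s.jpL 1) := by
  rw [injective_iff_map_eq_zero]
  intro X hX
  have h1 := Module.End.mem_eigenspace_iff.1 X.2
  obtain ⟨a, ha⟩ := s.eig_one h1
  refine Subtype.ext (s.eig_one_inj h1 ?_)
  rw [ha]
  have : a = 0 := by
    funext j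
    have h2 := congrFun hX j
    have h3 : (jp e X.1 j).im = 0 := h2
    rw [ha] at h3
    simpa [cpx] using h3
  rw [this]
  funext j
  simp [cpx]

/-- (i) dimension count with `trace_eq_sum_eigen` and `exists_set`: `tr A = 0` and
`finrank g_{-2} ≥ k` (`s.t` injective), `finrank g_{-1} ≥ finrank ℝ Z` (`s.n` injective),
`finrank g_1 ≤ finrank ℝ Z` (`jc` injective), `finrank g_2 ≤ k` (`X ↦ im jp X` injective), so the last is bijective. -/
theorem exists_X (htr : LinearMap.trace ℝ (Kil (Sg F Ω) h) s.A = 0) :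
    ∃ X : Kil (Sg F Ω) h, s.A X = (1 : ℝ) • X ∧ jp e X = I • cpx e := by
  classical
  have := Kil_finiteDimensional s.C
  obtain ⟨T, hT1, hT2, hT3⟩ := s.exists_set
  have h1 := trace_eq_sum_eigen s.A T hT3
  rw [htr] at h1
  set f : ℝ → ℝ := fun μ => (Module.finrank ℝ (Module.End.eigenspace s.A μ) : ℝ) with hf
  have h2 : ∑ m ∈ Finset.range 5, (((m : ℝ) - 2) / 2) * f (((m : ℝ) - 2) / 2) =
      ∑ μ ∈ T, μ * f μ := by
    rw [← Finset.sum_image (s := Finset.range 5) (g := fun m : ℕ => ((m : ℝ) - 2) / 2)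
      (f := fun μ => μ * f μ)]
    · refine Finset.sum_subset ?_ ?_
      · intro μ hμ
        rw [Finset.mem_image] at hμ
        obtain ⟨m, hm, rfl⟩ := hμ
        exact hT2 m (Finset.mem_range.1 hm)
      · intro μ hμ hμ2
        obtain ⟨m, rfl⟩ := hT1 μ hμ
        have hm : 5 ≤ m := by
          by_contra hlt
          exact hμ2 (Finset.mem_image_of_mem _ (Finset.mem_range.2 (by omega)))
        have hbot : Module.End.eigenspace s.A (((m : ℝ) - 2) / 2) = ⊥ := by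
          rw [eq_bot_iff]
          intro X hX
          exact (Submodule.mem_bot ℝ).2 (s.eig_big m hm (Module.End.mem_eigenspace_iff.1 hX))
        simp [hf, hbot]
    · intro a _ b _ hab
      have : (a : ℝ) = b := by linarith
      exact_mod_cast this
  have h3 : ∑ m ∈ Finset.range 5, (((m : ℝ) - 2) / 2) * f (((m : ℝ) - 2) / 2) = 0 := by
    rw [h2, ← h1]
  have h4 : -(f (-1)) - (1 / 2) * f (-(1 / 2)) + (1 / 2) * f (1 / 2) + f 1 = 0 := by
    rw [← h3]
    simp only [Finset.sum_range_succ, Finset.sum_range_zero]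
    norm_num
    ring
  have a1 : (k : ℝ) ≤ f (-1) := Nat.cast_le.2 s.finrank_neg_one
  have a2 : (Module.finrank ℝ Z : ℝ) ≤ f (-(1 / 2)) := Nat.cast_le.2 s.finrank_neg_half
  have a3 : f (1 / 2) ≤ (Module.finrank ℝ Z : ℝ) := Nat.cast_le.2 s.finrank_half
  have a4 : f 1 ≤ k := by
    have := LinearMap.finrank_le_finrank_of_injective s.jpL_inj
    rw [Module.finrank_fin_fun] at this
    exact Nat.cast_le.2 this
  have a5 : f 1 = k := by linarith
  have a6 : Module.finrank ℝ (Module.End.eigenspace s.A 1) = Module.finrank ℝ (Fin k → ℝ) := by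
    rw [Module.finrank_fin_fun]
    exact Nat.cast_injective (R := ℝ) a5
  have a7 : Function.Surjective (s.jpL 1) := by
    exact (LinearMap.injective_iff_surjective_of_finrank_eq_finrank (K := ℝ)
      (V := Module.End.eigenspace s.A 1) (V₂ := Fin k → ℝ) a6).1 s.jpL_inj
  obtain ⟨X, hX⟩ := a7 e
  have h5 := Module.End.mem_eigenspace_iff.1 X.2
  obtain ⟨a, ha⟩ := s.eig_one h5
  refine ⟨X.1, h5, ?_⟩
  have : a = e := by
    rw [← hX]
    funext j
    have : (jp e X.1 j).im = a j := by rw [ha]; simp [cpx]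
    exact this.symm
  rw [ha, this]

end Sys

end Vale.Agent.P274.V
end

section

/-! # P274-V20 (j): the algebra of a Siegel domain (helper234) -/

open Set Complex ComplexConjugate Topology
open scoped ContDiff

namespace Vale.Agent.P274.V

variable {Z : Type*} [NormedAddCommGroup Z] [NormedSpace ℂ Z] [FiniteDimensional ℂ Z] {k : ℕ}

namespace Sys

variable {F : Z →L[ℝ] Z →L[ℝ] (Fin k → ℂ)} {Ω : Set (Fin k → ℝ)}
  {h : Z × (Fin k → ℂ) → Z × (Fin k → ℂ) →L[ℝ] Z × (Fin k → ℂ) →L[ℝ] ℂ}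
  {ρ : Z × (Fin k → ℂ) → ℝ} {e : Fin k → ℝ} (s : Sys F Ω h ρ e)

include s

/-- (j) `W = N_e X + 2 d` and `Y = X - s.t e` vanish at `p_e`; derivatives `(i b + 1, i P + 2)` and `(b, P)` skew,
so `b z = i z`, `P w = 2 i w`. -/
theorem jet_X {X : Kil (Sg F Ω) h} (hX : s.A X = (1 : ℝ) • X) (hp : jp e X = I • cpx e) :
    (∀ z, D e X (z, 0) = (I • z, 0)) ∧ ∀ w, D e X (0, w) = (0, (2 * I) • w) := by
  have hc : jc e X = 0 := s.van s.isJ_c hX (natne 1 (by norm_num))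
  have hr : ∀ z, (D e X (z, 0)).2 = 0 := fun z => s.van (s.isJ_r z) hX (natne 1 (by norm_num))
  have hC : ∀ w, (D e X (0, w)).1 = 0 := fun w => s.van (s.isJ_C w) hX (natne 0 (by norm_num))
  -- the derivative of `N_e X`
  have hNz : ∀ z, D e (s.N e X) (z, 0) = I • D e X (z, 0) := fun z => by
    refine Prod.ext ?_ ?_
    · have h1 := (s.isJ_b z).eig hX
      simp only [add_zero, ofReal_one, mul_one] at h1
      exact h1
    · have h1 := (s.isJ_r z).eig hX
      simp only [hr z, smul_zero] at h1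
      rw [h1, Prod.smul_snd, hr z, smul_zero]
  have hNw : ∀ w, D e (s.N e X) (0, w) = I • D e X (0, w) := fun w => by
    refine Prod.ext ?_ ?_
    · have h1 := (s.isJ_C w).eig hX
      simp only [hC w, smul_zero] at h1
      rw [h1, Prod.smul_fst, hC w, smul_zero]
    · have h1 := (s.isJ_P w).eig hX
      simp only [add_zero, ofReal_one, mul_one] at h1
      exact h1
  -- the field `W`
  have hDW : ∀ v, D e (s.N e X + (2 : ℝ) • s.d) v = D e (s.N e X) v + (2 : ℂ) • dl v := fun v => by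
    rw [s.D_add, s.D_smul]
    have h1 : D e s.d = (dl : Z × (Fin k → ℂ) →L[ℂ] Z × (Fin k → ℂ)) := fderiv_dilF s.hS s.hpe
    rw [h1]
    simp
  have hd : (s.d).1 (0, cpx e) = (0, cpx e) := by
    simp [d, dilF, s.hpe]
  have hcW : jc e (s.N e X + (2 : ℝ) • s.d) = 0 := by
    rw [s.isJ_c.add, s.isJ_c.smul, s.isJ_c.eig hX, hc]
    have : jc e s.d = 0 := by rw [jc, hd]
    rw [this]
    simp
  have hpW : jp e (s.N e X + (2 : ℝ) • s.d) = 0 := by
    rw [s.isJ_p.add, s.isJ_p.smul, s.isJ_p.eig hX, hp]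
    have : jp e s.d = cpx e := by rw [jp, hd]
    rw [this, smul_smul]
    have h2 : I * (((1 + 1 : ℝ)) : ℂ) * I = -2 := by
      push_cast
      linear_combination (2 : ℂ) * I_mul_I
    rw [h2]
    push_cast
    module
  have hW := s.skew hcW hpW
  -- the field `Y`
  have hDY : D e (X - s.t e) = D e X := by rw [s.D_sub, s.D_t, sub_zero]
  have hcY : jc e (X - s.t e) = 0 := by rw [s.isJ_c.sub, hc, s.jc_t, sub_zero]
  have hpY : jp e (X - s.t e) = 0 := by rw [s.isJ_p.sub, hp, s.jp_t, sub_self]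
  have hY := s.skew hcY hpY
  rw [hDY] at hY
  constructor
  · intro z
    have key : ∀ z' : Z, h (0, cpx e) (I • D e X (z, 0) + (z, 0)) (z', 0) = 0 := fun z' => by
      have h1 := hW (z, 0) (z', 0)
      have h2 := hY (z, 0) (z', 0)
      have e1 : ∀ y : Z, (2 : ℂ) • dl ((y, 0) : Z × (Fin k → ℂ)) = (y, 0) := fun y => by
        rw [dl_apply]
        simp [smul_smul]
      rw [hDW, hDW, hNz, hNz, e1, e1, map_add, map_add, _root_.add_apply,
        s.C.met.I_left _ s.hpe, s.h_I_right] at h1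
      rw [map_add, _root_.add_apply, s.C.met.I_left _ s.hpe]
      linear_combination (1 / 2 : ℂ) * h1 + (I / 2) * h2
    have h3 : I • D e X (z, 0) + ((z, 0) : Z × (Fin k → ℂ)) = (I • (D e X (z, 0)).1 + z, 0) := by
      refine Prod.ext rfl ?_
      show I • (D e X (z, 0)).2 + 0 = 0
      rw [hr z, smul_zero, add_zero]
    have h7 := key (I • (D e X (z, 0)).1 + z)
    rw [← h3] at h7
    have h4 := s.eq_zero_of_h h7
    rw [h3] at h4
    refine Prod.ext ?_ (hr z)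
    have h5 : I • (D e X (z, 0)).1 + z = 0 := congrArg Prod.fst h4
    have h6 : (D e X (z, 0)).1 = I • z + (-I) • (I • (D e X (z, 0)).1 + z) := by
      rw [smul_add, smul_smul, neg_mul, I_mul_I]
      module
    rw [h6, h5, smul_zero, add_zero]
  · intro w
    have key : ∀ w' : Fin k → ℂ,
        h (0, cpx e) (I • D e X (0, w) + (2 : ℂ) • (0, w)) (0, w') = 0 := fun w' => by
      have h1 := hW (0, w) (0, w')
      have h2 := hY (0, w) (0, w')
      have e1 : ∀ y : Fin k → ℂ, dl ((0, y) : Z × (Fin k → ℂ)) = (0, y) := fun y => by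
        rw [dl_apply]
        simp
      have e2 : ∀ u v : Z × (Fin k → ℂ), h (0, cpx e) ((2 : ℂ) • u) v = 2 * h (0, cpx e) u v :=
        fun u v => by
          rw [two_smul, map_add, _root_.add_apply]; ring
      have e3 : ∀ u v : Z × (Fin k → ℂ), h (0, cpx e) u ((2 : ℂ) • v) = 2 * h (0, cpx e) u v :=
        fun u v => by
          rw [two_smul, map_add]; ring
      rw [hDW, hDW, hNw, hNw, e1, e1, map_add, map_add, _root_.add_apply,
        s.C.met.I_left _ s.hpe, s.h_I_right, e2, e3] at h1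
      rw [map_add, _root_.add_apply, s.C.met.I_left _ s.hpe, e2]
      linear_combination (1 / 2 : ℂ) * h1 + (I / 2) * h2
    have h3 : I • D e X (0, w) + (2 : ℂ) • ((0, w) : Z × (Fin k → ℂ))
        = (0, I • (D e X (0, w)).2 + (2 : ℂ) • w) := by
      refine Prod.ext ?_ rfl
      show I • (D e X (0, w)).1 + (2 : ℂ) • (0 : Z) = 0
      rw [hC w, smul_zero, smul_zero, add_zero]
    have h7 := key (I • (D e X (0, w)).2 + (2 : ℂ) • w)
    rw [← h3] at h7
    have h4 := s.eq_zero_of_h h7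
    rw [h3] at h4
    refine Prod.ext (hC w) ?_
    have h5 : I • (D e X (0, w)).2 + (2 : ℂ) • w = 0 := congrArg Prod.snd h4
    have h6 : (D e X (0, w)).2 = (2 * I) • w
        + (-I) • (I • (D e X (0, w)).2 + (2 : ℂ) • w) := by
      rw [smul_add, smul_smul, neg_mul, I_mul_I]
      module
    rw [h6, h5, smul_zero, add_zero]

end Sys

end Vale.Agent.P274.V
end

section

/-! # P274-V20: the algebra of a Siegel domain (helper234) -/

open Set Complex ComplexConjugate Topology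
open scoped ContDiff

namespace Vale.Agent.P274.V

variable {Z : Type*} [NormedAddCommGroup Z] [NormedSpace ℂ Z] [FiniteDimensional ℂ Z] {k : ℕ}

theorem exists_J {F : Z →L[ℝ] Z →L[ℝ] (Fin k → ℂ)} (hF : HermF F) {Ω : Set (Fin k → ℝ)}
    {h ρ} (C : Ctx (Sg F Ω) h ρ)
    (htau : ∀ a, tauF (Sg F Ω) a ∈ Kil (Sg F Ω) h)
    (hnil : ∀ c, nilF F (Sg F Ω) c ∈ Kil (Sg F Ω) h)
    (hdil : dilF (Sg F Ω) ∈ Kil (Sg F Ω) h)
    (hrot : rotF (Sg F Ω) ∈ Kil (Sg F Ω) h)
    (hcon : ∀ a, conF (Sg F Ω) a ∈ Kil (Sg F Ω) h → a = 0)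
    (htr : ∀ X, LinearMap.trace ℝ (Kil (Sg F Ω) h) (adK C X) = 0)
    {e : Fin k → ℝ} (he : e ∈ Ω) :
    ∃ J ∈ Kil (Sg F Ω) h, J (0, cpx e) = 0 ∧
      fderiv ℂ J (0, cpx e) = I • ContinuousLinearMap.id ℂ (Z × (Fin k → ℂ)) := by
  have s : Sys F Ω h ρ e := ⟨hF, C, htau, hnil, hdil, hrot, hcon, he⟩
  obtain ⟨X, hX, hp⟩ := s.exists_X (htr s.d)
  obtain ⟨h1, h2⟩ := s.jet_X hX hp
  have hc : Sys.jc e X = 0 := s.van s.isJ_c hX (natne 1 (by norm_num))
  have hr : s.r.1 (0, cpx e) = 0 := by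
    simp [Sys.r, rotF, s.hpe]
  refine ⟨_, ((1 / 2 : ℝ) • (X - s.t e + s.r)).2, ?_, ?_⟩
  · have e1 : (((1 / 2 : ℝ) • (X - s.t e + s.r) : Kil (Sg F Ω) h) :
        Z × (Fin k → ℂ) → Z × (Fin k → ℂ)) (0, cpx e) =
        (1 / 2 : ℝ) • (X.1 (0, cpx e) - (s.t e).1 (0, cpx e) + s.r.1 (0, cpx e)) := rfl
    have e2 : X.1 (0, cpx e) = (0, I • cpx e) := Prod.ext hc hp
    rw [e1, e2, s.t_val e s.hpe, hr]
    simp
  · show Sys.D e ((1 / 2 : ℝ) • (X - s.t e + s.r)) = _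
    have hr' : ∀ v, Sys.D e s.r v = (I • v.1, 0) := fun v => fderiv_rotF s.hS s.hpe v
    refine ContinuousLinearMap.ext fun v => ?_
    rw [s.D_smul, s.D_add, s.D_sub, s.D_t, sub_zero]
    simp only [smul_apply, add_apply,
      ContinuousLinearMap.id_apply]
    rw [hr', s.D_split, h1, h2]
    refine Prod.ext ?_ ?_
    · simp only [Prod.smul_fst, Prod.fst_add]
      push_cast
      module
    · simp only [Prod.smul_snd, Prod.snd_add]
      push_cast
      module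

end Vale.Agent.P274.V
end
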