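import Mathlib
import Vale.Agent.P274.Bdl.B4
import Vale.Agent.P274.Bdl.B5
import Vale.Agent.P274.Bdl.B1
import Vale.Agent.P274.Bdl.B3
import Vale.Agent.P274.Bdl.B6

set_option linter.all false

namespace AFast1199ebx9a
@[reducible] noncomputable def a0 : Module ℝ ℂ := inferInstance
@[reducible] noncomputable def a1 : DistribMulAction ℝ ℂ := inferInstance
@[reducible] noncomputable def a2 : DistribSMul ℝ ℂ := inferInstance
@[reducible] noncomputable def a3 : SMulZeroClass ℝ ℂ := inferInstance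
@[reducible] noncomputable def a4 : MulAction ℝ ℂ := inferInstance
@[reducible] noncomputable def a5.{u1} {x1 : Type u1} [x2 : NormedAddCommGroup x1] [x3 : NormedSpace ℂ x1] : TopologicalSpace (x1 →L[ℝ] ℂ) := inferInstance
@[reducible] noncomputable def a6.{u1} {x1 : Type u1} [x2 : NormedAddCommGroup x1] [x3 : NormedSpace ℂ x1] : TopologicalSpace (x1 →L[ℝ] x1 →L[ℝ] ℂ) := inferInstance
@[reducible] noncomputable def a7.{u1} {x1 : Type u1} [x2 : NormedAddCommGroup x1] [x3 : NormedSpace ℂ x1] : AddCommGroup (x1 →L[ℝ] x1 →L[ℝ] ℂ) := inferInstance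
theorem a8 : ContinuousConstSMul ℝ ℂ := inferInstance
theorem a9 : ContinuousAdd ℂ := inferInstance
theorem a10 : UniformContinuousConstSMul ℝ ℂ := inferInstance
@[reducible] noncomputable def a11.{u1} {x1 : Type u1} [x2 : NormedAddCommGroup x1] [x3 : NormedSpace ℂ x1] : AddCommMonoid (x1 →L[ℝ] ℂ) := inferInstance
theorem a12 : IsSemitopologicalSemiring ℂ := inferInstance
@[reducible] noncomputable def a13.{u1} {x1 : Type u1} [x2 : NormedAddCommGroup x1] [x3 : NormedSpace ℂ x1] : AddCommGroup (x1 →L[ℝ] ℂ) := inferInstance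
theorem a14 : IsTopologicalRing ℂ := inferInstance
theorem a15 : IsSemitopologicalRing ℂ := inferInstance
theorem a16 : IsTopologicalAddGroup ℂ := inferInstance
theorem a17 : ContinuousSMul ℝ ℂ := inferInstance
@[reducible] noncomputable def a18.{u1} {x1 : Type u1} [x2 : NormedAddCommGroup x1] {x3 : ℕ} [x4 : NormedSpace ℂ x1] : Module ℝ (x1 →L[ℝ] Fin x3 → ℝ) := inferInstance
theorem a19 : IsTopologicalDivisionRing ℂ := inferInstance
theorem a20.{u1} {x1 : Type u1} [x2 : NormedAddCommGroup x1] [x3 : NormedSpace ℂ x1] : IsTopologicalAddGroup (x1 →L[ℝ] ℂ) := inferInstance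
@[reducible] noncomputable def a21.{u1} {x1 : Type u1} [x2 : NormedAddCommGroup x1] {x3 : ℕ} [x4 : NormedSpace ℂ x1] : TopologicalSpace (x1 →L[ℝ] Fin x3 → ℝ) := inferInstance
@[reducible] noncomputable def a22.{u1} {x1 : Type u1} [x2 : NormedAddCommGroup x1] [x3 : NormedSpace ℂ x1] : Module ℝ (x1 →ₗ[ℝ] x1) := inferInstance
@[reducible] def a23.{u1} {x1 : Type u1} [x2 : NormedAddCommGroup x1] [x3 : NormedSpace ℂ x1] : AddCommGroup (x1 →L[ℂ] x1) := inferInstance
@[reducible] def a24.{u1} {x1 : Type u1} [x2 : NormedAddCommGroup x1] [x3 : NormedSpace ℂ x1] : AddZeroClass (x1 →L[ℂ] x1) := inferInstance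
@[reducible] def a25.{u1} {x1 : Type u1} [x2 : NormedAddCommGroup x1] [x3 : NormedSpace ℂ x1] : AddMonoid (x1 →L[ℂ] x1) := inferInstance
theorem a26 : IsBoundedSMul ℝ ℂ := inferInstance
@[reducible] noncomputable def a27 {x1 : ℕ} {x2 : Ideal (MvPolynomial (Fin x1) ℂ)} : Ring (MvPolynomial (Fin x1) ℂ ⧸ x2) := inferInstance
@[reducible] def a28 : Monoid ℂ := inferInstance
theorem a29 : IsTopologicalSemiring ℂ := inferInstance
@[reducible] noncomputable def a30 {x1 : ℕ} {x2 : Ideal (MvPolynomial (Fin x1) ℂ)} : Semiring (MvPolynomial (Fin x1) ℂ ⧸ x2) := inferInstance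
theorem a31 {x1 : ℕ} : ContinuousConstSMul ℝ (Fin x1 → ℝ) := inferInstance
@[reducible] def a32.{u1} {x1 : Type u1} [x2 : NormedAddCommGroup x1] [x3 : NormedSpace ℂ x1] : AddZero (x1 →L[ℂ] x1) := inferInstance
@[reducible] noncomputable def a33 : NormedSpace ℝ ℂ := inferInstance
@[reducible] noncomputable def a34.{u1} {x1 : Type u1} [x2 : NormedAddCommGroup x1] [x3 : NormedSpace ℂ x1] : SeminormedAddCommGroup (x1 →L[ℝ] ℂ) := inferInstance
@[reducible] noncomputable def a35.{u1} {x1 : Type u1} [x2 : NormedAddCommGroup x1] [x3 : NormedSpace ℂ x1] : Add (x1 →L[ℝ] ℂ) := inferInstance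
@[reducible] noncomputable def a36.{u1} {x1 : Type u1} [x2 : NormedAddCommGroup x1] [x3 : NormedSpace ℂ x1] : NormedSpace ℂ (x1 →L[ℂ] x1) := inferInstance
@[reducible] noncomputable def a37.{u1} {x1 : Type u1} [x2 : NormedAddCommGroup x1] [x3 : NormedSpace ℂ x1] : TopologicalSpace (x1 →L[ℂ] x1) := inferInstance
@[reducible] noncomputable def a38.{u1} {x1 : Type u1} [x2 : NormedAddCommGroup x1] [x3 : NormedSpace ℂ x1] : AddMonoid (x1 →L[ℝ] ℂ) := inferInstance
@[reducible] noncomputable def a39 : SMul ℝ ℂ := inferInstance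
@[reducible] noncomputable def a40.{u1} {x1 : Type u1} [x2 : NormedAddCommGroup x1] {x3 : ℕ} [x4 : NormedSpace ℂ x1] : AddCommMonoid (x1 →L[ℝ] Fin x3 → ℝ) := inferInstance
@[reducible] noncomputable def a41 {x1 : ℕ} {x2 : Ideal (MvPolynomial (Fin x1) ℂ)} : NonAssocSemiring (MvPolynomial (Fin x1) ℂ ⧸ x2) := inferInstance
end AFast1199ebx9a
attribute [local instance] AFast1199ebx9a.a0 AFast1199ebx9a.a1 AFast1199ebx9a.a2 AFast1199ebx9a.a3
  AFast1199ebx9a.a4 AFast1199ebx9a.a5 AFast1199ebx9a.a6 AFast1199ebx9a.a7 AFast1199ebx9a.a8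
  AFast1199ebx9a.a9 AFast1199ebx9a.a10 AFast1199ebx9a.a11 AFast1199ebx9a.a12 AFast1199ebx9a.a13
  AFast1199ebx9a.a14 AFast1199ebx9a.a15 AFast1199ebx9a.a16 AFast1199ebx9a.a17 AFast1199ebx9a.a18
  AFast1199ebx9a.a19 AFast1199ebx9a.a20 AFast1199ebx9a.a21 AFast1199ebx9a.a22 AFast1199ebx9a.a23
  AFast1199ebx9a.a24 AFast1199ebx9a.a25 AFast1199ebx9a.a26 AFast1199ebx9a.a27 AFast1199ebx9a.a28
  AFast1199ebx9a.a29 AFast1199ebx9a.a30 AFast1199ebx9a.a31 AFast1199ebx9a.a32 AFast1199ebx9a.a33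
  AFast1199ebx9a.a34 AFast1199ebx9a.a35 AFast1199ebx9a.a36 AFast1199ebx9a.a37 AFast1199ebx9a.a38
  AFast1199ebx9a.a39 AFast1199ebx9a.a40 AFast1199ebx9a.a41
namespace AFast1199ebx9b
@[reducible] noncomputable def a0.{u1} {x1 : Type u1} [x2 : NormedAddCommGroup x1] [x3 : NormedSpace ℂ x1] : Module ℝ (x1 →L[ℝ] ℂ) := inferInstance
theorem a1.{u1} {x1 : Type u1} [x2 : NormedAddCommGroup x1] [x3 : NormedSpace ℂ x1] : ContinuousSMul ℝ (x1 →L[ℂ] x1) := inferInstance
@[reducible] noncomputable def a2.{u1} {x1 : Type u1} [x2 : NormedAddCommGroup x1] [x3 : NormedSpace ℂ x1] : Module ℝ (x1 →L[ℝ] x1 →L[ℝ] ℂ) := inferInstance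
theorem a3.{u1} {x1 : Type u1} [x2 : NormedAddCommGroup x1] [x3 : NormedSpace ℂ x1] : IsBoundedSMul ℝ (x1 →L[ℂ] x1) := inferInstance
theorem a4.{u1} {x1 : Type u1} [x2 : NormedAddCommGroup x1] [x3 : NormedSpace ℂ x1] : SemilinearMapClass (x1 →L[ℝ] x1 →L[ℝ] ℂ) (RingHom.id ℝ) x1 (x1 →L[ℝ] ℂ) := inferInstance
@[reducible] noncomputable def a5.{u1} {x1 : Type u1} [x2 : NormedAddCommGroup x1] [x3 : NormedSpace ℂ x1] : SMulZeroClass ℝ (x1 →L[ℂ] x1) := inferInstance
@[reducible] noncomputable def a6.{u1} {x1 : Type u1} [x2 : NormedAddCommGroup x1] [x3 : NormedSpace ℂ x1] : DistribSMul ℝ (x1 →L[ℂ] x1) := inferInstance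
theorem a7 : SMulCommClass ℝ ℝ ℂ := inferInstance
theorem a8.{u1} {x1 : Type u1} [x2 : NormedAddCommGroup x1] [x3 : NormedSpace ℂ x1] : ContinuousAdd (x1 →L[ℝ] ℂ) := inferInstance
@[reducible] noncomputable def a9.{u1} {x1 : Type u1} [x2 : NormedAddCommGroup x1] [x3 : NormedSpace ℂ x1] : DistribMulAction ℝ (x1 →L[ℂ] x1) := inferInstance
@[reducible] noncomputable def a10.{u1} {x1 : Type u1} [x2 : NormedAddCommGroup x1] [x3 : NormedSpace ℂ x1] : Module ℝ (x1 →L[ℂ] x1) := inferInstance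
@[reducible] noncomputable def a11.{u1} {x1 : Type u1} [x2 : NormedAddCommGroup x1] [x3 : NormedSpace ℂ x1] : AddCommMonoid (x1 →L[ℝ] x1 →L[ℝ] ℂ) := inferInstance
theorem a12.{u1} {x1 : Type u1} [x2 : NormedAddCommGroup x1] [x3 : NormedSpace ℂ x1] : SMulCommClass ℝ ℝ (x1 →L[ℝ] ℂ) := inferInstance
theorem a13.{u1} {x1 : Type u1} [x2 : NormedAddCommGroup x1] [x3 : NormedSpace ℂ x1] : ZeroHomClass (x1 →L[ℝ] x1 →L[ℝ] ℂ) x1 (x1 →L[ℝ] ℂ) := inferInstance
theorem a14.{u1} {x1 : Type u1} [x2 : NormedAddCommGroup x1] [x3 : NormedSpace ℂ x1] : AddMonoidHomClass (x1 →L[ℝ] x1 →L[ℝ] ℂ) x1 (x1 →L[ℝ] ℂ) := inferInstance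
theorem a15.{u1} {x1 : Type u1} [x2 : NormedAddCommGroup x1] [x3 : NormedSpace ℂ x1] : ContinuousConstSMul ℝ (x1 →L[ℝ] ℂ) := inferInstance
theorem a16.{u1} {x1 : Type u1} [x2 : NormedAddCommGroup x1] [x3 : NormedSpace ℂ x1] : DistribMulActionSemiHomClass (x1 →L[ℝ] x1 →L[ℝ] ℂ) (⇑(RingHom.id ℝ)) x1 (x1 →L[ℝ] ℂ) := inferInstance
theorem a17.{u1} {x1 : Type u1} [x2 : NormedAddCommGroup x1] [x3 : NormedSpace ℂ x1] : AddHomClass (x1 →L[ℝ] x1 →L[ℝ] ℂ) x1 (x1 →L[ℝ] ℂ) := inferInstance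
@[reducible] noncomputable def a18.{u1} {x1 : Type u1} [x2 : NormedAddCommGroup x1] [x3 : NormedSpace ℂ x1] : SMul ℝ (x1 →L[ℂ] x1) := inferInstance
@[reducible] noncomputable def a19.{u1} {x1 : Type u1} [x2 : NormedAddCommGroup x1] [x3 : NormedSpace ℂ x1] : NormedSpace ℝ (x1 →L[ℝ] x1 →L[ℝ] ℂ) := inferInstance
@[reducible] noncomputable def a20.{u1} {x1 : Type u1} [x2 : NormedAddCommGroup x1] [x3 : NormedSpace ℂ x1] : SMul ℝ (x1 →L[ℝ] ℂ) := inferInstance
@[reducible] def a21.{u1} {x1 : Type u1} [x2 : NormedAddCommGroup x1] [x3 : NormedSpace ℂ x1] : Module ℂ (x1 →L[ℂ] x1) := inferInstance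
@[reducible] def a22.{u1} {x1 : Type u1} [x2 : NormedAddCommGroup x1] [x3 : NormedSpace ℂ x1] : SMul ℂ (x1 →L[ℂ] x1) := inferInstance
theorem a23.{u1} {x1 : Type u1} [x2 : NormedAddCommGroup x1] [x3 : NormedSpace ℂ x1] : MulActionSemiHomClass (x1 →L[ℝ] x1 →L[ℝ] ℂ) (⇑(RingHom.id ℝ)) x1 (x1 →L[ℝ] ℂ) := inferInstance
@[reducible] noncomputable def a24.{u1} {x1 : Type u1} [x2 : NormedAddCommGroup x1] [x3 : NormedSpace ℂ x1] : NormedSpace ℝ (x1 →L[ℂ] x1) := inferInstance
@[reducible] noncomputable def a25.{u1} {x1 : Type u1} [x2 : NormedAddCommGroup x1] [x3 : NormedSpace ℂ x1] : NormedSpace ℝ (x1 →L[ℝ] ℂ) := inferInstance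
theorem a26 {x1 : ℕ} : IsIntegralClosure (MvPolynomial (Fin x1) ℂ) (MvPolynomial (Fin x1) ℂ) (FractionRing (MvPolynomial (Fin x1) ℂ)) := inferInstance
theorem a27 {x1 : ℕ} : IsIntegrallyClosed (MvPolynomial (Fin x1) ℂ) := inferInstance
@[reducible] def a28.{u1} {x1 : Type u1} [x2 : NormedAddCommGroup x1] [x3 : NormedSpace ℂ x1] : SMulZeroClass ℂ (x1 →L[ℂ] x1) := inferInstance
@[reducible] def a29.{u1} {x1 : Type u1} [x2 : NormedAddCommGroup x1] [x3 : NormedSpace ℂ x1] : DistribSMul ℂ (x1 →L[ℂ] x1) := inferInstance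
theorem a30.{u1} {x1 : Type u1} [x2 : NormedAddCommGroup x1] [x3 : NormedSpace ℂ x1] : SemilinearMapClass (x1 →L[ℝ] ℂ) (RingHom.id ℝ) x1 ℂ := inferInstance
@[reducible] noncomputable def a31.{u1} {x1 : Type u1} [x2 : NormedAddCommGroup x1] [x3 : NormedSpace ℂ x1] : NormedAddCommGroup (x1 →L[ℝ] x1 →L[ℝ] ℂ) := inferInstance
theorem a32.{u1} {x1 : Type u1} [x2 : NormedAddCommGroup x1] {x3 : ℕ} [x4 : NormedSpace ℂ x1] : SemilinearMapClass (x1 →L[ℝ] x1 →L[ℝ] Fin x3 → ℝ) (RingHom.id ℝ) x1 (x1 →L[ℝ] Fin x3 → ℝ) := inferInstance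
theorem a33.{u1} {x1 : Type u1} [x2 : NormedAddCommGroup x1] [x3 : NormedSpace ℂ x1] : ZeroHomClass (x1 →L[ℝ] ℂ) x1 ℂ := inferInstance
theorem a34.{u1} {x1 : Type u1} [x2 : NormedAddCommGroup x1] [x3 : NormedSpace ℂ x1] : AddMonoidHomClass (x1 →L[ℝ] ℂ) x1 ℂ := inferInstance
@[reducible] noncomputable def a35.{u1} {x1 : Type u1} [x2 : NormedAddCommGroup x1] [x3 : NormedSpace ℂ x1] : SMul ℝ (x1 →L[ℝ] x1) := inferInstance
theorem a36.{u1} {x1 : Type u1} [x2 : NormedAddCommGroup x1] [x3 : NormedSpace ℂ x1] : DistribMulActionSemiHomClass (x1 →L[ℝ] ℂ) (⇑(RingHom.id ℝ)) x1 ℂ := inferInstance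
@[reducible] def a37.{u1} {x1 : Type u1} [x2 : NormedAddCommGroup x1] [x3 : NormedSpace ℂ x1] : DistribMulAction ℂ (x1 →L[ℂ] x1) := inferInstance
@[reducible] noncomputable def a38.{u1} {x1 : Type u1} [x2 : NormedAddCommGroup x1] [x3 : NormedSpace ℂ x1] : PseudoMetricSpace (x1 →L[ℝ] x1 →L[ℝ] ℂ) := inferInstance
@[reducible] noncomputable def a39.{u1} {x1 : Type u1} [x2 : NormedAddCommGroup x1] [x3 : NormedSpace ℂ x1] : SeminormedAddCommGroup (x1 →L[ℝ] x1 →L[ℝ] ℂ) := inferInstance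
@[reducible] noncomputable def a40.{u1} {x1 : Type u1} [x2 : NormedAddCommGroup x1] [x3 : NormedSpace ℂ x1] {x4 : Set x1} {x5 : x1 → x1 →L[ℝ] x1 →L[ℝ] ℂ} : SMul ℝ ↥(Vale.Agent.P274.V.Kil x4 x5) := inferInstance
theorem a41.{u1} {x1 : Type u1} [x2 : NormedAddCommGroup x1] [x3 : NormedSpace ℂ x1] : SemilinearMapClass (x1 →L[ℝ] x1 →L[ℝ] x1 →L[ℝ] ℂ) (RingHom.id ℝ) x1 (x1 →L[ℝ] x1 →L[ℝ] ℂ) := inferInstance
@[reducible] noncomputable def a42.{u1} {x1 : Type u1} [x2 : NormedAddCommGroup x1] [x3 : NormedSpace ℂ x1] : Add (x1 →L[ℝ] x1 →L[ℝ] ℂ) := inferInstance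
theorem a43.{u1} {x1 : Type u1} [x2 : NormedAddCommGroup x1] [x3 : NormedSpace ℂ x1] : IsScalarTower ℝ ℂ (x1 →L[ℂ] x1) := inferInstance
theorem a44.{u1} {x1 : Type u1} [x2 : NormedAddCommGroup x1] [x3 : NormedSpace ℂ x1] : IsScalarTower ℝ ℝ (x1 → x1) := inferInstance
@[reducible] noncomputable def a45 {x1 : ℕ} : DistribMulAction (MvPolynomial (Fin x1) ℂ) (MvPolynomial (Fin x1) ℂ) := inferInstance
theorem a46.{u1} {x1 : Type u1} [x2 : NormedAddCommGroup x1] [x3 : NormedSpace ℂ x1] : AddHomClass (x1 →L[ℝ] ℂ) x1 ℂ := inferInstance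
theorem a47.{u1} {x1 : Type u1} [x2 : NormedAddCommGroup x1] [x3 : NormedSpace ℂ x1] : SemilinearMapClass (x1 →L[ℝ] ℝ) (RingHom.id ℝ) x1 ℝ := inferInstance
theorem a48 {x1 : ℕ} : AddMonoidHomClass (MvPolynomial (Fin x1) ℂ →+* ℂ) (MvPolynomial (Fin x1) ℂ) ℂ := inferInstance
@[reducible] noncomputable def a49.{u1} {x1 : Type u1} [x2 : NormedAddCommGroup x1] [x3 : NormedSpace ℂ x1] : UniformSpace (x1 →L[ℝ] x1 →L[ℝ] ℂ) := inferInstance
@[reducible] noncomputable def a50.{u1} {x1 : Type u1} [x2 : NormedAddCommGroup x1] [x3 : NormedSpace ℂ x1] : DistribSMul ℝ (x1 →L[ℝ] ℂ) := inferInstance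
theorem a51.{u1} {x1 : Type u1} [x2 : NormedAddCommGroup x1] [x3 : NormedSpace ℂ x1] : MulActionSemiHomClass (x1 →L[ℂ] x1) (⇑(RingHom.id ℂ)) x1 x1 := inferInstance
theorem a52.{u1} {x1 : Type u1} [x2 : NormedAddCommGroup x1] [x3 : NormedSpace ℂ x1] : SemilinearMapClass (x1 →L[ℂ] x1) (RingHom.id ℂ) x1 x1 := inferInstance
theorem a53.{u1} {x1 : Type u1} [x2 : NormedAddCommGroup x1] [x3 : NormedSpace ℂ x1] : IsScalarTower ℂ ℂ (x1 →L[ℂ] x1) := inferInstance
@[reducible] noncomputable def a54.{u1} {x1 : Type u1} [x2 : NormedAddCommGroup x1] [x3 : NormedSpace ℂ x1] : DistribMulAction ℝ (x1 →L[ℝ] ℂ) := inferInstance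
end AFast1199ebx9b
attribute [local instance] AFast1199ebx9b.a0 AFast1199ebx9b.a1 AFast1199ebx9b.a2 AFast1199ebx9b.a3
  AFast1199ebx9b.a4 AFast1199ebx9b.a5 AFast1199ebx9b.a6 AFast1199ebx9b.a7 AFast1199ebx9b.a8
  AFast1199ebx9b.a9 AFast1199ebx9b.a10 AFast1199ebx9b.a11 AFast1199ebx9b.a12 AFast1199ebx9b.a13
  AFast1199ebx9b.a14 AFast1199ebx9b.a15 AFast1199ebx9b.a16 AFast1199ebx9b.a17 AFast1199ebx9b.a18
  AFast1199ebx9b.a19 AFast1199ebx9b.a20 AFast1199ebx9b.a21 AFast1199ebx9b.a22 AFast1199ebx9b.a23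
  AFast1199ebx9b.a24 AFast1199ebx9b.a25 AFast1199ebx9b.a26 AFast1199ebx9b.a27 AFast1199ebx9b.a28
  AFast1199ebx9b.a29 AFast1199ebx9b.a30 AFast1199ebx9b.a31 AFast1199ebx9b.a32 AFast1199ebx9b.a33
  AFast1199ebx9b.a34 AFast1199ebx9b.a35 AFast1199ebx9b.a36 AFast1199ebx9b.a37 AFast1199ebx9b.a38
  AFast1199ebx9b.a39 AFast1199ebx9b.a40 AFast1199ebx9b.a41 AFast1199ebx9b.a42 AFast1199ebx9b.a43
  AFast1199ebx9b.a44 AFast1199ebx9b.a45 AFast1199ebx9b.a46 AFast1199ebx9b.a47 AFast1199ebx9b.a48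
  AFast1199ebx9b.a49 AFast1199ebx9b.a50 AFast1199ebx9b.a51 AFast1199ebx9b.a52 AFast1199ebx9b.a53
  AFast1199ebx9b.a54
section

/-! Noether normalization data of an irreducible affine variety (TASK Z1). -/

open Polynomial

namespace Vale.Agent.P274.Z

section alg

variable {A R : Type*} [CommRing A] [IsDomain A] [CommRing R] [IsDomain R] [Algebra A R]

theorem coeff_zero_ne {s : R} (hi : IsIntegral A s) (hs : s ≠ 0) :
    (minpoly A s).coeff 0 ≠ 0 := by
  intro h0
  have h := (minpoly A s).divX_mul_X_add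
  rw [h0, C_0, add_zero] at h
  have hm : ((minpoly A s).divX * X).Monic := by rw [h]; exact minpoly.monic hi
  have hm2 : (minpoly A s).divX.Monic := Monic.of_mul_monic_left monic_X (by rw [mul_comm]; exact hm)
  have hne : aeval s (minpoly A s).divX ≠ 0 := by
    refine minpoly.aeval_ne_zero_of_dvdNotUnit_minpoly hi hm2 ?_
    exact ⟨hm2.ne_zero, X, not_isUnit_X, h.symm⟩
  have h2 := congrArg (aeval s) h
  rw [minpoly.aeval, map_mul, aeval_X] at h2
  exact (mul_ne_zero hne hs) h2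

theorem exists_mul_eq_algebraMap [Algebra.IsIntegral A R]
    (s : R) (hs : s ≠ 0) : ∃ s' : R, ∃ a : A, a ≠ 0 ∧ s * s' = algebraMap A R a := by
  have hi : IsIntegral A s := Algebra.IsIntegral.isIntegral s
  refine ⟨- aeval s (minpoly A s).divX, (minpoly A s).coeff 0, coeff_zero_ne hi hs, ?_⟩
  have h := congrArg (aeval s) (minpoly A s).divX_mul_X_add
  rw [minpoly.aeval, map_add, map_mul, aeval_X, aeval_C] at h
  linear_combination -h

variable (K L : Type*) [Field K] [Field L] [Algebra A K] [IsFractionRing A K] [Algebra R L]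
  [IsFractionRing R L] [Algebra K L] [Algebra A L] [IsScalarTower A K L] [IsScalarTower A R L]

include R in
theorem exists_denom [Algebra.IsIntegral A R] (x : L) :
    ∃ (r : R) (a : A), a ≠ 0 ∧ algebraMap A L a * x = algebraMap R L r := by
  obtain ⟨r, s, hs, rfl⟩ := IsFractionRing.div_surjective (A := R) x
  have hs0 : s ≠ 0 := nonZeroDivisors.ne_zero hs
  obtain ⟨s', a, ha, h⟩ := exists_mul_eq_algebraMap (A := A) s hs0
  refine ⟨r * s', a, ha, ?_⟩
  have hsL : algebraMap R L s ≠ 0 := by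
    intro h0
    exact hs0 ((IsFractionRing.injective R L) (by rw [h0, map_zero]))
  rw [IsScalarTower.algebraMap_apply A R L, ← h, map_mul, map_mul]
  field_simp

include R in
theorem finKL [Module.Finite A R] : FiniteDimensional K L := by
  have : Algebra.IsIntegral A R := inferInstance
  obtain ⟨T, hT⟩ := Module.Finite.fg_top (R := A) (M := R)
  classical
  refine ⟨⟨T.image (algebraMap R L), ?_⟩⟩
  rw [eq_top_iff]
  intro x _
  obtain ⟨r, a, ha, hx⟩ := exists_denom (A := A) (R := R) L x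
  have hr : r ∈ Submodule.span A (T : Set R) := by rw [hT]; trivial
  have key : ∀ r ∈ Submodule.span A (T : Set R),
      algebraMap R L r ∈ Submodule.span K ((T.image (algebraMap R L) : Finset L) : Set L) := by
    intro r hr
    induction hr using Submodule.span_induction with
    | mem x hx => exact Submodule.subset_span (by
        simp only [Finset.coe_image]; exact ⟨x, hx, rfl⟩)
    | zero => simp
    | add x y _ _ hx hy => rw [map_add]; exact Submodule.add_mem _ hx hy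
    | smul a x _ hx =>
      rw [Algebra.smul_def, map_mul, ← IsScalarTower.algebraMap_apply A R L,
        IsScalarTower.algebraMap_apply A K L, ← Algebra.smul_def]
      exact Submodule.smul_mem _ _ hx
  have h2 := key r hr
  rw [← hx, IsScalarTower.algebraMap_apply A K L, ← Algebra.smul_def] at h2
  have haK : algebraMap A K a ≠ 0 := by
    intro h0
    exact ha ((IsFractionRing.injective A K) (by rw [h0, map_zero]))
  have h3 := Submodule.smul_mem _ (algebraMap A K a)⁻¹ h2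
  rwa [smul_smul, inv_mul_cancel₀ haK, one_smul] at h3

end alg

section prim

variable {A R : Type*} [CommRing A] [IsDomain A] [IsIntegrallyClosed A] [CharZero A]
  [CommRing R] [IsDomain R] [Algebra A R] [Module.Finite A R]

omit [IsDomain A] [IsIntegrallyClosed A] in
/-- clearing denominators -/
theorem exists_clear (K : Type*) [Field K] [Algebra A K] [IsFractionRing A K] (p : K[X]) :
    ∃ (q : A[X]) (b : A), b ≠ 0 ∧ q.map (algebraMap A K) = C (algebraMap A K b) * p := by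
  obtain ⟨b, hb, h⟩ := IsLocalization.integerNormalization_spec (nonZeroDivisors A) p
  refine ⟨IsLocalization.integerNormalization (nonZeroDivisors A) p, b,
    nonZeroDivisors.ne_zero hb, ?_⟩
  rw [h, Algebra.smul_def, IsScalarTower.algebraMap_apply A K K[X]]
  rfl

theorem exists_primitive (hinj : Function.Injective (algebraMap A R)) :
    ∃ (θ : R), (∃ δ : A, δ ≠ 0 ∧ ∃ u v : A[X],
        u * minpoly A θ + v * derivative (minpoly A θ) = C δ) ∧
      ∀ x : R, ∃ δ : A, δ ≠ 0 ∧ ∃ p : A[X], algebraMap A R δ * x = aeval θ p := by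
  have : Algebra.IsIntegral A R := inferInstance
  have : FaithfulSMul A R := (faithfulSMul_iff_algebraMap_injective A R).2 hinj
  let K := FractionRing A
  let L := FractionRing R
  let : Algebra K L := FractionRing.liftAlgebra A L
  have : IsScalarTower A K L := inferInstance
  have : FiniteDimensional K L := finKL (A := A) (R := R) K L
  have : CharZero K := charZero_of_injective_algebraMap (IsFractionRing.injective A K)
  obtain ⟨α, hα⟩ := Field.exists_primitive_element K L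
  obtain ⟨θ, a, ha, hθ⟩ := exists_denom (A := A) (R := R) L α
  have haK : algebraMap A K a ≠ 0 := by
    intro h0
    exact ha ((IsFractionRing.injective A K) (by rw [h0, map_zero]))
  have hθi : IsIntegral A θ := Algebra.IsIntegral.isIntegral θ
  have htop : IntermediateField.adjoin K {algebraMap R L θ} = ⊤ := by
    rw [eq_top_iff, ← hα, IntermediateField.adjoin_simple_le_iff]
    have h1 : algebraMap R L θ ∈ IntermediateField.adjoin K {algebraMap R L θ} :=
      IntermediateField.mem_adjoin_simple_self _ _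
    have h2 : α = (algebraMap A K a)⁻¹ • algebraMap R L θ := by
      rw [← hθ, IsScalarTower.algebraMap_apply A K L, ← Algebra.smul_def, smul_smul,
        inv_mul_cancel₀ haK, one_smul]
    rw [h2]
    exact IntermediateField.smul_mem _ h1
  have hmin := minpoly.isIntegrallyClosed_eq_field_fractions K L hθi
  refine ⟨θ, ?_, ?_⟩
  · have hirr : Irreducible (minpoly K (algebraMap R L θ)) :=
      minpoly.irreducible (Algebra.IsIntegral.isIntegral _)
    have hsep : (minpoly K (algebraMap R L θ)).Separable := hirr.separable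
    obtain ⟨u, v, huv⟩ := hsep
    obtain ⟨U, b, hb, hU⟩ := exists_clear (A := A) K u
    obtain ⟨V, c, hc, hV⟩ := exists_clear (A := A) K v
    refine ⟨b * c, mul_ne_zero hb hc, C c * U, C b * V, ?_⟩
    apply Polynomial.map_injective (algebraMap A K) (IsFractionRing.injective A K)
    rw [Polynomial.map_add, Polynomial.map_mul, Polynomial.map_mul, Polynomial.map_mul,
      Polynomial.map_mul, hU, hV, ← derivative_map, ← hmin]
    simp only [Polynomial.map_C, map_mul, Polynomial.map_mul]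
    linear_combination (C (algebraMap A K b) * C (algebraMap A K c)) * huv
  · intro x
    have hx : algebraMap R L x ∈ IntermediateField.adjoin K {algebraMap R L θ} := by
      rw [htop]; trivial
    rw [← IntermediateField.mem_toSubalgebra,
      IntermediateField.adjoin_simple_toSubalgebra_of_isAlgebraic
        (Algebra.IsAlgebraic.isAlgebraic _), Algebra.adjoin_singleton_eq_range_aeval] at hx
    obtain ⟨p, hp⟩ := hx
    obtain ⟨q, b, hb, hq⟩ := exists_clear (A := A) K p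
    refine ⟨b, hb, q, ?_⟩
    apply IsFractionRing.injective R L
    rw [map_mul, ← IsScalarTower.algebraMap_apply A R L, ← aeval_algebraMap_apply]
    rw [← Polynomial.aeval_map_algebraMap K, hq, map_mul, aeval_C,
      ← IsScalarTower.algebraMap_apply A K L]
    congr 1
    exact hp.symm

end prim

/-- The zero set of an ideal of polynomials. -/
def VV {N : ℕ} (P : Ideal (MvPolynomial (Fin N) ℂ)) : Set (Fin N → ℂ) :=
  {z | ∀ f ∈ P, MvPolynomial.eval z f = 0}

/-- Evaluate the coefficients of `m` at `b` and the variable at `y`. -/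
noncomputable def ev2 {n : ℕ} (m : Polynomial (MvPolynomial (Fin n) ℂ)) (b : Fin n → ℂ) (y : ℂ) : ℂ :=
  (m.map (MvPolynomial.eval b)).eval y

/-- The projection with components `t`. -/
noncomputable def prt {N n : ℕ} (t : Fin n → MvPolynomial (Fin N) ℂ) (z : Fin N → ℂ) : Fin n → ℂ :=
  fun j => MvPolynomial.eval z (t j)

/-- Noether normalization data of a prime ideal: `prt t : VV P → ℂ^n` is finite, `θ` is a
primitive element with minimal polynomial `m`, and outside the zero set of `Δ` the fibres are in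
bijection with the roots of `m`. -/
structure NData {N : ℕ} (P : Ideal (MvPolynomial (Fin N) ℂ)) where
  n : ℕ
  t : Fin n → MvPolynomial (Fin N) ℂ
  θ : MvPolynomial (Fin N) ℂ
  m : Polynomial (MvPolynomial (Fin n) ℂ)
  Δ : MvPolynomial (Fin n) ℂ
  p : Fin N → Polynomial (MvPolynomial (Fin n) ℂ)
  c : Fin N → Polynomial (MvPolynomial (Fin n) ℂ)
  m_monic : m.Monic
  c_monic : ∀ i, (c i).Monic
  Δ_ne : Δ ≠ 0
  sep : ∃ u v : Polynomial (MvPolynomial (Fin n) ℂ), u * m + v * derivative m = C Δ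
  m_root : ∀ z ∈ VV P, ev2 m (prt t z) (MvPolynomial.eval z θ) = 0
  p_eq : ∀ z ∈ VV P, ∀ i, MvPolynomial.eval (prt t z) Δ * z i =
    ev2 (p i) (prt t z) (MvPolynomial.eval z θ)
  c_root : ∀ z ∈ VV P, ∀ i, ev2 (c i) (prt t z) (z i) = 0
  /-- every polynomial function `v` on the variety has a monic equation all of whose roots are
  attained on the fibres -/
  lift : ∀ v : MvPolynomial (Fin N) ℂ, ∃ χ : Polynomial (MvPolynomial (Fin n) ℂ), χ.Monic ∧
    (∀ z ∈ VV P, ev2 χ (prt t z) (MvPolynomial.eval z v) = 0) ∧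
    ∀ b y, ev2 χ b y = 0 → ∃ z ∈ VV P, prt t z = b ∧ MvPolynomial.eval z v = y
  m_lift : ∀ b y, ev2 m b y = 0 → ∃ z ∈ VV P, prt t z = b ∧ MvPolynomial.eval z θ = y
  norm : ∀ H : MvPolynomial (Fin N) ℂ, H ∉ P → ∃ h : MvPolynomial (Fin n) ℂ, h ≠ 0 ∧
    ∀ z ∈ VV P, MvPolynomial.eval z H = 0 → MvPolynomial.eval (prt t z) h = 0


section main

variable {N : ℕ} {P : Ideal (MvPolynomial (Fin N) ℂ)}

theorem aeval_eval {n : ℕ} (z : Fin n → ℂ) (f : MvPolynomial (Fin n) ℂ) :
    MvPolynomial.aeval z f = MvPolynomial.eval z f := by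
  rw [MvPolynomial.aeval_def, MvPolynomial.eval, Algebra.algebraMap_self]
  rfl

/-- Evaluation of the coordinate ring at a point of the variety. -/
noncomputable def evz (z : Fin N → ℂ) (hz : z ∈ VV P) : (MvPolynomial (Fin N) ℂ ⧸ P) →ₐ[ℂ] ℂ :=
  Ideal.Quotient.liftₐ P (MvPolynomial.aeval z) (fun f hf => by
    rw [aeval_eval]; exact hz f hf)

theorem evz_mk (z : Fin N → ℂ) (hz : z ∈ VV P) (f : MvPolynomial (Fin N) ℂ) :
    evz z hz (Ideal.Quotient.mk P f) = MvPolynomial.eval z f := by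
  rw [← aeval_eval]
  rfl

theorem evz_g {n : ℕ} (g : MvPolynomial (Fin n) ℂ →ₐ[ℂ] (MvPolynomial (Fin N) ℂ ⧸ P))
    (t : Fin n → MvPolynomial (Fin N) ℂ) (ht : ∀ j, Ideal.Quotient.mk P (t j) = g (MvPolynomial.X j))
    (z : Fin N → ℂ) (hz : z ∈ VV P) (a : MvPolynomial (Fin n) ℂ) :
    evz z hz (g a) = MvPolynomial.eval (prt t z) a := by
  have h : (evz z hz).comp g = MvPolynomial.aeval (prt t z) := by
    apply MvPolynomial.algHom_ext
    intro j
    rw [AlgHom.comp_apply, ← ht j, evz_mk, MvPolynomial.aeval_X]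
    rfl
  have h2 := DFunLike.congr_fun h a
  rw [AlgHom.comp_apply, aeval_eval] at h2
  exact h2

theorem ev2_aeval {n : ℕ} (g : MvPolynomial (Fin n) ℂ →ₐ[ℂ] (MvPolynomial (Fin N) ℂ ⧸ P))
    (t : Fin n → MvPolynomial (Fin N) ℂ) (ht : ∀ j, Ideal.Quotient.mk P (t j) = g (MvPolynomial.X j))
    (z : Fin N → ℂ) (hz : z ∈ VV P) (m : Polynomial (MvPolynomial (Fin n) ℂ))
    (v : MvPolynomial (Fin N) ℂ) :
    evz z hz (eval₂ g.toRingHom (Ideal.Quotient.mk P v) m) =
      ev2 m (prt t z) (MvPolynomial.eval z v) := by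
  rw [ev2, eval_map, ← evz_mk z hz v]
  have h := hom_eval₂ m g.toRingHom (evz z hz).toRingHom (Ideal.Quotient.mk P v)
  have h3 : ((evz z hz).toRingHom).comp g.toRingHom = MvPolynomial.eval (prt t z) := by
    ext a
    · simp
    · exact evz_g g t ht z hz _
  rw [h3] at h
  exact h

theorem exists_point (Q : Ideal (MvPolynomial (Fin N) ℂ ⧸ P)) (hQ : Q.IsMaximal) :
    ∃ z, ∃ hz : z ∈ VV P, ∀ r, evz z hz r = 0 ↔ r ∈ Q := by
  have h1 : (Q.comap (Ideal.Quotient.mk P)).IsMaximal :=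
    Ideal.comap_isMaximal_of_surjective _ Ideal.Quotient.mk_surjective
  obtain ⟨z, hz⟩ := MvPolynomial.isMaximal_iff_eq_vanishingIdeal_singleton.1 h1
  have hm : ∀ f : MvPolynomial (Fin N) ℂ, Ideal.Quotient.mk P f ∈ Q ↔ MvPolynomial.eval z f = 0 := by
    intro f
    rw [← Ideal.mem_comap, hz, MvPolynomial.mem_vanishingIdeal_singleton_iff, aeval_eval]
  have hzV : z ∈ VV P := by
    intro f hf
    rw [← hm, Ideal.Quotient.eq_zero_iff_mem.2 hf]
    exact Q.zero_mem
  refine ⟨z, hzV, fun r => ?_⟩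
  obtain ⟨f, rfl⟩ := Ideal.Quotient.mk_surjective r
  rw [evz_mk, hm]

theorem lift_pt {n : ℕ} (hP : P.IsPrime)
    (g : MvPolynomial (Fin n) ℂ →ₐ[ℂ] (MvPolynomial (Fin N) ℂ ⧸ P))
    (hg : Function.Injective g) (hi : g.toRingHom.IsIntegral)
    (t : Fin n → MvPolynomial (Fin N) ℂ) (ht : ∀ j, Ideal.Quotient.mk P (t j) = g (MvPolynomial.X j))
    (v : MvPolynomial (Fin N) ℂ) (χ : Polynomial (MvPolynomial (Fin n) ℂ))
    (hχ : χ = @minpoly (MvPolynomial (Fin n) ℂ) (MvPolynomial (Fin N) ℂ ⧸ P) _ _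
      g.toRingHom.toAlgebra (Ideal.Quotient.mk P v)) (b : Fin n → ℂ) (y : ℂ)
    (hby : ev2 χ b y = 0) :
    ∃ z ∈ VV P, prt t z = b ∧ MvPolynomial.eval z v = y := by
  have : IsDomain (MvPolynomial (Fin N) ℂ ⧸ P) := Ideal.Quotient.isDomain P
  let _ : Algebra (MvPolynomial (Fin n) ℂ) (MvPolynomial (Fin N) ℂ ⧸ P) := g.toRingHom.toAlgebra
  have : FaithfulSMul (MvPolynomial (Fin n) ℂ) (MvPolynomial (Fin N) ℂ ⧸ P) :=
    (faithfulSMul_iff_algebraMap_injective _ _).2 hg
  have hint : ∀ r, IsIntegral (MvPolynomial (Fin n) ℂ) (r : MvPolynomial (Fin N) ℂ ⧸ P) := hi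
  set vb : MvPolynomial (Fin N) ℂ ⧸ P := Ideal.Quotient.mk P v with hvb
  have hroot : eval₂ (algebraMap (MvPolynomial (Fin n) ℂ) (MvPolynomial (Fin N) ℂ ⧸ P)) vb χ = 0 := by
    rw [hχ]; exact minpoly.aeval _ _
  let ψ : AdjoinRoot χ →+* (MvPolynomial (Fin N) ℂ ⧸ P) := AdjoinRoot.lift _ vb hroot
  have hψinj : Function.Injective ψ := by
    rw [injective_iff_map_eq_zero]
    intro a ha
    obtain ⟨p, rfl⟩ := AdjoinRoot.mk_surjective a
    have h1 : aeval vb p = 0 := by
      have h2 : ψ (AdjoinRoot.mk χ p) = eval₂ (algebraMap _ _) vb p := AdjoinRoot.lift_mk _ _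
      rw [h2] at ha
      exact ha
    have h3 := minpoly.isIntegrallyClosed_dvd (hint vb) h1
    rw [AdjoinRoot.mk_eq_zero, hχ]
    exact h3
  have hφ0 : eval₂ (MvPolynomial.eval b) y χ = 0 := by rw [← eval_map]; exact hby
  let φ : AdjoinRoot χ →+* ℂ := AdjoinRoot.lift _ y hφ0
  have hφC : ∀ c : ℂ, φ (AdjoinRoot.of χ (MvPolynomial.C c)) = c := by
    intro c
    have : φ (AdjoinRoot.of χ (MvPolynomial.C c)) = MvPolynomial.eval b (MvPolynomial.C c) :=
      AdjoinRoot.lift_of _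
    rw [this, MvPolynomial.eval_C]
  have hsurj : Function.Surjective φ := fun c => ⟨_, hφC c⟩
  have hmax : (RingHom.ker φ).IsMaximal := RingHom.ker_isMaximal_of_surjective φ hsurj
  let _ : Algebra (AdjoinRoot χ) (MvPolynomial (Fin N) ℂ ⧸ P) := ψ.toAlgebra
  have htow : IsScalarTower (MvPolynomial (Fin n) ℂ) (AdjoinRoot χ) (MvPolynomial (Fin N) ℂ ⧸ P) := by
    apply IsScalarTower.of_algebraMap_eq
    intro a
    exact (AdjoinRoot.lift_of (f := χ) hroot).symm
  have hint2 : Algebra.IsIntegral (AdjoinRoot χ) (MvPolynomial (Fin N) ℂ ⧸ P) :=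
    ⟨fun r => (hint r).tower_top⟩
  obtain ⟨Q, hQ, hQc⟩ := Ideal.exists_ideal_over_maximal_of_isIntegral
    (S := MvPolynomial (Fin N) ℂ ⧸ P) (RingHom.ker φ) (by
      intro a ha
      rw [RingHom.mem_ker] at ha
      have h0 : a = 0 := hψinj (by rw [map_zero]; exact ha)
      rw [h0]; exact Ideal.zero_mem _)
  obtain ⟨z, hz, hzQ⟩ := exists_point Q hQ
  have key : ∀ a : AdjoinRoot χ, evz z hz (ψ a) = φ a := by
    intro a
    have h1 : a - AdjoinRoot.of χ (MvPolynomial.C (φ a)) ∈ RingHom.ker φ := by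
      rw [RingHom.mem_ker, map_sub, hφC, sub_self]
    rw [← hQc, Ideal.mem_comap] at h1
    have h2 := (hzQ _).2 h1
    have h3 : evz z hz (ψ a) - evz z hz (ψ (AdjoinRoot.of χ (MvPolynomial.C (φ a)))) = 0 := by
      rw [← map_sub, ← map_sub]; exact h2
    have h4 : ψ (AdjoinRoot.of χ (MvPolynomial.C (φ a))) = g (MvPolynomial.C (φ a)) :=
      AdjoinRoot.lift_of _
    rw [h4, evz_g g t ht z hz, MvPolynomial.eval_C] at h3
    exact sub_eq_zero.1 h3
  refine ⟨z, hz, ?_, ?_⟩
  · funext j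
    have h5 : ψ (AdjoinRoot.of χ (MvPolynomial.X j)) = g (MvPolynomial.X j) := AdjoinRoot.lift_of _
    have h6 : φ (AdjoinRoot.of χ (MvPolynomial.X j)) = MvPolynomial.eval b (MvPolynomial.X j) :=
      AdjoinRoot.lift_of _
    have h7 := key (AdjoinRoot.of χ (MvPolynomial.X j))
    rw [h5, h6, evz_g g t ht z hz, MvPolynomial.eval_X, MvPolynomial.eval_X] at h7
    exact h7
  · have h5 : ψ (AdjoinRoot.root χ) = vb := AdjoinRoot.lift_root _
    have h6 : φ (AdjoinRoot.root χ) = y := AdjoinRoot.lift_root _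
    have h7 := key (AdjoinRoot.root χ)
    rw [h5, h6, hvb, evz_mk] at h7
    exact h7

end main

theorem exists_nData {N : ℕ} (P : Ideal (MvPolynomial (Fin N) ℂ)) (hP : P.IsPrime) :
    Nonempty (NData P) := by
  classical
  have hdom : IsDomain (MvPolynomial (Fin N) ℂ ⧸ P) := Ideal.Quotient.isDomain P
  have hnt : Nontrivial (MvPolynomial (Fin N) ℂ ⧸ P) := hdom.toNontrivial
  obtain ⟨n, g, hg, hfin⟩ := exists_finite_inj_algHom_of_fg ℂ (MvPolynomial (Fin N) ℂ ⧸ P)
  have hi : g.toRingHom.IsIntegral := hfin.to_isIntegral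
  let alg : Algebra (MvPolynomial (Fin n) ℂ) (MvPolynomial (Fin N) ℂ ⧸ P) := g.toRingHom.toAlgebra
  have hmf : @Module.Finite (MvPolynomial (Fin n) ℂ) (MvPolynomial (Fin N) ℂ ⧸ P) _ _
    alg.toModule := hfin
  have hint : ∀ r, IsIntegral (MvPolynomial (Fin n) ℂ) (r : MvPolynomial (Fin N) ℂ ⧸ P) := hi
  choose t ht using fun j => Ideal.Quotient.mk_surjective (g (MvPolynomial.X j))
  obtain ⟨θb, ⟨δ0, hδ0, u, v, huv⟩, hprim⟩ := @exists_primitive (MvPolynomial (Fin n) ℂ)
    (MvPolynomial (Fin N) ℂ ⧸ P) _ _ _ _ _ _ alg hmf hg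
  obtain ⟨θ, hθ⟩ := Ideal.Quotient.mk_surjective θb
  choose δ hδ p hp using fun i : Fin N => hprim (Ideal.Quotient.mk P (MvPolynomial.X i))
  have hminv : ∀ (f : MvPolynomial (Fin N) ℂ) (z : Fin N → ℂ), z ∈ VV P →
      ev2 (minpoly (MvPolynomial (Fin n) ℂ) (Ideal.Quotient.mk P f)) (prt t z)
        (MvPolynomial.eval z f) = 0 := by
    intro f z hz
    rw [← ev2_aeval g t ht z hz]
    have h0 : eval₂ g.toRingHom (Ideal.Quotient.mk P f)
      (minpoly (MvPolynomial (Fin n) ℂ) (Ideal.Quotient.mk P f)) = 0 := minpoly.aeval _ _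
    rw [h0, map_zero]
  refine ⟨{
    n := n
    t := t
    θ := θ
    m := minpoly (MvPolynomial (Fin n) ℂ) θb
    Δ := δ0 * ∏ i, δ i
    p := fun i => C (δ0 * ∏ j ∈ Finset.univ.erase i, δ j) * p i
    c := fun i => minpoly (MvPolynomial (Fin n) ℂ) (Ideal.Quotient.mk P (MvPolynomial.X i))
    m_monic := minpoly.monic (hint _)
    c_monic := fun i => minpoly.monic (hint _)
    Δ_ne := mul_ne_zero hδ0 (Finset.prod_ne_zero_iff.2 fun i _ => hδ i)
    sep := ⟨C (∏ i, δ i) * u, C (∏ i, δ i) * v, by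
      rw [C_mul]; linear_combination C (∏ i, δ i) * huv⟩
    m_root := ?_
    p_eq := ?_
    c_root := ?_
    lift := ?_
    m_lift := ?_
    norm := ?_ }⟩
  · intro z hz
    rw [← hθ]
    exact hminv θ z hz
  · intro z hz i
    have h1 : eval₂ g.toRingHom (Ideal.Quotient.mk P θ) (p i) =
        g (δ i) * Ideal.Quotient.mk P (MvPolynomial.X i) := by
      rw [hθ]; exact (hp i).symm
    have h2 := ev2_aeval g t ht z hz (p i) θ
    rw [h1, map_mul, evz_g g t ht z hz, evz_mk, MvPolynomial.eval_X] at h2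
    have h3 : ev2 (C (δ0 * ∏ j ∈ Finset.univ.erase i, δ j) * p i) (prt t z)
        (MvPolynomial.eval z θ) =
        MvPolynomial.eval (prt t z) (δ0 * ∏ j ∈ Finset.univ.erase i, δ j) *
          ev2 (p i) (prt t z) (MvPolynomial.eval z θ) := by
      simp only [ev2, Polynomial.map_mul, Polynomial.map_C, eval_mul, eval_C]
    rw [h3, ← h2, ← Finset.mul_prod_erase Finset.univ δ (Finset.mem_univ i)]
    simp only [map_mul]
    ring
  · intro z hz i
    have h := hminv (MvPolynomial.X i) z hz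
    rwa [MvPolynomial.eval_X] at h
  · intro f
    refine ⟨minpoly (MvPolynomial (Fin n) ℂ) (Ideal.Quotient.mk P f), minpoly.monic (hint _),
      fun z hz => hminv f z hz, fun b y hby => ?_⟩
    exact lift_pt hP g hg hi t ht f _ rfl b y hby
  · intro b y hby
    refine lift_pt hP g hg hi t ht θ (minpoly (MvPolynomial (Fin n) ℂ) θb) ?_ b y hby
    rw [hθ]
  · intro H hH
    have hHne : Ideal.Quotient.mk P H ≠ 0 := fun h => hH (Ideal.Quotient.eq_zero_iff_mem.1 h)
    refine ⟨(minpoly (MvPolynomial (Fin n) ℂ) (Ideal.Quotient.mk P H)).coeff 0,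
      coeff_zero_ne (hint _) hHne, fun z hz hz0 => ?_⟩
    have h := hminv H z hz
    rw [hz0, ev2, ← coeff_zero_eq_eval_zero, coeff_map] at h
    exact h

end Vale.Agent.P274.Z
end

section

/-! Manifold points and density from Noether normalization data (TASK Z2). -/

open Filter Metric Set Topology

namespace Vale.Agent.P274.Z

namespace NPar

open Polynomial

/-- bound for the roots of a monic polynomial. -/
theorem root_bound {p : ℂ[X]} (hp : p.Monic) {x : ℂ} (hx : p.eval x = 0) :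
    ‖x‖ ≤ 1 + ∑ j ∈ Finset.range p.natDegree, ‖p.coeff j‖ := by
  have hS : 0 ≤ ∑ j ∈ Finset.range p.natDegree, ‖p.coeff j‖ :=
    Finset.sum_nonneg fun _ _ => norm_nonneg _
  by_cases h1 : ‖x‖ ≤ 1
  · linarith
  · push Not at h1
    rw [Polynomial.eval_eq_sum_range, Finset.sum_range_succ, hp.coeff_natDegree, one_mul] at hx
    rcases hn : p.natDegree with _ | n
    · exfalso
      rw [hn] at hx
      simp at hx
    · rw [hn] at hx hS
      have h2 : ‖x ^ (n + 1)‖ ≤ (∑ j ∈ Finset.range (n + 1), ‖p.coeff j‖) * ‖x‖ ^ n := by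
        rw [eq_neg_of_add_eq_zero_right hx, norm_neg, Finset.sum_mul]
        refine (norm_sum_le _ _).trans (Finset.sum_le_sum fun j hj => ?_)
        rw [norm_mul, norm_pow]
        have : ‖x‖ ^ j ≤ ‖x‖ ^ n :=
          pow_le_pow_right₀ h1.le (Nat.lt_succ_iff.1 (Finset.mem_range.1 hj))
        gcongr
      rw [norm_pow, pow_succ'] at h2
      have h3 : 0 < ‖x‖ ^ n := by positivity
      have h5 := le_of_mul_le_mul_right h2 h3
      linarith

/-- a monic polynomial has a small root if its constant coefficient is small. -/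
theorem small_root {p : ℂ[X]} (hp : p.Monic) (hd : p.natDegree ≠ 0) :
    ∃ y, p.eval y = 0 ∧ ‖y‖ ^ p.natDegree ≤ ‖p.coeff 0‖ := by
  have hs := IsAlgClosed.splits p
  have hc := hs.coeff_zero_eq_prod_roots_of_monic hp
  have hcard : p.roots.card = p.natDegree := hs.natDegree_eq_card_roots.symm
  by_contra hcon
  push Not at hcon
  have h1 : ∀ s : Multiset ℂ, s ≠ 0 → (∀ y ∈ s, ‖p.coeff 0‖ < ‖y‖ ^ p.natDegree) →
      ‖p.coeff 0‖ ^ s.card < ‖s.prod‖ ^ p.natDegree := by
    intro s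
    induction s using Multiset.induction_on with
    | empty => intro h; exact absurd rfl h
    | cons a s ih =>
      intro _ h
      rw [Multiset.card_cons, Multiset.prod_cons, norm_mul, mul_pow, pow_succ']
      have h2 := h a (Multiset.mem_cons_self a s)
      by_cases hs0 : s = 0
      · subst hs0
        simpa using h2
      · have h3 := ih hs0 fun y hy => h y (Multiset.mem_cons_of_mem hy)
        exact mul_lt_mul'' h2 h3 (norm_nonneg _) (by positivity)
  have h2 : p.roots ≠ 0 := by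
    intro h0
    rw [h0, Multiset.card_zero] at hcard
    exact hd hcard.symm
  have h3 := h1 p.roots h2 fun y hy => hcon y (Polynomial.isRoot_of_mem_roots hy)
  rw [hcard] at h3
  have h4 : ‖p.roots.prod‖ = ‖p.coeff 0‖ := by
    rw [hc, norm_mul, norm_pow, norm_neg, norm_one, one_pow, one_mul]
  rw [h4] at h3
  exact lt_irrefl _ h3

variable {n : ℕ}

theorem ev2_eq (m : Polynomial (MvPolynomial (Fin n) ℂ)) (b : Fin n → ℂ) (y : ℂ) :
    ev2 m b y = ∑ j ∈ Finset.range (m.natDegree + 1), MvPolynomial.eval b (m.coeff j) * y ^ j := by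
  unfold ev2
  rw [Polynomial.eval_eq_sum_range' (Nat.lt_succ_of_le (Polynomial.natDegree_map_le))]
  simp only [Polynomial.coeff_map]

theorem root_bound2 {m : Polynomial (MvPolynomial (Fin n) ℂ)} (hm : m.Monic) {b : Fin n → ℂ}
    {y : ℂ} (hy : ev2 m b y = 0) :
    ‖y‖ ≤ 1 + ∑ j ∈ Finset.range m.natDegree, ‖MvPolynomial.eval b (m.coeff j)‖ := by
  have h := root_bound (hm.map (MvPolynomial.eval b)) hy
  rw [hm.natDegree_map] at h
  simpa only [Polynomial.coeff_map] using h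

theorem differentiable_eval (q : MvPolynomial (Fin n) ℂ) :
    Differentiable ℂ fun b : Fin n → ℂ => MvPolynomial.eval b q := fun b =>
  ((AnalyticOnNhd.eval_mvPolynomial q) b (mem_univ b)).differentiableAt

theorem continuous_prt {N : ℕ} (t : Fin n → MvPolynomial (Fin N) ℂ) : Continuous (prt t) :=
  continuous_pi fun j => MvPolynomial.continuous_eval (t j)

theorem differentiable_prt {N : ℕ} (t : Fin n → MvPolynomial (Fin N) ℂ) :
    Differentiable ℂ (prt t) :=
  differentiable_pi.2 fun j => differentiable_eval (t j)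

/-- the nonvanishing set of a polynomial is dense. -/
theorem dense_ne {k : MvPolynomial (Fin n) ℂ} (hk : k ≠ 0) (b0 : Fin n → ℂ) {δ : ℝ} (hδ : 0 < δ) :
    ∃ b, dist b b0 < δ ∧ MvPolynomial.eval b k ≠ 0 := by
  by_contra hcon
  push Not at hcon
  apply hk
  refine MvPolynomial.funext_set (fun i => ball (b0 i) δ) (fun i => ?_) fun b hb => ?_
  · exact infinite_of_mem_nhds (b0 i) (ball_mem_nhds _ hδ)
  · rw [map_zero]
    refine hcon b ?_
    rw [dist_pi_lt_iff hδ]
    exact fun i => hb i (mem_univ i)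

/-- a polynomial vanishing at `z0` and equal to `1` at finitely many other points. -/
theorem exists_sep {N : ℕ} (z0 : Fin N → ℂ) {F : Set (Fin N → ℂ)} (hF : F.Finite) :
    ∃ v : MvPolynomial (Fin N) ℂ, MvPolynomial.eval z0 v = 0 ∧
      ∀ z ∈ F, z ≠ z0 → MvPolynomial.eval z v = 1 := by
  classical
  suffices h : ∃ w : MvPolynomial (Fin N) ℂ, MvPolynomial.eval z0 w = 1 ∧
      ∀ z ∈ F, z ≠ z0 → MvPolynomial.eval z w = 0 by
    obtain ⟨w, hw1, hw2⟩ := h
    refine ⟨1 - w, ?_, fun z hz hz0 => ?_⟩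
    · rw [map_sub, map_one, hw1, sub_self]
    · rw [map_sub, map_one, hw2 z hz hz0, sub_zero]
  induction F, hF using Set.Finite.induction_on with
  | empty => exact ⟨1, by simp, fun z hz => absurd hz (notMem_empty z)⟩
  | @insert a F _ _ ih =>
    obtain ⟨w, hw1, hw2⟩ := ih
    by_cases ha : a = z0
    · refine ⟨w, hw1, fun z hz hz0 => ?_⟩
      rcases mem_insert_iff.1 hz with h | h
      · exact absurd (h.trans ha) hz0
      · exact hw2 z h hz0
    · obtain ⟨i, hi⟩ := Function.ne_iff.1 ha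
      have hi' : z0 i - a i ≠ 0 := sub_ne_zero.2 (Ne.symm hi)
      refine ⟨MvPolynomial.C (z0 i - a i)⁻¹ * (MvPolynomial.X i - MvPolynomial.C (a i)) * w, ?_,
        fun z hz hz0 => ?_⟩
      · simp only [map_mul, map_sub, MvPolynomial.eval_C, MvPolynomial.eval_X, hw1, mul_one]
        exact inv_mul_cancel₀ hi'
      · simp only [map_mul, map_sub, MvPolynomial.eval_C, MvPolynomial.eval_X]
        rcases mem_insert_iff.1 hz with h | h
        · rw [h, sub_self, mul_zero, zero_mul]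
        · rw [hw2 z h hz0, mul_zero]

end NPar

open NPar

/-- The projection is proper. -/
theorem NData.bounded {N : ℕ} {P : Ideal (MvPolynomial (Fin N) ℂ)} (d : NData P) (R : ℝ) :
    ∃ C : ℝ, ∀ z ∈ VV P, ‖prt d.t z‖ ≤ R → ‖z‖ ≤ C := by
  set φ : (Fin d.n → ℂ) → ℝ := fun b =>
    ∑ i, (1 + ∑ j ∈ Finset.range (d.c i).natDegree, ‖MvPolynomial.eval b ((d.c i).coeff j)‖)
    with hφ
  have hφc : Continuous φ := by
    refine continuous_finsetSum _ fun i _ => continuous_const.add ?_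
    refine continuous_finsetSum _ fun j _ => ?_
    exact (MvPolynomial.continuous_eval _).norm
  obtain ⟨C, hC⟩ := (isCompact_closedBall (0 : Fin d.n → ℂ) R).exists_bound_of_continuousOn
    hφc.continuousOn
  refine ⟨C, fun z hz hzR => ?_⟩
  have h1 := hC (prt d.t z) (mem_closedBall_zero_iff.2 hzR)
  refine le_trans ?_ ((le_abs_self _).trans h1)
  have hnn : ∀ i, 0 ≤ 1 + ∑ j ∈ Finset.range (d.c i).natDegree,
      ‖MvPolynomial.eval (prt d.t z) ((d.c i).coeff j)‖ := fun i =>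
    add_nonneg zero_le_one (Finset.sum_nonneg fun _ _ => norm_nonneg _)
  rw [pi_norm_le_iff_of_nonneg (Finset.sum_nonneg fun i _ => hnn i)]
  intro i
  refine (root_bound2 (d.c_monic i) (d.c_root z hz i)).trans ?_
  exact Finset.single_le_sum (f := fun i => 1 + ∑ j ∈ Finset.range (d.c i).natDegree,
      ‖MvPolynomial.eval (prt d.t z) ((d.c i).coeff j)‖) (fun i _ => hnn i) (Finset.mem_univ i)

/-- The fibres are finite. -/
theorem NData.finite_fibre {N : ℕ} {P : Ideal (MvPolynomial (Fin N) ℂ)} (d : NData P)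
    (b : Fin d.n → ℂ) : {z | z ∈ VV P ∧ prt d.t z = b}.Finite := by
  have h1 : ∀ i, {y : ℂ | ((d.c i).map (MvPolynomial.eval b)).IsRoot y}.Finite := fun i =>
    Polynomial.finite_setOfPred_isRoot ((d.c_monic i).map (MvPolynomial.eval b)).ne_zero
  refine (Set.Finite.pi fun i => h1 i).subset ?_
  rintro z ⟨hz, rfl⟩ i _
  exact d.c_root z hz i

theorem NPar.sepFam {N : ℕ} {P : Ideal (MvPolynomial (Fin N) ℂ)} (d : NData P) :
    SepFam {b : Fin d.n → ℂ | MvPolynomial.eval b d.Δ ≠ 0} d.m.natDegree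
      (fun b => d.m.map (MvPolynomial.eval b)) where
  an j := by
    simp only [Polynomial.coeff_map]
    exact (AnalyticOnNhd.eval_mvPolynomial _).mono (subset_univ _)
  deg b _ := Polynomial.natDegree_map_le
  lc b _ := by
    rw [Polynomial.coeff_map, d.m_monic.coeff_natDegree, map_one]
    exact one_ne_zero
  sep b hb x hx hx' := by
    obtain ⟨u, v, huv⟩ := d.sep
    apply hb
    have h1 := congrArg (fun q => (q.map (MvPolynomial.eval b)).eval x) huv
    simp only [Polynomial.map_add, Polynomial.map_mul, Polynomial.eval_add, Polynomial.eval_mul,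
      Polynomial.map_C, Polynomial.eval_C] at h1
    rw [← h1, hx]
    rw [Polynomial.derivative_map] at hx'
    rw [hx', mul_zero, mul_zero, add_zero]

/-- Points outside the zero set of `Δ` are manifold points; the parametrization can be chosen as
a local section of the projection. -/
theorem NData.exists_section {N : ℕ} {P : Ideal (MvPolynomial (Fin N) ℂ)} (d : NData P)
    {z0 : Fin N → ℂ} (hz0 : z0 ∈ VV P) (hΔ : MvPolynomial.eval (prt d.t z0) d.Δ ≠ 0) :
    ∃ r > 0, ∃ (W : Set (Fin N → ℂ)) (σ : (Fin d.n → ℂ) → (Fin N → ℂ)), IsOpen W ∧ z0 ∈ W ∧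
      DifferentiableOn ℂ σ (ball (prt d.t z0) r) ∧ σ (prt d.t z0) = z0 ∧
      (∀ b ∈ ball (prt d.t z0) r, σ b ∈ VV P ∩ W ∧ prt d.t (σ b) = b) ∧
      ∀ z ∈ VV P ∩ W, prt d.t z ∈ ball (prt d.t z0) r ∧ σ (prt d.t z) = z := by
  set b0 := prt d.t z0 with hb0
  set y0 := MvPolynomial.eval z0 d.θ with hy0
  have hopen : IsOpen {b : Fin d.n → ℂ | MvPolynomial.eval b d.Δ ≠ 0} :=
    isOpen_ne_fun (MvPolynomial.continuous_eval _) continuous_const
  have hroot0 : (d.m.map (MvPolynomial.eval b0)).eval y0 = 0 := d.m_root z0 hz0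
  obtain ⟨φ, hφs, hφ, hφan⟩ := (sepFam d).localEquiv hopen (w := b0) hΔ hroot0
  have hφt : (b0, (0 : ℂ)) ∈ φ.target := by
    have h1 := φ.map_source hφs
    rw [hφ] at h1
    simp only [hroot0] at h1
    exact h1
  have hφ0 : φ.symm (b0, 0) = (b0, y0) := by
    have h1 := φ.left_inv hφs
    rw [hφ] at h1
    simp only [hroot0] at h1
    exact h1
  -- a product neighbourhood inside the source
  obtain ⟨ε, hε, hεs⟩ := Metric.isOpen_iff.1 φ.open_source _ hφs
  rw [← ball_prod_same] at hεs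
  -- good points near `b0`
  have hc1 : ContinuousAt (fun b : Fin d.n → ℂ => (b, (0 : ℂ))) b0 :=
    continuousAt_id.prodMk continuousAt_const
  have ev1 : ∀ᶠ b in 𝓝 b0, (b, (0 : ℂ)) ∈ φ.target :=
    hc1.eventually_mem (φ.open_target.mem_nhds hφt)
  have ev2' : ∀ᶠ b in 𝓝 b0, AnalyticAt ℂ φ.symm (b, 0) :=
    hc1.eventually hφan.eventually_analyticAt
  have ev3 : ∀ᶠ b in 𝓝 b0, (φ.symm (b, 0)).2 ∈ ball y0 ε := by
    have hc2 : ContinuousAt (fun b : Fin d.n → ℂ => (φ.symm (b, 0)).2) b0 := by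
      have h1 : ContinuousAt φ.symm (b0, 0) := φ.continuousAt_symm hφt
      exact continuous_snd.continuousAt.comp (ContinuousAt.comp (g := φ.symm) h1 hc1)
    refine hc2.eventually_mem ?_
    rw [hφ0]
    exact ball_mem_nhds _ hε
  have ev4 : ∀ᶠ b in 𝓝 b0, b ∈ ball b0 ε := ball_mem_nhds _ hε
  have ev5 : ∀ᶠ b in 𝓝 b0, MvPolynomial.eval b d.Δ ≠ 0 := hopen.mem_nhds hΔ
  obtain ⟨r, hr, hgood⟩ := Metric.eventually_nhds_iff_ball.1
    (ev1.and (ev2'.and (ev3.and (ev4.and ev5))))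
  set y : (Fin d.n → ℂ) → ℂ := fun b => (φ.symm (b, 0)).2 with hy
  have hinv : ∀ b ∈ ball b0 r, (φ.symm (b, 0)).1 = b ∧ ev2 d.m b (y b) = 0 := by
    intro b hb
    have h1 := φ.right_inv (hgood b hb).1
    rw [hφ] at h1
    have h2 := congrArg Prod.fst h1
    have h3 := congrArg Prod.snd h1
    simp only at h2 h3
    rw [h2] at h3
    exact ⟨h2, h3⟩
  set σ : (Fin d.n → ℂ) → (Fin N → ℂ) := fun b i =>
    ev2 (d.p i) b (y b) / MvPolynomial.eval b d.Δ with hσ
  set W : Set (Fin N → ℂ) := {z | prt d.t z ∈ ball b0 r ∧ MvPolynomial.eval z d.θ ∈ ball y0 ε}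
    with hW
  have hWo : IsOpen W :=
    (isOpen_ball.preimage (continuous_prt d.t)).inter
      (isOpen_ball.preimage (MvPolynomial.continuous_eval d.θ))
  have hz0W : z0 ∈ W := ⟨mem_ball_self hr, mem_ball_self hε⟩
  -- sections
  have hback : ∀ z ∈ VV P ∩ W, prt d.t z ∈ ball b0 r ∧ σ (prt d.t z) = z := by
    rintro z ⟨hz, hzW⟩
    refine ⟨hzW.1, ?_⟩
    have hg := hgood _ hzW.1
    have hθ : MvPolynomial.eval z d.θ = y (prt d.t z) := by
      have h1 : (prt d.t z, MvPolynomial.eval z d.θ) ∈ φ.source :=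
        hεs ⟨hg.2.2.2.1, hzW.2⟩
      have h2 := φ.left_inv h1
      rw [hφ] at h2
      have h3 : (d.m.map (MvPolynomial.eval (prt d.t z))).eval (MvPolynomial.eval z d.θ) = 0 :=
        d.m_root z hz
      simp only [h3] at h2
      exact (congrArg Prod.snd h2).symm
    funext i
    have h4 := d.p_eq z hz i
    rw [hθ] at h4
    change ev2 (d.p i) (prt d.t z) (y (prt d.t z)) / MvPolynomial.eval (prt d.t z) d.Δ = z i
    rw [← h4, mul_div_cancel_left₀ _ hg.2.2.2.2]
  have hforw : ∀ b ∈ ball b0 r, σ b ∈ VV P ∩ W ∧ prt d.t (σ b) = b := by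
    intro b hb
    have hg := hgood b hb
    obtain ⟨z, hz, hzb, hzθ⟩ := d.m_lift b (y b) (hinv b hb).2
    have hzW : z ∈ W := by
      refine ⟨?_, ?_⟩
      · rw [hzb]; exact hb
      · rw [hzθ]; exact hg.2.2.1
    have h1 := (hback z ⟨hz, hzW⟩).2
    rw [hzb] at h1
    rw [h1]
    exact ⟨⟨hz, hzW⟩, hzb⟩
  refine ⟨r, hr, W, σ, hWo, hz0W, ?_, (hback z0 ⟨hz0, hz0W⟩).2, hforw, hback⟩
  -- differentiability
  have hyd : DifferentiableOn ℂ y (ball b0 r) := by
    intro b hb
    have h1 : DifferentiableAt ℂ φ.symm (b, 0) := (hgood b hb).2.1.differentiableAt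
    have h2 : DifferentiableAt ℂ (fun b : Fin d.n → ℂ => (b, (0 : ℂ))) b :=
      differentiableAt_id.prodMk (differentiableAt_const _)
    exact ((DifferentiableAt.comp (g := φ.symm) b h1 h2).snd).differentiableWithinAt
  rw [differentiableOn_pi]
  intro i
  simp only [hσ, div_eq_mul_inv]
  refine DifferentiableOn.mul ?_ (DifferentiableOn.inv
    (differentiable_eval d.Δ).differentiableOn fun b hb => (hgood b hb).2.2.2.2)
  simp only [ev2_eq]
  refine DifferentiableOn.fun_sum fun j _ => ?_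
  exact (differentiable_eval _).differentiableOn.mul (hyd.pow j)

theorem NData.manPt {N : ℕ} {P : Ideal (MvPolynomial (Fin N) ℂ)} (d : NData P)
    {z0 : Fin N → ℂ} (hz0 : z0 ∈ VV P) (hΔ : MvPolynomial.eval (prt d.t z0) d.Δ ≠ 0) :
    ManPt (Fin d.n → ℂ) (VV P) z0 := by
  obtain ⟨r, hr, W, σ, hW, hz0W, hσd, hσ0, hforw, hback⟩ := d.exists_section hz0 hΔ
  set b0 := prt d.t z0 with hb0
  have hrc : (r : ℂ) ≠ 0 := by exact_mod_cast hr.ne'
  have hmaps : ∀ e ∈ ball (0 : Fin d.n → ℂ) 1, b0 + (r : ℂ) • e ∈ ball b0 r := by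
    intro e he
    rw [mem_ball_zero_iff] at he
    rw [mem_ball_iff_norm, add_sub_cancel_left, norm_smul, Complex.norm_real,
      Real.norm_of_nonneg hr.le]
    linarith only [mul_pos (sub_pos.2 hr) (sub_pos.2 he)]
  refine ⟨fun e => σ (b0 + (r : ℂ) • e), fun z => (r : ℂ)⁻¹ • (prt d.t z - b0), W, ?_, ?_⟩
  · refine ⟨hW, ?_, ?_, ?_, ?_, ?_, ?_⟩
    · have h1 : DifferentiableOn ℂ (fun e : Fin d.n → ℂ => b0 + (r : ℂ) • e) (ball 0 1) :=
        ((differentiable_id.const_smul (r : ℂ)).const_add b0).differentiableOn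
      exact DifferentiableOn.comp (g := σ) hσd h1 hmaps
    · exact (((differentiable_prt d.t).sub_const b0).const_smul (r : ℂ)⁻¹).differentiableOn
    · intro e he
      exact (hforw _ (hmaps e he)).1
    · intro z hz
      have h1 := (hback z hz).1
      rw [mem_ball_iff_norm] at h1
      change (r : ℂ)⁻¹ • (prt d.t z - b0) ∈ ball (0 : Fin d.n → ℂ) 1
      rw [mem_ball_zero_iff, norm_smul, norm_inv, Complex.norm_real, Real.norm_of_nonneg hr.le,
        inv_mul_lt_iff₀ hr, mul_one]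
      exact h1
    · intro e he
      rw [(hforw _ (hmaps e he)).2, add_sub_cancel_left, smul_smul, inv_mul_cancel₀ hrc, one_smul]
    · intro z hz
      rw [smul_smul, mul_inv_cancel₀ hrc, one_smul, add_sub_cancel]
      exact (hback z hz).2
  · change σ (b0 + (r : ℂ) • (0 : Fin d.n → ℂ)) = z0
    rw [smul_zero, add_zero]
    exact hσ0

/-- Nonvanishing sets of polynomials are dense in irreducible varieties. -/
theorem NData.dense {N : ℕ} {P : Ideal (MvPolynomial (Fin N) ℂ)} (d : NData P)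
    {z0 : Fin N → ℂ} (hz0 : z0 ∈ VV P) {H : MvPolynomial (Fin N) ℂ} (hH : H ∉ P) {ε : ℝ}
    (hε : 0 < ε) : ∃ z ∈ VV P, dist z z0 < ε ∧ MvPolynomial.eval z H ≠ 0 ∧
      MvPolynomial.eval (prt d.t z) d.Δ ≠ 0 := by
  obtain ⟨h, hh, hHh⟩ := d.norm H hH
  set b0 := prt d.t z0 with hb0
  obtain ⟨v, hv0, hv1⟩ := exists_sep z0 (d.finite_fibre b0)
  obtain ⟨χ, hχm, hχr, hχl⟩ := d.lift v
  have hclosed : IsClosed (VV P) := by
    have : VV P = ⋂ f ∈ P, {z | MvPolynomial.eval z f = 0} := by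
      ext z
      simp [VV]
    rw [this]
    exact isClosed_biInter fun f _ => isClosed_eq (MvPolynomial.continuous_eval f) continuous_const
  -- a compact set of points far away from `z0`
  obtain ⟨C, hC⟩ := d.bounded (‖b0‖ + 1)
  set K : Set (Fin N → ℂ) := (closedBall 0 C ∩ VV P) ∩ (ball z0 ε)ᶜ with hK
  have hKc : IsCompact K :=
    ((isCompact_closedBall (0 : Fin N → ℂ) C).inter_right hclosed).inter_right
      isOpen_ball.isClosed_compl
  set F : (Fin N → ℂ) → ℝ := fun z => ‖prt d.t z - b0‖ + ‖MvPolynomial.eval z v‖ with hF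
  have hFc : Continuous F :=
    ((continuous_prt d.t).sub continuous_const).norm.add (MvPolynomial.continuous_eval v).norm
  have hFpos : ∀ z ∈ K, 0 < F z := by
    intro z hz
    have h0 : 0 ≤ F z := add_nonneg (norm_nonneg _) (norm_nonneg _)
    refine lt_of_le_of_ne h0 fun h1 => ?_
    have h2 : ‖prt d.t z - b0‖ = 0 ∧ ‖MvPolynomial.eval z v‖ = 0 :=
      (add_eq_zero_iff_of_nonneg (norm_nonneg _) (norm_nonneg _)).1 h1.symm
    have h3 : prt d.t z = b0 := sub_eq_zero.1 (norm_eq_zero.1 h2.1)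
    have h4 : MvPolynomial.eval z v = 0 := norm_eq_zero.1 h2.2
    by_cases h5 : z = z0
    · apply hz.2
      rw [h5]
      exact mem_ball_self hε
    · have h6 := hv1 z ⟨hz.1.2, h3⟩ h5
      rw [h4] at h6
      exact zero_ne_one h6
  obtain ⟨δ, hδ, hδF⟩ : ∃ δ > 0, ∀ z ∈ K, δ ≤ F z := by
    rcases K.eq_empty_or_nonempty with h1 | h1
    · exact ⟨1, one_pos, fun z hz => by rw [h1] at hz; exact absurd hz (notMem_empty z)⟩
    · obtain ⟨x, hx, hmin⟩ := hKc.exists_isMinOn h1 hFc.continuousOn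
      exact ⟨F x, hFpos x hx, fun z hz => hmin hz⟩
  -- the degree of `χ` is positive
  have hdeg : χ.natDegree ≠ 0 := by
    intro h0
    have h1 : χ = 1 := hχm.natDegree_eq_zero.1 h0
    have h2 := hχr z0 hz0
    rw [h1] at h2
    simp [ev2] at h2
  -- the constant coefficient tends to zero
  have hc0 : MvPolynomial.eval b0 (χ.coeff 0) = 0 := by
    have h2 := hχr z0 hz0
    rw [hv0, ev2_eq, Finset.sum_eq_single 0] at h2
    · simpa using h2
    · intro j _ hj
      rw [zero_pow hj, mul_zero]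
    · intro h
      exact absurd (Finset.mem_range.2 (Nat.succ_pos _)) h
  have hδ2 : 0 < min (δ / 2) 1 := lt_min (by linarith) one_pos
  have hev : ∀ᶠ b in 𝓝 b0, ‖MvPolynomial.eval b (χ.coeff 0)‖ < (δ / 2) ^ χ.natDegree := by
    have h1 : ContinuousAt (fun b => ‖MvPolynomial.eval b (χ.coeff 0)‖) b0 :=
      (MvPolynomial.continuous_eval _).norm.continuousAt
    refine h1.eventually_lt_const ?_
    simp only [hc0, norm_zero]
    positivity
  obtain ⟨ρ, hρ, hρb⟩ := Metric.eventually_nhds_iff.1 hev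
  obtain ⟨b, hb, hkb⟩ := dense_ne (mul_ne_zero hh d.Δ_ne) b0 (lt_min hρ hδ2)
  rw [map_mul] at hkb
  have hb1 : dist b b0 < ρ := hb.trans_le (min_le_left _ _)
  have hb2 : dist b b0 < δ / 2 := hb.trans_le ((min_le_right _ _).trans (min_le_left _ _))
  have hb3 : dist b b0 < 1 := hb.trans_le ((min_le_right _ _).trans (min_le_right _ _))
  -- a small root
  obtain ⟨y, hy0, hy1⟩ := small_root (hχm.map (MvPolynomial.eval b))
    (by rw [hχm.natDegree_map]; exact hdeg)
  rw [hχm.natDegree_map, Polynomial.coeff_map] at hy1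
  have hy2 : ‖y‖ < δ / 2 := by
    have h1 : ‖y‖ ^ χ.natDegree < (δ / 2) ^ χ.natDegree := hy1.trans_lt (hρb hb1)
    exact lt_of_pow_lt_pow_left₀ _ (by positivity) h1
  obtain ⟨z, hz, hzb, hzv⟩ := hχl b y hy0
  refine ⟨z, hz, ?_, ?_, ?_⟩
  · by_contra hcon
    have hzK : z ∈ K := by
      refine ⟨⟨?_, hz⟩, fun h1 => hcon h1⟩
      rw [mem_closedBall_zero_iff]
      refine hC z hz ?_
      rw [hzb]
      have h1 : ‖b‖ ≤ ‖b0‖ + dist b b0 := by
        rw [dist_eq_norm]
        calc ‖b‖ = ‖b0 + (b - b0)‖ := by rw [add_sub_cancel]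
          _ ≤ _ := norm_add_le _ _
      linarith only [h1, hb3]
    have h1 := hδF z hzK
    have h2 : F z < δ := by
      change ‖prt d.t z - b0‖ + ‖MvPolynomial.eval z v‖ < δ
      rw [hzb, hzv, ← dist_eq_norm]
      linarith
    linarith
  · intro h1
    have h2 := hHh z hz h1
    rw [hzb] at h2
    rw [h2, zero_mul] at hkb
    exact hkb rfl
  · rw [hzb]
    exact right_ne_zero_of_mul hkb

end Vale.Agent.P274.Z
end

section

/-! Equicontinuity of bounded holomorphic functions on irreducible varieties (TASK Z3). -/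

open Filter Metric Set Topology

namespace Vale.Agent.P274.Z

/-- Removal of finitely many singularities. -/
theorem nequi_removable {U : Set ℂ} (hU : IsOpen U) {Z : Set ℂ} (hZ : Z.Finite) {M : ℝ} :
    ∀ g : ℂ → ℂ, DifferentiableOn ℂ g (U \ Z) → (∀ ζ ∈ U \ Z, ‖g ζ‖ ≤ M) →
      ∃ G : ℂ → ℂ, DifferentiableOn ℂ G U ∧ (∀ ζ ∈ U \ Z, G ζ = g ζ) ∧ ∀ ζ ∈ U, ‖G ζ‖ ≤ M := by
  induction Z, hZ using Set.Finite.induction_on with
  | empty =>
    intro g hg hM
    rw [sdiff_empty] at hg hM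
    exact ⟨g, hg, fun _ _ => rfl, hM⟩
  | @insert c Z' hc hZ' ih =>
    intro g hg hM
    by_cases hcU : c ∈ U
    · have hs : IsOpen (U \ Z') := hU.sdiff hZ'.isClosed
      have hcs : c ∈ U \ Z' := ⟨hcU, hc⟩
      have e : (U \ Z') \ {c} = U \ insert c Z' := by
        ext x
        simp only [Set.mem_sdiff, mem_singleton_iff, mem_insert_iff]
        tauto
      have hd := Complex.differentiableOn_update_limUnder_of_bddAbove (hs.mem_nhds hcs)
        (by rw [e]; exact hg) (f := g) ⟨M, by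
          rintro _ ⟨x, hx, rfl⟩
          rw [e] at hx
          exact hM x hx⟩
      set g' : ℂ → ℂ := Function.update g c (limUnder (𝓝[≠] c) g) with hg'
      have hne : ∀ x, x ≠ c → g' x = g x := fun x hx => Function.update_of_ne hx _ _
      have hM' : ∀ ζ ∈ U \ Z', ‖g' ζ‖ ≤ M := by
        intro ζ hζ
        by_cases hζc : ζ = c
        · subst hζc
          have hcont : Tendsto g' (𝓝[≠] ζ) (𝓝 (g' ζ)) :=
            (hd.continuousOn.continuousAt (hs.mem_nhds hcs)).tendsto.mono_left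
              nhdsWithin_le_nhds
          refine le_of_tendsto hcont.norm ?_
          filter_upwards [self_mem_nhdsWithin, mem_nhdsWithin_of_mem_nhds (hs.mem_nhds hcs)]
            with x hx1 hx2
          rw [hne x hx1]
          exact hM x (by rw [← e]; exact ⟨hx2, hx1⟩)
        · rw [hne ζ hζc]
          exact hM ζ (by rw [← e]; exact ⟨hζ, hζc⟩)
      obtain ⟨G, h1, h2, h3⟩ := ih g' hd hM'
      refine ⟨G, h1, fun ζ hζ => ?_, h3⟩
      rw [← e] at hζ
      rw [h2 ζ hζ.1, hne ζ hζ.2]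
    · have e : U \ Z' = U \ insert c Z' := by
        ext x
        simp only [Set.mem_sdiff, mem_insert_iff, not_or]
        constructor
        · rintro ⟨h1, h2⟩
          exact ⟨h1, fun h => hcU (h ▸ h1), h2⟩
        · rintro ⟨h1, h2, h3⟩
          exact ⟨h1, h3⟩
      rw [← e] at hg hM ⊢
      exact ih g hg hM

/-- The one variable estimate. -/
theorem nequi_schwarz {Z : Set ℂ} (hZ : Z.Finite) {M c : ℝ} {g : ℂ → ℂ}
    (hg : DifferentiableOn ℂ g (ball 0 1 \ Z)) (hM : ∀ ζ ∈ ball (0 : ℂ) 1 \ Z, ‖g ζ‖ ≤ M)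
    (hc : ∀ᶠ ζ in 𝓝[≠] (0 : ℂ), ζ ∉ Z → c ≤ ‖g ζ‖) {ζ1 : ℂ} (h1 : ζ1 ∈ ball (0 : ℂ) 1 \ Z)
    (h0 : g ζ1 = 0) : c ≤ 2 * M * ‖ζ1‖ := by
  obtain ⟨G, hG1, hG2, hG3⟩ := nequi_removable isOpen_ball hZ g hg hM
  have h00 : (0 : ℂ) ∈ ball (0 : ℂ) 1 := mem_ball_self one_pos
  have hsch := Complex.dist_le_div_mul_dist_of_mapsTo_ball (R₂ := 2 * M) hG1 (fun ζ hζ => by
    rw [mem_closedBall, dist_eq_norm]
    have := norm_sub_le (G ζ) (G 0)
    have h2 := hG3 ζ hζ
    have h3 := hG3 0 h00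
    linarith) h1.1
  rw [hG2 ζ1 h1, h0, dist_zero_left, dist_zero_right, div_one] at hsch
  refine le_trans ?_ hsch
  have hcont : Tendsto G (𝓝[≠] 0) (𝓝 (G 0)) :=
    (hG1.continuousOn.continuousAt (isOpen_ball.mem_nhds h00)).tendsto.mono_left
      nhdsWithin_le_nhds
  refine ge_of_tendsto hcont.norm ?_
  have hZ0 : ∀ᶠ ζ in 𝓝[≠] (0 : ℂ), ζ ∉ Z := by
    have h2 : (Z \ {0})ᶜ ∈ 𝓝 (0 : ℂ) :=
      (hZ.subset sdiff_subset).isClosed.isOpen_compl.mem_nhds (by simp)
    filter_upwards [self_mem_nhdsWithin, mem_nhdsWithin_of_mem_nhds h2] with x hx1 hx2 hx3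
    exact hx2 ⟨hx3, hx1⟩
  filter_upwards [hc, hZ0, mem_nhdsWithin_of_mem_nhds (isOpen_ball.mem_nhds h00)]
    with ζ a1 a2 a3
  rw [hG2 ζ ⟨a3, a2⟩]
  exact a1 a2

/-- Zero sets of polynomials on lines. -/
theorem nequi_line {n : ℕ} (Δ : MvPolynomial (Fin n) ℂ) (β w : Fin n → ℂ) {ζ1 : ℂ}
    (h : MvPolynomial.eval (β + ζ1 • w) Δ ≠ 0) :
    {ζ : ℂ | MvPolynomial.eval (β + ζ • w) Δ = 0}.Finite := by
  classical
  let Q : Polynomial ℂ := MvPolynomial.aeval
    (fun j => Polynomial.C (β j) + Polynomial.X * Polynomial.C (w j)) Δ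
  have hQ : ∀ ζ, Q.eval ζ = MvPolynomial.eval (β + ζ • w) Δ := by
    intro ζ
    have h1 : Q.eval ζ = (Polynomial.evalRingHom ζ) (MvPolynomial.eval₂ (algebraMap ℂ _)
      (fun j => Polynomial.C (β j) + Polynomial.X * Polynomial.C (w j)) Δ) := rfl
    rw [h1, MvPolynomial.hom_eval₂]
    have h2 : (Polynomial.evalRingHom ζ).comp (algebraMap ℂ (Polynomial ℂ)) = RingHom.id ℂ := by
      ext x
      simp
    have h3 : (fun i => (Polynomial.evalRingHom ζ)
        (Polynomial.C (β i) + Polynomial.X * Polynomial.C (w i))) = β + ζ • w := by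
      funext j
      simp only [map_add, map_mul, Polynomial.coe_evalRingHom, Polynomial.eval_C,
        Polynomial.eval_X, Pi.add_apply, Pi.smul_apply, smul_eq_mul]
    rw [h2, MvPolynomial.eval₂_id, h3]
  have hQ0 : Q ≠ 0 := by
    intro h0
    apply h
    rw [← hQ, h0, Polynomial.eval_zero]
  refine (Q.roots.toFinset.finite_toSet).subset fun ζ hζ => ?_
  simp only [mem_ofPred_eq] at hζ
  simp only [Finset.mem_coe, Multiset.mem_toFinset, Polynomial.mem_roots hQ0,
    Polynomial.IsRoot.def, hQ, hζ]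

/-- The projection is continuous. -/
theorem nequi_cont {N n : ℕ} (t : Fin n → MvPolynomial (Fin N) ℂ) : Continuous (prt t) :=
  continuous_pi fun j => MvPolynomial.continuous_eval (t j)

theorem nequi_closed {N : ℕ} (P : Ideal (MvPolynomial (Fin N) ℂ)) : IsClosed (VV P) := by
  have : VV P = ⋂ f ∈ P, {z | MvPolynomial.eval z f = 0} := by
    ext z
    simp [VV]
  rw [this]
  exact isClosed_biInter fun f _ => isClosed_eq (MvPolynomial.continuous_eval f) continuous_const

/-- The number of points in a fibre. -/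
theorem nequi_card {N : ℕ} {P : Ideal (MvPolynomial (Fin N) ℂ)} (d : NData P)
    {b : Fin d.n → ℂ} (hb : MvPolynomial.eval b d.Δ ≠ 0) (s : Finset (Fin N → ℂ))
    (hs : ∀ z ∈ s, z ∈ VV P ∧ prt d.t z = b) : s.card ≤ d.m.natDegree := by
  classical
  set q : Polynomial ℂ := d.m.map (MvPolynomial.eval b) with hq
  have hqm : q.Monic := d.m_monic.map _
  have h1 : s.card ≤ q.roots.toFinset.card := by
    refine Finset.card_le_card_of_injOn (fun z => MvPolynomial.eval z d.θ) ?_ ?_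
    · intro z hz
      obtain ⟨hz1, hz2⟩ := hs z hz
      have := d.m_root z hz1
      rw [hz2] at this
      simp only [Finset.mem_coe, Multiset.mem_toFinset,
        Polynomial.mem_roots hqm.ne_zero, Polynomial.IsRoot.def]
      exact this
    · intro z hz z' hz' hzz
      obtain ⟨hz1, hz2⟩ := hs z hz
      obtain ⟨hz1', hz2'⟩ := hs z' hz'
      funext i
      have e1 := d.p_eq z hz1 i
      have e2 := d.p_eq z' hz1' i
      simp only at hzz
      rw [hz2, hzz] at e1
      rw [hz2', ← e1] at e2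
      exact (mul_left_cancel₀ hb e2).symm
  have h2 : q.roots.toFinset.card ≤ q.natDegree :=
    (Multiset.toFinset_card_le _).trans (Polynomial.card_roots' q)
  have h3 : q.natDegree ≤ d.m.natDegree := Polynomial.natDegree_map_le
  exact h1.trans (h2.trans h3)

/-- Tube lemma for the fibres of a properly situated piece `S` of the variety. -/
theorem nequi_tube {N n : ℕ} {S V K : Set (Fin N → ℂ)} {π : (Fin N → ℂ) → (Fin n → ℂ)}
    (hπ : Continuous π) (hV : IsClosed V) (hK : IsCompact K) {B : Set (Fin n → ℂ)}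
    (hS : ∀ z, z ∈ V → z ∈ K → π z ∈ B → z ∈ S) (hSK : S ⊆ V ∩ K) {b0 : Fin n → ℂ}
    (hb0 : b0 ∈ B) {G : Set (Fin N → ℂ)} (hG : IsOpen G) (hfG : ∀ z ∈ S, π z = b0 → z ∈ G) :
    ∀ᶠ b in 𝓝 b0, ∀ z ∈ S, π z = b → z ∈ G := by
  have hc : IsCompact (π '' ((K ∩ V) ∩ Gᶜ)) :=
    ((hK.inter_right hV).inter_right hG.isClosed_compl).image hπ
  have hn : b0 ∉ π '' ((K ∩ V) ∩ Gᶜ) := by
    rintro ⟨z, ⟨⟨h1, h2⟩, h3⟩, h4⟩
    exact h3 (hfG z (hS z h2 h1 (by rw [h4]; exact hb0)) h4)
  filter_upwards [hc.isClosed.isOpen_compl.mem_nhds hn] with b hb z hz hzb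
  by_contra h
  exact hb ⟨z, ⟨⟨(hSK hz).2, (hSK hz).1⟩, h⟩, hzb⟩

/-- Products over the fibres are holomorphic outside of the zero set of `Δ`. -/
theorem nequi_diff {N : ℕ} {P : Ideal (MvPolynomial (Fin N) ℂ)} (d : NData P)
    {O O' K : Set (Fin N → ℂ)} (hO : IsOpen O) (hO' : IsOpen O') (hK : IsCompact K)
    {B : Set (Fin d.n → ℂ)} (hB : IsOpen B) {S : Set (Fin N → ℂ)}
    (hS : ∀ z, z ∈ VV P → z ∈ K → prt d.t z ∈ B → z ∈ S)
    (hS' : ∀ z, z ∈ VV P → z ∈ O' → prt d.t z ∈ B → z ∈ S)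
    (hSK : S ⊆ VV P ∩ K) (hSO' : S ⊆ O') (hSO : S ⊆ O)
    {f : (Fin N → ℂ) → ℂ} (hf : HolOn f (VV P ∩ O)) (T : ℂ)
    (fib : (Fin d.n → ℂ) → Finset (Fin N → ℂ))
    (hfib : ∀ b z, z ∈ fib b ↔ z ∈ S ∧ prt d.t z = b)
    {b0 : Fin d.n → ℂ} (hb0 : b0 ∈ B) (hΔ : MvPolynomial.eval b0 d.Δ ≠ 0) :
    DifferentiableAt ℂ (fun b => ∏ z ∈ fib b, (T - f z)) b0 := by
  classical
  have hπ := nequi_cont d.t
  have hsec : ∀ z0 ∈ fib b0, ∃ (W : Set (Fin N → ℂ)) (σ : (Fin d.n → ℂ) → (Fin N → ℂ)),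
      IsOpen W ∧ z0 ∈ W ∧ DifferentiableAt ℂ (fun b => f (σ b)) b0 ∧ ContinuousAt σ b0 ∧
      σ b0 = z0 ∧ (∀ᶠ b in 𝓝 b0, σ b ∈ VV P ∧ prt d.t (σ b) = b) ∧
      ∀ z ∈ VV P ∩ W, σ (prt d.t z) = z := by
    intro z0 hz0
    obtain ⟨hz1, hz2⟩ := (hfib b0 z0).1 hz0
    obtain ⟨r, hr, W, σ, hW, hz0W, hσd, hσz, hσ1, hσ2⟩ :=
      d.exists_section (hSK hz1).1 (by rw [hz2]; exact hΔ)
    rw [hz2] at hσd hσz hσ1 hσ2
    have hball : ball b0 r ∈ 𝓝 b0 := ball_mem_nhds b0 hr
    have hcont : ContinuousAt σ b0 := hσd.continuousOn.continuousAt hball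
    refine ⟨W, σ, hW, hz0W, ?_, hcont, hσz, ?_, fun z hz => (hσ2 z hz).2⟩
    · have hop : IsOpen (ball b0 r ∩ σ ⁻¹' O) :=
        hσd.continuousOn.isOpen_inter_preimage isOpen_ball hO
      have h1 := hf.comp_diffOn hop (hσd.mono inter_subset_left)
        (fun b hb => ⟨(hσ1 b hb.1).1.1, hb.2⟩)
      refine h1.differentiableAt (hop.mem_nhds ⟨mem_ball_self hr, ?_⟩)
      rw [mem_preimage, hσz]
      exact hSO hz1
    · filter_upwards [hball] with b hb
      exact ⟨(hσ1 b hb).1.1, (hσ1 b hb).2⟩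
  choose! W σ hW hzW hσd hσc hσz hσ1 hσ2 using hsec
  -- the fibre near `b0`
  have ev1 : ∀ᶠ b in 𝓝 b0, ∀ z ∈ S, prt d.t z = b → z ∈ ⋃ z0 ∈ fib b0, W z0 := by
    refine nequi_tube hπ (nequi_closed P) hK hS hSK hb0
      (isOpen_biUnion fun z0 hz0 => hW z0 hz0) ?_
    intro z hz hzb
    have : z ∈ fib b0 := (hfib b0 z).2 ⟨hz, hzb⟩
    exact mem_biUnion this (hzW z this)
  have ev2 : ∀ᶠ b in 𝓝 b0, ∀ z0 ∈ fib b0, σ z0 b ∈ S ∧ prt d.t (σ z0 b) = b := by
    rw [Finset.eventually_all]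
    intro z0 hz0
    have hz0S := ((hfib b0 z0).1 hz0).1
    have h1 : ∀ᶠ b in 𝓝 b0, σ z0 b ∈ O' := by
      refine (hσc z0 hz0) (hO'.mem_nhds ?_)
      rw [hσz z0 hz0]
      exact hSO' hz0S
    filter_upwards [h1, hσ1 z0 hz0, hB.mem_nhds hb0] with b a1 a2 a3
    exact ⟨hS' _ a2.1 a1 (by rw [a2.2]; exact a3), a2.2⟩
  have ev3 : ∀ᶠ b in 𝓝 b0, ∀ z0 ∈ fib b0, ∀ z1 ∈ fib b0, z0 ≠ z1 → σ z0 b ≠ σ z1 b := by
    rw [Finset.eventually_all]
    intro z0 hz0
    rw [Finset.eventually_all]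
    intro z1 hz1
    by_cases h : z0 = z1
    · exact Eventually.of_forall fun b hb => absurd h hb
    · have hp : ContinuousAt (fun b => (σ z0 b, σ z1 b)) b0 :=
        (hσc z0 hz0).prodMk (hσc z1 hz1)
      have := hp.preimage_mem_nhds (t := (diagonal (Fin N → ℂ))ᶜ)
        (isClosed_diagonal.isOpen_compl.mem_nhds (by
          rw [mem_compl_iff, mem_diagonal_iff, hσz z0 hz0, hσz z1 hz1]
          exact h))
      filter_upwards [this] with b hb _
      exact hb
  have key : (fun b => ∏ z ∈ fib b, (T - f z)) =ᶠ[𝓝 b0]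
      fun b => ∏ z0 ∈ fib b0, (T - f (σ z0 b)) := by
    filter_upwards [ev1, ev2, ev3] with b a1 a2 a3
    have e : fib b = (fib b0).image (fun z0 => σ z0 b) := by
      ext z
      rw [hfib, Finset.mem_image]
      constructor
      · rintro ⟨h1, h2⟩
        have h3 := a1 z h1 h2
        rw [mem_iUnion₂] at h3
        obtain ⟨z0, hz0, hz0W⟩ := h3
        refine ⟨z0, hz0, ?_⟩
        have := hσ2 z0 hz0 z ⟨(hSK h1).1, hz0W⟩
        rwa [h2] at this
      · rintro ⟨z0, hz0, rfl⟩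
        exact a2 z0 hz0
    rw [e, Finset.prod_image]
    intro z0 hz0 z1 hz1 h
    by_contra hne
    exact a3 z0 hz0 z1 hz1 hne h
  refine DifferentiableAt.congr_of_eventuallyEq ?_ key
  exact (HasFDerivAt.finsetProd (u := fib b0) (g := fun z0 b => T - f (σ z0 b))
    fun z0 hz0 => ((hσd z0 hz0).const_sub T).hasFDerivAt).differentiableAt

/-- The key estimate. -/
theorem nequi_key {N : ℕ} {P : Ideal (MvPolynomial (Fin N) ℂ)} (d : NData P)
    {O : Set (Fin N → ℂ)} (hO : IsOpen O) {x0 : Fin N → ℂ} (hx0 : x0 ∈ VV P ∩ O) :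
    ∃ r > 0, ∃ ρ > 0, ∀ f : (Fin N → ℂ) → ℂ, HolOn f (VV P ∩ O) →
      (∀ x ∈ VV P ∩ O, ‖f x‖ ≤ 1) → ∀ z1 ∈ VV P, dist z1 x0 < ρ →
      ‖prt d.t z1 - prt d.t x0‖ < r → MvPolynomial.eval (prt d.t z1) d.Δ ≠ 0 →
      min 1 (‖f z1 - f x0‖ / 2) ^ d.m.natDegree ≤
        2 * 2 ^ d.m.natDegree * (‖prt d.t z1 - prt d.t x0‖ / r) := by
  classical
  set π := prt d.t with hπdef
  have hπ : Continuous π := nequi_cont d.t
  set β := π x0 with hβ
  -- the radius `ε1`
  obtain ⟨ε0, hε0, hε0O⟩ : ∃ ε0 > 0, closedBall x0 ε0 ⊆ O :=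
    nhds_basis_closedBall.mem_iff.1 (hO.mem_nhds hx0.2)
  obtain ⟨ε1, hε1, hε10, hε1f⟩ : ∃ ε1 > 0, ε1 ≤ ε0 ∧
      ∀ z ∈ VV P, π z = β → dist z x0 ≤ ε1 → z = x0 := by
    have hfin : ({z | z ∈ VV P ∧ π z = β} \ {x0}).Finite := (d.finite_fibre β).subset sdiff_subset
    have h1 : ({z | z ∈ VV P ∧ π z = β} \ {x0})ᶜ ∈ 𝓝 x0 :=
      hfin.isClosed.isOpen_compl.mem_nhds (by simp)
    obtain ⟨ε', hε', h2⟩ := nhds_basis_closedBall.mem_iff.1 h1
    refine ⟨min ε' ε0, lt_min hε' hε0, min_le_right _ _, fun z hz hzb hzd => ?_⟩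
    by_contra hne
    exact h2 (mem_closedBall.2 (hzd.trans (min_le_left _ _))) ⟨⟨hz, hzb⟩, hne⟩
  -- the radius `r`
  set A : Set (Fin N → ℂ) := (closedBall x0 ε1 ∩ VV P) ∩ (ball x0 (ε1 / 2))ᶜ with hA
  have hAc : IsCompact A :=
    ((isCompact_closedBall x0 ε1).inter_right (nequi_closed P)).inter_right
      isOpen_ball.isClosed_compl
  obtain ⟨r, hr, hrA⟩ : ∃ r > 0, ∀ z ∈ A, r ≤ ‖π z - β‖ := by
    have hβA : β ∉ π '' A := by
      rintro ⟨z, ⟨⟨h1, h2⟩, h3⟩, h4⟩
      have := hε1f z h2 h4 (mem_closedBall.1 h1)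
      rw [this] at h3
      exact h3 (mem_ball_self (by positivity))
    have := (hAc.image hπ).isClosed.isOpen_compl.mem_nhds hβA
    obtain ⟨r, hr, h⟩ := Metric.mem_nhds_iff.1 this
    refine ⟨r, hr, fun z hz => ?_⟩
    by_contra hlt
    push Not at hlt
    exact h (by rw [mem_ball, dist_eq_norm]; exact hlt) ⟨z, hz, rfl⟩
  refine ⟨r, hr, ε1 / 2, by positivity, ?_⟩
  intro f hf hf1 z1 hz1 hz1d hz1r hz1Δ
  -- the piece `S`
  set S : Set (Fin N → ℂ) := {z | z ∈ VV P ∧ dist z x0 < ε1 / 2 ∧ ‖π z - β‖ < r} with hS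
  have hSO : S ⊆ O := fun z hz => hε0O (by
    rw [mem_closedBall]; linarith [hz.2.1])
  have hfin : ∀ b, {z | z ∈ S ∧ π z = b}.Finite := fun b =>
    (d.finite_fibre b).subset fun z hz => ⟨hz.1.1, hz.2⟩
  set fib : (Fin d.n → ℂ) → Finset (Fin N → ℂ) := fun b => (hfin b).toFinset with hfibdef
  have hfib : ∀ b z, z ∈ fib b ↔ z ∈ S ∧ π z = b := fun b z => by simp [hfibdef]
  set T := f z1 with hT
  set F : (Fin d.n → ℂ) → ℂ := fun b => ∏ z ∈ fib b, (T - f z) with hF
  have hSK : S ⊆ VV P ∩ closedBall x0 (ε1 / 2) := fun z hz =>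
    ⟨hz.1, mem_closedBall.2 hz.2.1.le⟩
  have hSS : ∀ z, z ∈ VV P → z ∈ closedBall x0 (ε1 / 2) → π z ∈ ball β r → z ∈ S := by
    intro z h1 h2 h3
    rw [mem_ball, dist_eq_norm] at h3
    refine ⟨h1, ?_, h3⟩
    by_contra h4
    have : z ∈ A := by
      refine ⟨⟨mem_closedBall.2 ?_, h1⟩, h4⟩
      have := mem_closedBall.1 h2
      linarith
    exact absurd (hrA z this) (not_le.2 h3)
  have hFd : ∀ b ∈ ball β r, MvPolynomial.eval b d.Δ ≠ 0 → DifferentiableAt ℂ F b := by
    intro b hb hbΔ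
    refine nequi_diff d hO (isOpen_ball (x := x0) (ε := ε1 / 2))
      (isCompact_closedBall x0 (ε1 / 2)) (isOpen_ball (x := β) (ε := r)) hSS ?_ hSK ?_ hSO hf T
      fib hfib hb hbΔ
    · intro z h1 h2 h3
      exact hSS z h1 (ball_subset_closedBall h2) h3
    · intro z hz
      exact hz.2.1
  have hTf : ∀ z ∈ S, ‖T - f z‖ ≤ 2 := by
    intro z hz
    have h1 := norm_sub_le T (f z)
    have h2 := hf1 z ⟨hz.1, hSO hz⟩
    have h3 : ‖T‖ ≤ 1 := hf1 z1 ⟨hz1, hε0O (by rw [mem_closedBall]; linarith)⟩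
    linarith
  have hcard : ∀ b, MvPolynomial.eval b d.Δ ≠ 0 → (fib b).card ≤ d.m.natDegree := fun b hb =>
    nequi_card d hb (fib b) fun z hz => ⟨((hfib b z).1 hz).1.1, ((hfib b z).1 hz).2⟩
  have hFb : ∀ b, MvPolynomial.eval b d.Δ ≠ 0 → ‖F b‖ ≤ 2 ^ d.m.natDegree := by
    intro b hb
    rw [hF]
    simp only
    rw [norm_prod]
    calc ∏ z ∈ fib b, ‖T - f z‖ ≤ ∏ z ∈ fib b, (2 : ℝ) :=
          Finset.prod_le_prod (fun _ _ => norm_nonneg _) fun z hz => hTf z ((hfib b z).1 hz).1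
      _ = 2 ^ (fib b).card := by rw [Finset.prod_const]
      _ ≤ 2 ^ d.m.natDegree := pow_le_pow_right₀ (by norm_num) (hcard b hb)
  have hz1S : z1 ∈ S := ⟨hz1, hz1d, hz1r⟩
  set c : ℝ := min 1 (‖f z1 - f x0‖ / 2) with hc
  have hc0 : 0 ≤ c := le_min zero_le_one (by positivity)
  have hc1 : c ≤ 1 := min_le_left _ _
  by_cases hb1 : π z1 = β
  · -- then `z1 = x0`
    have : z1 = x0 := hε1f z1 hz1 hb1 (by linarith)
    have hc00 : c = 0 := by rw [hc, this]; simp
    have hdeg : d.m.natDegree ≠ 0 := by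
      intro h0
      have h2 := hcard (π z1) hz1Δ
      have h3 : z1 ∈ fib (π z1) := (hfib _ _).2 ⟨hz1S, rfl⟩
      rw [h0] at h2
      have := Finset.card_pos.2 ⟨z1, h3⟩
      omega
    rw [hc00, zero_pow hdeg]
    positivity
  have hρ : 0 < ‖π z1 - β‖ := norm_pos_iff.2 (sub_ne_zero.2 hb1)
  set ρ := ‖π z1 - β‖ with hρdef
  set w : Fin d.n → ℂ := ((r / ρ : ℝ) : ℂ) • (π z1 - β) with hw
  have hwn : ‖w‖ = r := by
    rw [hw, norm_smul, Complex.norm_real, Real.norm_of_nonneg (by positivity), ← hρdef]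
    field_simp
  set ζ1 : ℂ := ((ρ / r : ℝ) : ℂ) with hζ1
  have hζ1w : β + ζ1 • w = π z1 := by
    rw [hζ1, hw, smul_smul, ← Complex.ofReal_mul]
    have : ρ / r * (r / ρ) = 1 := by field_simp
    rw [this]
    simp
  have hζ1n : ‖ζ1‖ = ρ / r := by
    rw [hζ1, Complex.norm_real, Real.norm_of_nonneg (by positivity)]
  have hline : ∀ ζ ∈ ball (0 : ℂ) 1, β + ζ • w ∈ ball β r := by
    intro ζ hζ
    rw [mem_ball, dist_eq_norm, add_sub_cancel_left, norm_smul, hwn]
    rw [mem_ball, dist_zero_right] at hζ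
    (by_contra nlg; linarith only [nlg, mul_pos (sub_pos.2 hρ) (sub_pos.2 hζ), mul_pos (sub_pos.2 hz1r) (sub_pos.2 hζ), mul_nonneg (sub_nonneg.2 (not_lt.1 nlg)) (sub_nonneg.2 hc1), mul_nonneg (sub_nonneg.2 (not_lt.1 nlg)) (sub_nonneg.2 hc0)])
  have hZ := nequi_line d.Δ β w (ζ1 := ζ1) (by rw [hζ1w]; exact hz1Δ)
  set Z : Set ℂ := {ζ : ℂ | MvPolynomial.eval (β + ζ • w) d.Δ = 0} with hZdef
  have hmain := nequi_schwarz hZ (M := 2 ^ d.m.natDegree) (c := c ^ d.m.natDegree)
    (g := fun ζ => F (β + ζ • w)) ?_ ?_ ?_ (ζ1 := ζ1) ?_ ?_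
  · rw [hζ1n] at hmain
    exact hmain
  · intro ζ hζ
    have h1 : DifferentiableAt ℂ F (β + ζ • w) := hFd _ (hline ζ hζ.1) hζ.2
    have h2 : DifferentiableAt ℂ (fun ζ : ℂ => β + ζ • w) ζ := by fun_prop
    exact (h1.comp ζ h2).differentiableWithinAt
  · intro ζ hζ
    exact hFb _ hζ.2
  · -- the lower bound near `0`
    have hcx : ContinuousWithinAt f (VV P ∩ O) x0 := hf.continuousWithinAt hx0
    by_cases hA0 : f z1 - f x0 = 0
    · have hc00 : c = 0 := by rw [hc, hA0]; simp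
      have hdeg : d.m.natDegree ≠ 0 := by
        intro h0
        have h2 := hcard (π z1) hz1Δ
        have h3 : z1 ∈ fib (π z1) := (hfib _ _).2 ⟨hz1S, rfl⟩
        rw [h0] at h2
        have := Finset.card_pos.2 ⟨z1, h3⟩
        omega
      rw [hc00, zero_pow hdeg]
      exact Eventually.of_forall fun _ _ => norm_nonneg _
    · have hApos : 0 < ‖f z1 - f x0‖ := norm_pos_iff.2 hA0
      have h1 : ∀ᶠ z in 𝓝[VV P ∩ O] x0, dist (f z) (f x0) < ‖f z1 - f x0‖ / 2 :=
        hcx (Metric.ball_mem_nhds _ (by positivity))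
      rw [eventually_nhdsWithin_iff] at h1
      obtain ⟨G, hG, hGo, hx0G⟩ := _root_.eventually_nhds_iff.1 h1
      have h2 := nequi_tube hπ (nequi_closed P) (isCompact_closedBall x0 (ε1 / 2)) hSS hSK
        (mem_ball_self hr) hGo (fun z hz hzb => by
          rw [hε1f z hz.1 hzb (by linarith only [hz.2.1, hε1])]
          exact hx0G)
      have h3 : Tendsto (fun ζ : ℂ => β + ζ • w) (𝓝[≠] 0) (𝓝 β) := by
        have : Continuous (fun ζ : ℂ => β + ζ • w) := by fun_prop
        have h4 := (this.tendsto 0).mono_left (nhdsWithin_le_nhds (s := {0}ᶜ))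
        simpa using h4
      filter_upwards [h3.eventually h2] with ζ hζ hζZ
      rw [hF]
      simp only
      rw [norm_prod]
      calc c ^ d.m.natDegree ≤ c ^ (fib (β + ζ • w)).card :=
            pow_le_pow_of_le_one hc0 hc1 (hcard _ hζZ)
        _ = ∏ z ∈ fib (β + ζ • w), c := by rw [Finset.prod_const]
        _ ≤ ∏ z ∈ fib (β + ζ • w), ‖T - f z‖ := by
            refine Finset.prod_le_prod (fun _ _ => hc0) fun z hz => ?_
            obtain ⟨hzS, hzb⟩ := (hfib _ _).1 hz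
            have h5 := hG z (hζ z hzS hzb) ⟨hzS.1, hSO hzS⟩
            rw [dist_eq_norm] at h5
            have h6 : ‖f z1 - f x0‖ ≤ ‖T - f z‖ + ‖f z - f x0‖ := by
              have : f z1 - f x0 = (T - f z) + (f z - f x0) := by rw [hT]; ring
              rw [this]
              exact norm_add_le _ _
            refine (min_le_right _ _).trans ?_
            linarith
  · refine ⟨?_, ?_⟩
    · rw [mem_ball, dist_zero_right, hζ1n, div_lt_one hr]
      exact hz1r
    · rw [hZdef, Set.mem_ofPred_eq, hζ1w]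
      exact hz1Δ
  · rw [hF]
    simp only
    rw [hζ1w]
    exact Finset.prod_eq_zero ((hfib _ _).2 ⟨hz1S, rfl⟩) (by rw [hT, sub_self])

theorem NData.equiHol {N : ℕ} {P : Ideal (MvPolynomial (Fin N) ℂ)} (d : NData P)
    {O : Set (Fin N → ℂ)} (hO : IsOpen O) {x0 : Fin N → ℂ} (hx0 : x0 ∈ VV P ∩ O) :
    EquiHol (VV P ∩ O) x0 := by
  intro ε hε
  obtain ⟨r, hr, ρ, hρ, key⟩ := nequi_key d hO hx0
  have hκ : 0 < min 1 (ε / 2) ^ d.m.natDegree := by
    have : 0 < min 1 (ε / 2) := lt_min one_pos (by positivity)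
    positivity
  set κ := min 1 (ε / 2) ^ d.m.natDegree with hκdef
  have hδ1 : 0 < min r (κ * r / (2 * 2 ^ d.m.natDegree)) := lt_min hr (by positivity)
  obtain ⟨δ1, hδ1p, hδ1c⟩ := Metric.continuousAt_iff.1
    ((nequi_cont d.t).continuousAt (x := x0)) _ hδ1
  refine ⟨min δ1 ρ, lt_min hδ1p hρ, fun f hf hf1 x hx hxd => ?_⟩
  have hgood : ∀ z ∈ VV P, dist z x0 < min δ1 ρ → MvPolynomial.eval (prt d.t z) d.Δ ≠ 0 →
      ‖f z - f x0‖ ≤ ε := by
    intro z hz hzd hzΔ
    have h1 := hδ1c (hzd.trans_le (min_le_left _ _))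
    rw [dist_eq_norm] at h1
    have h2 := key f hf hf1 z hz (hzd.trans_le (min_le_right _ _))
      (h1.trans_le (min_le_left _ _)) hzΔ
    have h3 : 2 * 2 ^ d.m.natDegree * (‖prt d.t z - prt d.t x0‖ / r) < κ := by
      have h4 := h1.trans_le (min_le_right _ _)
      rw [lt_div_iff₀ (by positivity)] at h4
      rw [← mul_div_assoc, div_lt_iff₀ hr]
      linarith
    have h5 := lt_of_pow_lt_pow_left₀ _ (by
      have : 0 < ε / 2 := by positivity
      exact le_min zero_le_one this.le) (h2.trans_lt h3)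
    have h6 : ‖f z - f x0‖ / 2 < ε / 2 := by
      rcases min_lt_iff.1 h5 with h | h
      · exact absurd (h.trans_le (min_le_left _ _)) (lt_irrefl _)
      · exact h.trans_le (min_le_right _ _)
    linarith
  have h1P : (1 : MvPolynomial (Fin N) ℂ) ∉ P := by
    intro h
    have := hx0.1 1 h
    simp at this
  refine le_of_forall_pos_le_add fun η hη => ?_
  have hcx : ContinuousWithinAt f (VV P ∩ O) x := hf.continuousWithinAt hx
  obtain ⟨δ2, hδ2, hδ2c⟩ := Metric.continuousWithinAt_iff.1 hcx η hη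
  obtain ⟨δ3, hδ3, hδ3O⟩ := Metric.mem_nhds_iff.1 (hO.mem_nhds hx.2)
  have hδ4 : 0 < min δ1 ρ - dist x x0 := sub_pos.2 hxd
  obtain ⟨z, hz, hzx, -, hzΔ⟩ := d.dense hx.1 h1P (lt_min (lt_min hδ2 hδ3) hδ4)
  have hz1 : dist z x < δ2 := hzx.trans_le ((min_le_left _ _).trans (min_le_left _ _))
  have hz2 : dist z x < δ3 := hzx.trans_le ((min_le_left _ _).trans (min_le_right _ _))
  have hz3 : dist z x < min δ1 ρ - dist x x0 := hzx.trans_le (min_le_right _ _)
  have hzO : z ∈ O := hδ3O hz2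
  have h7 := hδ2c ⟨hz, hzO⟩ hz1
  have h8 := hgood z hz (by
    have := dist_triangle z x x0
    linarith) hzΔ
  rw [dist_comm, dist_eq_norm] at h7
  have h9 : f x - f x0 = (f x - f z) + (f z - f x0) := by ring
  rw [h9]
  have := norm_add_le (f x - f z) (f z - f x0)
  linarith

end Vale.Agent.P274.Z
end

section

/-! Arbitrary algebraic sets: reduction to the irreducible components (TASK Z4). -/

open Filter Metric Set Topology

namespace Vale.Agent.P274.Z

theorem continuous_ev {N : ℕ} (f : MvPolynomial (Fin N) ℂ) :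
    Continuous (fun z : Fin N → ℂ => MvPolynomial.eval z f) := MvPolynomial.continuous_eval f

theorem isClosed_VV {N : ℕ} (I : Ideal (MvPolynomial (Fin N) ℂ)) : IsClosed (VV I) := by
  have h : VV I = ⋂ f ∈ I, {z | MvPolynomial.eval z f = 0} := by
    ext z; simp [VV]
  rw [h]
  exact isClosed_biInter fun f _ => isClosed_eq (continuous_ev f) continuous_const

theorem VV_anti {N : ℕ} {I J : Ideal (MvPolynomial (Fin N) ℂ)} (h : I ≤ J) : VV J ⊆ VV I :=
  fun _ hz f hf => hz f (h hf)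

/-- Decomposition into components. -/
theorem exists_mem_minimalPrimes {N : ℕ} (I : Ideal (MvPolynomial (Fin N) ℂ)) {z : Fin N → ℂ}
    (hz : z ∈ VV I) : ∃ P ∈ I.minimalPrimes, z ∈ VV P := by
  have hle : I ≤ RingHom.ker (MvPolynomial.eval z) := fun f hf => hz f hf
  have hpr : (RingHom.ker (MvPolynomial.eval z : MvPolynomial (Fin N) ℂ →+* ℂ)).IsPrime :=
    RingHom.ker_isPrime _
  obtain ⟨P, hP, hPle⟩ := Ideal.exists_minimalPrimes_le hle
  exact ⟨P, hP, fun f hf => hPle hf⟩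

theorem equiHol_alg {N : ℕ} (I : Ideal (MvPolynomial (Fin N) ℂ)) {O : Set (Fin N → ℂ)}
    (hO : IsOpen O) {x0 : Fin N → ℂ} (hx0 : x0 ∈ VV I ∩ O) : EquiHol (VV I ∩ O) x0 := by
  intro ε hε
  have hfin : I.minimalPrimes.Finite := I.finite_minimalPrimes_of_isNoetherianRing _
  have key : ∀ P ∈ I.minimalPrimes, ∃ δ > 0, ∀ f : (Fin N → ℂ) → ℂ, HolOn f (VV I ∩ O) →
      (∀ x ∈ VV I ∩ O, ‖f x‖ ≤ 1) → ∀ x ∈ VV P ∩ O, dist x x0 < δ → ‖f x - f x0‖ ≤ ε := by
    intro P hP
    have hsub : VV P ∩ O ⊆ VV I ∩ O := inter_subset_inter_left _ (VV_anti hP.1.2)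
    by_cases hx : x0 ∈ VV P
    · obtain ⟨d⟩ := exists_nData P hP.1.1
      obtain ⟨δ, hδ, h1⟩ := d.equiHol hO ⟨hx, hx0.2⟩ ε hε
      exact ⟨δ, hδ, fun f hf hfb => h1 f (hf.mono hsub) fun x hx => hfb x (hsub hx)⟩
    · obtain ⟨δ, hδ, h1⟩ := Metric.isOpen_iff.1 (isClosed_VV P).isOpen_compl x0 hx
      exact ⟨δ, hδ, fun f _ _ x hx hxd => absurd hx.1 (h1 hxd)⟩
  choose! δ hδ h using key
  obtain ⟨δ0, hδ0, hδle⟩ : ∃ δ0 > 0, ∀ P ∈ I.minimalPrimes, δ0 ≤ δ P := by
    have h1 : ∀ᶠ t in 𝓝[>] (0 : ℝ), ∀ P ∈ I.minimalPrimes, t ≤ δ P := by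
      rw [hfin.eventually_all]
      intro P hP
      exact mem_of_superset (Ioo_mem_nhdsGT (hδ P hP)) fun t ht => ht.2.le
    obtain ⟨t, ht1, ht2⟩ := (h1.and self_mem_nhdsWithin).exists
    exact ⟨t, ht2, ht1⟩
  refine ⟨δ0, hδ0, fun f hf hfb x hx hxd => ?_⟩
  obtain ⟨P, hP, hxP⟩ := exists_mem_minimalPrimes I hx.1
  exact h P hP f hf hfb x ⟨hxP, hx.2⟩ (hxd.trans_le (hδle P hP))

theorem eval_aeval {N n : ℕ} (t : Fin n → MvPolynomial (Fin N) ℂ) (Q : MvPolynomial (Fin n) ℂ)
    (z : Fin N → ℂ) : MvPolynomial.eval z (MvPolynomial.aeval t Q) =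
      MvPolynomial.eval (prt t z) Q := by
  induction Q using MvPolynomial.induction_on with
  | C a => simp
  | add p q hp hq => simp only [map_add, hp, hq]
  | mul_X p i hp => simp only [map_mul, hp, MvPolynomial.aeval_X, MvPolynomial.eval_X, prt]

/-- There is a polynomial, not identically zero on the given relatively open subset, outside the
zero set of which all points of the variety are manifold points of the same dimension. -/
theorem exists_good_poly {N : ℕ} (I : Ideal (MvPolynomial (Fin N) ℂ)) {O : Set (Fin N → ℂ)}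
    (hO : IsOpen O) (hne : (VV I ∩ O).Nonempty) :
    ∃ (n : ℕ) (G : MvPolynomial (Fin N) ℂ), (∃ u ∈ VV I ∩ O, MvPolynomial.eval u G ≠ 0) ∧
      ∀ z ∈ VV I, MvPolynomial.eval z G ≠ 0 → ManPt (Fin n → ℂ) (VV I) z := by
  classical
  obtain ⟨u0, hu0, hu0O⟩ := hne
  have hfin : I.minimalPrimes.Finite := I.finite_minimalPrimes_of_isNoetherianRing _
  obtain ⟨P, hP, hu0P⟩ := exists_mem_minimalPrimes I hu0
  have hPp : P.IsPrime := hP.1.1
  obtain ⟨d⟩ := exists_nData P hPp
  -- functions vanishing on the other components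
  have h1 : ∀ Q ∈ I.minimalPrimes, Q ≠ P → ∃ f ∈ Q, f ∉ P := by
    intro Q hQ hQP
    by_contra hcon
    push Not at hcon
    have h2 : Q ≤ P := hcon
    exact hQP (le_antisymm h2 (hP.2 hQ.1 h2))
  choose! F hFQ hFP using h1
  set S : Finset (Ideal (MvPolynomial (Fin N) ℂ)) := hfin.toFinset.erase P with hS
  set F0 : MvPolynomial (Fin N) ℂ := ∏ Q ∈ S, F Q with hF0
  have hF0P : F0 ∉ P := by
    intro h
    obtain ⟨Q, hQ, hQ2⟩ := (hPp.prod_mem_iff (s := S) (x := F)).1 h
    have hQ3 := Finset.mem_erase.1 hQ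
    exact hFP Q (hfin.mem_toFinset.1 hQ3.2) hQ3.1 hQ2
  set G1 : MvPolynomial (Fin N) ℂ := MvPolynomial.aeval d.t d.Δ with hG1
  have hG1e : ∀ z, MvPolynomial.eval z G1 = MvPolynomial.eval (prt d.t z) d.Δ := by
    exact fun z => eval_aeval d.t d.Δ z
  obtain ⟨ε, hε, hεO⟩ := Metric.isOpen_iff.1 hO u0 hu0O
  obtain ⟨u, huP, hud, huF, huΔ⟩ := d.dense hu0P hF0P hε
  refine ⟨d.n, F0 * G1, ⟨u, ⟨VV_anti hP.1.2 huP, hεO hud⟩, ?_⟩, fun z hz hGz => ?_⟩
  · rw [map_mul, hG1e]
    exact mul_ne_zero huF huΔ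
  · rw [map_mul, hG1e] at hGz
    have hzF := left_ne_zero_of_mul hGz
    have hzΔ := right_ne_zero_of_mul hGz
    -- the complement of the other components
    set V : Set (Fin N → ℂ) := {w | MvPolynomial.eval w F0 ≠ 0} with hV
    have hVo : IsOpen V := isOpen_ne_fun (continuous_ev F0) continuous_const
    have hVV : VV I ∩ V = VV P ∩ V := by
      ext w
      constructor
      · rintro ⟨hw, hwV⟩
        refine ⟨?_, hwV⟩
        obtain ⟨Q, hQ, hwQ⟩ := exists_mem_minimalPrimes I hw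
        by_cases hQP : Q = P
        · rwa [hQP] at hwQ
        · exfalso
          have h2 : Q ∈ S := Finset.mem_erase.2 ⟨hQP, hfin.mem_toFinset.2 hQ⟩
          have h3 : MvPolynomial.eval w F0 ≠ 0 := hwV
          rw [hF0, map_prod, Finset.prod_ne_zero_iff] at h3
          exact h3 Q h2 (hwQ _ (hFQ Q hQ hQP))
      · rintro ⟨hw, hwV⟩
        exact ⟨VV_anti hP.1.2 hw, hwV⟩
    have hzP : z ∈ VV P := by
      have : z ∈ VV I ∩ V := ⟨hz, hzF⟩
      rw [hVV] at this
      exact this.1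
    have h2 := (d.manPt hzP hzΔ).inter_open hVo hzF
    rw [← hVV] at h2
    exact h2.of_inter_open hVo

end Vale.Agent.P274.Z
end

section

/-! # P274-V21: the domains of `siegel_of_corkscrew` are Siegel domains `Sg F Ω`

`L y = (prj D σ y, Lam D y)` with values in `ker (Lam D) × ℂ^k` (`Lam_prj`), inverse `(z, w) ↦ z + σ w`.
`F u v j = - ¼ [Bs(u,v) + Bs(iu,iv) + i (Bs(u,iv) - Bs(iu,v))]_j`, `Bs(u,v) = ½ (B u v + B v u)`, so
`F (i u) v = i F u v`, `F v u = conj (F u v)`, `re (F z z) = - Lev B z`; and `re (Lam D y) = D y` (`Lam_re`). -/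

open Set Complex ComplexConjugate Topology

namespace Vale.Agent.P274.V

variable {E : Type*} [NormedAddCommGroup E] [NormedSpace ℂ E]

/-- The symmetrised form. -/
noncomputable def siegelBs {k : ℕ} (B : E →L[ℝ] E →L[ℝ] (Fin k → ℝ)) (u v : E) (j : Fin k) : ℝ :=
  (B u v j + B v u j) / 2

/-- The Hermitian form. -/
noncomputable def siegelF {k : ℕ} (B : E →L[ℝ] E →L[ℝ] (Fin k → ℝ)) (u v : E) : Fin k → ℂ :=
  fun j => -(1 / 4 : ℂ) * ((siegelBs B u v j : ℂ) + (siegelBs B (I • u) (I • v) j : ℂ)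
    + I * ((siegelBs B u (I • v) j : ℂ) - (siegelBs B (I • u) v j : ℂ)))

section

variable {k : ℕ} (B : E →L[ℝ] E →L[ℝ] (Fin k → ℝ))

theorem siegelBs_add_left (u u' v : E) (j : Fin k) :
    siegelBs B (u + u') v j = siegelBs B u v j + siegelBs B u' v j := by
  unfold siegelBs
  simp only [map_add, add_apply, Pi.add_apply]
  ring

theorem siegelBs_comm (u v : E) (j : Fin k) : siegelBs B u v j = siegelBs B v u j := by
  unfold siegelBs
  ring

theorem siegelBs_add_right (u v v' : E) (j : Fin k) :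
    siegelBs B u (v + v') j = siegelBs B u v j + siegelBs B u v' j := by
  rw [siegelBs_comm, siegelBs_add_left, siegelBs_comm, siegelBs_comm B v']

theorem siegelBs_smul_left (r : ℝ) (u v : E) (j : Fin k) :
    siegelBs B (r • u) v j = r * siegelBs B u v j := by
  unfold siegelBs
  simp only [map_smul, smul_apply, Pi.smul_apply, smul_eq_mul]
  ring

theorem siegelBs_smul_right (r : ℝ) (u v : E) (j : Fin k) :
    siegelBs B u (r • v) j = r * siegelBs B u v j := by
  rw [siegelBs_comm, siegelBs_smul_left, siegelBs_comm]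

theorem siegelBs_neg_left (u v : E) (j : Fin k) : siegelBs B (-u) v j = -siegelBs B u v j := by
  have := siegelBs_smul_left B (-1) u v j
  rwa [neg_one_smul, neg_one_mul] at this

theorem siegelF_add_left (u u' v : E) : siegelF B (u + u') v = siegelF B u v + siegelF B u' v := by
  funext j
  simp only [siegelF, smul_add, siegelBs_add_left, Pi.add_apply]
  push_cast
  ring

theorem siegelF_add_right (u v v' : E) :
    siegelF B u (v + v') = siegelF B u v + siegelF B u v' := by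
  funext j
  simp only [siegelF, smul_add, siegelBs_add_right, Pi.add_apply]
  push_cast
  ring

theorem siegelF_smul_left (r : ℝ) (u v : E) : siegelF B (r • u) v = r • siegelF B u v := by
  funext j
  simp only [siegelF, smul_comm I r, siegelBs_smul_left, Pi.smul_apply, real_smul]
  push_cast
  ring

theorem siegelF_smul_right (r : ℝ) (u v : E) : siegelF B u (r • v) = r • siegelF B u v := by
  funext j
  simp only [siegelF, smul_comm I r, siegelBs_smul_right, Pi.smul_apply, real_smul]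
  push_cast
  ring

theorem siegelI (u : E) : I • I • u = -u := by
  rw [smul_smul, I_mul_I, neg_one_smul]

theorem siegelF_I_left (u v : E) : siegelF B (I • u) v = I • siegelF B u v := by
  funext j
  simp only [siegelF, siegelI, siegelBs_neg_left, Pi.smul_apply, smul_eq_mul]
  push_cast
  linear_combination (-(1 / 4 : ℂ)) * (-(siegelBs B u (I • v) j : ℂ)
    + (siegelBs B (I • u) v j : ℂ)) * I_mul_I

theorem siegelF_symm (u v : E) (j : Fin k) : siegelF B v u j = conj (siegelF B u v j) := by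
  simp only [siegelF, map_mul, map_add, map_sub, map_neg, conj_ofReal, conj_I, map_div₀, map_one]
  rw [siegelBs_comm B v u, siegelBs_comm B (I • v) (I • u), siegelBs_comm B v (I • u),
    siegelBs_comm B (I • v) u]
  have : (starRingEnd ℂ) 4 = 4 := map_ofNat _ 4
  rw [this]
  ring

theorem siegelF_re (z : E) (j : Fin k) : (siegelF B z z j).re = -Lev B z j := by
  have h1 : siegelF B z z j = ((-(1 / 4) * (siegelBs B z z j + siegelBs B (I • z) (I • z) j) : ℝ) : ℂ)
      := by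
    simp only [siegelF]
    rw [siegelBs_comm B z (I • z)]
    push_cast
    ring
  rw [h1, ofReal_re, Lev_apply]
  unfold siegelBs
  ring

end

theorem exists_linear_siegel [FiniteDimensional ℂ E] {k : ℕ} {D : E →L[ℝ] (Fin k → ℝ)}
    (B : E →L[ℝ] E →L[ℝ] (Fin k → ℝ)) {σ : (Fin k → ℂ) →L[ℂ] E} (hσ : ∀ w, Lam D (σ w) = w)
    (Ω : Set (Fin k → ℝ)) :
    ∃ (F : (Lam D).ker →L[ℝ] (Lam D).ker →L[ℝ] (Fin k → ℂ))
      (L : E ≃L[ℂ] (Lam D).ker × (Fin k → ℂ)), HermF F ∧
      ∀ y, D y + Lev B (prj D σ y) ∈ Ω ↔ L y ∈ Sg F Ω := by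
  have hfd : FiniteDimensional ℝ (Lam D).ker := FiniteDimensional.complexToReal _
  let β : (Lam D).ker →ₗ[ℝ] (Lam D).ker →ₗ[ℝ] (Fin k → ℂ) :=
    LinearMap.mk₂ ℝ (fun u v => siegelF B (u : E) (v : E))
      (fun u u' v => siegelF_add_left B (u : E) (u' : E) (v : E))
      (fun r u v => siegelF_smul_left B r (u : E) (v : E))
      (fun u v v' => siegelF_add_right B (u : E) (v : E) (v' : E))
      (fun r u v => siegelF_smul_right B r (u : E) (v : E))
  let F : (Lam D).ker →L[ℝ] (Lam D).ker →L[ℝ] (Fin k → ℂ) :=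
    LinearMap.toContinuousLinearMap
      ((LinearMap.toContinuousLinearMap (𝕜 := ℝ) (E := (Lam D).ker)
        (F' := (Fin k → ℂ))).toLinearMap ∘ₗ β)
  have hF : ∀ u v, F u v = siegelF B (u : E) (v : E) := fun u v => rfl
  let L0 : E ≃ₗ[ℂ] (Lam D).ker × (Fin k → ℂ) :=
    { toFun := fun y => (⟨prj D σ y, Lam_prj hσ y⟩, Lam D y)
      invFun := fun p => (p.1 : E) + σ p.2
      map_add' := fun x y => by
        ext1
        · exact Subtype.ext (by simp)
        · simp
      map_smul' := fun c x => by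
        ext1
        · exact Subtype.ext (by simp)
        · simp
      left_inv := fun y => by simp [prj_apply]
      right_inv := fun p => by
        obtain ⟨⟨z, hz⟩, w⟩ := p
        have hz' : Lam D z = 0 := hz
        have h1 : Lam D (z + σ w) = w := by rw [map_add, hz', hσ, zero_add]
        ext1
        · refine Subtype.ext ?_
          change prj D σ (z + σ w) = z
          rw [prj_apply, h1, add_sub_cancel_right]
        · exact h1 }
  refine ⟨F, L0.toContinuousLinearEquiv, ⟨fun u v => ?_, fun u v j => ?_⟩, fun y => ?_⟩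
  · rw [hF, hF]
    exact siegelF_I_left B (u : E) (v : E)
  · rw [hF, hF]
    exact siegelF_symm B (u : E) (v : E) j
  · have h1 : L0.toContinuousLinearEquiv y = (⟨prj D σ y, Lam_prj hσ y⟩, Lam D y) := rfl
    rw [h1]
    have h2 : (fun j => (Lam D y j).re - (F ⟨prj D σ y, Lam_prj hσ y⟩
        ⟨prj D σ y, Lam_prj hσ y⟩ j).re) = D y + Lev B (prj D σ y) := by
      funext j
      rw [hF, siegelF_re, Lam_re]
      simp
    change _ ↔ (fun j => (Lam D y j).re - (F ⟨prj D σ y, Lam_prj hσ y⟩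
        ⟨prj D σ y, Lam_prj hσ y⟩ j).re) ∈ Ω
    rw [h2]

end Vale.Agent.P274.V
end

section

/-! # P274-V10: a natural inner product on `Kil`

For `X ∈ Kil`, `x ∈ D` let `bf h X x u v = ½ (D f u - i D f (i u))` with `f y = h y (X y) v`: the `(1,0)`
derivative in the direction `u`.  It is complex linear in `u`, conjugate linear in `v`, real linear in `X`, smooth
in `x`.
Naturality: for `Y = push D g g' X`, `g : D → D` biholomorphic, `bf h Y (g x) (g' x u) (g' x v) = bf h X x u v`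
(derivative notation `g' x = fderiv ℂ g x`).  Proof: for `w := g' x v` constant and `y = g x'`,
`h y (Y y) w = h x' (X x') ((g' x')⁻¹ w)` by invariance; `x' ↦ (g' x')⁻¹ w =: v(x')` is holomorphic and
`h x' (X x')` is conjugate linear in the last argument, so in the `(1,0)` derivative the derivative of `v(x')`
contributes `½ (h (X) (v' u) - i h (X) (v' (i u))) = ½ (h (X) (v' u) - i · (-i) h (X)(v' u)) = 0`
[`h X (i w) = -i h X w`].  The chain rule for the holomorphic map `g` preserves the `(1,0)` part.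
If `X x = 0` then `bf h X x u v = h x (fderiv ℂ X x u) v`.
Choose a basis `e` of `E` over `ℂ`; `H x = (h x e_i e_j)`, `B_X x = (bf h X x e_i e_j)`; put
`q x X Y = re (h x (X x) (Y x)) + hs (H x) (B_X x) (B_Y x)` for `x ∈ D` (and, e.g., `0` outside `D`).
Positive: if `q x X X = 0` then `X x = 0` and `B_X x = 0`, so `fderiv ℂ X x = 0`, so `X = 0`
(`Kil_jet_unique`).  Natural: with `P` the matrix of `g' x`, `H(x) = P H(g x) Pᴴ` etc. up to transposes
and `hs_conj`.

In this file the `(1,0)`-derivative is written out by the product rule (`jf`). -/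

open Set Complex ComplexConjugate Topology Matrix
open scoped ContDiff ComplexOrder

namespace Vale.Agent.P274.V

variable {E : Type*} [NormedAddCommGroup E] [NormedSpace ℂ E]

/-- `(1,0)`-derivative of `y ↦ h y (X y) v` in the direction `u`. -/
noncomputable def bf (h : E → E →L[ℝ] E →L[ℝ] ℂ) (X : E → E) (x u v : E) : ℂ :=
  (1 / 2) * (fderiv ℝ (fun y => h y (X y) v) x u - I * fderiv ℝ (fun y => h y (X y) v) x (I • u))

namespace NatInner

/-- The product rule for `y ↦ h (g y) (a y) (b y)`. -/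
theorem hasFDerivAt_h3 {h : E → E →L[ℝ] E →L[ℝ] ℂ} {g a b : E → E} {x : E}
    {h' : E →L[ℝ] E →L[ℝ] E →L[ℝ] ℂ} {g' a' b' : E →L[ℝ] E} (hh : HasFDerivAt h h' (g x))
    (hg : HasFDerivAt g g' x) (ha : HasFDerivAt a a' x) (hb : HasFDerivAt b b' x) :
    ∃ L : E →L[ℝ] ℂ, HasFDerivAt (fun y => h (g y) (a y) (b y)) L x ∧
      ∀ w, L w = h' (g' w) (a x) (b x) + h (g x) (a' w) (b x) + h (g x) (a x) (b' w) := by
  have h1 := HasFDerivAt.comp (g := h) x hh hg
  have h2 := (h1.clm_apply ha).clm_apply hb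
  refine ⟨_, h2, fun w => ?_⟩
  simp [ContinuousLinearMap.flip_apply]
  ring

variable {D : Set E} {h : E → E →L[ℝ] E →L[ℝ] ℂ} {ρ : E → ℝ}

theorem hasFDerivAt_h (hD : IsOpen D) (hm : InvMetric D h ρ) {x : E} (hx : x ∈ D) :
    HasFDerivAt h (fderiv ℝ h x) x :=
  ((hm.smooth.contDiffAt (hD.mem_nhds hx)).differentiableAt (by simp)).hasFDerivAt

theorem I_right (hm : InvMetric D h ρ) {x : E} (hx : x ∈ D) (u v : E) :
    h x u (I • v) = -(I * h x u v) := by
  rw [hm.symm x hx (I • v) u, hm.I_left x hx, map_mul, conj_I, hm.symm x hx u v]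
  simp

theorem real_smul_eq (c : ℂ) (u : E) : c • u = c.re • u + c.im • (I • u) := by
  conv_lhs => rw [← Complex.re_add_im c]
  rw [add_smul, mul_smul, Complex.coe_smul, Complex.coe_smul]

/-- A real bilinear form which is complex linear in the first and conjugate linear in the second
argument. -/
structure Sesq (s : E → E → ℂ) : Prop where
  add_left : ∀ u u' v, s (u + u') v = s u v + s u' v
  smul_left : ∀ (c : ℂ) u v, s (c • u) v = c * s u v
  add_right : ∀ u v v', s u (v + v') = s u v + s u v'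
  smul_right : ∀ (c : ℂ) u v, s u (c • v) = conj c * s u v

theorem sesq_of {s : E → E → ℂ} (h1 : ∀ u u' v, s (u + u') v = s u v + s u' v)
    (h2 : ∀ (r : ℝ) u v, s (r • u) v = r * s u v) (h3 : ∀ u v, s (I • u) v = I * s u v)
    (h4 : ∀ u v v', s u (v + v') = s u v + s u v')
    (h5 : ∀ (r : ℝ) u v, s u (r • v) = r * s u v) (h6 : ∀ u v, s u (I • v) = -(I * s u v)) :
    Sesq s where
  add_left := h1
  add_right := h4
  smul_left c u v := by
    rw [real_smul_eq, h1, h2, h2, h3]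
    conv_rhs => rw [← Complex.re_add_im c]
    ring
  smul_right c u v := by
    rw [real_smul_eq, h4, h5, h5, h6]
    have : conj c = c.re - c.im * I := by
      apply Complex.ext <;> simp
    rw [this]
    ring

/-- The `(1,0)`-derivative in the direction `u` of `y ↦ h y (X y) v` for `X x = a`, `dX x = B`. -/
noncomputable def jf (h : E → E →L[ℝ] E →L[ℝ] ℂ) (x a : E) (B : E →L[ℂ] E) (u v : E) : ℂ :=
  (1 / 2) * (fderiv ℝ h x u a v - I * fderiv ℝ h x (I • u) a v) + h x (B u) v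

theorem fderiv_I_right (hD : IsOpen D) (hm : InvMetric D h ρ) {x : E} (hx : x ∈ D) (w u v : E) :
    fderiv ℝ h x w u (I • v) = -(I * fderiv ℝ h x w u v) := by
  have h1 := hasFDerivAt_h hD hm hx
  obtain ⟨L, hL, hL'⟩ := hasFDerivAt_h3 (g := id) (x := x) (by simpa using h1) (hasFDerivAt_id x)
    (hasFDerivAt_const u x) (hasFDerivAt_const (I • v) x)
  obtain ⟨M, hM, hM'⟩ := hasFDerivAt_h3 (g := id) (x := x) (by simpa using h1) (hasFDerivAt_id x)
    (hasFDerivAt_const u x) (hasFDerivAt_const v x)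
  have h2 : HasFDerivAt (fun y => h (id y) u (I • v)) (-(I • M)) x := by
    refine ((hM.const_smul I).neg).congr_of_eventuallyEq ?_
    filter_upwards [hD.mem_nhds hx] with y hy
    simp [I_right hm hy]
  have h3 := congrArg (fun T : E →L[ℝ] ℂ => T w) (hL.unique h2)
  simp only [hL', _root_.neg_apply, _root_.smul_apply, hM'] at h3
  simpa using h3

theorem sesq_h (hm : InvMetric D h ρ) {x : E} (hx : x ∈ D) : Sesq fun u v => h x u v := by
  refine sesq_of ?_ ?_ ?_ ?_ ?_ ?_
  · intro u u' v; simp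
  · intro r u v; simp
  · intro u v; exact hm.I_left x hx u v
  · intro u v v'; simp
  · intro r u v; simp
  · intro u v; exact I_right hm hx u v

theorem sesq_jf (hD : IsOpen D) (hm : InvMetric D h ρ) {x : E} (hx : x ∈ D) (a : E)
    (B : E →L[ℂ] E) : Sesq (jf h x a B) := by
  refine sesq_of ?_ ?_ ?_ ?_ ?_ ?_
  · intro u u' v
    simp only [jf, smul_add, map_add, _root_.add_apply]
    ring
  · intro r u v
    have : I • r • u = r • I • u := smul_comm _ _ _
    have h2 : B (r • u) = r • B u := B.map_smul_of_tower r u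
    simp only [jf, this, h2, map_smul, _root_.smul_apply, Complex.real_smul]
    ring
  · intro u v
    have h1 : I • I • u = -u := by rw [smul_smul, I_mul_I, neg_one_smul]
    simp only [jf, h1, map_smul, map_neg, _root_.neg_apply, hm.I_left x hx]
    linear_combination (1 / 2 * fderiv ℝ h x (I • u) a v) * I_sq
  · intro u v v'
    simp only [jf, map_add]
    ring
  · intro r u v
    simp only [jf, map_smul, Complex.real_smul]
    ring
  · intro u v
    simp only [jf, fderiv_I_right hD hm hx, I_right hm hx]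
    ring

/-- Naturality of `jf`. -/
theorem jf_natural [FiniteDimensional ℂ E] (hD : IsOpen D) (hm : InvMetric D h ρ) {g g' : E → E}
    (hg : IsBiholo D D g g') {x : E} (hx : x ∈ D) {X : E → E}
    (hX : ∀ x ∈ D, DifferentiableAt ℂ X x) (u v : E) :
    jf h (g x) (push D g g' X (g x)) (fderiv ℂ (push D g g' X) (g x)) (fderiv ℂ g x u)
      (fderiv ℂ g x v) = jf h x (X x) (fderiv ℂ X x) u v := by
  set A := fderiv ℂ g x with hA
  have hgx : g x ∈ D := hg.mapsTo hx
  have hgd : ∀ y ∈ D, DifferentiableAt ℂ g y := fun y hy =>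
    hg.diffOn.differentiableAt (hD.mem_nhds hy)
  have hg2 : DifferentiableAt ℂ (fderiv ℂ g) x := by
    have h1 : ContDiffOn ℂ 2 g D := by
      exact_mod_cast Vale.Agent.P268.contDiffOn_of_differentiableOn hD hg.diffOn 2
    exact ((h1.fderiv_of_isOpen hD (m := 1) (by norm_num)).differentiableOn
      (by simp)).differentiableAt (hD.mem_nhds hx)
  set A' := fderiv ℂ (fderiv ℂ g) x with hA'
  have hgR : HasFDerivAt g (A.restrictScalars ℝ) x :=
    (hgd x hx).hasFDerivAt.restrictScalars ℝ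
  have hAR : HasFDerivAt (fderiv ℂ g) (A'.restrictScalars ℝ) x :=
    hg2.hasFDerivAt.restrictScalars ℝ
  have hAu : ∀ u : E, ∃ L : E →L[ℝ] E, HasFDerivAt (fun y => fderiv ℂ g y u) L x ∧
      ∀ w, L w = A' w u := by
    intro u
    have h1 : HasFDerivAt (fun y => fderiv ℂ g y u) (A'.flip u) x := by
      have := hg2.hasFDerivAt.clm_apply (hasFDerivAt_const u x)
      simpa using this
    exact ⟨(A'.flip u).restrictScalars ℝ, h1.restrictScalars ℝ, fun w => rfl⟩
  -- differentiate the invariance of `h`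
  have key : ∀ w a b : E, fderiv ℝ h (g x) (A w) (A a) (A b) + h (g x) (A' w a) (A b)
      + h (g x) (A a) (A' w b) = fderiv ℝ h x w a b := by
    intro w a b
    obtain ⟨La, hLa, hLa'⟩ := hAu a
    obtain ⟨Lb, hLb, hLb'⟩ := hAu b
    obtain ⟨L, hL, hL'⟩ := hasFDerivAt_h3 (hasFDerivAt_h hD hm hgx) hgR hLa hLb
    obtain ⟨M, hM, hM'⟩ := hasFDerivAt_h3 (g := id) (x := x)
      (by simpa using hasFDerivAt_h hD hm hx) (hasFDerivAt_id x) (hasFDerivAt_const a x)
      (hasFDerivAt_const b x)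
    have h2 : HasFDerivAt (fun y => h (id y) a b) L x := by
      refine hL.congr_of_eventuallyEq ?_
      filter_upwards [hD.mem_nhds hx] with y hy
      exact (hm.inv g g' hg y hy a b).symm
    have h3 := congrArg (fun T : E →L[ℝ] ℂ => T w) (h2.unique hM)
    simp only [hL', hM', hLa', hLb'] at h3
    simpa using h3
  obtain ⟨-, hpush⟩ := hasFDerivAt_push hD hg hX hx
  have hYx : push D g g' X (g x) = A (X x) := push_apply hg hx
  have e1 := key u (X x) v
  have e2 := key (I • u) (X x) v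
  have hAI : A (I • u) = I • A u := map_smul _ _ _
  have hA'I : A' (I • u) = I • A' u := map_smul _ _ _
  rw [hAI, hA'I] at e2
  have e3 : h (g x) ((I • A' u) (X x)) (A v) = I * h (g x) (A' u (X x)) (A v) := by
    rw [_root_.smul_apply, hm.I_left _ hgx]
  have e4 : h (g x) (A (X x)) ((I • A' u) v) = -(I * h (g x) (A (X x)) (A' u v)) := by
    rw [_root_.smul_apply, I_right hm hgx]
  rw [e3, e4] at e2
  have e5 : h (g x) (A (fderiv ℂ X x u)) (A v) = h x (fderiv ℂ X x u) v :=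
    hm.inv g g' hg x hx _ _
  simp only [jf, hYx]
  rw [hpush u, map_add, _root_.add_apply, e5, ← e1, ← e2]
  linear_combination (1 / 2 * (h (g x) (A' u (X x)) (A v)) -
    1 / 2 * (h (g x) (A (X x)) (A' u v))) * I_sq

/-- The matrix of a sesquilinear form. -/
def mat {ι : Type*} (b : ι → E) (s : E → E → ℂ) : Matrix ι ι ℂ := Matrix.of fun i j => s (b i) (b j)

theorem mat_comp {ι : Type*} [Fintype ι] [DecidableEq ι] (b : Module.Basis ι ℂ E) {s : E → E → ℂ}
    (hs : Sesq s) (A : E →ₗ[ℂ] E) :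
    mat b (fun u v => s (A u) (A v)) =
      (LinearMap.toMatrix b b A)ᵀ * mat b s * ((LinearMap.toMatrix b b A)ᵀ)ᴴ := by
  have hsum : ∀ (t : Finset ι) (c : ι → ℂ) (v : E),
      s (∑ k ∈ t, c k • b k) v = ∑ k ∈ t, c k * s (b k) v := by
    intro t c v
    classical
    induction t using Finset.induction_on with
    | empty => simpa using hs.smul_left 0 0 v
    | insert a t ha ih => rw [Finset.sum_insert ha, Finset.sum_insert ha, hs.add_left, ih,
        hs.smul_left]
  have hsum' : ∀ (t : Finset ι) (c : ι → ℂ) (v : E),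
      s v (∑ k ∈ t, c k • b k) = ∑ k ∈ t, conj (c k) * s v (b k) := by
    intro t c v
    classical
    induction t using Finset.induction_on with
    | empty => simpa using hs.smul_right 0 v 0
    | insert a t ha ih => rw [Finset.sum_insert ha, Finset.sum_insert ha, hs.add_right, ih,
        hs.smul_right]
  have hA : ∀ i, A (b i) = ∑ k, (LinearMap.toMatrix b b A) k i • b k := by
    intro i
    conv_lhs => rw [← b.sum_repr (A (b i))]
    simp [LinearMap.toMatrix_apply]
  ext i j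
  simp only [mat, Matrix.of_apply, Matrix.mul_apply, Matrix.transpose_apply,
    Matrix.conjTranspose_apply]
  rw [hA i, hA j, hsum']
  refine Finset.sum_congr rfl fun k _ => ?_
  rw [hsum, mul_comm]
  rfl

theorem isUnit_mat [FiniteDimensional ℂ E] (hD : IsOpen D) {g g' : E → E}
    (hg : IsBiholo D D g g') {x : E} (hx : x ∈ D) {ι : Type*} [Fintype ι] [DecidableEq ι]
    (b : Module.Basis ι ℂ E) :
    IsUnit (LinearMap.toMatrix b b (fderiv ℂ g x).toLinearMap)ᵀ := by
  have h1 : HasFDerivAt g (fderiv ℂ g x) x :=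
    (hg.diffOn.differentiableAt (hD.mem_nhds hx)).hasFDerivAt
  have h2 : HasFDerivAt g' (fderiv ℂ g' (g x)) (g x) :=
    (hg.diffOn_inv.differentiableAt (hD.mem_nhds (hg.mapsTo hx))).hasFDerivAt
  have h3 : HasFDerivAt (g' ∘ g) ((fderiv ℂ g' (g x)).comp (fderiv ℂ g x)) x := h2.comp x h1
  have h4 : HasFDerivAt (g' ∘ g) (ContinuousLinearMap.id ℂ E) x := by
    refine (hasFDerivAt_id x).congr_of_eventuallyEq ?_
    filter_upwards [hD.mem_nhds hx] with y hy
    exact hg.left_inv y hy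
  have h5 := h3.unique h4
  have h6 : (fderiv ℂ g' (g x)).toLinearMap ∘ₗ (fderiv ℂ g x).toLinearMap = LinearMap.id := by
    ext u
    exact congrArg (fun T : E →L[ℂ] E => T u) h5
  have h7 : LinearMap.toMatrix b b (fderiv ℂ g' (g x)).toLinearMap *
      LinearMap.toMatrix b b (fderiv ℂ g x).toLinearMap = 1 := by
    rw [← LinearMap.toMatrix_comp b b b, h6, LinearMap.toMatrix_id]
  rw [Matrix.isUnit_transpose]
  exact ⟨⟨_, _, mul_eq_one_comm.1 h7, h7⟩, rfl⟩

theorem posDef_mat [FiniteDimensional ℂ E] (hm : InvMetric D h ρ) {x : E} (hx : x ∈ D)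
    {ι : Type*} [Fintype ι] [DecidableEq ι] (b : Module.Basis ι ℂ E) :
    (mat b fun u v => h x u v).PosDef := by
  have hs := sesq_h hm hx
  refine Matrix.PosDef.of_dotProduct_mulVec_pos ?_ fun z hz => ?_
  · ext i j
    simp only [Matrix.conjTranspose_apply, mat, Matrix.of_apply]
    exact (hm.symm x hx (b j) (b i)).symm
  · set w : E := ∑ i, conj (z i) • b i with hw
    have hsum : ∀ (t : Finset ι) (v : E),
        h x (∑ k ∈ t, conj (z k) • b k) v = ∑ k ∈ t, conj (z k) * h x (b k) v := by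
      intro t v
      induction t using Finset.induction_on with
      | empty => simp
      | insert a t ha ih =>
        rw [Finset.sum_insert ha, Finset.sum_insert ha, hs.add_left, ih, hs.smul_left]
    have hsum' : ∀ (t : Finset ι) (v : E),
        h x v (∑ k ∈ t, conj (z k) • b k) = ∑ k ∈ t, z k * h x v (b k) := by
      intro t v
      induction t using Finset.induction_on with
      | empty => simp
      | insert a t ha ih =>
        rw [Finset.sum_insert ha, Finset.sum_insert ha, hs.add_right, ih, hs.smul_right,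
          Complex.conj_conj]
    have h1 : star z ⬝ᵥ (mat b (fun u v => h x u v)) *ᵥ z = h x w w := by
      rw [hw, hsum]
      simp only [dotProduct, Matrix.mulVec, mat, Matrix.of_apply, Pi.star_apply]
      refine Finset.sum_congr rfl fun i _ => ?_
      rw [hsum']
      congr 1
      exact Finset.sum_congr rfl fun j _ => mul_comm _ _
    have hw0 : w ≠ 0 := by
      intro h0
      apply hz
      have := (Fintype.linearIndependent_iff.1 b.linearIndependent) (fun i => conj (z i)) h0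
      funext i
      simpa using this i
    have h2 : (h x w w).im = 0 := by
      have := congrArg Complex.im (hm.symm x hx w w)
      rw [Complex.conj_im] at this
      linarith
    rw [h1, Complex.lt_def]
    exact ⟨by simpa using hm.pos x hx w hw0, by simpa using h2.symm⟩

/-- The natural form. -/
noncomputable def qf {ι : Type*} [Fintype ι] [DecidableEq ι] (b : ι → E)
    (h : E → E →L[ℝ] E →L[ℝ] ℂ) (x : E) (X Y : E → E) : ℝ :=
  (h x (X x) (Y x)).re + hs (mat b fun u v => h x u v) (mat b (jf h x (X x) (fderiv ℂ X x)))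
    (mat b (jf h x (Y x) (fderiv ℂ Y x)))

theorem mat_jf_add {ι : Type*} (b : ι → E) (x a a' : E) (B B' : E →L[ℂ] E) :
    mat b (jf h x (a + a') (B + B')) = mat b (jf h x a B) + mat b (jf h x a' B') := by
  ext i j
  simp only [mat, jf, Matrix.of_apply, Matrix.add_apply, map_add, _root_.add_apply]
  ring

theorem mat_jf_smul {ι : Type*} (b : ι → E) (x a : E) (B : E →L[ℂ] E) (r : ℝ) :
    mat b (jf h x (r • a) ((r : ℂ) • B)) = (r : ℂ) • mat b (jf h x a B) := by
  ext i j
  simp only [mat, jf, Matrix.of_apply, Matrix.smul_apply, map_smul, _root_.smul_apply,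
    Complex.real_smul, smul_eq_mul, Complex.coe_smul]
  ring

theorem qf_symm [FiniteDimensional ℂ E] (hm : InvMetric D h ρ) {x : E} (hx : x ∈ D)
    {ι : Type*} [Fintype ι] [DecidableEq ι] (b : Module.Basis ι ℂ E) (X Y : E → E) :
    qf b h x X Y = qf b h x Y X := by
  rw [qf, qf, hs_symm (posDef_mat hm hx b), hm.symm x hx (Y x) (X x), Complex.conj_re]

theorem qf_add [FiniteDimensional ℂ E] {x : E}
    {ι : Type*} [Fintype ι] [DecidableEq ι] (b : Module.Basis ι ℂ E) {X X' : E → E} (Y : E → E)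
    (h1 : DifferentiableAt ℂ X x) (h2 : DifferentiableAt ℂ X' x) :
    qf b h x (X + X') Y = qf b h x X Y + qf b h x X' Y := by
  rw [qf, fderiv_add h1 h2, Pi.add_apply, mat_jf_add, hs_add_left, qf, qf]
  simp only [map_add, _root_.add_apply, Complex.add_re]
  ring

theorem qf_smul [FiniteDimensional ℂ E] {x : E}
    {ι : Type*} [Fintype ι] [DecidableEq ι] (b : Module.Basis ι ℂ E) {X : E → E} (Y : E → E)
    (h1 : DifferentiableAt ℂ X x) (r : ℝ) :
    qf b h x (r • X) Y = r * qf b h x X Y := by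
  have hr : (r • X : E → E) = ((r : ℂ) • X : E → E) := by
    funext x; simp
  have hf : fderiv ℂ (r • X) x = (r : ℂ) • fderiv ℂ X x := by rw [hr, fderiv_const_smul h1]
  rw [qf, hf, Pi.smul_apply, mat_jf_smul, hs_smul_left, qf]
  simp only [map_smul, _root_.smul_apply, Complex.real_smul, Complex.mul_re, Complex.ofReal_re,
    Complex.ofReal_im]
  ring

theorem qf_natural [FiniteDimensional ℂ E] (hD : IsOpen D) (hm : InvMetric D h ρ) {g g' : E → E}
    (hg : IsBiholo D D g g') {x : E} (hx : x ∈ D) {X Y : E → E}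
    (hX : ∀ x ∈ D, DifferentiableAt ℂ X x) (hY : ∀ x ∈ D, DifferentiableAt ℂ Y x)
    {ι : Type*} [Fintype ι] [DecidableEq ι] (b : Module.Basis ι ℂ E) :
    qf b h (g x) (push D g g' X) (push D g g' Y) = qf b h x X Y := by
  have hgx : g x ∈ D := hg.mapsTo hx
  set P := (LinearMap.toMatrix b b (fderiv ℂ g x).toLinearMap)ᵀ with hP
  have hPu : IsUnit P := isUnit_mat hD hg hx b
  have e0 : mat b (fun u v => h x u v) = P * mat b (fun u v => h (g x) u v) * Pᴴ := by
    rw [← mat_comp b (sesq_h hm hgx)]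
    congr 1
    funext u v
    exact (hm.inv g g' hg x hx u v).symm
  have e1 : ∀ {X : E → E}, (∀ x ∈ D, DifferentiableAt ℂ X x) →
      mat b (jf h x (X x) (fderiv ℂ X x)) =
      P * mat b (jf h (g x) (push D g g' X (g x)) (fderiv ℂ (push D g g' X) (g x))) * Pᴴ := by
    intro X hX
    rw [← mat_comp b (sesq_jf hD hm hgx _ _)]
    congr 1
    funext u v
    exact (jf_natural hD hm hg hx hX u v).symm
  rw [qf, qf, e0, e1 hX, e1 hY, hs_conj (posDef_mat hm hgx b) _ _ _ hPu, push_apply hg hx,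
    push_apply hg hx, hm.inv g g' hg x hx]

theorem qf_pos [FiniteDimensional ℂ E] (C : Ctx D h ρ) {x : E} (hx : x ∈ D)
    {ι : Type*} [Fintype ι] [DecidableEq ι] (b : Module.Basis ι ℂ E) {X : E → E}
    (hX : X ∈ Kil D h) (h0 : X ≠ 0) : 0 < qf b h x X X := by
  have hm := C.met
  have h1 : 0 ≤ (h x (X x) (X x)).re := by
    by_cases hz : X x = 0
    · simp [hz]
    · exact (hm.pos x hx _ hz).le
  have h2 := hs_nonneg (posDef_mat hm hx b) (mat b (jf h x (X x) (fderiv ℂ X x)))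
  by_contra hcon
  have h3 : (h x (X x) (X x)).re + hs (mat b fun u v => h x u v)
      (mat b (jf h x (X x) (fderiv ℂ X x))) (mat b (jf h x (X x) (fderiv ℂ X x))) ≤ 0 :=
    not_lt.1 hcon
  have h4 : X x = 0 := by
    by_contra hz
    have := hm.pos x hx _ hz
    linarith
  have h5 := hs_eq_zero (posDef_mat hm hx b) (le_antisymm (by linarith) h2)
  apply h0
  refine Kil_jet_unique C hX hx h4 ?_
  have h6 : ∀ i j, h x (fderiv ℂ X x (b i)) (b j) = 0 := by
    intro i j
    have := congrFun (congrFun h5 i) j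
    simpa [mat, jf, h4] using this
  have h7 : ∀ i, fderiv ℂ X x (b i) = 0 := by
    intro i
    have h8 : ∀ v : E, h x (fderiv ℂ X x (b i)) v = 0 := by
      intro v
      rw [← b.sum_repr v]
      have : ∀ t : Finset ι, h x (fderiv ℂ X x (b i)) (∑ k ∈ t, b.repr v k • b k) = 0 := by
        intro t
        induction t using Finset.induction_on with
        | empty => simp
        | insert a t ha ih =>
          rw [Finset.sum_insert ha, map_add, ih, add_zero, (sesq_h hm hx).smul_right, h6, mul_zero]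
      exact this _
    by_contra hz
    have := hm.pos x hx _ hz
    rw [h8] at this
    simp at this
  apply ContinuousLinearMap.coe_injective
  exact b.ext fun i => by simpa using h7 i

theorem contDiffOn_X [FiniteDimensional ℂ E] (hD : IsOpen D) {X : E → E}
    (hX : ∀ x ∈ D, DifferentiableAt ℂ X x) :
    ContDiffOn ℝ 1 X D ∧ ∀ u, ContDiffOn ℝ 1 (fun x => fderiv ℂ X x u) D := by
  have hX' : DifferentiableOn ℂ X D := fun x hx => (hX x hx).differentiableWithinAt
  have h2 : ContDiffOn ℂ 2 X D := by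
    exact_mod_cast Vale.Agent.P268.contDiffOn_of_differentiableOn hD hX' 2
  have h3 : ContDiffOn ℂ 1 (fderiv ℂ X) D := h2.fderiv_of_isOpen hD (by norm_num)
  refine ⟨(h2.of_le (by norm_num)).restrict_scalars ℝ, fun u => ?_⟩
  exact (h3.clm_apply contDiffOn_const).restrict_scalars ℝ

theorem contDiffOn_jf [FiniteDimensional ℂ E] (hD : IsOpen D) (hm : InvMetric D h ρ) {X : E → E}
    (hX : ∀ x ∈ D, DifferentiableAt ℂ X x) (u v : E) :
    ContDiffOn ℝ 1 (fun x => jf h x (X x) (fderiv ℂ X x) u v) D := by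
  obtain ⟨h1, h2⟩ := contDiffOn_X hD hX
  have h3 : ContDiffOn ℝ 1 h D := hm.smooth.of_le (by exact_mod_cast le_top)
  have h4 := hm.smooth.fderiv_of_isOpen hD (m := 1)
    (WithTop.coe_le_coe.2 le_top : ((2 : ℕ∞) : ℕ∞ω) ≤ ∞)
  have h5 : ∀ w : E, ContDiffOn ℝ 1 (fun x => fderiv ℝ h x w (X x) v) D := fun w =>
    ((h4.clm_apply contDiffOn_const).clm_apply h1).clm_apply contDiffOn_const
  have h6 : ContDiffOn ℝ 1 (fun x => h x (fderiv ℂ X x u) v) D :=
    (h3.clm_apply (h2 u)).clm_apply contDiffOn_const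
  exact (contDiffOn_const.mul ((h5 u).sub (contDiffOn_const.mul (h5 (I • u))))).add h6

theorem contDiffOn_qf [FiniteDimensional ℂ E] (hD : IsOpen D) (hm : InvMetric D h ρ) {X Y : E → E}
    (hX : ∀ x ∈ D, DifferentiableAt ℂ X x) (hY : ∀ x ∈ D, DifferentiableAt ℂ Y x)
    {ι : Type*} [Fintype ι] [DecidableEq ι] (b : Module.Basis ι ℂ E) :
    ContDiffOn ℝ 1 (fun x => qf b h x X Y) D := by
  have h3 : ContDiffOn ℝ 1 h D := hm.smooth.of_le (by exact_mod_cast le_top)
  refine ContDiffOn.add ?_ ?_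
  · exact Complex.reCLM.contDiff.comp_contDiffOn
      ((h3.clm_apply (contDiffOn_X hD hX).1).clm_apply (contDiffOn_X hD hY).1)
  · refine contDiffOn_hs (fun x hx => posDef_mat hm hx b) ?_ ?_ ?_
    · exact fun i j => (h3.clm_apply contDiffOn_const).clm_apply contDiffOn_const
    · exact fun i j => contDiffOn_jf hD hm hX _ _
    · exact fun i j => contDiffOn_jf hD hm hY _ _

end NatInner

open NatInner in
theorem exists_natural_inner [FiniteDimensional ℂ E] {D : Set E} {h : E → E →L[ℝ] E →L[ℝ] ℂ}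
    {ρ : E → ℝ} (C : Ctx D h ρ) :
    ∃ q : E → Kil D h →ₗ[ℝ] Kil D h →ₗ[ℝ] ℝ,
      (∀ X Y, ContDiffOn ℝ 1 (fun x => q x X Y) D) ∧
      (∀ x ∈ D, ∀ X Y, q x X Y = q x Y X) ∧
      (∀ x ∈ D, ∀ X, X ≠ 0 → 0 < q x X X) ∧
      ∀ g g', IsBiholo D D g g' → ∀ x ∈ D, ∀ X Y X' Y' : Kil D h,
        (X' : E → E) = push D g g' X → (Y' : E → E) = push D g g' Y →
        q (g x) X' Y' = q x X Y := by
  classical
  have hD := C.isOpen
  have hm := C.met
  let b := Module.finBasis ℂ E
  let q : E → Kil D h →ₗ[ℝ] Kil D h →ₗ[ℝ] ℝ := fun x =>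
    if hx : x ∈ D then
      LinearMap.mk₂ ℝ (fun X Y : Kil D h => qf b h x (X : E → E) Y)
        (fun X X' Y => qf_add b Y (X.2.1 x hx) (X'.2.1 x hx))
        (fun r X Y => qf_smul b Y (X.2.1 x hx) r)
        (fun X Y Y' => by
          rw [qf_symm hm hx, qf_symm hm hx b X Y, qf_symm hm hx b X Y']
          exact qf_add b X (Y.2.1 x hx) (Y'.2.1 x hx))
        (fun r X Y => by
          rw [qf_symm hm hx, qf_symm hm hx b X Y]
          exact qf_smul b X (Y.2.1 x hx) r)
    else 0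
  have hq : ∀ x ∈ D, ∀ X Y : Kil D h, q x X Y = qf b h x (X : E → E) Y := by
    intro x hx X Y
    simp only [q, dif_pos hx]
    rfl
  refine ⟨q, fun X Y => ?_, fun x hx X Y => ?_, fun x hx X hX => ?_, ?_⟩
  · exact (contDiffOn_qf hD hm X.2.1 Y.2.1 b).congr fun x hx => hq x hx X Y
  · rw [hq x hx, hq x hx, qf_symm hm hx]
  · rw [hq x hx]
    exact qf_pos C hx b X.2 fun h0 => hX (Subtype.ext h0)
  · intro g g' hg x hx X Y X' Y' hX' hY'
    rw [hq x hx, hq (g x) (hg.mapsTo hx), hX', hY', qf_natural hD hm hg hx X.2.1 Y.2.1]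

end Vale.Agent.P274.V
end

section

/-! # P274-V12c: divergence theorem on the quotient

Proof.  `χ` from `exists_cutoff`, `μ` a Haar measure on `E` (introduce `borel E` inside the proof:
`letI : MeasurableSpace E := borel E; haveI : BorelSpace E := ⟨rfl⟩`).
(1) `∫ χ · dv ρ Y dμ = - ∫ ρ · (fderiv ℝ χ x (Y x)) dμ`: the field `χ ρ Y` is `C^1` with compact support
in `D`, and `∫ tr (D V) = 0` for a compactly supported `C^1` field `V` (`integral_fderiv_eq_zero` style:
`integral_bilinear_hasLineDerivAt_right_eq_neg_left_of_integrable`, or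
`MeasureTheory.integral_divergence...`; in a basis `tr (DV) = ∑ i, ∂_i V_i`); `dv ρ (χ Y) = χ dv ρ Y + ρ Dχ(Y)`
and `dv ρ V = tr D(ρ V)`.
(2) Folding: for `f : E → ℝ` continuous on `D` with compact support in `D`
`∫_D f ρ dμ = ∫_D χ(x) (∑ᶠ γ, f (a γ x)) ρ dμ`: expand `1 = ∑ᶠ γ, χ (a γ x)` (a finite sum on `tsupport f`),
change variables with `a γ` in each summand (`MeasureTheory.integral_image_eq_integral_abs_det_fderiv_smul`, real
Jacobian `= ‖det_ℂ‖²` (`LinearMap.det_restrictScalars`, `Algebra.norm_complex_apply`), `hρinv`), reindex `γ ↦ γ⁻¹`.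
(3) `f x = fderiv ℝ χ x (Y x)`.  By invariance of `Y`, for `x ∈ D`:
`f (a γ x) = fderiv ℝ (χ ∘ a γ) x (Y x)`, so `∑ᶠ γ, f (a γ x) = fderiv ℝ (∑ᶠ γ, χ ∘ a γ) x (Y x) = fderiv ℝ 1 = 0`
(locally finite sum).  So `∫ χ · dv ρ Y dμ = 0`; the integrand is continuous on `D`, nonnegative, so
`χ · dv ρ Y = 0` on `D`.
(4) `dv ρ Y (a γ x) * ‖det‖^2 = dv ρ Y x` for `x ∈ D` (naturality of the divergence) and every point of `D` can be
moved to a point where `χ > 0`.  (For (4): `fderiv ℝ Y (a γ x) = A (fderiv ℝ Y x) A⁻¹ + (term)` with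
`A = fderiv ℂ (a γ) x`; the term has trace `D log|det|²(Y)`, which cancels with the derivative of `hρinv`.
This needs the derivative of `det`.  Alternative avoiding it: apply (1)-(3) to the cutoff `χ ∘ a γ`
instead of `χ`, it has the same properties, see `exists_cutoff'` below: for each `x₀ ∈ D` there is a cutoff with
`χ x₀ > 0`.  RECOMMENDED.) -/

open Set Complex ComplexConjugate Topology MeasureTheory
open scoped ContDiff

namespace Vale.Agent.P274.V

variable {E : Type*} [NormedAddCommGroup E] [NormedSpace ℂ E]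

/-- The divergence of a product. -/
theorem dv_smul [FiniteDimensional ℂ E] {ρ χ : E → ℝ} {Y : E → E} {x : E}
    (hχ : DifferentiableAt ℝ χ x) (hY : DifferentiableAt ℝ Y x) :
    dv ρ (fun x => χ x • Y x) x = χ x * dv ρ Y x + ρ x * fderiv ℝ χ x (Y x) := by
  have : FiniteDimensional ℝ E := FiniteDimensional.complexToReal E
  have h1 : fderiv ℝ (fun x => χ x • Y x) x
      = χ x • fderiv ℝ Y x + (fderiv ℝ χ x).smulRight (Y x) :=
    (hχ.hasFDerivAt.smul hY.hasFDerivAt).fderiv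
  have h2 : LinearMap.trace ℝ E ((fderiv ℝ χ x).smulRight (Y x)).toLinearMap
      = fderiv ℝ χ x (Y x) := by
    have : ((fderiv ℝ χ x).smulRight (Y x)).toLinearMap
        = (fderiv ℝ χ x).toLinearMap.smulRight (Y x) := rfl
    rw [this, LinearMap.trace_smulRight]
    rfl
  unfold dv
  rw [h1]
  have h3 : (χ x • fderiv ℝ Y x + (fderiv ℝ χ x).smulRight (Y x)).toLinearMap
      = χ x • (fderiv ℝ Y x).toLinearMap + ((fderiv ℝ χ x).smulRight (Y x)).toLinearMap := rfl
  rw [h3, map_add, map_smul, h2, map_smul, smul_eq_mul, smul_eq_mul]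
  ring

theorem finsum_fderiv_eq_zero [FiniteDimensional ℂ E] {D : Set E} (hD : IsOpen D)
    {Γ : Type*} [Group Γ] {a : Γ → E → E} (ha : IsAct D a) {χ : E → ℝ}
    (hχ : ContDiff ℝ 1 χ) (hχc : HasCompactSupport χ) (hχD : tsupport χ ⊆ D)
    (hχ1 : ∀ x ∈ D, ∑ᶠ γ, χ (a γ x) = 1) {x : E} (hx : x ∈ D) (v : E) :
    ∑ᶠ γ, fderiv ℝ χ (a γ x) (fderiv ℂ (a γ) x v) = 0 := by
  classical
  have : FiniteDimensional ℝ E := FiniteDimensional.complexToReal E
  have : ProperSpace E := FiniteDimensional.proper ℝ E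
  -- a compact neighbourhood of `x` in `D`
  obtain ⟨L, hLn, hLD, hL⟩ := local_compact_nhds (hD.mem_nhds hx)
  have hfin := ha.finite hL hLD hχc.isCompact hχD
  set Φ : Finset Γ := hfin.toFinset with hΦ
  have hmem : ∀ γ ∉ Φ, ∀ y ∈ L, a γ y ∉ tsupport χ := by
    intro γ hγ y hy hmem
    exact hγ (by rw [hΦ, Set.Finite.mem_toFinset]; exact ⟨y, hy, hmem⟩)
  have hsum : (fun y => ∑ γ ∈ Φ, χ (a γ y)) =ᶠ[𝓝 x] fun _ => (1 : ℝ) := by
    filter_upwards [hLn] with y hy
    rw [← hχ1 y (hLD hy)]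
    symm
    apply finsum_eq_sum_of_support_subset
    intro γ hγ
    by_contra hcon
    exact hγ (image_eq_zero_of_notMem_tsupport (hmem γ hcon y hy))
  have hd : ∀ γ, HasFDerivAt (fun y => χ (a γ y))
      ((fderiv ℝ χ (a γ x)).comp ((fderiv ℂ (a γ) x).restrictScalars ℝ)) x := by
    intro γ
    have h1 : HasFDerivAt (a γ) ((fderiv ℂ (a γ) x).restrictScalars ℝ) x :=
      (((ha.biholo γ).diffOn.differentiableAt (hD.mem_nhds hx)).hasFDerivAt).restrictScalars ℝ
    exact ((hχ.differentiable one_ne_zero _).hasFDerivAt).comp x h1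
  have h0 : ∑ γ ∈ Φ, ((fderiv ℝ χ (a γ x)).comp ((fderiv ℂ (a γ) x).restrictScalars ℝ)) = 0 := by
    have h1 := HasFDerivAt.fun_sum (u := Φ) (fun γ _ => hd γ)
    have h2 : HasFDerivAt (fun y => ∑ γ ∈ Φ, χ (a γ y)) (0 : E →L[ℝ] ℝ) x :=
      (hasFDerivAt_const (1 : ℝ) x).congr_of_eventuallyEq hsum
    exact h1.unique h2
  have h4 : ∑ᶠ γ, fderiv ℝ χ (a γ x) (fderiv ℂ (a γ) x v)
      = ∑ γ ∈ Φ, fderiv ℝ χ (a γ x) (fderiv ℂ (a γ) x v) := by
    apply finsum_eq_sum_of_support_subset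
    intro γ hγ
    by_contra hcon
    apply hγ
    have hn := hmem γ hcon x (mem_of_mem_nhds hLn)
    have : fderiv ℝ χ (a γ x) = 0 :=
      image_eq_zero_of_notMem_tsupport (fun h => hn (tsupport_fderiv_subset ℝ h))
    simp [this]
  rw [h4]
  have h5 := congrArg (fun A : E →L[ℝ] ℝ => A v) h0
  simpa [sum_apply] using h5

theorem dv_eq_zero [FiniteDimensional ℂ E] {D : Set E} (hD : IsOpen D) {ρ : E → ℝ}
    (hρ : ContDiffOn ℝ 1 ρ D) (hρ0 : ∀ x ∈ D, 0 < ρ x) {Γ : Type*} [Group Γ] {a : Γ → E → E}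
    (ha : IsAct D a) (hρinv : ∀ γ, ∀ x ∈ D, ρ (a γ x) * ‖(fderiv ℂ (a γ) x).det‖ ^ 2 = ρ x)
    {Y : E → E} (hY : ContDiffOn ℝ 1 Y D)
    (hYinv : ∀ γ, ∀ x ∈ D, Y (a γ x) = fderiv ℂ (a γ) x (Y x))
    (hdiv : ∀ x ∈ D, 0 ≤ dv ρ Y x) : ∀ x ∈ D, dv ρ Y x = 0 := by
  have : FiniteDimensional ℝ E := FiniteDimensional.complexToReal E
  have : ProperSpace E := FiniteDimensional.proper ℝ E
  let _ : MeasurableSpace E := borel E
  have : BorelSpace E := ⟨rfl⟩
  intro x₀ hx₀
  obtain ⟨χ, hχ, hχc, hχD, hχ0, hχx₀, hχ1⟩ := exists_cutoff' hD ha hx₀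
  set μ : Measure E := MeasureTheory.Measure.addHaar with hμ
  -- continuity on `D`
  have hdvc : ContinuousOn (fun x => dv ρ Y x) D := by
    have h1 : ContinuousOn (fun x => fderiv ℝ ρ x) D :=
      hρ.continuousOn_fderiv_of_isOpen hD le_rfl
    have h2 : ContinuousOn (fun x => fderiv ℝ Y x) D :=
      hY.continuousOn_fderiv_of_isOpen hD le_rfl
    have h3 : ContinuousOn (fun x => LinearMap.trace ℝ E (fderiv ℝ Y x).toLinearMap) D := by
      have h4 : Continuous (fun A : E →L[ℝ] E => LinearMap.trace ℝ E A.toLinearMap) := by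
        have : (fun A : E →L[ℝ] E => LinearMap.trace ℝ E A.toLinearMap)
            = ((LinearMap.trace ℝ E).comp (ContinuousLinearMap.coeLM ℝ) : (E →L[ℝ] E) →ₗ[ℝ] ℝ) := by
          rfl
        rw [this]
        exact LinearMap.continuous_of_finiteDimensional _
      exact h4.comp_continuousOn h2
    exact (h1.clm_apply hY.continuousOn).add (hρ.continuousOn.mul h3)
  -- the field `χ Y`
  have hχY : ContDiffOn ℝ 1 (fun x => χ x • Y x) D := hχ.contDiffOn.smul hY
  have hχYs : tsupport (fun x => χ x • Y x) ⊆ tsupport χ := tsupport_smul_subset_left χ Y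
  have hχYc : HasCompactSupport (fun x => χ x • Y x) := hχc.smul_right
  have hI := integral_dv_eq_zero μ hD hρ hχY hχYc (hχYs.trans hχD)
  -- the function `f = dχ(Y)`
  set f : E → ℝ := fun x => fderiv ℝ χ x (Y x) with hf
  have hfs : tsupport f ⊆ tsupport χ := by
    refine closure_minimal ?_ (isClosed_tsupport _)
    intro x hx
    by_contra hcon
    apply hx
    have : fderiv ℝ χ x = 0 :=
      image_eq_zero_of_notMem_tsupport (fun h => hcon (tsupport_fderiv_subset ℝ h))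
    simp [hf, this]
  have hfc : HasCompactSupport f := hχc.isCompact.of_isClosed_subset (isClosed_tsupport _) hfs
  have hfcont : Continuous f := by
    refine continuous_of_tsupport fun x hx => ?_
    have hxD : x ∈ D := hχD (hfs hx)
    have h1 : ContinuousOn f D :=
      ((hχ.continuous_fderiv one_ne_zero).continuousOn).clm_apply hY.continuousOn
    exact h1.continuousAt (hD.mem_nhds hxD)
  have hfold := integral_fold μ hD hρ.continuousOn ha hρinv hχ hχc hχD hχ1 hfcont hfc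
    (hfs.trans hχD)
  have hzero : ∀ x ∈ D, χ x * (∑ᶠ γ, f (a γ x)) * ρ x = 0 := by
    intro x hx
    have h1 : ∑ᶠ γ, f (a γ x) = 0 := by
      rw [← finsum_fderiv_eq_zero hD ha hχ hχc hχD hχ1 hx (Y x)]
      apply finsum_congr
      intro γ
      simp only [hf]
      rw [hYinv γ x hx]
    rw [h1]; ring
  have hfold0 : ∫ x in D, f x * ρ x ∂μ = 0 := by
    rw [hfold, setIntegral_congr_fun hD.measurableSet (g := fun _ => (0 : ℝ)) hzero]
    simp
  -- split the integral
  have hg1 : Continuous (fun x => f x * ρ x) := by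
    refine continuous_of_tsupport fun x hx => ?_
    have hxD : x ∈ D := hχD (hfs (tsupport_mul_subset_left hx))
    exact hfcont.continuousAt.mul (hρ.continuousOn.continuousAt (hD.mem_nhds hxD))
  have hg1c : HasCompactSupport (fun x => f x * ρ x) := hfc.mul_right
  have hg2 : Continuous (fun x => χ x * dv ρ Y x) := by
    refine continuous_of_tsupport fun x hx => ?_
    have hxD : x ∈ D := hχD (tsupport_mul_subset_left hx)
    exact hχ.continuous.continuousAt.mul (hdvc.continuousAt (hD.mem_nhds hxD))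
  have hg2c : HasCompactSupport (fun x => χ x * dv ρ Y x) := hχc.mul_right
  have hi1 : IntegrableOn (fun x => f x * ρ x) D μ :=
    (hg1.integrable_of_hasCompactSupport hg1c).integrableOn
  have hi2 : IntegrableOn (fun x => χ x * dv ρ Y x) D μ :=
    (hg2.integrable_of_hasCompactSupport hg2c).integrableOn
  have hI2 : ∫ x in D, χ x * dv ρ Y x ∂μ = 0 := by
    have h1 : ∫ x in D, dv ρ (fun x => χ x • Y x) x ∂μ
        = ∫ x in D, (χ x * dv ρ Y x + f x * ρ x) ∂μ := by
      apply setIntegral_congr_fun hD.measurableSet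
      intro x hx
      have := dv_smul (ρ := ρ) (hχ.differentiable one_ne_zero x)
        ((hY.differentiableOn one_ne_zero).differentiableAt (hD.mem_nhds hx))
      simp only [hf]
      rw [this]; ring
    rw [h1, integral_add hi2 hi1, hfold0, add_zero] at hI
    exact hI
  have h0 : (fun x => χ x * dv ρ Y x) =ᵐ[μ.restrict D] fun _ => (0 : ℝ) := by
    refine (setIntegral_eq_zero_iff_of_nonneg_ae ?_ hi2).1 hI2
    filter_upwards [ae_restrict_mem hD.measurableSet] with x hx
    exact mul_nonneg (hχ0 x) (hdiv x hx)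
  have h1 : EqOn (fun x => χ x * dv ρ Y x) (fun _ => (0 : ℝ)) D :=
    Measure.eqOn_open_of_ae_eq h0 hD hg2.continuousOn continuousOn_const
  have h2 := h1 hx₀
  simp only at h2
  rcases mul_eq_zero.1 h2 with h3 | h3
  · exact absurd h3 hχx₀.ne'
  · exact h3

end Vale.Agent.P274.V
end

section

/-! # P274-V13: unimodularity of `Kil`

Proof.  `G = Kil D h` (finite-dimensional), basis `b_i` (`Module.finBasis`), `m X = trace (adK C X)`, a linear
functional (linear since `adK C X Y = - adK C Y X`, additivity of `lb` in both arguments on `D`).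
`q` from `exists_natural_inner`.  For `x ∈ D` let `c x ∈ G` be the unique element with `q x (c x) Y = m Y` for all
`Y` (a positive definite form is nondegenerate); its coordinates `c^i` are `C^1` on `D` (inverse of the Gram matrix
`q x b_i b_j`, which is `C^1`; `det ≠ 0`).
(a) Equivariance: for an automorphism `g` of `D`, `c (g x) = g_* (c x)` (`g_* = push D g g'`, a linear bijection of
`G` with inverse `push D g' g`, compatible with brackets (`push_lb`), so `m ∘ g_* = m` (trace of conjugate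
operators), and `q` is natural).
(b) For `X ∈ G` with flow `F`: `c (F t x) = push D (F t) (F (-t)) (c x)`; differentiate at `t = 0` coordinatewise:
`∑ i, (D c^i x (X x)) • b_i = - lb X (c x)` in `G` (`hasDerivAt_push_flow`: pointwise derivative; to pass to
coordinates use that a linear functional on the finite-dimensional space `G` is a finite combination of
evaluations, or evaluate at points: `y ↦ ∑ i, c^i (F t x) • b_i y = push D (F t) (F (-t)) (c x) y`, both sides
differentiable at `t = 0` for every `y ∈ D`, so `∑ i (D c^i x (X x)) • b_i y = - lb X (c x) y` for all `y`).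
(c) `Y x := (c x) x = ∑ i, c^i x • b_i x` is `C^1` on `D`, `Y (a γ x) = fderiv ℂ (a γ) x (Y x)` by (a), and
`dv ρ Y x = ρ x * ∑ i, D c^i x (b_i x) + ∑ i, c^i x * dv ρ b_i x = ρ x * ∑ i, D c^i x (b_i x)` by
`dv_eq_zero_of_flow`, and `∑ i, D c^i x (b_i x) = ∑ i, (i-th coordinate of - lb b_i (c x))
= ∑ i, (i-th coordinate of lb (c x) b_i) = trace (ad (c x)) = m (c x) = q x (c x) (c x) ≥ 0`.
(d) `dv_eq_zero` gives `q x (c x) (c x) = 0`, so `c x = 0`, so `m = q x (c x) · = 0`. -/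

open Set Complex ComplexConjugate Topology
open scoped ContDiff

namespace Vale.Agent.P274.V

variable {E : Type*} [NormedAddCommGroup E] [NormedSpace ℂ E]

/-- The derivative of a combination `∑ i, c i x • f i x`. -/
theorem hasFDerivAt_comb {n : ℕ} {c : Fin n → E → ℝ} {f : Fin n → E → E} {x : E}
    (hc : ∀ i, DifferentiableAt ℝ (c i) x) (hf : ∀ i, DifferentiableAt ℝ (f i) x) :
    HasFDerivAt (fun y => ∑ i, c i y • f i y)
      (∑ i, (c i x • fderiv ℝ (f i) x + (fderiv ℝ (c i) x).smulRight (f i x))) x :=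
  HasFDerivAt.fun_sum fun i _ => (hc i).hasFDerivAt.smul (hf i).hasFDerivAt

theorem dv_comb [FiniteDimensional ℂ E] {ρ : E → ℝ} {n : ℕ} {c : Fin n → E → ℝ}
    {f : Fin n → E → E} {x : E}
    (hc : ∀ i, DifferentiableAt ℝ (c i) x) (hf : ∀ i, DifferentiableAt ℝ (f i) x)
    (h0 : ∀ i, dv ρ (f i) x = 0) :
    dv ρ (fun y => ∑ i, c i y • f i y) x = ρ x * ∑ i, fderiv ℝ (c i) x (f i x) := by
  have : FiniteDimensional ℝ E := FiniteDimensional.complexToReal E
  have h1 : ∀ i, ρ x * LinearMap.trace ℝ E (fderiv ℝ (f i) x).toLinearMap =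
      - fderiv ℝ ρ x (f i x) := fun i => by
    have := h0 i
    unfold dv at this
    linarith
  have htr : ∀ (l : E →L[ℝ] ℝ) (v : E),
      LinearMap.trace ℝ E (l.smulRight v).toLinearMap = l v := by
    intro l v
    have : (l.smulRight v).toLinearMap = l.toLinearMap.smulRight v := by
      ext; rfl
    rw [this, LinearMap.trace_smulRight]
    rfl
  have hl : (∑ i, (c i x • fderiv ℝ (f i) x + (fderiv ℝ (c i) x).smulRight (f i x))).toLinearMap
      = ∑ i, (c i x • (fderiv ℝ (f i) x).toLinearMap +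
        ((fderiv ℝ (c i) x).smulRight (f i x)).toLinearMap) := by
    rw [ContinuousLinearMap.toLinearMap_sum]
    rfl
  unfold dv
  rw [(hasFDerivAt_comb hc hf).fderiv, hl]
  simp only [map_sum, map_smul, map_add, smul_eq_mul, htr, Finset.mul_sum,
    ← Finset.sum_add_distrib]
  refine Finset.sum_congr rfl fun i _ => ?_
  linear_combination (c i x) * h1 i

theorem trace_adK_eq_zero [FiniteDimensional ℂ E] {D : Set E} {h : E → E →L[ℝ] E →L[ℝ] ℂ}
    {ρ : E → ℝ} (C : Ctx D h ρ) {Γ : Type*} [Group Γ] {a : Γ → E → E} (ha : IsAct D a)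
    (X : Kil D h) : LinearMap.trace ℝ (Kil D h) (adK C X) = 0 := by
  have hfin : FiniteDimensional ℝ (Kil D h) := Kil_finiteDimensional C
  have hDo := C.isOpen
  obtain ⟨q, hq1, hqs, hqp, hqn⟩ := exists_natural_inner C
  set b := Module.finBasis ℝ (Kil D h) with hb
  set M : E → Matrix _ _ ℝ := fun x => Matrix.of fun i j => q x (b i) (b j) with hM
  set c : Fin (Module.finrank ℝ (Kil D h)) → E → ℝ :=
    fun i x => dualCoord (M x) (fun j => mK C (b j)) i with hc
  set cc : E → Kil D h := fun x => ∑ i, c i x • b i with hcc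
  have hspec : ∀ x ∈ D, ∀ Y, q x (cc x) Y = mK C Y := fun x hx Y =>
    dual_spec b (q x) (hqp x hx) (hqs x hx) (mK C) Y
  have hc1 : ∀ i, ContDiffOn ℝ 1 (c i) D := fun i =>
    contDiffOn_dualCoord (fun i j => hq1 (b i) (b j))
      (fun x hx => det_gram_ne_zero b (q x) (hqp x hx)) _ i
  have hcd : ∀ i, ∀ x ∈ D, DifferentiableAt ℝ (c i) x := fun i x hx =>
    ((hc1 i).differentiableOn one_ne_zero x hx).differentiableAt (hDo.mem_nhds hx)
  -- equivariance
  have hequiv : ∀ g g', ∀ hg : IsBiholo D D g g', ∀ x ∈ D, cc (g x) = pushK C hg (cc x) := by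
    intro g g' hg x hx
    refine dual_unique (q (g x)) (hqp _ (hg.mapsTo hx)) fun Y => ?_
    obtain ⟨W, rfl⟩ := (pushK C hg).surjective Y
    rw [hspec _ (hg.mapsTo hx), mK_pushK, hqn g g' hg x hx (cc x) W _ _ rfl rfl,
      hspec x hx]
  have hcoe : ∀ x y, (cc x : E → E) y = ∑ i, c i x • (b i : E → E) y := by
    intro x y
    simp [hcc]
  -- infinitesimal version
  have hinf : ∀ x ∈ D, ∀ X : Kil D h,
      ∑ i, (fderiv ℝ (c i) x ((X : E → E) x)) • b i = adK C (cc x) X := by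
    intro x hx X
    obtain ⟨F, hF⟩ := C.flow X.1 X.2
    apply Subtype.ext
    rw [adK_coe]
    funext y
    by_cases hy : y ∈ D
    · have h1 := hasDerivAt_push_flow hDo X.2.1 (cc x).2.1 hF hy
      have h2 : (fun t : ℝ => push D (F t) (F (-t)) (cc x : E → E) y) =
          fun t => ∑ i, c i (F t x) • (b i : E → E) y := by
        funext t
        rw [← hcoe, hequiv _ _ (hF.biholo t) x hx]
        rfl
      rw [h2] at h1
      have h3 : HasDerivAt (fun t : ℝ => ∑ i, c i (F t x) • (b i : E → E) y)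
          (∑ i, (fderiv ℝ (c i) x ((X : E → E) x)) • (b i : E → E) y) 0 := by
        refine HasDerivAt.fun_sum fun i _ => ?_
        have hd : HasDerivAt (fun t : ℝ => F t x) ((X : E → E) x) 0 := by
          have := hF.deriv x hx 0
          rwa [hF.zero x hx] at this
        have hfd : HasFDerivAt (c i) (fderiv ℝ (c i) x) (F 0 x) := by
          rw [hF.zero x hx]
          exact (hcd i x hx).hasFDerivAt
        exact (hfd.comp_hasDerivAt (0 : ℝ) hd).smul_const _
      have h4 := h3.unique h1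
      rw [lb_swap X.1 (cc x).1, Pi.neg_apply, neg_neg] at h4
      rw [← h4]
      simp
    · rw [lb_of_notMem (cc x).2.2.1 X.2.2.1 hy]
      exact (∑ i, (fderiv ℝ (c i) x ((X : E → E) x)) • b i).2.2.1 y hy
  -- the trace
  have htrace : ∀ x ∈ D, ∑ i, fderiv ℝ (c i) x ((b i : E → E) x) = q x (cc x) (cc x) := by
    intro x hx
    rw [hspec x hx, mK_apply, LinearMap.trace_eq_matrix_trace ℝ b, Matrix.trace]
    refine Finset.sum_congr rfl fun i _ => ?_
    rw [Matrix.diag_apply, LinearMap.toMatrix_apply, ← hinf x hx (b i)]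
    simp [Finsupp.single_apply]
  have hdiffC : ∀ i, ∀ x ∈ D, DifferentiableAt ℂ (b i : E → E) x := fun i => (b i).2.1
  have hdiff : ∀ i, ∀ x ∈ D, DifferentiableAt ℝ (b i : E → E) x := fun i x hx =>
    (hdiffC i x hx).restrictScalars ℝ
  set Y : E → E := fun x => ∑ i, c i x • (b i : E → E) x with hY
  have hYd : ∀ x ∈ D, dv ρ Y x = ρ x * q x (cc x) (cc x) := by
    intro x hx
    rw [← htrace x hx]
    refine dv_comb (fun i => hcd i x hx) (fun i => hdiff i x hx) fun i => ?_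
    obtain ⟨F, hF⟩ := C.flow (b i).1 (b i).2
    exact dv_eq_zero_of_flow hDo C.met (hdiffC i) hF x hx
  have hqnn : ∀ x ∈ D, 0 ≤ q x (cc x) (cc x) := by
    intro x hx
    by_cases h0 : cc x = 0
    · rw [h0]; simp
    · exact (hqp x hx _ h0).le
  have hzero := dv_eq_zero hDo (ρ := ρ) (C.met.smooth_ρ.of_le (by exact_mod_cast le_top)) C.met.pos_ρ ha
    (fun γ x hx => C.met.inv_ρ _ _ (ha.biholo γ) x hx) (Y := Y)
    (ContDiffOn.sum fun i _ => (hc1 i).smul
      (((Vale.Agent.P268.contDiffOn_of_differentiableOn hDo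
        (fun x hx => (hdiffC i x hx).differentiableWithinAt) 1).restrict_scalars ℝ)))
    (fun γ x hx => by
      have h1 := congrArg (fun Z : Kil D h => (Z : E → E) (a γ x))
        (hequiv _ _ (ha.biholo γ) x hx)
      simp only [pushK_coe] at h1
      rw [push_apply (ha.biholo γ) hx, hcoe, hcoe] at h1
      exact h1)
    (fun x hx => by
      rw [hYd x hx]
      exact mul_nonneg (C.met.pos_ρ x hx).le (hqnn x hx))
  obtain ⟨x, hx⟩ := C.ne
  have h1 := hzero x hx
  rw [hYd x hx] at h1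
  have h2 : q x (cc x) (cc x) = 0 := by
    rcases mul_eq_zero.1 h1 with h1 | h1
    · exact absurd h1 (C.met.pos_ρ x hx).ne'
    · exact h1
  have h3 : cc x = 0 := by
    by_contra h0
    exact absurd h2 (hqp x hx _ h0).ne'
  have h4 := hspec x hx X
  rw [h3, map_zero, LinearMap.zero_apply] at h4
  rw [← mK_apply, ← h4]

end Vale.Agent.P274.V
end

section

/-! # P274-V3: a complete holomorphic field has a holomorphic flow with variational equation

Proof. Choose for `x ∈ D` the complete curve `γ_x` and put `F t x = γ_x t` (anything for `x ∉ D`).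
`flow_add`, `differentiableOn_flow` (V2) give everything but the last field of `IsFlow`.
For the variational equation it suffices to treat `t = 0`: since `F (t+s) = F s ∘ F t` near `x`,
`fderiv ℂ (F (t+s)) x = (fderiv ℂ (F s) (F t x)).comp (fderiv ℂ (F t) x)`, whose derivative at `s = 0` is
`(fderiv ℂ X (F t x)).comp (fderiv ℂ (F t) x)`.
At `t = 0`: near `x₀`, for small `|s|`, `‖F s x - x - s X x‖ ≤ C s ^ 2` uniformly for `x ∈ ball x₀ r`
(mean value inequality along `τ ↦ F τ x`), and the Cauchy estimate. -/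

set_option linter.all false

open Set Complex ComplexConjugate Topology Metric
open scoped ContDiff

namespace Vale.Agent.P274.V

variable {E : Type*} [NormedAddCommGroup E] [NormedSpace ℂ E]

/-- A curve with bounded velocity in a ball stays in the ball (positive times). -/
theorem FlowExAux.curve_bound_pos {X : E → E} {γ : ℝ → E} {x : E} {r M δ : ℝ} (h0 : γ 0 = x)
    (hγ : ∀ t, HasDerivAt γ (X (γ t)) t) (hM : ∀ y, dist y x ≤ r → ‖X y‖ ≤ M)
    (hM0 : 0 ≤ M) (hδ : (M + 1) * δ ≤ r) : ∀ t ∈ Icc (0 : ℝ) δ, ‖γ t - x‖ ≤ (M + 1) * t := by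
  refine image_norm_le_of_norm_deriv_right_lt_deriv_boundary (f := fun t => γ t - x)
    (f' := fun t => X (γ t)) (a := 0) (b := δ) ?_ ?_ (B := fun t => (M + 1) * t)
    (B' := fun _ => M + 1) ?_ ?_ ?_
  · exact fun t _ => ((hγ t).sub_const x).continuousAt.continuousWithinAt
  · exact fun t _ => ((hγ t).sub_const x).hasDerivWithinAt
  · simp [h0]
  · intro t
    simpa using (hasDerivAt_id t).const_mul (M + 1)
  · intro t ht hb
    have h1 : dist (γ t) x ≤ r := by
      rw [dist_eq_norm, hb]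
      have : (M + 1) * t ≤ (M + 1) * δ := by
        apply mul_le_mul_of_nonneg_left ht.2.le (by linarith)
      linarith
    have := hM _ h1
    show ‖X (γ t)‖ < M + 1
    linarith

/-- A curve with bounded velocity in a ball stays in the ball. -/
theorem FlowExAux.curve_bound {X : E → E} {γ : ℝ → E} {x : E} {r M δ : ℝ} (h0 : γ 0 = x)
    (hγ : ∀ t, HasDerivAt γ (X (γ t)) t) (hM : ∀ y, dist y x ≤ r → ‖X y‖ ≤ M)
    (hM0 : 0 ≤ M) (hδ : (M + 1) * δ ≤ r) : ∀ t, |t| ≤ δ → ‖γ t - x‖ ≤ (M + 1) * |t| := by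
  intro t ht
  rcases le_total 0 t with h | h
  · rw [abs_of_nonneg h] at ht ⊢
    exact FlowExAux.curve_bound_pos h0 hγ hM hM0 hδ t ⟨h, ht⟩
  · rw [abs_of_nonpos h] at ht ⊢
    have h1 : ∀ s, HasDerivAt (fun s => γ (-s)) ((fun y => -X y) (γ (-s))) s := by
      intro s
      have h2 := (hγ (-s)).scomp s (hasDerivAt_neg s)
      simpa [Function.comp_def] using h2
    have h2 := FlowExAux.curve_bound_pos (X := fun y => -X y) (γ := fun s => γ (-s)) (x := x)
      (by simpa using h0) h1 (fun y hy => by rw [norm_neg]; exact hM y hy) hM0 hδ (-t)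
      ⟨by linarith, ht⟩
    simpa using h2

/-- The variational equation at time `0`. -/
theorem FlowExAux.deriv_zero [FiniteDimensional ℂ E] {D : Set E} (hD : IsOpen D) {X : E → E}
    (hX : DifferentiableOn ℂ X D) {F : ℝ → E → E} (hF0 : ∀ x ∈ D, F 0 x = x)
    (hFD : ∀ x ∈ D, ∀ t, F t x ∈ D)
    (hFd : ∀ x ∈ D, ∀ t, HasDerivAt (fun t => F t x) (X (F t x)) t)
    (hFh : ∀ t, DifferentiableOn ℂ (F t) D) {x₀ : E} (hx₀ : x₀ ∈ D) :
    HasDerivAt (fun s => fderiv ℂ (F s) x₀) (fderiv ℂ X x₀) 0 := by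
  obtain ⟨R0, hR0, hR0D⟩ := Metric.isOpen_iff.1 hD x₀ hx₀
  have hXc : ContinuousAt X x₀ := (hX.differentiableAt (hD.mem_nhds hx₀)).continuousAt
  obtain ⟨R1, hR1, hR1b⟩ := Metric.continuousAt_iff.1 hXc 1 one_pos
  set R : ℝ := min R0 R1 with hR
  have hRpos : 0 < R := lt_min hR0 hR1
  have hRD : ball x₀ R ⊆ D := (ball_subset_ball (min_le_left _ _)).trans hR0D
  set M : ℝ := ‖X x₀‖ + 1 with hMdef
  have hM0 : 0 ≤ M := by positivity
  have hMb : ∀ y ∈ ball x₀ R, ‖X y‖ ≤ M := by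
    intro y hy
    have h1 := hR1b (ball_subset_ball (min_le_right _ _) hy)
    rw [dist_eq_norm] at h1
    calc ‖X y‖ = ‖X x₀ + (X y - X x₀)‖ := by congr 1; abel
      _ ≤ ‖X x₀‖ + ‖X y - X x₀‖ := norm_add_le _ _
      _ ≤ _ := by linarith
  have hXd : DifferentiableOn ℂ X (ball x₀ R) := hX.mono hRD
  set r : ℝ := R / 16 with hr
  have hrpos : 0 < r := by positivity
  set δ : ℝ := r / (M + 1) with hδ
  have hδpos : 0 < δ := by positivity
  have hδr : (M + 1) * δ ≤ r := by
    rw [hδ, mul_div_cancel₀ _ (by positivity)]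
  have hcl : ∀ x ∈ ball x₀ r, ∀ y, dist y x ≤ r → y ∈ ball x₀ (R / 4) := by
    intro x hx y hy
    rw [mem_ball] at hx ⊢
    have := dist_triangle y x x₀
    linarith only [this, hy, hx, hrpos, hr]
  have hbig : ball x₀ (R / 4) ⊆ ball x₀ R := ball_subset_ball (by linarith)
  have hcb : ∀ x ∈ ball x₀ r, ∀ t, |t| ≤ δ → ‖F t x - x‖ ≤ (M + 1) * |t| := by
    intro x hx t ht
    have hxD : x ∈ D := hRD (ball_subset_ball (by linarith) hx)
    exact FlowExAux.curve_bound (γ := fun t => F t x) (hF0 x hxD) (hFd x hxD)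
      (fun y hy => hMb y (hbig (hcl x hx y hy))) hM0 hδr t ht
  set K : ℝ := 4 * M / R * (M + 1) with hK
  have hK0 : 0 ≤ K := by positivity
  -- second order estimate
  have hsec : ∀ x ∈ ball x₀ r, ∀ s, |s| ≤ δ → ‖F s x - x - s • X x‖ ≤ K * |s| * |s| := by
    intro x hx s hs
    have hxD : x ∈ D := hRD (ball_subset_ball (by linarith) hx)
    have h1 : ∀ τ ∈ uIcc 0 s, HasDerivWithinAt (fun τ => F τ x - x - τ • X x)
        (X (F τ x) - X x) (uIcc 0 s) τ := by
      intro τ _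
      have h2 := ((hFd x hxD τ).sub_const x).sub ((hasDerivAt_id τ).smul_const (X x))
      simp only [one_smul] at h2
      exact h2.hasDerivWithinAt
    have h2 : ∀ τ ∈ uIcc 0 s, ‖X (F τ x) - X x‖ ≤ K * |s| := by
      intro τ hτ
      have hτs : |τ| ≤ |s| := by
        rcases le_total 0 s with h | h
        · rw [uIcc_of_le h] at hτ
          rw [abs_of_nonneg hτ.1, abs_of_nonneg h]; exact hτ.2
        · rw [uIcc_of_ge h] at hτ
          rw [abs_of_nonpos hτ.2, abs_of_nonpos h]; linarith only [hτ.1]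
      have h3 := hcb x hx τ (hτs.trans hs)
      have h4 : dist (F τ x) x ≤ (M + 1) * |s| := by
        rw [dist_eq_norm]
        exact h3.trans (mul_le_mul_of_nonneg_left hτs (by linarith))
      have h5 : dist (F τ x) x ≤ r := by
        refine h4.trans (le_trans ?_ hδr)
        exact mul_le_mul_of_nonneg_left hs (by linarith)
      have h6 := lip_of_bdd hRpos hXd hMb (y := x) (z := F τ x)
        (hcl x hx x (by rw [dist_self]; exact hrpos.le)) (hcl x hx _ h5)
      rw [dist_eq_norm] at h6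
      calc ‖X (F τ x) - X x‖ ≤ 4 * M / R * dist (F τ x) x := h6
        _ ≤ 4 * M / R * ((M + 1) * |s|) := mul_le_mul_of_nonneg_left h4 (by positivity)
        _ = K * |s| := by rw [hK]; ring
    have h3 := (convex_uIcc 0 s).norm_image_sub_le_of_norm_hasDerivWithin_le h1 h2
      left_mem_uIcc right_mem_uIcc
    simpa [hF0 x hxD] using h3
  -- Cauchy estimate
  have hA : ∀ s, |s| ≤ δ →
      ‖fderiv ℂ (F s) x₀ - ContinuousLinearMap.id ℂ E - s • fderiv ℂ X x₀‖
        ≤ K / r * (|s| * |s|) := by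
    intro s hs
    have hb : ball x₀ r ⊆ D := (ball_subset_ball (by linarith only [hrpos, hr])).trans hRD
    have hd : DifferentiableOn ℂ (fun x => F s x - x - (s : ℂ) • X x) (ball x₀ r) :=
      (((hFh s).mono hb).sub differentiableOn_id).sub ((hX.mono hb).const_smul (s : ℂ))
    have h1 := Vale.Agent.P268.norm_fderiv_le_of_ball hrpos hd (C := K * |s| * |s|)
      (fun y hy => by
        have := hsec y hy s hs
        rwa [show (s : ℂ) • X y = s • X y from Complex.coe_smul s (X y)])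
    have hdF : DifferentiableAt ℂ (F s) x₀ := (hFh s).differentiableAt (hD.mem_nhds hx₀)
    have hdX : DifferentiableAt ℂ X x₀ := hX.differentiableAt (hD.mem_nhds hx₀)
    have h2 : HasFDerivAt (fun x => F s x - x - (s : ℂ) • X x)
        (fderiv ℂ (F s) x₀ - ContinuousLinearMap.id ℂ E - (s : ℂ) • fderiv ℂ X x₀) x₀ :=
      (hdF.hasFDerivAt.sub (hasFDerivAt_id x₀)).sub (hdX.hasFDerivAt.const_smul (s : ℂ))
    rw [h2.fderiv] at h1
    rw [show s • fderiv ℂ X x₀ = (s : ℂ) • fderiv ℂ X x₀ from (Complex.coe_smul s _).symm]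
    refine h1.trans (le_of_eq ?_)
    ring
  have h00 : fderiv ℂ (F 0) x₀ = ContinuousLinearMap.id ℂ E := by
    have h1 : F 0 =ᶠ[𝓝 x₀] id := by
      filter_upwards [hD.mem_nhds hx₀] with x hx using hF0 x hx
    rw [h1.fderiv_eq, fderiv_id]
  rw [hasDerivAt_iff_isLittleO_nhds_zero]
  simp only [zero_add]
  rw [h00]
  have hbigO : (fun s : ℝ => fderiv ℂ (F s) x₀ - ContinuousLinearMap.id ℂ E
      - s • fderiv ℂ X x₀) =O[𝓝 0] fun s : ℝ => s * s := by
    refine Asymptotics.IsBigO.of_bound (K / r) ?_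
    filter_upwards [Metric.ball_mem_nhds (0 : ℝ) hδpos] with s hs
    rw [mem_ball_zero_iff, Real.norm_eq_abs] at hs
    have := hA s hs.le
    simpa [abs_mul] using this
  refine hbigO.trans_isLittleO ?_
  have h1 : (fun s : ℝ => s * s) =o[𝓝 0] fun s : ℝ => (1 : ℝ) * s := by
    refine Asymptotics.IsLittleO.mul_isBigO ?_ (Asymptotics.isBigO_refl _ _)
    rw [Asymptotics.isLittleO_one_iff]
    exact Filter.tendsto_id
  simpa using h1

/-- A complete holomorphic vector field has a flow. -/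
theorem exists_isFlow_of_complete [FiniteDimensional ℂ E] {D : Set E} (hD : IsOpen D) {X : E → E}
    (hX : DifferentiableOn ℂ X D)
    (hc : ∀ x ∈ D, ∃ γ : ℝ → E, γ 0 = x ∧ ∀ t, γ t ∈ D ∧ HasDerivAt γ (X (γ t)) t) :
    ∃ F, IsFlow D X F := by
  classical
  choose! γ hγ0 hγ using hc
  set F : ℝ → E → E := fun t x => γ x t with hF
  have hF0 : ∀ x ∈ D, F 0 x = x := fun x hx => hγ0 x hx
  have hFD : ∀ x ∈ D, ∀ t, F t x ∈ D := fun x hx t => (hγ x hx t).1
  have hFd : ∀ x ∈ D, ∀ t, HasDerivAt (fun t => F t x) (X (F t x)) t :=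
    fun x hx t => (hγ x hx t).2
  have hFadd := flow_add hD hX hF0 hFD hFd
  have hFh := differentiableOn_flow hD hX hF0 hFD hFd
  refine ⟨F, ⟨fun t => ⟨hFh t, hFh (-t), fun x hx => hFD x hx t, fun x hx => hFD x hx (-t), ?_, ?_⟩,
    hF0, hFadd, hFd, ?_⟩⟩
  · intro x hx
    rw [← hFadd (-t) t x hx, neg_add_cancel, hF0 x hx]
  · intro x hx
    rw [← hFadd t (-t) x hx, add_neg_cancel, hF0 x hx]
  · intro x hx t
    have hxt : F t x ∈ D := hFD x hx t
    have h0 := FlowExAux.deriv_zero hD hX hF0 hFD hFd hFh hxt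
    set C : E →L[ℂ] E := fderiv ℂ (F t) x with hC
    have hcomp : ∀ s, fderiv ℂ (F (s + t)) x = (fderiv ℂ (F s) (F t x)).comp C := by
      intro s
      have h1 : F (s + t) =ᶠ[𝓝 x] (F s) ∘ (F t) := by
        filter_upwards [hD.mem_nhds hx] with y hy using hFadd s t y hy
      rw [h1.fderiv_eq, fderiv_comp x ((hFh s).differentiableAt (hD.mem_nhds hxt))
        ((hFh t).differentiableAt (hD.mem_nhds hx))]
    have h1 : HasDerivAt (fun s => (fderiv ℂ (F s) (F t x)).comp C)
        ((fderiv ℂ X (F t x)).comp C) 0 := by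
      have h2 := ((((ContinuousLinearMap.compL ℂ E E E).flip C).restrictScalars ℝ).hasFDerivAt
        (x := fderiv ℂ (F 0) (F t x))).comp_hasDerivAt (0 : ℝ) h0
      exact h2
    have h3 : HasDerivAt (fun s => fderiv ℂ (F (s + t)) x) ((fderiv ℂ X (F t x)).comp C) (t - t) := by
      rw [sub_self]
      exact h1.congr_of_eventuallyEq (Filter.Eventually.of_forall hcomp)
    have h4 := h3.comp_sub_const t t
    simpa using h4

end Vale.Agent.P274.V
end
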