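import Mathlib
import Vale.Agent.P274.Bdl.B1
import Vale.Agent.P274.Bdl.B4
import Vale.Agent.P274.Bdl.B5
import Vale.Agent.P274.Bdl.B10
import Vale.Agent.P274.Bdl.B6
import Vale.Agent.P274.Bdl.B8
import Vale.Agent.P274.Bdl.B7
import Vale.Agent.P274.Bdl.B9
import Vale.Agent.P274.Z.VarDefs
import Vale.Agent.P274.Bdl.B3
import Vale.Agent.P274.FrankelDefs

set_option linter.all false

section

open Filter Metric Set Topology

namespace Vale.Agent.P274

variable {ι : Type*} {E F : Type*} [NormedAddCommGroup E] [NormedSpace ℂ E]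
  [NormedAddCommGroup F] [NormedSpace ℂ F]

end Vale.Agent.P274
end

section

/-! The model peak function. -/

open Filter Metric Set Topology Asymptotics

namespace Vale.Agent.P274

open Complex

section taylor

variable {E F : Type*} [NormedAddCommGroup E] [NormedSpace ℂ E] [NormedAddCommGroup F]
  [NormedSpace ℂ F]

theorem isLittleO_of_fderivC {R : E → F} {N : ℕ}
    (hd : ∀ᶠ x in 𝓝 (0 : E), DifferentiableAt ℂ R x)
    (h0 : R 0 = 0) (h : (fderiv ℂ R) =o[𝓝 0] fun x => ‖x‖ ^ N) :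
    R =o[𝓝 0] fun x => ‖x‖ ^ (N + 1) := by
  rw [isLittleO_iff] at h ⊢
  intro ε hε
  obtain ⟨r, hr, hrb⟩ := Metric.eventually_nhds_iff_ball.1 ((h hε).and hd)
  filter_upwards [ball_mem_nhds (0 : E) hr] with y hy
  have hy' : ‖y‖ < r := by simpa using hy
  have hsub : closedBall (0 : E) ‖y‖ ⊆ ball 0 r := closedBall_subset_ball hy'
  have h1 := (convex_closedBall (0 : E) ‖y‖).norm_image_sub_le_of_norm_fderiv_le
    (f := R) (𝕜 := ℂ) (C := ε * ‖y‖ ^ N) (x := 0) (y := y)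
    (fun z hz => (hrb z (hsub hz)).2) (fun z hz => by
      refine (hrb z (hsub hz)).1.trans ?_
      have h2 : ‖z‖ ≤ ‖y‖ := by simpa using hz
      rw [Real.norm_of_nonneg (by positivity)]
      gcongr)
    (mem_closedBall_self (norm_nonneg y)) (by simp)
  rw [h0, sub_zero, sub_zero] at h1
  rw [Real.norm_of_nonneg (by positivity), pow_succ, ← mul_assoc]
  exact h1

theorem differentiableOn_clm_of_apply {G : Type*} [NormedAddCommGroup G] [NormedSpace ℂ G]
    [FiniteDimensional ℂ E] {f : G → E →L[ℂ] F} {s : Set G}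
    (h : ∀ y, DifferentiableOn ℂ (fun x => f x y) s) : DifferentiableOn ℂ f s := by
  let d := Module.finrank ℂ E
  have hd : d = Module.finrank ℂ (Fin d → ℂ) := (Module.finrank_fin_fun ℂ).symm
  let e₁ := ContinuousLinearEquiv.ofFinrankEq hd
  let e₂ := (e₁.arrowCongr (1 : F ≃L[ℂ] F)).trans (ContinuousLinearEquiv.piRing (Fin d))
  rw [← Function.id_comp f, ← e₂.symm_comp_self]
  exact e₂.symm.differentiable.comp_differentiableOn (differentiableOn_pi.mpr fun i => h _)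

/-- Second order Taylor expansion of a holomorphic function. -/
theorem taylor2C {f : E → F} {q : E} (hfd : ∀ᶠ x in 𝓝 q, DifferentiableAt ℂ f x)
    (hfd2 : DifferentiableAt ℂ (fderiv ℂ f) q) :
    (fun x => f (q + x) - f q - fderiv ℂ f q x - (1 / 2 : ℂ) • fderiv ℂ (fderiv ℂ f) q x x)
      =o[𝓝 0] fun x => ‖x‖ ^ 2 := by
  set D := fderiv ℂ f q with hD
  set B := fderiv ℂ (fderiv ℂ f) q with hB
  have hsymm : ∀ x y, B x y = B y x :=
    second_derivative_symmetric_of_eventually (hfd.mono fun x hx => hx.hasFDerivAt)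
      hfd2.hasFDerivAt
  have htr : Tendsto (fun x : E => q + x) (𝓝 0) (𝓝 q) := by
    have : Tendsto (fun x : E => q + x) (𝓝 0) (𝓝 (q + 0)) :=
      (continuous_const.add continuous_id).tendsto 0
    rwa [add_zero] at this
  have hBB : ∀ x : E, HasFDerivAt (fun x => (1 / 2 : ℂ) • B x x) (B x) x := by
    intro x
    have h1 : HasFDerivAt (fun x => B x) B x := B.hasFDerivAt
    have h2 : HasFDerivAt (fun x : E => x) (ContinuousLinearMap.id ℂ E) x := hasFDerivAt_id x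
    have h3 := (h1.clm_apply h2).const_smul (1 / 2 : ℂ)
    refine h3.congr_fderiv ?_
    ext v
    simp only [smul_apply, add_apply,
      ContinuousLinearMap.comp_apply, ContinuousLinearMap.flip_apply,
      ContinuousLinearMap.id_apply]
    rw [hsymm v x, ← two_smul ℂ, smul_smul]
    norm_num
  have hder : ∀ᶠ x in 𝓝 (0 : E), HasFDerivAt
      (fun x => f (q + x) - f q - D x - (1 / 2 : ℂ) • B x x)
      (fderiv ℂ f (q + x) - D - B x) x := by
    filter_upwards [htr.eventually hfd] with x hx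
    have h1 : HasFDerivAt (fun x => f (q + x)) (fderiv ℂ f (q + x)) x := by
      have h2 := hx.hasFDerivAt
      have h3 : HasFDerivAt (fun x : E => q + x) (ContinuousLinearMap.id ℂ E) x :=
        (hasFDerivAt_id x).const_add q
      have h4 := h2.comp x h3
      rw [ContinuousLinearMap.comp_id] at h4
      exact h4
    exact ((h1.sub_const _).sub D.hasFDerivAt).sub (hBB x)
  refine isLittleO_of_fderivC (N := 1) (hder.mono fun x hx => hx.differentiableAt)
    (by simp) ?_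
  have h1 : (fun x => fderiv ℂ f (q + x) - D - B x) =o[𝓝 0] fun x => ‖x‖ ^ 1 := by
    have h2 : HasFDerivAt (fderiv ℂ f) B q := hfd2.hasFDerivAt
    have h3 := hasFDerivAt_iff_isLittleO_nhds_zero.1 h2
    simp only [pow_one]
    exact h3.norm_right
  refine h1.congr' ?_ EventuallyEq.rfl
  filter_upwards [hder] with x hx
  exact hx.fderiv.symm

end taylor

variable {E : Type*} [NormedAddCommGroup E] [NormedSpace ℂ E] [FiniteDimensional ℂ E] {k : ℕ}
  {D : E →L[ℝ] (Fin k → ℝ)} {B : E →L[ℝ] E →L[ℝ] (Fin k → ℝ)} {σ : (Fin k → ℂ) →L[ℂ] E}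
  {ι : Type*}

/-- The limit of the rescaled peak functions is a peak function for the kernel. -/
theorem exists_model_peak (hσ : ∀ w, Lam D (σ w) = w) {U : Set E} {q : E} {r0 c : ℝ}
    (hr0 : 0 < r0) {P : E → ℂ} (hP : DifferentiableOn ℂ P (ball q r0)) (hPq : P q = 0)
    (hPre : ∀ z ∈ U, z ∈ ball q r0 → c * (‖z - q‖ ^ 2 + ‖D (z - q)‖) ≤ (P z).re)
    (hP' : ∀ u, Lam D u = 0 → fderiv ℂ P q u = 0)
    (𝒰 : Ultrafilter ι) {s : ι → ℝ} (hs : Tendsto s 𝒰 (𝓝[>] 0)) :
    ∃ Q : E → ℂ, Differentiable ℂ Q ∧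
      ∀ y ∈ InS 𝒰 (fun j => (fun y => q + Th D B σ (s j) y) ⁻¹' U),
        c * (‖prj D σ y‖ ^ 2 + ‖D (σ (Lam D y - Qf B (prj D σ y)))‖) ≤ (Q y).re := by
  have hs0 : Tendsto s 𝒰 (𝓝 0) := hs.mono_right nhdsWithin_le_nhds
  have hspos : ∀ᶠ j in (𝒰 : Filter ι), 0 < s j := hs.eventually self_mem_nhdsWithin
  have hps : ProperSpace E := FiniteDimensional.proper ℂ E
  have hPd1 : ∀ᶠ x in 𝓝 q, DifferentiableAt ℂ P x :=
    eventually_of_mem (ball_mem_nhds q hr0) fun x hx =>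
      hP.differentiableAt (isOpen_ball.mem_nhds hx)
  have hPd2 : DifferentiableAt ℂ (fderiv ℂ P) q :=
    (differentiableOn_clm_of_apply fun y =>
      differentiableOn_fderiv_apply isOpen_ball hP y).differentiableAt (ball_mem_nhds q hr0)
  set ℓ := fderiv ℂ P q with hℓ
  set B2 := fderiv ℂ (fderiv ℂ P) q with hB2
  set a : E → E := fun y => σ (Lam D y - Qf B (prj D σ y)) with ha
  set z : E → E := fun y => prj D σ y with hz
  have hQd : Differentiable ℂ (Qf B) := differentiable_Qf B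
  have had : Differentiable ℂ a := by
    have h3 : Differentiable ℂ (fun y => Qf B (prj D σ y)) := hQd.comp (prj D σ).differentiable
    simp only [ha]
    fun_prop
  refine ⟨fun y => ℓ (a y) + (1 / 2 : ℂ) * B2 (z y) (z y), ?_, fun y hy => ?_⟩
  · have h1 : Differentiable ℂ (fun y => ℓ (a y)) := ℓ.differentiable.comp had
    have h2 : Differentiable ℂ (fun y => B2 (z y) (z y)) := by
      simp only [hz]
      fun_prop
    exact h1.add (h2.const_mul _)
  · have hx : ∀ t : ℝ, Th D B σ t y = (t ^ 2) • a y + t • z y := fun t => rfl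
    have hx' : ∀ t : ℝ, Th D B σ t y = t • (t • a y + z y) := fun t => by
      rw [hx, smul_add, smul_smul, sq]
    have hThlim : Tendsto (fun j => Th D B σ (s j) y) 𝒰 (𝓝 0) := by
      have h1 : Tendsto (fun j => (s j ^ 2) • a y + s j • z y) 𝒰
          (𝓝 (((0 : ℝ) ^ 2) • a y + (0 : ℝ) • z y)) :=
        ((hs0.pow 2).smul_const _).add (hs0.smul_const _)
      have h2 : ((0 : ℝ) ^ 2) • a y + (0 : ℝ) • z y = 0 := by simp
      rw [h2] at h1
      exact h1
    have hw : Tendsto (fun j => s j • a y + z y) 𝒰 (𝓝 (z y)) := by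
      have h1 : Tendsto (fun j => s j • a y + z y) 𝒰 (𝓝 ((0 : ℝ) • a y + z y)) :=
        (hs0.smul_const _).add_const _
      simpa using h1
    -- the error term
    have hta := (taylor2C hPd1 hPd2).comp_tendsto hThlim
    simp only [Function.comp_def, hPq, sub_zero, ← hℓ, ← hB2] at hta
    have herr : Tendsto (fun j => ((s j ^ 2)⁻¹ : ℝ) • (P (q + Th D B σ (s j) y) -
        ℓ (Th D B σ (s j) y) - (1 / 2 : ℂ) • B2 (Th D B σ (s j) y) (Th D B σ (s j) y))) 𝒰 (𝓝 0) := by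
      rw [Metric.tendsto_nhds]
      intro ε hε
      have hwb : ∀ᶠ j in (𝒰 : Filter ι), ‖s j • a y + z y‖ ^ 2 < ‖z y‖ ^ 2 + 1 := by
        have h2 := (hw.norm.pow 2)
        exact h2.eventually (gt_mem_nhds (by linarith))
      have h3 := hta.def (c := ε / (2 * (‖z y‖ ^ 2 + 1))) (by positivity)
      filter_upwards [hwb, h3, hspos] with j h4 h5 h6
      rw [dist_zero_right, norm_smul, norm_inv, Real.norm_of_nonneg (by positivity : 0 ≤ s j ^ 2)]
      rw [Real.norm_of_nonneg (by positivity)] at h5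
      have h7 : ‖Th D B σ (s j) y‖ ^ 2 ≤ s j ^ 2 * (‖z y‖ ^ 2 + 1) := by
        rw [hx', norm_smul, Real.norm_of_nonneg h6.le, mul_pow]
        gcongr
      have h8 : 0 < s j ^ 2 := by positivity
      calc (s j ^ 2)⁻¹ * _ ≤ (s j ^ 2)⁻¹ * (ε / (2 * (‖z y‖ ^ 2 + 1)) *
            (s j ^ 2 * (‖z y‖ ^ 2 + 1))) := by gcongr; exact h5.trans (by gcongr)
        _ = ε / 2 := by field_simp
        _ < ε := half_lt_self hε
    have hmain : Tendsto (fun j => ((s j ^ 2)⁻¹ : ℝ) • P (q + Th D B σ (s j) y)) 𝒰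
        (𝓝 (ℓ (a y) + (1 / 2 : ℂ) * B2 (z y) (z y))) := by
      have h1 : Tendsto (fun j => ℓ (a y) + (1 / 2 : ℂ) * B2 (s j • a y + z y) (s j • a y + z y)) 𝒰
          (𝓝 (ℓ (a y) + (1 / 2 : ℂ) * B2 (z y) (z y))) := by
        have hc : Continuous fun w : E => ℓ (a y) + (1 / 2 : ℂ) * B2 w w := by fun_prop
        exact (hc.tendsto _).comp hw
      have h2 := herr.add h1
      rw [zero_add] at h2
      refine h2.congr' ?_
      filter_upwards [hspos] with j h3
      have h8 : s j ≠ 0 := h3.ne'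
      have h4 : ℓ (Th D B σ (s j) y) = ((s j ^ 2 : ℝ) : ℂ) * ℓ (a y) := by
        have h5 : Th D B σ (s j) y = ((s j ^ 2 : ℝ) : ℂ) • a y + ((s j : ℝ) : ℂ) • z y := hx (s j)
        rw [h5, map_add, map_smul, map_smul, hP' (z y) (Lam_prj hσ y), smul_zero, add_zero,
          smul_eq_mul]
      have h5 : B2 (Th D B σ (s j) y) (Th D B σ (s j) y) =
          ((s j ^ 2 : ℝ) : ℂ) * B2 (s j • a y + z y) (s j • a y + z y) := by
        have h6 : Th D B σ (s j) y = ((s j : ℝ) : ℂ) • (s j • a y + z y) := hx' (s j)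
        rw [h6, map_smul, map_smul, smul_apply, smul_eq_mul, smul_eq_mul, ← mul_assoc,
          ← ofReal_mul, ← sq]
      rw [h4, h5]
      simp only [real_smul, smul_eq_mul]
      have h9 : ((s j : ℝ) : ℂ) ≠ 0 := by exact_mod_cast h8
      push_cast
      field_simp
      ring
    obtain ⟨r, hr, hy⟩ := hy
    have hqlim : Tendsto (fun j => q + Th D B σ (s j) y) 𝒰 (𝓝 q) := by
      have := hThlim.const_add q
      rwa [add_zero] at this
    have hleft : Tendsto (fun j => c * (‖s j • a y + z y‖ ^ 2 + ‖D (a y)‖)) 𝒰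
        (𝓝 (c * (‖z y‖ ^ 2 + ‖D (a y)‖))) :=
      ((hw.norm.pow 2).add_const _).const_mul c
    have hright := (continuous_re.tendsto _).comp hmain
    refine le_of_tendsto_of_tendsto hleft hright ?_
    filter_upwards [hy, hqlim.eventually (ball_mem_nhds q hr0), hspos] with j h1 h2 h3
    have h4 : q + Th D B σ (s j) y ∈ U := h1 (mem_ball_self hr)
    have h5 := hPre _ h4 h2
    rw [add_sub_cancel_left] at h5
    have h6 : ‖Th D B σ (s j) y‖ ^ 2 = s j ^ 2 * ‖s j • a y + z y‖ ^ 2 := by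
      rw [hx', norm_smul, Real.norm_of_nonneg h3.le, mul_pow]
    have h7 : ‖D (Th D B σ (s j) y)‖ = s j ^ 2 * ‖D (a y)‖ := by
      rw [hx, map_add, map_smul, map_smul, D_prj hσ, smul_zero, add_zero, norm_smul,
        Real.norm_of_nonneg (by positivity)]
    rw [h6, h7] at h5
    simp only [Function.comp_apply, real_smul, re_ofReal_mul]
    have h8 : 0 < s j ^ 2 := by positivity
    rw [le_inv_mul_iff₀ h8]
    linarith

end Vale.Agent.P274
end

section

/-! The kernel is biholomorphic to a bounded domain (TASK Z9). -/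

set_option linter.unusedSectionVars false

open Filter Metric Set Topology

namespace Vale.Agent.P274.Z

open Complex

variable {E : Type*} [NormedAddCommGroup E] [NormedSpace ℂ E] [FiniteDimensional ℂ E] {k : ℕ}
  {D : E →L[ℝ] (Fin k → ℝ)} {B : E →L[ℝ] E →L[ℝ] (Fin k → ℝ)} {σ : (Fin k → ℂ) →L[ℂ] E}
  {ι : Type*}

/-- `exists_model_peak` with the explicit form of the model peak function. -/
theorem exists_model_peak_explicit (hσ : ∀ w, Lam D (σ w) = w) {U : Set E} {q : E} {r0 c : ℝ}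
    (hr0 : 0 < r0) {P : E → ℂ} (hP : DifferentiableOn ℂ P (ball q r0)) (hPq : P q = 0)
    (hPre : ∀ z ∈ U, z ∈ ball q r0 → c * (‖z - q‖ ^ 2 + ‖D (z - q)‖) ≤ (P z).re)
    (hP' : ∀ u, Lam D u = 0 → fderiv ℂ P q u = 0)
    (𝒰 : Ultrafilter ι) {s : ι → ℝ} (hs : Tendsto s 𝒰 (𝓝[>] 0)) :
    ∃ (ℓ : E →L[ℂ] ℂ) (B2 : E →L[ℂ] E →L[ℂ] ℂ),
      ∀ y ∈ InS 𝒰 (fun j => (fun y => q + Th D B σ (s j) y) ⁻¹' U),
        c * (‖prj D σ y‖ ^ 2 + ‖D (σ (Lam D y - Qf B (prj D σ y)))‖) ≤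
          (ℓ (σ (Lam D y - Qf B (prj D σ y))) + (1 / 2 : ℂ) * B2 (prj D σ y) (prj D σ y)).re := by
  have hs0 : Tendsto s 𝒰 (𝓝 0) := hs.mono_right nhdsWithin_le_nhds
  have hspos : ∀ᶠ j in (𝒰 : Filter ι), 0 < s j := hs.eventually self_mem_nhdsWithin
  have hps : ProperSpace E := FiniteDimensional.proper ℂ E
  have hPd1 : ∀ᶠ x in 𝓝 q, DifferentiableAt ℂ P x :=
    eventually_of_mem (ball_mem_nhds q hr0) fun x hx =>
      hP.differentiableAt (isOpen_ball.mem_nhds hx)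
  have hPd2 : DifferentiableAt ℂ (fderiv ℂ P) q :=
    (differentiableOn_clm_of_apply fun y =>
      differentiableOn_fderiv_apply isOpen_ball hP y).differentiableAt (ball_mem_nhds q hr0)
  set ℓ := fderiv ℂ P q with hℓ
  set B2 := fderiv ℂ (fderiv ℂ P) q with hB2
  set a : E → E := fun y => σ (Lam D y - Qf B (prj D σ y)) with ha
  set z : E → E := fun y => prj D σ y with hz
  refine ⟨ℓ, B2, fun y hy => ?_⟩
  · have hx : ∀ t : ℝ, Th D B σ t y = (t ^ 2) • a y + t • z y := fun t => rfl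
    have hx' : ∀ t : ℝ, Th D B σ t y = t • (t • a y + z y) := fun t => by
      rw [hx, smul_add, smul_smul, sq]
    have hThlim : Tendsto (fun j => Th D B σ (s j) y) 𝒰 (𝓝 0) := by
      have h1 : Tendsto (fun j => (s j ^ 2) • a y + s j • z y) 𝒰
          (𝓝 (((0 : ℝ) ^ 2) • a y + (0 : ℝ) • z y)) :=
        ((hs0.pow 2).smul_const _).add (hs0.smul_const _)
      have h2 : ((0 : ℝ) ^ 2) • a y + (0 : ℝ) • z y = 0 := by simp
      rw [h2] at h1
      exact h1
    have hw : Tendsto (fun j => s j • a y + z y) 𝒰 (𝓝 (z y)) := by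
      have h1 : Tendsto (fun j => s j • a y + z y) 𝒰 (𝓝 ((0 : ℝ) • a y + z y)) :=
        (hs0.smul_const _).add_const _
      simpa using h1
    -- the error term
    have hta := (taylor2C hPd1 hPd2).comp_tendsto hThlim
    simp only [Function.comp_def, hPq, sub_zero, ← hℓ, ← hB2] at hta
    have herr : Tendsto (fun j => ((s j ^ 2)⁻¹ : ℝ) • (P (q + Th D B σ (s j) y) -
        ℓ (Th D B σ (s j) y) - (1 / 2 : ℂ) • B2 (Th D B σ (s j) y) (Th D B σ (s j) y))) 𝒰 (𝓝 0) := by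
      rw [Metric.tendsto_nhds]
      intro ε hε
      have hwb : ∀ᶠ j in (𝒰 : Filter ι), ‖s j • a y + z y‖ ^ 2 < ‖z y‖ ^ 2 + 1 := by
        have h2 := (hw.norm.pow 2)
        exact h2.eventually (gt_mem_nhds (by linarith))
      have h3 := hta.def (c := ε / (2 * (‖z y‖ ^ 2 + 1))) (by positivity)
      filter_upwards [hwb, h3, hspos] with j h4 h5 h6
      rw [dist_zero_right, norm_smul, norm_inv, Real.norm_of_nonneg (by positivity : 0 ≤ s j ^ 2)]
      rw [Real.norm_of_nonneg (by positivity)] at h5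
      have h7 : ‖Th D B σ (s j) y‖ ^ 2 ≤ s j ^ 2 * (‖z y‖ ^ 2 + 1) := by
        rw [hx', norm_smul, Real.norm_of_nonneg h6.le, mul_pow]
        gcongr
      have h8 : 0 < s j ^ 2 := by positivity
      calc (s j ^ 2)⁻¹ * _ ≤ (s j ^ 2)⁻¹ * (ε / (2 * (‖z y‖ ^ 2 + 1)) *
            (s j ^ 2 * (‖z y‖ ^ 2 + 1))) := by gcongr; exact h5.trans (by gcongr)
        _ = ε / 2 := by field_simp
        _ < ε := half_lt_self hε
    have hmain : Tendsto (fun j => ((s j ^ 2)⁻¹ : ℝ) • P (q + Th D B σ (s j) y)) 𝒰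
        (𝓝 (ℓ (a y) + (1 / 2 : ℂ) * B2 (z y) (z y))) := by
      have h1 : Tendsto (fun j => ℓ (a y) + (1 / 2 : ℂ) * B2 (s j • a y + z y) (s j • a y + z y)) 𝒰
          (𝓝 (ℓ (a y) + (1 / 2 : ℂ) * B2 (z y) (z y))) := by
        have hc : Continuous fun w : E => ℓ (a y) + (1 / 2 : ℂ) * B2 w w := by fun_prop
        exact (hc.tendsto _).comp hw
      have h2 := herr.add h1
      rw [zero_add] at h2
      refine h2.congr' ?_
      filter_upwards [hspos] with j h3
      have h8 : s j ≠ 0 := h3.ne'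
      have h4 : ℓ (Th D B σ (s j) y) = ((s j ^ 2 : ℝ) : ℂ) * ℓ (a y) := by
        have h5 : Th D B σ (s j) y = ((s j ^ 2 : ℝ) : ℂ) • a y + ((s j : ℝ) : ℂ) • z y := hx (s j)
        rw [h5, map_add, map_smul, map_smul, hP' (z y) (Lam_prj hσ y), smul_zero, add_zero,
          smul_eq_mul]
      have h5 : B2 (Th D B σ (s j) y) (Th D B σ (s j) y) =
          ((s j ^ 2 : ℝ) : ℂ) * B2 (s j • a y + z y) (s j • a y + z y) := by
        have h6 : Th D B σ (s j) y = ((s j : ℝ) : ℂ) • (s j • a y + z y) := hx' (s j)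
        rw [h6, map_smul, map_smul, smul_apply, smul_eq_mul, smul_eq_mul, ← mul_assoc,
          ← ofReal_mul, ← sq]
      rw [h4, h5]
      simp only [real_smul, smul_eq_mul]
      have h9 : ((s j : ℝ) : ℂ) ≠ 0 := by exact_mod_cast h8
      push_cast
      field_simp
      ring
    obtain ⟨r, hr, hy⟩ := hy
    have hqlim : Tendsto (fun j => q + Th D B σ (s j) y) 𝒰 (𝓝 q) := by
      have := hThlim.const_add q
      rwa [add_zero] at this
    have hleft : Tendsto (fun j => c * (‖s j • a y + z y‖ ^ 2 + ‖D (a y)‖)) 𝒰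
        (𝓝 (c * (‖z y‖ ^ 2 + ‖D (a y)‖))) :=
      ((hw.norm.pow 2).add_const _).const_mul c
    have hright := (continuous_re.tendsto _).comp hmain
    refine le_of_tendsto_of_tendsto hleft hright ?_
    filter_upwards [hy, hqlim.eventually (ball_mem_nhds q hr0), hspos] with j h1 h2 h3
    have h4 : q + Th D B σ (s j) y ∈ U := h1 (mem_ball_self hr)
    have h5 := hPre _ h4 h2
    rw [add_sub_cancel_left] at h5
    have h6 : ‖Th D B σ (s j) y‖ ^ 2 = s j ^ 2 * ‖s j • a y + z y‖ ^ 2 := by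
      rw [hx', norm_smul, Real.norm_of_nonneg h3.le, mul_pow]
    have h7 : ‖D (Th D B σ (s j) y)‖ = s j ^ 2 * ‖D (a y)‖ := by
      rw [hx, map_add, map_smul, map_smul, D_prj hσ, smul_zero, add_zero, norm_smul,
        Real.norm_of_nonneg (by positivity)]
    rw [h6, h7] at h5
    simp only [Function.comp_apply, real_smul, re_ofReal_mul]
    have h8 : 0 < s j ^ 2 := by positivity
    rw [le_inv_mul_iff₀ h8]
    linarith

/-- the linear form `ℓ ∘ σ` in coordinates. -/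
theorem bm_lin (ℓ : E →L[ℂ] ℂ) (w : Fin k → ℂ) :
    ℓ (σ w) = ∑ i, w i * ℓ (σ (Pi.single i 1)) := by
  have h1 : w = ∑ i, w i • (Pi.single i (1 : ℂ) : Fin k → ℂ) := by
    ext j
    simp [Finset.sum_apply, Pi.single_apply]
  conv_lhs => rw [h1]
  simp only [map_sum, map_smul, smul_eq_mul]

/-- the linear form `ℓ ∘ σ` does not vanish. -/
theorem bm_exists [Nontrivial E] (hσ : ∀ w, Lam D (σ w) = w) {S : Set E}
    (hSo : IsOpen S) (hSne : S.Nonempty) {G : (Fin k → ℝ) → ℝ} (hGd : Dense {ρ | G ρ ≠ 0})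
    (hsat : ConicOff D B σ G S) {c : ℝ} (hc : 0 < c) {ℓ : E →L[ℂ] ℂ} {B2 : E →L[ℂ] E →L[ℂ] ℂ}
    (hQ : ∀ y ∈ S, c * (‖prj D σ y‖ ^ 2 + ‖D (σ (Lam D y - Qf B (prj D σ y)))‖) ≤
      (ℓ (σ (Lam D y - Qf B (prj D σ y))) + (1 / 2 : ℂ) * B2 (prj D σ y) (prj D σ y)).re) :
    ∃ i₀ : Fin k, ℓ (σ (Pi.single i₀ 1)) ≠ 0 := by
  by_contra hcon
  push Not at hcon
  have hl : ∀ w, ℓ (σ w) = 0 := by
    intro w
    rw [bm_lin]
    exact Finset.sum_eq_zero fun i _ => by rw [hcon i, mul_zero]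
  rcases Nat.eq_zero_or_pos k with rfl | hk
  · -- `S` is everything
    have hS : ∀ z, z ∈ S := by
      intro z
      obtain ⟨y, hy⟩ := hSne
      obtain ⟨ρ, hρ⟩ := hGd.nonempty
      refine hsat y hy ?_ 1 one_pos z (Subsingleton.elim _ _)
      have h1 : rr D B σ y = ρ := Subsingleton.elim _ _
      rw [h1]
      exact hρ
    obtain ⟨v, hv⟩ := exists_ne (0 : E)
    have hprj : ∀ y, prj D σ y = y := by
      intro y
      have h1 : Lam D y = 0 := Subsingleton.elim _ _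
      rw [prj_apply, h1, map_zero, sub_zero]
    have h1 := hQ v (hS v)
    have h2 := hQ (I • v) (hS _)
    rw [hl, hprj, zero_add] at h1 h2
    have h3 : B2 (I • v) (I • v) = -B2 v v := by
      rw [map_smul, map_smul, smul_apply, smul_eq_mul, smul_eq_mul, ← mul_assoc, I_mul_I]
      ring
    rw [h3, norm_smul, norm_I, one_mul] at h2
    have h4 : ((1 / 2 : ℂ) * -B2 v v).re = -((1 / 2 : ℂ) * B2 v v).re := by
      rw [mul_neg, neg_re]
    rw [h4] at h2
    have h5 : 0 < ‖v‖ ^ 2 := by positivity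
    have h6 : 0 ≤ ‖D (σ (Lam D v - Qf B v))‖ := norm_nonneg _
    have h7 : 0 ≤ ‖D (σ (Lam D (I • v) - Qf B (I • v)))‖ := norm_nonneg _
    nlinarith [mul_pos hc h5, mul_nonneg hc.le h6, mul_nonneg hc.le h7]
  · have hopen : IsOpen (rr D B σ '' S) := isOpenMap_rr hσ S hSo
    have hne0 : ∃ ρ ∈ rr D B σ '' S, ρ ≠ 0 := by
      obtain ⟨y, hy⟩ := hSne
      by_cases h0 : rr D B σ y = 0
      · obtain ⟨r, hr, hrS⟩ := Metric.isOpen_iff.1 hopen _ ⟨y, hy, rfl⟩
        have hne : Nonempty (Fin k) := ⟨⟨0, hk⟩⟩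
        refine ⟨fun _ => r / 2, hrS ?_, ?_⟩
        · rw [mem_ball, h0, dist_zero_right]
          rw [pi_norm_const, Real.norm_of_nonneg (by positivity)]
          linarith
        · intro h
          have := congrFun h ⟨0, hk⟩
          simp only [Pi.zero_apply] at this
          linarith
      · exact ⟨_, ⟨y, hy, rfl⟩, h0⟩
    have hopen2 : IsOpen (rr D B σ '' S ∩ {0}ᶜ) := hopen.inter isOpen_compl_singleton
    obtain ⟨ρ, ⟨⟨y₀, hy₀, rfl⟩, hρ0⟩, hρG⟩ := hGd.inter_open_nonempty _ hopen2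
      (by obtain ⟨ρ, h1, h2⟩ := hne0; exact ⟨ρ, h1, h2⟩)
    set ρ := rr D B σ y₀ with hρ
    set y₁ : E := σ (fun j => (ρ j : ℂ)) with hy₁
    have hprj : prj D σ y₁ = 0 := prj_σ hσ _
    have hrr : rr D B σ y₁ = ρ := by
      have h1 := rr_add_σ (B := B) hσ 0 (fun j => (ρ j : ℂ))
      rw [zero_add] at h1
      rw [hy₁, h1]
      have h2 : rr D B σ (0 : E) = 0 := by
        rw [rr, map_zero, map_zero]
        ext j
        simp [Lev_apply]
      rw [h2, zero_add]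
      ext j
      simp
    have hy₁S : y₁ ∈ S := hsat y₀ hy₀ hρG 1 one_pos y₁ (by rw [hrr, one_smul])
    have h1 := hQ y₁ hy₁S
    rw [hl, hprj] at h1
    have h2 : Lam D y₁ - Qf B (0 : E) = fun j => (ρ j : ℂ) := by
      rw [hy₁, hσ]
      have h3 : Qf B (0 : E) = 0 := by
        have := Qf_smul B (0 : ℝ) (0 : E)
        simpa using this
      rw [h3, sub_zero]
    have h4 : D (σ (fun j => (ρ j : ℂ))) = ρ := by
      ext j
      rw [D_σ hσ]
      simp
    rw [h2, h4] at h1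
    have h5 : 0 < ‖ρ‖ := norm_pos_iff.2 hρ0
    simp only [norm_zero, map_zero, mul_zero, add_zero, zero_re, ne_eq, OfNat.ofNat_ne_zero,
      not_false_eq_true, zero_pow, zero_add] at h1
    nlinarith [mul_pos hc h5]

/-- The new coordinates `w'`. -/
noncomputable def bmW (c : ℝ) (lam : Fin k → ℂ) (i₀ : Fin k) (W : Fin k → ℂ) (b : ℂ) :
    Fin k → ℂ :=
  Function.update (fun i => W i + (c⁻¹ : ℝ) * (∑ j, W j * lam j + b)) i₀ (∑ j, W j * lam j + b)

/-- The old coordinates `W`. -/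
noncomputable def bmV (c : ℝ) (lam : Fin k → ℂ) (i₀ : Fin k) (w : Fin k → ℂ) (b : ℂ) :
    Fin k → ℂ :=
  Function.update (fun i => w i - (c⁻¹ : ℝ) * w i₀) i₀
    ((w i₀ - b - ∑ j ∈ Finset.univ.erase i₀, (w j - (c⁻¹ : ℝ) * w i₀) * lam j) / lam i₀)

theorem bmV_bmW (c : ℝ) {lam : Fin k → ℂ} {i₀ : Fin k} (h : lam i₀ ≠ 0) (W : Fin k → ℂ) (b : ℂ) :
    bmV c lam i₀ (bmW c lam i₀ W b) b = W := by
  have h1 : bmW c lam i₀ W b i₀ = ∑ j, W j * lam j + b := Function.update_self _ _ _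
  have h2 : ∀ i, i ≠ i₀ → bmW c lam i₀ W b i = W i + (c⁻¹ : ℝ) * (∑ j, W j * lam j + b) :=
    fun i hi => Function.update_of_ne hi _ _
  ext i
  by_cases hi : i = i₀
  · subst hi
    rw [bmV, Function.update_self]
    have h3 : ∑ j ∈ Finset.univ.erase i, (bmW c lam i W b j - (c⁻¹ : ℝ) * bmW c lam i W b i) *
        lam j = ∑ j ∈ Finset.univ.erase i, W j * lam j := by
      refine Finset.sum_congr rfl fun j hj => ?_
      rw [h1, h2 j (Finset.ne_of_mem_erase hj)]
      ring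
    rw [h3, h1, ← Finset.add_sum_erase Finset.univ (fun j => W j * lam j) (Finset.mem_univ i)]
    field_simp
    ring
  · rw [bmV, Function.update_of_ne hi, h1, h2 i hi]
    ring

theorem bmW_bmV (c : ℝ) {lam : Fin k → ℂ} {i₀ : Fin k} (h : lam i₀ ≠ 0) (w : Fin k → ℂ) (b : ℂ) :
    bmW c lam i₀ (bmV c lam i₀ w b) b = w := by
  have h2 : ∀ i, i ≠ i₀ → bmV c lam i₀ w b i = w i - (c⁻¹ : ℝ) * w i₀ :=
    fun i hi => Function.update_of_ne hi _ _
  have hsum : ∑ j, bmV c lam i₀ w b j * lam j + b = w i₀ := by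
    rw [← Finset.add_sum_erase Finset.univ (fun j => bmV c lam i₀ w b j * lam j)
      (Finset.mem_univ i₀)]
    have h3 : ∑ j ∈ Finset.univ.erase i₀, bmV c lam i₀ w b j * lam j =
        ∑ j ∈ Finset.univ.erase i₀, (w j - (c⁻¹ : ℝ) * w i₀) * lam j :=
      Finset.sum_congr rfl fun j hj => by rw [h2 j (Finset.ne_of_mem_erase hj)]
    simp only [h3]
    rw [bmV, Function.update_self, div_mul_cancel₀ _ h]
    ring
  ext i
  by_cases hi : i = i₀
  · subst hi
    rw [bmW, Function.update_self, hsum]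
  · rw [bmW, Function.update_of_ne hi, hsum, h2 i hi]
    ring

theorem bm_div {f g : E → ℂ} {s : Set E} (hf : DifferentiableOn ℂ f s)
    (hg : DifferentiableOn ℂ g s) (h0 : ∀ x ∈ s, g x ≠ 0) :
    DifferentiableOn ℂ (fun x => f x / g x) s := by
  have h1 : DifferentiableOn ℂ (fun x => f x * (g x)⁻¹) s := hf.fun_mul (hg.fun_inv h0)
  simpa only [div_eq_mul_inv] using h1

/-- the Cayley map. -/
theorem bm_cayley {w : ℂ} (hw : 0 ≤ w.re) : w + 1 ≠ 0 ∧ ‖(w - 1) / (w + 1)‖ ≤ 1 ∧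
    w.re ≤ ‖w + 1‖ ^ 2 ∧ 1 - (w - 1) / (w + 1) = 2 / (w + 1) := by
  have h1 : w + 1 ≠ 0 := by
    intro h
    have := congrArg re h
    simp at this
    linarith
  have h2 : 0 < ‖w + 1‖ := norm_pos_iff.2 h1
  refine ⟨h1, ?_, ?_, ?_⟩
  · rw [norm_div, div_le_one h2]
    refine abs_le_of_sq_le_sq' ?_ h2.le |>.2
    rw [← normSq_eq_norm_sq, ← normSq_eq_norm_sq, normSq_apply, normSq_apply]
    simp
    nlinarith
  · rw [← normSq_eq_norm_sq, normSq_apply]
    simp
    nlinarith [sq_nonneg w.im]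
  · field_simp
    ring

/-- A nonempty open set with a model peak function which is conic off the zero set of `G` is
biholomorphic to a bounded open set. -/
theorem exists_bounded_model [Nontrivial E] (hσ : ∀ w, Lam D (σ w) = w) {S : Set E}
    (hSo : IsOpen S) (hSne : S.Nonempty) {G : (Fin k → ℝ) → ℝ} (hGd : Dense {ρ | G ρ ≠ 0})
    (hsat : ConicOff D B σ G S) {c : ℝ} (hc : 0 < c) {ℓ : E →L[ℂ] ℂ} {B2 : E →L[ℂ] E →L[ℂ] ℂ}
    (hQ : ∀ y ∈ S, c * (‖prj D σ y‖ ^ 2 + ‖D (σ (Lam D y - Qf B (prj D σ y)))‖) ≤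
      (ℓ (σ (Lam D y - Qf B (prj D σ y))) + (1 / 2 : ℂ) * B2 (prj D σ y) (prj D σ y)).re) :
    ∃ U1 : Set E, IsOpen U1 ∧ Bornology.IsBounded U1 ∧ Biholomorphic S U1 := by
  obtain ⟨i₀, hi₀⟩ := bm_exists hσ hSo hSne hGd hsat hc hQ
  obtain ⟨lam, hlam⟩ : ∃ lam : Fin k → ℂ, lam = fun i => ℓ (σ (Pi.single i 1)) := ⟨_, rfl⟩
  have hlam0 : lam i₀ ≠ 0 := by rw [hlam]; exact hi₀
  -- the coordinates
  let Wf : E → Fin k → ℂ := fun y => Lam D y - Qf B (prj D σ y)
  let bf : E → ℂ := fun z => (1 / 2 : ℂ) * B2 z z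
  let wf : E → Fin k → ℂ := fun y => bmW c lam i₀ (Wf y) (bf (prj D σ y))
  have hwf0 : ∀ y, wf y i₀ = ℓ (σ (Lam D y - Qf B (prj D σ y))) +
      (1 / 2 : ℂ) * B2 (prj D σ y) (prj D σ y) := by
    intro y
    show bmW c lam i₀ (Wf y) (bf (prj D σ y)) i₀ = _
    rw [bmW, Function.update_self, bm_lin, hlam]
  have hre0 : ∀ y ∈ S, c * (‖prj D σ y‖ ^ 2 + ‖D (σ (Wf y))‖) ≤ (wf y i₀).re := by
    intro y hy
    rw [hwf0]
    exact hQ y hy
  have hre : ∀ y ∈ S, ∀ i, 0 ≤ (wf y i).re := by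
    intro y hy i
    have h0 := hre0 y hy
    have h1 : 0 ≤ ‖prj D σ y‖ ^ 2 := by positivity
    by_cases hi : i = i₀
    · rw [hi]
      refine le_trans ?_ h0
      positivity
    · have h2 : wf y i = Wf y i + (c⁻¹ : ℝ) * wf y i₀ := by
        show bmW c lam i₀ (Wf y) (bf (prj D σ y)) i = _ + _ * bmW c lam i₀ (Wf y) (bf (prj D σ y)) i₀
        rw [bmW, Function.update_of_ne hi, Function.update_self]
      have h3 : -‖D (σ (Wf y))‖ ≤ (Wf y i).re := by
        have h4 : D (σ (Wf y)) i = (Wf y i).re := D_σ hσ _ _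
        rw [← h4]
        exact (abs_le.1 (norm_le_pi_norm (D (σ (Wf y))) i)).1
      rw [h2, add_re, re_ofReal_mul]
      have h5 : ‖prj D σ y‖ ^ 2 + ‖D (σ (Wf y))‖ ≤ c⁻¹ * (wf y i₀).re := by
        rw [le_inv_mul_iff₀ hc]
        exact h0
      linarith
  -- the maps
  let f : E → E := fun y => σ (fun i => (wf y i - 1) / (wf y i + 1)) +
    (1 / (wf y i₀ + 1)) • prj D σ y
  let wg : E → Fin k → ℂ := fun e i => (1 + Lam D e i) / (1 - Lam D e i)
  let zg : E → E := fun e => (2 / (1 - Lam D e i₀)) • prj D σ e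
  let g : E → E := fun e => σ (bmV c lam i₀ (wg e) (bf (zg e)) + Qf B (zg e)) + zg e
  have hLf : ∀ y i, Lam D (f y) i = (wf y i - 1) / (wf y i + 1) := by
    intro y i
    show Lam D (σ _ + _ • prj D σ y) i = _
    rw [map_add, map_smul, hσ, Lam_prj hσ, smul_zero, add_zero]
  have hpf : ∀ y, prj D σ (f y) = (1 / (wf y i₀ + 1)) • prj D σ y := by
    intro y
    show prj D σ (σ _ + _ • prj D σ y) = _
    rw [map_add, map_smul, prj_σ hσ, prj_prj hσ, zero_add]
  have hprjz : ∀ e, prj D σ (zg e) = zg e := by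
    intro e
    show prj D σ (_ • prj D σ e) = _ • prj D σ e
    rw [map_smul, prj_prj hσ]
  have hLz : ∀ e, Lam D (zg e) = 0 := by
    intro e
    show Lam D (_ • prj D σ e) = 0
    rw [map_smul, Lam_prj hσ, smul_zero]
  have hpg : ∀ e, prj D σ (g e) = zg e := by
    intro e
    show prj D σ (σ _ + zg e) = zg e
    rw [map_add, prj_σ hσ, hprjz, zero_add]
  have hLg : ∀ e, Lam D (g e) = bmV c lam i₀ (wg e) (bf (zg e)) + Qf B (zg e) := by
    intro e
    show Lam D (σ _ + zg e) = _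
    rw [map_add, hσ, hLz, add_zero]
  have hWg : ∀ e, Wf (g e) = bmV c lam i₀ (wg e) (bf (zg e)) := by
    intro e
    show Lam D (g e) - Qf B (prj D σ (g e)) = _
    rw [hpg, hLg, add_sub_cancel_right]
  have hwg : ∀ e, wf (g e) = wg e := by
    intro e
    show bmW c lam i₀ (Wf (g e)) (bf (prj D σ (g e))) = _
    rw [hWg, hpg, bmW_bmV c hlam0]
  -- the domain of the inverse
  let O : Set E := {e | ∀ i, Lam D e i ≠ 1}
  have hOo : IsOpen O := by
    have : O = ⋂ i, {e : E | Lam D e i ≠ 1} := by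
      ext e; simp [O]
    rw [this]
    refine isOpen_iInter_of_finite fun i => ?_
    exact isOpen_ne_fun (by fun_prop) continuous_const
  have hgd : DifferentiableOn ℂ g O := by
    have h1 : ∀ i, DifferentiableOn ℂ (fun e => wg e i) O := by
      intro i
      show DifferentiableOn ℂ (fun e => (1 + Lam D e i) / (1 - Lam D e i)) O
      refine bm_div ?_ ?_ ?_
      · fun_prop
      · fun_prop
      · intro e he h
        exact he i (sub_eq_zero.1 h).symm
    have h2 : DifferentiableOn ℂ zg O := by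
      show DifferentiableOn ℂ (fun e => (2 / (1 - Lam D e i₀)) • prj D σ e) O
      refine DifferentiableOn.smul ?_ (prj D σ).differentiable.differentiableOn
      refine bm_div ?_ ?_ ?_
      · fun_prop
      · fun_prop
      · intro e he h
        exact he i₀ (sub_eq_zero.1 h).symm
    have h3 : DifferentiableOn ℂ (fun e => bf (zg e)) O := by
      have h4 : Differentiable ℂ bf := by
        show Differentiable ℂ (fun z => (1 / 2 : ℂ) * B2 z z)
        fun_prop
      exact h4.comp_differentiableOn h2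
    have h5 : DifferentiableOn ℂ (fun e => Qf B (zg e)) O :=
      (differentiable_Qf B).comp_differentiableOn h2
    have h6 : DifferentiableOn ℂ (fun e => bmV c lam i₀ (wg e) (bf (zg e))) O := by
      refine differentiableOn_pi.2 fun i => ?_
      by_cases hi : i = i₀
      · subst hi
        have h7 : (fun e => bmV c lam i (wg e) (bf (zg e)) i) = fun e =>
            (wg e i - bf (zg e) - ∑ j ∈ Finset.univ.erase i,
              (wg e j - (c⁻¹ : ℝ) * wg e i) * lam j) / lam i := by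
          ext e
          rw [bmV, Function.update_self]
        rw [h7]
        refine bm_div ?_ (differentiableOn_const _) (fun _ _ => hlam0)
        refine ((h1 i).sub h3).sub ?_
        refine DifferentiableOn.fun_sum fun j _ => ?_
        exact ((h1 j).sub ((h1 i).const_mul _)).mul_const _
      · have h7 : (fun e => bmV c lam i₀ (wg e) (bf (zg e)) i) = fun e =>
            wg e i - (c⁻¹ : ℝ) * wg e i₀ := by
          ext e
          rw [bmV, Function.update_of_ne hi]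
        rw [h7]
        exact (h1 i).sub ((h1 i₀).const_mul _)
    show DifferentiableOn ℂ (fun e => σ (bmV c lam i₀ (wg e) (bf (zg e)) + Qf B (zg e)) + zg e) O
    exact (σ.differentiable.comp_differentiableOn (h6.add h5)).add h2
  have hfd : DifferentiableOn ℂ f S := by
    have h1 : Differentiable ℂ Wf := by
      have h2 : Differentiable ℂ (fun y => Qf B (prj D σ y)) :=
        (differentiable_Qf B).comp (prj D σ).differentiable
      exact (Lam D).differentiable.sub h2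
    have h1i : ∀ i, Differentiable ℂ (fun y => Wf y i) := fun i => differentiable_pi.1 h1 i
    have h2 : Differentiable ℂ (fun y => bf (prj D σ y)) := by
      show Differentiable ℂ (fun y => (1 / 2 : ℂ) * B2 (prj D σ y) (prj D σ y))
      fun_prop
    have h3 : Differentiable ℂ (fun y => ∑ j, Wf y j * lam j + bf (prj D σ y)) := by
      refine Differentiable.add ?_ h2
      exact Differentiable.fun_sum fun j _ => (h1i j).mul_const _
    have h4 : ∀ i, Differentiable ℂ (fun y => wf y i) := by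
      intro i
      by_cases hi : i = i₀
      · subst hi
        have h7 : (fun y => wf y i) = fun y => ∑ j, Wf y j * lam j + bf (prj D σ y) := by
          ext y
          show bmW c lam i (Wf y) (bf (prj D σ y)) i = _
          rw [bmW, Function.update_self]
        rw [h7]
        exact h3
      · have h7 : (fun y => wf y i) = fun y => Wf y i + (c⁻¹ : ℝ) *
            (∑ j, Wf y j * lam j + bf (prj D σ y)) := by
          ext y
          show bmW c lam i₀ (Wf y) (bf (prj D σ y)) i = _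
          rw [bmW, Function.update_of_ne hi]
        rw [h7]
        exact (h1i i).add (h3.const_mul _)
    have h5 : ∀ i, DifferentiableOn ℂ (fun y => (wf y i - 1) / (wf y i + 1)) S := by
      intro i
      refine bm_div ?_ ?_ ?_
      · exact ((h4 i).sub_const _).differentiableOn
      · exact ((h4 i).add_const _).differentiableOn
      · intro y hy
        exact (bm_cayley (hre y hy i)).1
    have h6 : DifferentiableOn ℂ (fun y => (1 : ℂ) / (wf y i₀ + 1)) S := by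
      refine bm_div (differentiableOn_const _) ?_ ?_
      · exact ((h4 i₀).add_const _).differentiableOn
      · intro y hy
        exact (bm_cayley (hre y hy i₀)).1
    exact (σ.differentiable.comp_differentiableOn (differentiableOn_pi.2 h5)).add
      (h6.smul (prj D σ).differentiable.differentiableOn)
  have hgf : ∀ y ∈ S, g (f y) = y := by
    intro y hy
    have h1 : wg (f y) = wf y := by
      ext i
      show (1 + Lam D (f y) i) / (1 - Lam D (f y) i) = wf y i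
      obtain ⟨h2, -, -, h3⟩ := bm_cayley (hre y hy i)
      rw [hLf, h3]
      field_simp
      ring
    have h2 : zg (f y) = prj D σ y := by
      show (2 / (1 - Lam D (f y) i₀)) • prj D σ (f y) = prj D σ y
      obtain ⟨h2, -, -, h3⟩ := bm_cayley (hre y hy i₀)
      rw [hLf, h3, hpf, smul_smul]
      have h4 : 2 / (2 / (wf y i₀ + 1)) * (1 / (wf y i₀ + 1)) = 1 := by
        field_simp
      rw [h4, one_smul]
    show σ (bmV c lam i₀ (wg (f y)) (bf (zg (f y))) + Qf B (zg (f y))) + zg (f y) = y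
    rw [h1, h2]
    show σ (bmV c lam i₀ (bmW c lam i₀ (Wf y) (bf (prj D σ y))) (bf (prj D σ y)) +
      Qf B (prj D σ y)) + prj D σ y = y
    rw [bmV_bmW c hlam0]
    show σ (Lam D y - Qf B (prj D σ y) + Qf B (prj D σ y)) + prj D σ y = y
    rw [sub_add_cancel, prj_apply]
    abel
  refine ⟨O ∩ g ⁻¹' S, hgd.continuousOn.isOpen_inter_preimage hOo hSo, ?_, f, g, hfd,
    hgd.mono inter_subset_left, ?_, ?_, hgf, ?_⟩
  · -- boundedness
    have hb : ∀ e ∈ O ∩ g ⁻¹' S, ‖e‖ ≤ ‖σ‖ * 1 + (Real.sqrt c)⁻¹ := by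
      rintro e ⟨heO, heS⟩
      have h1 := hre (g e) heS
      have h2 : ∀ i, Lam D e i = (wf (g e) i - 1) / (wf (g e) i + 1) := by
        intro i
        rw [hwg]
        show _ = ((1 + Lam D e i) / (1 - Lam D e i) - 1) / ((1 + Lam D e i) / (1 - Lam D e i) + 1)
        have h3 : 1 - Lam D e i ≠ 0 := fun h => heO i (sub_eq_zero.1 h).symm
        field_simp
        ring
      have h3 : prj D σ e = (1 / (wf (g e) i₀ + 1)) • zg e := by
        rw [hwg]
        show _ = (1 / ((1 + Lam D e i₀) / (1 - Lam D e i₀) + 1)) •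
          (2 / (1 - Lam D e i₀)) • prj D σ e
        have h3 : 1 - Lam D e i₀ ≠ 0 := fun h => heO i₀ (sub_eq_zero.1 h).symm
        rw [smul_smul]
        have h4 : 1 / ((1 + Lam D e i₀) / (1 - Lam D e i₀) + 1) * (2 / (1 - Lam D e i₀)) = 1 := by
          field_simp
          ring
        rw [h4, one_smul]
      have h4 : e = σ (Lam D e) + prj D σ e := by rw [prj_apply]; abel
      have h5 : ‖Lam D e‖ ≤ 1 := by
        rw [pi_norm_le_iff_of_nonneg zero_le_one]
        intro i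
        rw [h2]
        exact (bm_cayley (h1 i)).2.1
      have h6 : ‖prj D σ e‖ ≤ (Real.sqrt c)⁻¹ := by
        rw [h3, norm_smul, norm_div, norm_one]
        obtain ⟨h7, -, h8, -⟩ := bm_cayley (h1 i₀)
        have h9 : 0 < ‖wf (g e) i₀ + 1‖ := norm_pos_iff.2 h7
        have h10 := hre0 (g e) heS
        rw [hpg] at h10
        have h11 : c * ‖zg e‖ ^ 2 ≤ ‖wf (g e) i₀ + 1‖ ^ 2 := by
          refine le_trans ?_ h8
          refine le_trans ?_ h10
          have : 0 ≤ ‖D (σ (Wf (g e)))‖ := norm_nonneg _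
          nlinarith [mul_nonneg hc.le this]
        have h12 : Real.sqrt c * ‖zg e‖ ≤ ‖wf (g e) i₀ + 1‖ := by
          refine abs_le_of_sq_le_sq' ?_ h9.le |>.2
          rw [mul_pow, Real.sq_sqrt hc.le]
          exact h11
        have h13 : 0 < Real.sqrt c := Real.sqrt_pos.2 hc
        rw [one_div, inv_mul_le_iff₀ h9, ← div_eq_mul_inv, le_div_iff₀ h13, mul_comm]
        exact h12
      calc ‖e‖ = ‖σ (Lam D e) + prj D σ e‖ := by rw [← h4]
        _ ≤ ‖σ (Lam D e)‖ + ‖prj D σ e‖ := norm_add_le _ _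
        _ ≤ ‖σ‖ * 1 + (Real.sqrt c)⁻¹ := by
          refine add_le_add ?_ h6
          exact (σ.le_opNorm _).trans (by gcongr)
    exact isBounded_iff_forall_norm_le.2 ⟨_, hb⟩
  · intro y hy
    refine ⟨fun i => ?_, ?_⟩
    · rw [hLf]
      obtain ⟨h1, -, -, h2⟩ := bm_cayley (hre y hy i)
      intro h3
      rw [h3, sub_self] at h2
      exact (div_ne_zero two_ne_zero h1) h2.symm
    · show g (f y) ∈ S
      rw [hgf y hy]
      exact hy
  · intro e he
    exact he.2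
  · rintro e ⟨heO, heS⟩
    show σ (fun i => (wf (g e) i - 1) / (wf (g e) i + 1)) +
      (1 / (wf (g e) i₀ + 1)) • prj D σ (g e) = e
    rw [hwg, hpg]
    have h2 : (fun i => (wg e i - 1) / (wg e i + 1)) = Lam D e := by
      ext i
      show ((1 + Lam D e i) / (1 - Lam D e i) - 1) / ((1 + Lam D e i) / (1 - Lam D e i) + 1) = _
      have h3 : 1 - Lam D e i ≠ 0 := fun h => heO i (sub_eq_zero.1 h).symm
      field_simp
      ring
    have h3 : (1 / (wg e i₀ + 1)) • zg e = prj D σ e := by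
      show (1 / ((1 + Lam D e i₀) / (1 - Lam D e i₀) + 1)) •
        (2 / (1 - Lam D e i₀)) • prj D σ e = _
      have h3 : 1 - Lam D e i₀ ≠ 0 := fun h => heO i₀ (sub_eq_zero.1 h).symm
      rw [smul_smul]
      have h4 : 1 / ((1 + Lam D e i₀) / (1 - Lam D e i₀) + 1) * (2 / (1 - Lam D e i₀)) = 1 := by
        field_simp
        ring
      rw [h4, one_smul]
    rw [h2, h3, prj_apply]
    abel

end Vale.Agent.P274.Z
end

section

/-! Peak points in charts and defining functions in charts (TASK Z8). -/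

open Filter Metric Set Topology

namespace Vale.Agent.P274.Z

/-- A bounded relatively open subset of a closed set which has a manifold point outside the zero
set of `G` has a peak point which is a manifold point of `Z`. -/
theorem exists_peak_chart {X E : Type*} [NormedAddCommGroup X] [InnerProductSpace ℂ X]
    [FiniteDimensional ℂ X] [NormedAddCommGroup E] [InnerProductSpace ℂ E]
    [FiniteDimensional ℂ E] [Nontrivial E]
    {Z O U : Set X} (hZ : IsClosed Z) (hO : IsOpen O) (hU : U = Z ∩ O)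
    (hb : Bornology.IsBounded U) {G : X → ℂ} (hG : Differentiable ℂ G)
    (hG0 : ∃ u ∈ U, G u ≠ 0) (hGm : ∀ z ∈ Z, G z ≠ 0 → ManPt E Z z) :
    ∃ (σ : E → X) (π : X → E) (W : Set X), Par Z σ π W ∧
      PeakPt {e | e ∈ ball (0 : E) 1 ∧ σ e ∈ U} 0 := by
  have hproper : ProperSpace X := FiniteDimensional.proper ℂ X
  obtain ⟨u, hu, hGu⟩ := hG0
  have hUZ : U ⊆ Z := by
    rw [hU]
    exact inter_subset_left
  have hclZ : closure U ⊆ Z := closure_minimal hUZ hZ
  have hK : IsCompact (closure U) := hb.isCompact_closure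
  -- the radius and the parameter
  obtain ⟨R, hR0, hR⟩ : ∃ R : ℝ, 0 < R ∧ ∀ z ∈ closure U, ‖z‖ ≤ R := by
    obtain ⟨R, hR⟩ := hK.isBounded.subset_closedBall (0 : X)
    refine ⟨max R 1, lt_max_of_lt_right one_pos, fun z hz => ?_⟩
    have h1 := hR hz
    rw [mem_closedBall_zero_iff] at h1
    exact h1.trans (le_max_left _ _)
  obtain ⟨ε, hε, hεR⟩ : ∃ ε : ℝ, 0 < ε ∧ ε * R ^ 2 < ‖G u‖ ^ 2 := by
    have h1 : 0 < ‖G u‖ := norm_pos_iff.2 hGu
    refine ⟨‖G u‖ ^ 2 / (2 * R ^ 2), by positivity, ?_⟩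
    have h2 : ‖G u‖ ^ 2 / (2 * R ^ 2) * R ^ 2 = ‖G u‖ ^ 2 / 2 := by
      field_simp
    rw [h2]
    have h3 : 0 < ‖G u‖ ^ 2 := by positivity
    linarith
  -- the maximum point
  obtain ⟨q, hq, hmax⟩ := hK.exists_isMaxOn ⟨u, subset_closure hu⟩
    (f := fun z : X => ‖G z‖ ^ 2 + ε * ‖z‖ ^ 2)
    ((hG.continuous.norm.pow 2).add (continuous_const.mul (continuous_norm.pow 2))).continuousOn
  have hmax' : ∀ z ∈ closure U, ‖G z‖ ^ 2 + ε * ‖z‖ ^ 2 ≤ ‖G q‖ ^ 2 + ε * ‖q‖ ^ 2 :=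
    fun z hz => hmax hz
  have hGq : G q ≠ 0 := by
    intro h0
    have h1 := hmax' u (subset_closure hu)
    rw [h0, norm_zero] at h1
    have h2 : ε * ‖q‖ ^ 2 ≤ ε * R ^ 2 :=
      mul_le_mul_of_nonneg_left (pow_le_pow_left₀ (norm_nonneg _) (hR q hq) 2) hε.le
    have h3 : 0 ≤ ε * ‖u‖ ^ 2 := by positivity
    nlinarith
  obtain ⟨σ, π, W, hPar, hσ0⟩ := hGm q (hclZ hq) hGq
  have h01 : (0 : E) ∈ ball (0 : E) 1 := mem_ball_self one_pos
  have hqW : q ∈ Z ∩ W := by
    rw [← hσ0]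
    exact hPar.mapsσ h01
  have hπq : π q = 0 := by
    rw [← hσ0]
    exact hPar.left 0 h01
  refine ⟨σ, π, W, hPar, ?_⟩
  -- the peak function
  set P0 : X → ℂ := fun z => ((‖G q‖ ^ 2 + ε * ‖q‖ ^ 2 : ℝ) : ℂ) -
    ((starRingEnd ℂ) (G q) * G z + (ε : ℂ) * inner ℂ q z) with hP0
  have hP0d : Differentiable ℂ P0 := by
    have h1 : Differentiable ℂ (fun z : X => (inner ℂ q z : ℂ)) := by
      have : (fun z : X => (inner ℂ q z : ℂ)) = fun z => innerSL ℂ q z := by
        funext z; exact (innerSL_apply_apply ℂ _ _).symm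
      rw [this]
      fun_prop
    exact (((hG.const_mul _).add (h1.const_mul _))).const_sub _
  have hP0re : ∀ z, (P0 z).re = (‖G q‖ ^ 2 + ε * ‖q‖ ^ 2) -
      (1 / 2) * ((‖G z‖ ^ 2 + ε * ‖z‖ ^ 2) + (‖G q‖ ^ 2 + ε * ‖q‖ ^ 2)) +
      (1 / 2) * ‖G z - G q‖ ^ 2 + (ε / 2) * ‖z - q‖ ^ 2 := by
    intro z
    have h1 := @norm_sub_sq ℂ X _ _ _ q z
    have h2 := @norm_sub_sq ℂ ℂ _ _ _ (G q) (G z)
    have h3 : RCLike.re (inner ℂ q z) = (inner ℂ q z).re := rfl
    have h4 : RCLike.re (inner ℂ (G q) (G z)) = ((starRingEnd ℂ) (G q) * G z).re := by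
      rw [RCLike.inner_apply, mul_comm]
      rfl
    rw [h3, norm_sub_rev] at h1
    rw [h4, norm_sub_rev] at h2
    have h5 : (P0 z).re = (‖G q‖ ^ 2 + ε * ‖q‖ ^ 2) - (((starRingEnd ℂ) (G q) * G z).re +
        ε * (inner ℂ q z).re) := by
      rw [hP0]
      simp only [Complex.sub_re, Complex.add_re, Complex.ofReal_re, Complex.re_ofReal_mul]
    rw [h5, h1, h2]
    ring
  have hP0le : ∀ z ∈ closure U, (ε / 2) * ‖z - q‖ ^ 2 ≤ (P0 z).re := by
    intro z hz
    rw [hP0re]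
    have h1 := hmax' z hz
    have h2 : 0 ≤ ‖G z - G q‖ ^ 2 := sq_nonneg _
    linarith
  have hP0q : P0 q = 0 := by
    rw [hP0]
    have h1 : (starRingEnd ℂ) (G q) * G q = ((‖G q‖ ^ 2 : ℝ) : ℂ) := by
      rw [mul_comm, Complex.mul_conj, Complex.normSq_eq_norm_sq]
    have h2 : (inner ℂ q q : ℂ) = ((‖q‖ ^ 2 : ℝ) : ℂ) := by
      rw [inner_self_eq_norm_sq_to_K]
      push_cast
      rfl
    simp only [h1, h2]
    push_cast
    ring
  -- comparison of the distances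
  obtain ⟨L, hL, hLip⟩ : ∃ L : ℝ, 0 < L ∧ ∀ᶠ e in 𝓝 (0 : E), ‖e‖ ≤ L * ‖σ e - q‖ := by
    have hπd : DifferentiableAt ℂ π q :=
      hPar.diffπ.differentiableAt (hPar.isOpen.mem_nhds hqW.2)
    obtain ⟨L, hL, h1⟩ := (hπd.isBigO_sub).exists_pos
    refine ⟨L, hL, ?_⟩
    rw [Asymptotics.IsBigOWith] at h1
    have hσc : ContinuousAt σ 0 :=
      (hPar.diffσ.differentiableAt (isOpen_ball.mem_nhds h01)).continuousAt
    have h2 : Tendsto σ (𝓝 0) (𝓝 q) := by
      have := hσc.tendsto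
      rwa [hσ0] at this
    filter_upwards [h2.eventually h1, isOpen_ball.mem_nhds h01] with e he hee
    rw [hπq, sub_zero, hPar.left e hee] at he
    exact he
  obtain ⟨δ, hδ, hδ1⟩ := Metric.eventually_nhds_iff_ball.1
    (hLip.and (isOpen_ball.eventually_mem h01))
  refine peakPt_of_localMax (hPar.isOpen_dom hO hU) (a := 0) (q := 0)
    (c := ε / (2 * L ^ 2)) (r := δ) (Q := fun e => P0 (σ e)) (by positivity) hδ ?_ ?_ ?_
  · exact hP0d.comp_differentiableOn (hPar.diffσ.mono fun e he => (hδ1 e he).2)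
  · -- `0` is in the closure
    have h1 : q ∈ closure (U ∩ W) := by
      have h2 := hPar.isOpen.inter_closure (t := U) ⟨hqW.2, hq⟩
      rwa [inter_comm] at h2
    have h3 : ContinuousWithinAt π (U ∩ W) q :=
      ((hPar.diffπ.differentiableAt (hPar.isOpen.mem_nhds hqW.2)).continuousAt).continuousWithinAt
    have h4 := h3.mem_closure h1 (t := {e | e ∈ ball (0 : E) 1 ∧ σ e ∈ U}) (fun z hz => by
      have hz' : z ∈ Z ∩ W := ⟨hUZ hz.1, hz.2⟩
      refine ⟨hPar.mapsπ hz', ?_⟩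
      rw [hPar.right z hz']
      exact hz.1)
    rwa [hπq] at h4
  · intro e he heδ
    obtain ⟨h1, h2⟩ := hδ1 e heδ
    have h3 := hP0le (σ e) (subset_closure he.2)
    have h4 : ‖e‖ ^ 2 ≤ (L * ‖σ e - q‖) ^ 2 := pow_le_pow_left₀ (norm_nonneg _) h1 2
    have h5 : ε / (2 * L ^ 2) * ‖e‖ ^ 2 ≤ ε / 2 * ‖σ e - q‖ ^ 2 := by
      calc ε / (2 * L ^ 2) * ‖e‖ ^ 2 ≤ ε / (2 * L ^ 2) * (L * ‖σ e - q‖) ^ 2 :=
            mul_le_mul_of_nonneg_left h4 (by positivity)
        _ = ε / 2 * ‖σ e - q‖ ^ 2 := by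
            field_simp
    have h6 : (P0 (σ 0)).re = 0 := by rw [hσ0, hP0q, Complex.zero_re]
    simp only [sub_zero, sub_self, norm_zero]
    rw [h6]
    linarith

/-! ### Defining functions in charts -/

theorem peakchart_frontier_iff {E : Type*} [TopologicalSpace E] {A : Set E} {x : E} :
    x ∈ frontier A ↔ (∃ᶠ y in 𝓝 x, y ∈ A) ∧ ∃ᶠ y in 𝓝 x, y ∉ A := by
  rw [frontier_eq_closure_inter_closure, mem_inter_iff, mem_closure_iff_frequently,
    mem_closure_iff_frequently]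
  rfl

/-- A semialgebraic set is given, in a holomorphic parametrization, by an analytic function. -/
theorem exists_chart_function {E : Type*} [NormedAddCommGroup E] [NormedSpace ℂ E]
    [FiniteDimensional ℂ E] {N : ℕ} {S : Set (EuclideanSpace ℂ (Fin N))}
    (hS : IsSemialgebraic S) {σ : E → EuclideanSpace ℂ (Fin N)}
    (hσ : DifferentiableOn ℂ σ (ball 0 1)) :
    ∃ F : E → ℝ, AnalyticOnNhd ℝ F (ball 0 1) ∧
      (∀ x ∈ ball (0 : E) 1, ¬ ∀ᶠ y in 𝓝 x, F y = 0) ∧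
      ∀ x ∈ frontier {e | e ∈ ball (0 : E) 1 ∧ σ e ∈ S}, x ∈ ball (0 : E) 1 → F x = 0 := by
  have hσa : AnalyticOnNhd ℝ σ (ball 0 1) :=
    (Vale.Agent.P274.HolOs.analyticOnNhd_of_differentiableOn isOpen_ball hσ).restrictScalars
  induction hS with
  | pos p =>
    have hfa : AnalyticOnNhd ℝ (fun e => realEval p (σ e)) (ball 0 1) := fun x hx =>
      (analyticAt_realEval p (σ x)).comp (hσa x hx)
    by_cases hz : ∃ x ∈ ball (0 : E) 1, ∀ᶠ y in 𝓝 x, realEval p (σ y) = 0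
    · obtain ⟨x, hx, hxz⟩ := hz
      have h1 := hfa.eqOn_zero_of_preconnected_of_eventuallyEq_zero
        (convex_ball (0 : E) 1).isPreconnected hx hxz
      refine ⟨fun _ => 1, analyticOnNhd_const, fun x _ h => one_ne_zero h.self_of_nhds,
        fun x hx => ?_⟩
      have h2 : {e | e ∈ ball (0 : E) 1 ∧ σ e ∈ {z | 0 < realEval p z}} = ∅ := by
        ext e
        simp only [mem_ofPred_eq, mem_empty_iff_false, iff_false, not_and, not_lt]
        intro he
        exact (h1 he).le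
      rw [h2, frontier_empty] at hx
      exact absurd hx (notMem_empty x)
    · refine ⟨fun e => realEval p (σ e), hfa, fun x hx h => hz ⟨x, hx, h⟩, fun x hx hxb => ?_⟩
      rw [peakchart_frontier_iff] at hx
      have hc : ContinuousAt (fun e => realEval p (σ e)) x := (hfa x hxb).continuousAt
      have hbx : ∀ᶠ y in 𝓝 x, y ∈ ball (0 : E) 1 := isOpen_ball.mem_nhds hxb
      rcases lt_trichotomy (realEval p (σ x)) 0 with h | h | h
      · obtain ⟨y, hy1, hy2⟩ := (hx.1.and_eventually (hc.eventually_lt_const h)).exists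
        exact absurd hy1.2 (not_lt.2 hy2.le)
      · exact h
      · obtain ⟨y, hy1, hy2, hy3⟩ := (hx.2.and_eventually
          ((hc.eventually_const_lt h).and hbx)).exists
        exact absurd ⟨hy3, hy2⟩ hy1
  | compl _ ih =>
    obtain ⟨F, hF, hF0, hF1⟩ := ih
    refine ⟨F, hF, hF0, fun x hx hxb => hF1 x ?_ hxb⟩
    rw [peakchart_frontier_iff] at hx ⊢
    have hbx : ∀ᶠ y in 𝓝 x, y ∈ ball (0 : E) 1 := isOpen_ball.mem_nhds hxb
    refine ⟨?_, ?_⟩
    · refine (hx.2.and_eventually hbx).mono fun y hy => ?_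
      by_contra hcon
      exact hy.1 ⟨hy.2, fun hyS => hcon ⟨hy.2, hyS⟩⟩
    · exact hx.1.mono fun y hy hy2 => hy.2 hy2.2
  | @inter S1 S2 _ _ ih1 ih2 =>
    obtain ⟨F, hF, hF0, hF1⟩ := ih1
    obtain ⟨F', hF', hF0', hF1'⟩ := ih2
    refine ⟨fun e => F e * F' e, hF.mul hF', fun x hx h => ?_, fun x hx hxb => ?_⟩
    · have h1 : ∃ᶠ y in 𝓝 x, F y ≠ 0 := Filter.not_eventually.1 (hF0 x hx)
      have hbx : ∀ᶠ y in 𝓝 x, y ∈ ball (0 : E) 1 := isOpen_ball.mem_nhds hx
      obtain ⟨y, hy1, hy2, hy3⟩ := (h1.and_eventually (h.eventually_nhds.and hbx)).exists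
      have hc : ContinuousAt F y := (hF y hy3).continuousAt
      refine hF0' y hy3 ?_
      filter_upwards [hy2, hc.eventually_ne hy1] with w hw1 hw2
      exact (mul_eq_zero.1 hw1).resolve_left hw2
    · have h1 : {e | e ∈ ball (0 : E) 1 ∧ σ e ∈ S1 ∩ S2} =
          {e | e ∈ ball (0 : E) 1 ∧ σ e ∈ S1} ∩ {e | e ∈ ball (0 : E) 1 ∧ σ e ∈ S2} := by
        ext e
        exact ⟨fun h => ⟨⟨h.1, h.2.1⟩, ⟨h.1, h.2.2⟩⟩, fun h => ⟨h.1.1, h.1.2, h.2.2⟩⟩
      rw [h1] at hx
      rcases frontier_inter_subset _ _ hx with ⟨h2, -⟩ | ⟨-, h2⟩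
      · simp [hF1 x h2 hxb]
      · simp [hF1' x h2 hxb]

end Vale.Agent.P274.Z
end

section

/-! The scaling limit without exterior conditions. -/

set_option linter.unusedSectionVars false

open Filter Metric Set Topology

namespace Vale.Agent.P274

open Complex

variable {E : Type*} [NormedAddCommGroup E] [NormedSpace ℂ E] [FiniteDimensional ℂ E] {k : ℕ}
  {D : E →L[ℝ] (Fin k → ℝ)} {B : E →L[ℝ] E →L[ℝ] (Fin k → ℝ)} {σ : (Fin k → ℂ) →L[ℂ] E}
  {ι : Type*}

/-- The kernel is saturated and conic off the zero set of the model function. -/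
theorem model_conic (hσ : ∀ w, Lam D (σ w) = w) {I O : Set E} (hI : IsOpen I) (hO : IsOpen O)
    (hIO : Disjoint I O) {G : (Fin k → ℝ) → ℝ} (hGh : ∀ t : ℝ, 0 < t → ∀ ρ, G ρ ≠ 0 → G (t • ρ) ≠ 0)
    (hdich : ∀ y, G (rr D B σ y) ≠ 0 → y ∈ I ∨ y ∈ O) {S : Set E} (hSI : S ⊆ I)
    (hSmax : ∀ T : Set E, IsPreconnected T → T ⊆ I → (T ∩ S).Nonempty → T ⊆ S) :
    ConicOff D B σ G S := by
  intro y hy hGy t ht z hz
  set R : Set (Fin k → ℝ) := (fun t : ℝ => t • rr D B σ y) '' Ioi 0 with hR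
  have hRc : IsPreconnected R := by
    refine isPreconnected_Ioi.image _ ?_
    exact (continuous_id.smul continuous_const).continuousOn
  have hRp : IsPreconnected (rr D B σ ⁻¹' R) := isPreconnected_rr_preimage hσ hRc
  have hRd : rr D B σ ⁻¹' R ⊆ I ∪ O := by
    rintro x ⟨t', ht', hx⟩
    refine hdich x ?_
    rw [← hx]
    exact hGh t' ht' _ hGy
  have hyR : y ∈ rr D B σ ⁻¹' R := ⟨1, mem_Ioi.2 one_pos, one_smul _ _⟩
  have hRI : rr D B σ ⁻¹' R ⊆ I := by
    rcases hRp.subset_or_subset hI hO hIO hRd with h | h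
    · exact h
    · exact absurd (h hyR) (Set.disjoint_left.1 hIO (hSI hy))
  exact hSmax _ hRp hRI ⟨y, hyR, hy⟩ ⟨t, ht, hz.symm⟩

/-- Second scaling. -/
theorem second_scaling (hσ : ∀ w, Lam D (σ w) = w) {U K : Set E} (hU : IsOpen U)
    (hUc : IsPreconnected U) (hb : Bornology.IsBounded U) (hK : IsCompact K) (hKU : K ⊆ U)
    (hco : CocompactAut U K) {S : Set E} (hSo : IsOpen S) (hbi : Biholomorphic U S)
    {G : (Fin k → ℝ) → ℝ} (hGd : Dense {ρ | G ρ ≠ 0})
    (hGh : ∀ t : ℝ, 0 < t → ∀ ρ, G ρ ≠ 0 → G (t • ρ) ≠ 0)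
    (hsat : ConicOff D B σ G S) (hSne : S.Nonempty) {c : ℝ} (hc : 0 < c)
    {Q : E → ℂ} (hQd : Differentiable ℂ Q)
    (hQ : ∀ y ∈ S, c * (‖prj D σ y‖ ^ 2 + ‖D (σ (Lam D y - Qf B (prj D σ y)))‖) ≤ (Q y).re) :
    ∃ Ω : Set (Fin k → ℝ), IsOpen Ω ∧ IsPreconnected Ω ∧ Ω.Nonempty ∧
      (∀ t : ℝ, 0 < t → ∀ ρ ∈ Ω, t • ρ ∈ Ω) ∧
      Biholomorphic U {y : E | D y + Lev B (prj D σ y) ∈ Ω} := by
  have hps : ProperSpace E := FiniteDimensional.proper ℂ E
  set 𝒰 : Ultrafilter ℕ := hyperfilter ℕ with h𝒰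
  have hle : (𝒰 : Filter ℕ) ≤ atTop := Nat.hyperfilter_le_atTop
  set ε : ℕ → ℝ := fun j => 1 / ((j : ℝ) + 1) with hε
  have hεpos : ∀ j, 0 < ε j := fun j => by (clear * -; positivity)
  have hεlim : Tendsto ε 𝒰 (𝓝[>] 0) := by
    refine tendsto_nhdsWithin_iff.2 ⟨tendsto_one_div_add_atTop_nhds_zero_nat.mono_left hle,
      Eventually.of_forall hεpos⟩
  have hrad : ∀ y ∈ S, ∀ t : ℝ, 0 < t → sh D B σ (t • rr D B σ y) y ∈ S := fun y hy t ht =>
    radial_sh hσ hU hb hK hKU hco hSo hbi hGd hsat hy ht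
  obtain ⟨p, hp⟩ := exists_generic_point (D := D) (B := B) (σ := σ) hSo
  have hdense : Dense {y : E | G (rr D B σ y) ≠ 0} := hGd.preimage (isOpenMap_rr hσ)
  obtain ⟨y1, hy1S, hy1G⟩ := hdense.inter_open_nonempty S hSo hSne
  set ρ1 := rr D B σ y1 with hρ1
  set Ω0 : Set (Fin k → ℝ) := {ρ | sh D B σ ρ p ∈ S} with hΩ0
  have hΩ0o : IsOpen Ω0 := by
    refine hSo.preimage ?_
    exact continuous_sh.comp (continuous_id.prodMk continuous_const)
  have hρ1Ω0 : ρ1 ∈ Ω0 := by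
    refine hsat y1 hy1S hy1G 1 one_pos _ ?_
    rw [rr_sh hσ, one_smul]
  have hΩ0c : ∀ t : ℝ, 0 < t → ∀ ρ ∈ Ω0, t • ρ ∈ Ω0 := by
    intro t ht ρ hρ
    have h1 := hrad _ hρ t ht
    rw [rr_sh hσ, sh_sh hσ] at h1
    exact h1
  set Ω : Set (Fin k → ℝ) := connectedComponentIn Ω0 ρ1 with hΩ
  have hΩo : IsOpen Ω := hΩ0o.connectedComponentIn
  have hΩc : IsPreconnected Ω := isPreconnected_connectedComponentIn
  have hρΩ : ρ1 ∈ Ω := mem_connectedComponentIn hρ1Ω0
  have hΩsub : Ω ⊆ Ω0 := connectedComponentIn_subset _ _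
  have hΩcone : ∀ t : ℝ, 0 < t → ∀ ρ ∈ Ω, t • ρ ∈ Ω := by
    intro t ht ρ hρ
    -- the segment from `ρ` to `t • ρ`
    set R : Set (Fin k → ℝ) := (fun t : ℝ => t • ρ) '' Ioi 0 with hR
    have hRc : IsPreconnected R := by
      refine isPreconnected_Ioi.image _ ?_
      exact (continuous_id.smul continuous_const).continuousOn
    have hRsub : R ⊆ Ω0 := by
      rintro _ ⟨t', ht', rfl⟩
      exact hΩ0c t' ht' ρ (hΩsub hρ)
    have hρR : ρ ∈ R := ⟨1, mem_Ioi.2 one_pos, one_smul _ _⟩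
    have h1 : Ω = connectedComponentIn Ω0 ρ := (connectedComponentIn_eq hρ)
    rw [h1]
    exact hRc.subset_connectedComponentIn hρR hRsub ⟨t, ht, rfl⟩
  refine ⟨Ω, hΩo, hΩc, ⟨ρ1, hρΩ⟩, hΩcone, ?_⟩
  obtain ⟨f0, g0, hfg⟩ := hbi
  set β : Fin k → ℝ := fun i => (Lam D p i).im with hβ
  set V : ℕ → Set E := fun j => Zm D B σ p (ε j) ⁻¹' S with hV
  have hinv1 : ∀ j y, Zm D B σ p (ε j) (dil D σ (ε j)⁻¹ (Ti D B σ β p y)) = y := by
    intro j y
    have h1 : dil D σ (ε j) (dil D σ (ε j)⁻¹ (Ti D B σ β p y)) = Ti D B σ β p y := by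
      have := dil_dil (D := D) (σ := σ) hσ (inv_ne_zero (hεpos j).ne') (Ti D B σ β p y)
      rwa [inv_inv] at this
    rw [Zm, h1, Tr_Ti hσ]
  have hinv2 : ∀ j y, dil D σ (ε j)⁻¹ (Ti D B σ β p (Zm D B σ p (ε j) y)) = y := by
    intro j y
    rw [Zm, Ti_Tr hσ, dil_dil hσ (hεpos j).ne']
  have hZd : ∀ j, Differentiable ℂ (Zm D B σ p (ε j)) := fun j =>
    (differentiable_Tr _ p).comp (differentiable_dil (ε j))
  have hZd' : ∀ j, Differentiable ℂ (fun y => dil D σ (ε j)⁻¹ (Ti D B σ β p y)) := fun j =>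
    (differentiable_dil _).comp (differentiable_Ti _ p)
  have hmem : ∀ y, y ∈ rr D B σ ⁻¹' Ω → y ∈ InS 𝒰 V := fun y hy =>
    zoom_kernel_mpr hσ hSo hrad 𝒰 hεlim y (hΩsub hy)
  have hbih : ∀ j, IsBiholo U (V j) (fun x => dil D σ (ε j)⁻¹ (Ti D B σ β p (f0 x)))
      (fun y => g0 (Zm D B σ p (ε j) y)) := by
    intro j
    refine ⟨?_, ?_, fun x hx => ?_, fun y hy => hfg.mapsTo_inv hy, fun x hx => ?_, fun y hy => ?_⟩
    · exact (hZd' j).comp_differentiableOn hfg.diffOn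
    · exact hfg.diffOn_inv.comp (hZd j).differentiableOn fun y hy => hy
    · change Zm D B σ p (ε j) (dil D σ (ε j)⁻¹ (Ti D B σ β p (f0 x))) ∈ S
      rw [hinv1]
      exact hfg.mapsTo hx
    · rw [hinv1, hfg.left_inv x hx]
    · rw [hfg.right_inv _ hy, hinv2]
  have hres : Biholomorphic U (rr D B σ ⁻¹' Ω) := by
    refine scaling_general hU hUc hb hK hKU hco 𝒰 (S := rr D B σ ⁻¹' Ω)
      (hΩo.preimage continuous_rr) (isPreconnected_rr_preimage hσ hΩc) (s0 := y1) hρΩ (V := V)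
      (Ψ := fun j x => dil D σ (ε j)⁻¹ (Ti D B σ β p (f0 x)))
      (Θ := fun j y => g0 (Zm D B σ p (ε j) y)) (Eventually.of_forall hbih) hmem
      (fun y hy hyI => ?_) ?_
    · obtain ⟨r, hr, hyI⟩ := hyI
      have h1 : rr D B σ y ∈ Ω0 := zoom_kernel_mp hσ hSo hrad hp 𝒰 hεlim y hr hyI
      have h2 : rr D B σ y ∈ closure Ω := by
        have := (isOpenMap_rr hσ).preimage_closure_eq_closure_preimage
          (continuous_rr (D := D) (B := B) (σ := σ)) Ω
        have h3 : y ∈ rr D B σ ⁻¹' closure Ω := by rw [this]; exact hy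
        exact h3
      have h3 : IsPreconnected (insert (rr D B σ y) Ω) :=
        hΩc.subset_closure (subset_insert _ _) (insert_subset h2 subset_closure)
      have h4 : insert (rr D B σ y) Ω ⊆ Ω :=
        h3.subset_connectedComponentIn (mem_insert_of_mem _ hρΩ) (insert_subset h1 hΩsub)
      exact h4 (mem_insert _ _)
    · intro g g' kk hg
      -- the inequality on the closure
      have hcl : ∀ y ∈ closure S,
          c * (‖prj D σ y‖ ^ 2 + ‖D (σ (Lam D y - Qf B (prj D σ y)))‖) ≤ (Q y).re := by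
        have hQf : Continuous (Qf B) := (differentiable_Qf B).continuous
        have hclosed : IsClosed {y : E |
            c * (‖prj D σ y‖ ^ 2 + ‖D (σ (Lam D y - Qf B (prj D σ y)))‖) ≤ (Q y).re} := by
          refine isClosed_le ?_ (Complex.continuous_re.comp hQd.continuous)
          fun_prop
        exact fun y hy => closure_minimal hQ hclosed hy
      have hVcl : ∀ j, V j ⊆ closure S := by
        intro j
        have hVo : IsOpen (V j) := hSo.preimage (hZd j).continuous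
        refine (hdense.open_subset_closure_inter hVo).trans (closure_mono ?_)
        rintro y ⟨hyV, hyG⟩
        have hj2 : 0 < ε j ^ 2 := by have := hεpos j; (clear * -; positivity)
        refine hsat _ hyV ?_ (ε j ^ 2)⁻¹ (by (clear * -; positivity)) y ?_
        · rw [rr_Zm hσ]
          exact hGh _ hj2 _ hyG
        · rw [rr_Zm hσ, smul_smul, inv_mul_cancel₀ hj2.ne', one_smul]
      refine normality2 hσ hU hUc hK hKU hc hQd (C := closure S) hcl 𝒰 (kk := kk) (s0 := y1) ?_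
      filter_upwards [hg] with j hj
      obtain ⟨h1, h2, h3⟩ := hj
      refine ⟨(hbih j).diffOn.comp h1.diffOn h1.mapsTo, fun x hx => ?_, h2, h3⟩
      exact hVcl j ((hbih j).mapsTo (h1.mapsTo hx))
  exact hres

end Vale.Agent.P274
end

section

/-! Local version of the scaling limit. -/

set_option linter.unusedSectionVars false

open Filter Metric Set Topology

namespace Vale.Agent.P274

open Complex

section

variable {E : Type*} [NormedAddCommGroup E] [NormedSpace ℂ E] [FiniteDimensional ℂ E] {k : ℕ}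
  {D : E →L[ℝ] (Fin k → ℝ)} {B : E →L[ℝ] E →L[ℝ] (Fin k → ℝ)} {σ : (Fin k → ℂ) →L[ℂ] E}
  {ι : Type*}

/-- The scaling maps are small on bounded sets. -/
theorem Th_small (R : ℝ) {η : ℝ} (hη : 0 < η) :
    ∀ᶠ s in 𝓝[>] (0 : ℝ), ∀ y ∈ closedBall (0 : E) R, ‖Th D B σ s y‖ < η := by
  have hpr : ProperSpace E := FiniteDimensional.proper_rclike ℂ E
  have hQc : Continuous (Qf B) := (differentiable_Qf B).continuous
  obtain ⟨A1, hA1⟩ := (isCompact_closedBall (0 : E) R).exists_bound_of_continuousOn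
    (f := fun y => σ (Lam D y - Qf B (prj D σ y))) (by fun_prop)
  obtain ⟨Z1, hZ1⟩ := (isCompact_closedBall (0 : E) R).exists_bound_of_continuousOn
    (f := fun y => prj D σ y) (by fun_prop)
  have h1 : ∀ᶠ s in 𝓝[>] (0 : ℝ), s ^ 2 * |A1| + s * |Z1| < η := by
    have hc : Continuous fun s : ℝ => s ^ 2 * |A1| + s * |Z1| := by fun_prop
    have := hc.tendsto 0
    simp only [ne_eq, OfNat.ofNat_ne_zero, not_false_eq_true, zero_pow, zero_mul, add_zero]
      at this
    exact (this.mono_left nhdsWithin_le_nhds).eventually (gt_mem_nhds hη)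
  filter_upwards [h1, self_mem_nhdsWithin] with s hs hs0 y hy
  have hs0' : 0 < s := hs0
  refine lt_of_le_of_lt ?_ hs
  refine (norm_add_le _ _).trans ?_
  rw [norm_smul, norm_smul, Real.norm_of_nonneg hs0'.le, Real.norm_of_nonneg (by positivity)]
  have h2 := (hA1 y hy).trans (le_abs_self _)
  have h3 := (hZ1 y hy).trans (le_abs_self _)
  gcongr

/-- Off the zero set of the model function, points are either in the kernel or outside. -/
theorem model_dich_local {U W : Set E} {q : E} (hWo : IsOpen W) (hqW : q ∈ W) {F : E → ℝ}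
    (hF0 : ∀ z ∈ frontier U ∩ W, F z = 0) {b : ℕ} {G : (Fin k → ℝ) → ℝ} (hG : Continuous G)
    (hconv : ∀ R : ℝ, ∀ ε > 0, ∀ᶠ s in 𝓝[>] (0 : ℝ), ∀ y ∈ closedBall (0 : E) R,
      |(s ^ b)⁻¹ * F (q + Th D B σ s y) - G (rr D B σ y)| ≤ ε)
    (𝒰 : Ultrafilter ι) {s : ι → ℝ} (hs : Tendsto s 𝒰 (𝓝[>] 0)) (y : E)
    (hy : G (rr D B σ y) ≠ 0) :
    y ∈ InS 𝒰 (fun j => (fun y => q + Th D B σ (s j) y) ⁻¹' U) ∨
      y ∈ OutS 𝒰 (fun j => (fun y => q + Th D B σ (s j) y) ⁻¹' U) := by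
  set V : ι → Set E := fun j => (fun y => q + Th D B σ (s j) y) ⁻¹' U with hV
  have hVf : ∀ j, frontier (V j) ⊆ (fun y => q + Th D B σ (s j) y) ⁻¹' frontier U := by
    intro j
    refine Continuous.frontier_preimage_subset ?_ U
    have := (differentiable_Th (D := D) (B := B) (σ := σ) (s j)).continuous
    fun_prop
  have hc : Continuous (fun y => |G (rr D B σ y)|) := (hG.comp continuous_rr).abs
  have h1 : 0 < |G (rr D B σ y)| := abs_pos.2 hy
  obtain ⟨ε, hε, hεb⟩ := Metric.eventually_nhds_iff_ball.1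
    (hc.continuousAt.eventually (lt_mem_nhds (half_lt_self h1)))
  refine InS_or_OutS 𝒰 (r := min ε 1) (by positivity) ?_
  obtain ⟨η, hη, hηW⟩ := Metric.isOpen_iff.1 hWo q hqW
  have h2 := hs.eventually (hconv (‖y‖ + 1) (|G (rr D B σ y)| / 4) (by positivity))
  have h2' := hs.eventually (Th_small (D := D) (B := B) (σ := σ) (‖y‖ + 1) hη)
  filter_upwards [h2, h2'] with j hj hj'
  rw [Set.disjoint_left]
  intro z hz hzf
  have h4 : z ∈ closedBall (0 : E) (‖y‖ + 1) := by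
    have h5 : dist z y < 1 := lt_of_lt_of_le hz (min_le_right _ _)
    rw [mem_closedBall_zero_iff]
    rw [dist_eq_norm] at h5
    have := norm_le_norm_add_norm_sub' z y
    linarith
  have h3 := hF0 _ ⟨hVf j hzf, hηW (by
    rw [mem_ball, dist_eq_norm, add_sub_cancel_left]
    exact hj' z h4)⟩
  have h5 := hj z h4
  have h6 := hεb z (ball_subset_ball (min_le_left _ _) hz)
  rw [h3, mul_zero, zero_sub, abs_neg] at h5
  linarith only [h1, h5, h6]

end

variable {E : Type} [NormedAddCommGroup E] [InnerProductSpace ℂ E]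

end Vale.Agent.P274
end

section

/-! Good boundary points which are reached by points of the domain. -/

open Filter Metric Set Topology

namespace Vale.Agent.P274.H

variable {E : Type} [NormedAddCommGroup E] [InnerProductSpace ℂ E]

/-- The data of the scaling at a good peak point. -/
theorem good_point_data [FiniteDimensional ℂ E] [Nontrivial E] {U W : Set E}
    (hU : IsOpen U) (hW : IsOpen W) {F : E → ℝ} {q : E} (hqA : q ∈ peakSet U ∩ W) {c : ℕ}
    {ρ : E → (Fin c → ℝ)} (hEq : Eqn (peakSet U ∩ W) c ρ q) (hmax : MaxCodim (peakSet U ∩ W) c)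
    {σ : (Fin c → ℂ) →L[ℂ] E} (hσ : ∀ w, Lam (fderiv ℝ ρ q) (σ w) = w)
    (hF : AnalyticAt ℝ F q) {b : ℕ} (hb1 : ∀ᶠ x in 𝓝 q, x ∈ peakSet U ∩ W → Zo b ℝ F x)
    (hqZ : ¬ Zo (b + 1) ℝ F q) :
    (∃ r0 > 0, ∃ c' > 0, ∃ P : E → ℂ, DifferentiableOn ℂ P (ball q r0) ∧ P q = 0 ∧
        ∀ z ∈ U, z ∈ ball q r0 → c' * (‖z - q‖ ^ 2 + ‖fderiv ℝ ρ q (z - q)‖) ≤ (P z).re) ∧
      ∃ (b : ℕ) (G : (Fin c → ℝ) → ℝ), Continuous G ∧ Dense {ρ | G ρ ≠ 0} ∧
        (∀ t : ℝ, 0 < t → ∀ ρ, G ρ ≠ 0 → G (t • ρ) ≠ 0) ∧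
        ∀ R : ℝ, ∀ ε > 0, ∀ᶠ s in 𝓝[>] (0 : ℝ), ∀ y ∈ closedBall (0 : E) R,
          |(s ^ b)⁻¹ * F (q + Th (fderiv ℝ ρ q) (fderiv ℝ (fderiv ℝ ρ) q) σ s y) -
            G (fderiv ℝ ρ q y + Lev (fderiv ℝ (fderiv ℝ ρ) q) (prj (fderiv ℝ ρ q) σ y))| ≤ ε := by
  have hpr : ProperSpace E := FiniteDimensional.proper_rclike ℂ E
  have hfd : FiniteDimensional ℝ E := FiniteDimensional.complexToReal E
  have hcs : CompleteSpace E := FiniteDimensional.complete ℝ E
  obtain ⟨G, hGan, hGhom, ⟨r, hGr⟩, hGlim⟩ := exists_asymp hEq hmax hqA hF hb1 hqZ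
  have hGc : Continuous G := continuous_iff_continuousAt.2 fun r => (hGan r).continuousAt
  obtain ⟨c1, hc1, ε, hε, δ, hδ, P, hP, hPq, hPre⟩ :=
    conormal_estimate hU hqA.1 (hEq.of_inter hW hqA.2)
  refine ⟨⟨δ, hδ, min c1 ε, lt_min hc1 hε, P, hP, hPq, fun z hz hzb => ?_⟩, 2 * b, G, hGc, ?_,
    fun t ht ρ' hρ' => ?_, fun R η hη => ?_⟩
  · refine le_trans ?_ (hPre z hz hzb)
    rw [mul_add]
    gcongr
    · exact min_le_left _ _
    · exact min_le_right _ _
  · -- density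
    rw [dense_iff_closure_eq, eq_univ_iff_forall]
    intro x
    by_contra hx
    have h1 : ∀ᶠ y in 𝓝 x, G y = 0 := by
      have h2 : (closure {ρ | G ρ ≠ 0})ᶜ ∈ 𝓝 x := isClosed_closure.isOpen_compl.mem_nhds hx
      filter_upwards [h2] with y hy
      by_contra h3
      exact hy (subset_closure h3)
    have h4 := AnalyticOnNhd.eqOn_zero_of_preconnected_of_eventuallyEq_zero (U := univ)
      (fun y _ => hGan y) isPreconnected_univ (mem_univ x) h1 (mem_univ r)
    exact hGr h4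
  · rw [hGhom]
    exact mul_ne_zero (pow_ne_zero _ ht.ne') hρ'
  · exact scaled_lead hEq.an (hEq.van.self_of_nhds hqA) hσ hGc hGhom hGlim R hη

/-- The rays near `q` on which the domain `U` accumulates. -/
def Fat (U : Set E) (q : E) {k : ℕ} (σ : (Fin k → ℂ) →L[ℂ] E) : Prop :=
  ∃ O : Set (Fin k → ℝ), IsOpen O ∧ O.Nonempty ∧ ∀ r ∈ O, ∃ a : Fin k → ℂ,
      (∀ i, (a i).re = r i) ∧ ∃ γ : ℝ → (Fin k → ℂ),
        (∀ᶠ τ in 𝓝[>] (0 : ℝ), q + σ (γ τ) ∈ U) ∧
        Tendsto (fun τ : ℝ => (τ⁻¹ : ℝ) • γ τ) (𝓝[>] 0) (𝓝 a)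

/-- surjectivity of the complex linear part is an open condition -/
theorem Lam_surj_eventually [FiniteDimensional ℂ E] {c : ℕ} {ρ : E → (Fin c → ℝ)} {q : E}
    (han : AnalyticAt ℝ ρ q) (hs : Function.Surjective (Lam (fderiv ℝ ρ q))) :
    ∀ᶠ x in 𝓝 q, Function.Surjective (Lam (fderiv ℝ ρ x)) := by
  have hfd : FiniteDimensional ℝ E := FiniteDimensional.complexToReal E
  obtain ⟨σ, hσ0⟩ := (Lam (fderiv ℝ ρ q) : E →ₗ[ℂ] (Fin c → ℂ)).exists_rightInverse_of_surjective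
    (LinearMap.range_eq_top.2 hs)
  have hσ : ∀ w, Lam (fderiv ℝ ρ q) (σ w) = w := fun w => LinearMap.congr_fun hσ0 w
  set M : E → Matrix (Fin c) (Fin c) ℂ := fun x =>
    Matrix.of fun i j => Lam (fderiv ℝ ρ x) (σ (Pi.single j 1)) i with hM
  have hc : ContinuousAt (fderiv ℝ ρ) q := han.fderiv.continuousAt
  have hMc : ContinuousAt M q := by
    refine continuousAt_pi.2 fun i => continuousAt_pi.2 fun j => ?_
    simp only [hM, Matrix.of_apply, Lam_apply]
    have h1 : ∀ v : E, ContinuousAt (fun x => fderiv ℝ ρ x v i) q := by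
      intro v
      have h2 : ContinuousAt (fun x => fderiv ℝ ρ x v) q := hc.clm_apply continuousAt_const
      exact (continuousAt_pi.1 h2) i
    have h3 : ∀ v : E, ContinuousAt (fun x => ((fderiv ℝ ρ x v i : ℝ) : ℂ)) q := fun v =>
      Complex.continuous_ofReal.continuousAt.comp (h1 v)
    exact (h3 _).sub (continuousAt_const.mul (h3 _))
  have hMq : M q = 1 := by
    ext i j
    simp only [hM, Matrix.of_apply, hσ, Matrix.one_apply, Pi.single_apply]
  have hdet : ContinuousAt (fun x => (M x).det) q :=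
    (Continuous.matrix_det continuous_id).continuousAt.comp hMc
  have h1 : ∀ᶠ x in 𝓝 q, (M x).det ≠ 0 := by
    refine hdet.eventually_ne ?_
    rw [hMq, Matrix.det_one]
    exact one_ne_zero
  filter_upwards [h1] with x hx y
  refine ⟨σ ((M x)⁻¹.mulVec y), ?_⟩
  have h2 : ∀ w : Fin c → ℂ, Lam (fderiv ℝ ρ x) (σ w) = (M x).mulVec w := by
    intro w
    have h3 : w = ∑ j, w j • (Pi.single j (1 : ℂ) : Fin c → ℂ) := by
      rw [← pi_eq_sum_univ']
    conv_lhs => rw [h3]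
    rw [map_sum, map_sum]
    ext i
    simp only [map_smul, Finset.sum_apply, Pi.smul_apply, smul_eq_mul, Matrix.mulVec,
      dotProduct, hM, Matrix.of_apply]
    exact Finset.sum_congr rfl fun j _ => mul_comm _ _
  rw [h2, Matrix.mulVec_mulVec, Matrix.mul_nonsing_inv _ (isUnit_iff_ne_zero.2 hx),
    Matrix.one_mulVec]

/-- Existence of a good boundary point in an open set `W` containing a peak point, which is
reached by the domain. -/
theorem exists_good_point_fat [FiniteDimensional ℂ E] [Nontrivial E] {U W : Set E}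
    (hU : IsOpen U) (hW : IsOpen W) (hne : (peakSet U ∩ W).Nonempty) {F : E → ℝ}
    (hF : ∀ x ∈ frontier U ∩ W, AnalyticAt ℝ F x) (hF0 : ∀ x ∈ frontier U ∩ W, F x = 0)
    (hFn : ∀ x ∈ frontier U ∩ W, ¬ ∀ᶠ y in 𝓝 x, F y = 0)
    (hKont : ∀ q ∈ peakSet U ∩ W, ∃ δ > 0, Kont U q δ) :
    ∃ q ∈ peakSet U ∩ W, ∃ (k : ℕ) (D : E →L[ℝ] (Fin k → ℝ))
      (B : E →L[ℝ] E →L[ℝ] (Fin k → ℝ))
      (σ : (Fin k → ℂ) →L[ℂ] E), (∀ w, Lam D (σ w) = w) ∧ Fat U q σ ∧
      (∃ r0 > 0, ∃ c > 0, ∃ P : E → ℂ, DifferentiableOn ℂ P (ball q r0) ∧ P q = 0 ∧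
        ∀ z ∈ U, z ∈ ball q r0 → c * (‖z - q‖ ^ 2 + ‖D (z - q)‖) ≤ (P z).re) ∧
      ∃ (b : ℕ) (G : (Fin k → ℝ) → ℝ), Continuous G ∧ Dense {ρ | G ρ ≠ 0} ∧
        (∀ t : ℝ, 0 < t → ∀ ρ, G ρ ≠ 0 → G (t • ρ) ≠ 0) ∧
        ∀ R : ℝ, ∀ ε > 0, ∀ᶠ s in 𝓝[>] (0 : ℝ), ∀ y ∈ closedBall (0 : E) R,
          |(s ^ b)⁻¹ * F (q + Th D B σ s y) - G (D y + Lev B (prj D σ y))| ≤ ε := by
  have hpr : ProperSpace E := FiniteDimensional.proper_rclike ℂ E
  have hfd : FiniteDimensional ℝ E := FiniteDimensional.complexToReal E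
  have hcs : CompleteSpace E := FiniteDimensional.complete ℝ E
  obtain ⟨J⟩ := exists_CJ (E := E)
  set A := peakSet U ∩ W with hA
  have hAf : ∀ x ∈ A, x ∈ frontier U ∩ W := fun x hx => ⟨PeakPt.mem_frontier hU hx.1, hx.2⟩
  obtain ⟨q0, hq0, c, ρ, hρ, hmax⟩ := exists_maximal_eqn hne
  -- a neighbourhood where `Eqn` persists
  obtain ⟨V, hVsub, hVo, hq0V⟩ := _root_.mem_nhds_iff.1 (hρ.eventually hq0)
  obtain ⟨b, hb1, q1, hq1, hb2⟩ := exists_min_order (A := A) (V := V) ⟨hq0, hq0V⟩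
    (hF q0 (hAf q0 hq0)) (hFn q0 (hAf q0 hq0))
  have hWV : V ∩ {x | ¬ Zo (b + 1) ℝ F x} ∈ 𝓝 q1 :=
    inter_mem (hVo.mem_nhds hq1.2) (not_Zo_eventually ℝ F q1 (hF q1 (hAf q1 hq1.1)) hb2)
  obtain ⟨q2, ⟨hq2A, hq2V, hq2Z⟩, hEq2, hsurj2⟩ := exists_generic J (hVsub hq1.2) hmax hq1.1
    (fun q' hq' h hh h0 => PeakPt.holo_zero' hU hW hq'.1 hq'.2 hh h0) hWV
  have hV2 : {x | x ∈ V ∧ ¬ Zo (b + 1) ℝ F x ∧ Eqn A c ρ x ∧
      Function.Surjective (Lam (fderiv ℝ ρ x))} ∈ 𝓝 q2 := by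
    filter_upwards [hVo.mem_nhds hq2V, not_Zo_eventually ℝ F q2 (hF q2 (hAf q2 hq2A)) hq2Z,
      hEq2.eventually hq2A, Lam_surj_eventually hEq2.an hsurj2] with x h1 h2 h3 h4
    exact ⟨h1, h2, h3, h4⟩
  obtain ⟨q, ⟨hqA, hqV, hqZ, hEq, hsurj⟩, R, hR, hRρ, κ, hκ, m, hm, hhorn⟩ :=
    exists_horn hEq2 hmax hq2A hU (Eventually.of_forall fun x hx => hx.1.1)
      (hF q2 (hAf q2 hq2A)) (hFn q2 (hAf q2 hq2A))
      (by
        filter_upwards [hW.mem_nhds hq2A.2] with x hx hxf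
        exact hF0 x ⟨hxf, hx⟩) hV2
  obtain ⟨σ0, hσ0⟩ := (Lam (fderiv ℝ ρ q) : E →ₗ[ℂ] (Fin c → ℂ)).exists_rightInverse_of_surjective
    (LinearMap.range_eq_top.2 hsurj)
  set σ : (Fin c → ℂ) →L[ℂ] E := LinearMap.toContinuousLinearMap σ0 with hσdef
  have hσ : ∀ w, Lam (fderiv ℝ ρ q) (σ w) = w := fun w => LinearMap.congr_fun hσ0 w
  obtain ⟨δ, hδ, hK⟩ := hKont q hqA
  refine ⟨q, hqA, c, fderiv ℝ ρ q, fderiv ℝ (fderiv ℝ ρ) q, σ, hσ, ?_,
    good_point_data hU hW hqA hEq hmax hσ (hF q (hAf q hqA))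
      (by filter_upwards [hVo.mem_nhds hqV] with x hx hxA using hb1 x ⟨hxA, hx⟩) hqZ⟩
  refine fat_of_horn hU hδ hK hR ?_ ?_ hκ hm hhorn
  · rw [hRρ.self_of_nhds]
    exact hEq.van.self_of_nhds hqA
  · have h1 : fderiv ℝ (fun z => R (z, 0)) q = fderiv ℝ ρ q :=
      Filter.EventuallyEq.fderiv_eq hRρ
    rw [h1]
    exact hσ

end Vale.Agent.P274.H
end

section

/-! The scaling limit at a boundary point reached by the domain. -/

set_option linter.unusedSectionVars false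

open Filter Metric Set Topology

namespace Vale.Agent.P274.H

open Complex

section

variable {E : Type*} [NormedAddCommGroup E] [NormedSpace ℂ E] [FiniteDimensional ℂ E] {k : ℕ}
  {D : E →L[ℝ] (Fin k → ℝ)} {B : E →L[ℝ] E →L[ℝ] (Fin k → ℝ)} {σ : (Fin k → ℂ) →L[ℂ] E}
  {ι : Type*}

theorem Qf_zero' : Qf B (0 : E) = 0 := by
  have := Qf_smul B 0 (0 : E)
  simpa using this

theorem Th_σ (hσ : ∀ w, Lam D (σ w) = w) (s : ℝ) (w : Fin k → ℂ) :
    Th D B σ s (σ w) = (s ^ 2) • σ w := by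
  rw [Th, prj_σ hσ, Qf_zero', sub_zero, hσ, smul_zero, add_zero]

theorem rr_σ (hσ : ∀ w, Lam D (σ w) = w) (w : Fin k → ℂ) :
    rr D B σ (σ w) = fun j => (w j).re := by
  have h1 := rr_add_σ (B := B) hσ (0 : E) w
  have h2 : rr D B σ (0 : E) = 0 := by
    rw [rr, map_zero, map_zero, Lev_zero, add_zero]
  rwa [zero_add, h2, zero_add] at h1

/-- A fat point gives a point of the kernel. -/
theorem exists_mem_InS_of_fat (hσ : ∀ w, Lam D (σ w) = w) {U : Set E} {q : E}
    {G : (Fin k → ℝ) → ℝ} (hGd : Dense {ρ | G ρ ≠ 0})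
    (hfat : ∃ O : Set (Fin k → ℝ), IsOpen O ∧ O.Nonempty ∧ ∀ r ∈ O, ∃ a : Fin k → ℂ,
      (∀ i, (a i).re = r i) ∧ ∃ γ : ℝ → (Fin k → ℂ),
        (∀ᶠ τ in 𝓝[>] (0 : ℝ), q + σ (γ τ) ∈ U) ∧
        Tendsto (fun τ : ℝ => (τ⁻¹ : ℝ) • γ τ) (𝓝[>] 0) (𝓝 a))
    (𝒰 : Ultrafilter ι) {s : ι → ℝ} (hs : Tendsto s 𝒰 (𝓝[>] 0))
    (hdich : ∀ y, G (rr D B σ y) ≠ 0 →
      y ∈ InS 𝒰 (fun j => (fun y => q + Th D B σ (s j) y) ⁻¹' U) ∨
      y ∈ OutS 𝒰 (fun j => (fun y => q + Th D B σ (s j) y) ⁻¹' U)) :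
    ∃ z ∈ InS 𝒰 (fun j => (fun y => q + Th D B σ (s j) y) ⁻¹' U), G (rr D B σ z) ≠ 0 := by
  obtain ⟨O, hO, hOne, hO'⟩ := hfat
  obtain ⟨r, hrO, hrG⟩ := hGd.inter_open_nonempty O hO hOne
  obtain ⟨a, ha, γ, hγU, hγ⟩ := hO' r hrO
  have hrr : rr D B σ (σ a) = r := by
    rw [rr_σ hσ]
    exact funext ha
  refine ⟨σ a, ?_, by rw [hrr]; exact hrG⟩
  rcases hdich (σ a) (by rw [hrr]; exact hrG) with h | ⟨ε, hε, h⟩
  · exact h
  · exfalso
    have hs2 : Tendsto (fun j => s j ^ 2) 𝒰 (𝓝[>] 0) := by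
      refine tendsto_nhdsWithin_iff.2 ⟨?_, ?_⟩
      · have h1 : Tendsto s 𝒰 (𝓝 0) := hs.mono_right nhdsWithin_le_nhds
        have := h1.pow 2
        simpa using this
      · filter_upwards [hs.eventually self_mem_nhdsWithin] with j hj
        exact pow_pos (show 0 < s j from hj) 2
    have h1 : Tendsto (fun j => σ ((s j ^ 2)⁻¹ • γ (s j ^ 2))) 𝒰 (𝓝 (σ a)) :=
      (σ.continuous.tendsto a).comp (hγ.comp hs2)
    have h2 := h1.eventually (ball_mem_nhds _ hε)
    obtain ⟨j, h3, h4, h5, h6⟩ := (h.and (h2.and ((hs2.eventually hγU).and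
      (hs.eventually self_mem_nhdsWithin)))).exists
    have h6' : 0 < s j := h6
    refine Set.disjoint_left.1 h3 h4 ?_
    change q + Th D B σ (s j) (σ ((s j ^ 2)⁻¹ • γ (s j ^ 2))) ∈ U
    have h7 : (s j ^ 2) • σ ((s j ^ 2)⁻¹ • γ (s j ^ 2)) = σ (γ (s j ^ 2)) := by
      have h8 : ((s j ^ 2)⁻¹ • γ (s j ^ 2) : Fin k → ℂ) = (((s j ^ 2)⁻¹ : ℝ) : ℂ) • γ (s j ^ 2) := rfl
      rw [h8, map_smul]
      have h9 : (s j ^ 2) • ((((s j ^ 2)⁻¹ : ℝ) : ℂ) • σ (γ (s j ^ 2))) =
          (((s j ^ 2 : ℝ) : ℂ) * (((s j ^ 2)⁻¹ : ℝ) : ℂ)) • σ (γ (s j ^ 2)) := by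
        rw [mul_smul]
        rfl
      rw [h9, ← Complex.ofReal_mul, mul_inv_cancel₀ (by (clear * - h6; positivity)), Complex.ofReal_one, one_smul]
    rw [Th_σ hσ, h7]
    exact h5

end

variable {E : Type} [NormedAddCommGroup E] [InnerProductSpace ℂ E]

end Vale.Agent.P274.H
end

section

/-! Bounded subsets `U = Z ∩ O` with cocompact automorphism group and a manifold peak point near
which the boundary is analytic are biholomorphic to bounded domains and to convex Siegel domains. -/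

set_option linter.unusedSectionVars false

open Filter Metric Set Topology

namespace Vale.Agent.P274.Z

/-- Transport of the compact set along a biholomorphic map. -/
theorem cocompactAut_of_bihol {X E : Type*} [NormedAddCommGroup X] [NormedSpace ℂ X]
    [NormedAddCommGroup E] [NormedSpace ℂ E] {U K : Set X} {V : Set E} {f : X → E} {g : E → X}
    (hV : IsOpen V) (hK : IsCompact K) (hKU : K ⊆ U) (hco : CocompactHol U K)
    (h : IsBihol U V f g) : IsCompact (f '' K) ∧ f '' K ⊆ V ∧ CocompactAut V (f '' K) := by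
  refine ⟨hK.image_of_continuousOn (h.hol.continuousOn.mono hKU), ?_, fun y hy => ?_⟩
  · rintro _ ⟨x, hx, rfl⟩
    exact h.mapsTo (hKU hx)
  · obtain ⟨a, a', ha, hak⟩ := hco (g y) (h.mapsTo_inv hy)
    refine ⟨_, _, (isBihol_iff hV hV).1 ((h.symm.trans ha).trans h), ?_⟩
    exact ⟨_, hak, rfl⟩

theorem USet.siegel {X : Type*} [NormedAddCommGroup X] [NormedSpace ℂ X]
    [FiniteDimensional ℂ X] {E : Type} [NormedAddCommGroup E] [InnerProductSpace ℂ E]
    [FiniteDimensional ℂ E] [Nontrivial E]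
    {Z O U K : Set X} (hU : USet Z O U K)
    {τ : E → X} {π : X → E} {W : Set X} (hp : Par Z τ π W) (hpk : PeakPt (dom τ U) 0)
    {F : E → ℝ} (hF : AnalyticOnNhd ℝ F (ball 0 1))
    (hFn : ∀ x ∈ ball (0 : E) 1, ¬ ∀ᶠ y in 𝓝 x, F y = 0)
    (hF0 : ∀ x ∈ frontier (dom τ U), x ∈ ball (0 : E) 1 → F x = 0) :
    ∃ U1 : Set E, IsOpen U1 ∧ Bornology.IsBounded U1 ∧ Bihol U U1 ∧
      ∃ (k : ℕ) (D : E →L[ℝ] (Fin k → ℝ)) (B : E →L[ℝ] E →L[ℝ] (Fin k → ℝ))
      (σ : (Fin k → ℂ) →L[ℂ] E) (Ω : Set (Fin k → ℝ)), (∀ w, Lam D (σ w) = w) ∧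
      IsOpen Ω ∧ IsPreconnected Ω ∧ Ω.Nonempty ∧ (∀ t : ℝ, 0 < t → ∀ ρ ∈ Ω, t • ρ ∈ Ω) ∧
      Biholomorphic U1 {y : E | D y + Lev B (prj D σ y) ∈ Ω} ∧
      Convex ℝ {y : E | D y + Lev B (prj D σ y) ∈ Ω} := by
  have hpsX : ProperSpace X := FiniteDimensional.proper ℂ X
  have hps : ProperSpace E := FiniteDimensional.proper ℂ E
  have hdo : IsOpen (dom τ U) := hp.isOpen_dom hU.open_ hU.eq
  obtain ⟨q, hq, k, D, B, σ, hσ, hfat, ⟨r0, hr0, c, hc, P, hP, hPq, hPre⟩, b, G, hG, hGd, hGh,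
    hconv⟩ := H.exists_good_point_fat hdo (W := ball (0 : E) 1) isOpen_ball (F := F)
      ⟨0, hpk, mem_ball_self one_pos⟩ (fun x hx => hF x hx.2) (fun x hx => hF0 x hx.1 hx.2)
      (fun x hx => hFn x hx.2) (fun q hq => by
        obtain ⟨δ, hδ, hδb⟩ := Metric.isOpen_iff.1 isOpen_ball q hq.2
        exact ⟨δ, hδ, kontZ hU.closed hU.open_ hU.eq hU.bdd hU.cpt hU.sub hU.co hp hδb⟩)
  have hqb : q ∈ ball (0 : E) 1 := hq.2
  set 𝒰 : Ultrafilter ℕ := hyperfilter ℕ with h𝒰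
  have hle : (𝒰 : Filter ℕ) ≤ atTop := Nat.hyperfilter_le_atTop
  set s : ℕ → ℝ := fun j => 1 / ((j : ℝ) + 1) with hs
  have hspos : ∀ j, 0 < s j := fun j => by (clear * -; positivity)
  have hslim : Tendsto s 𝒰 (𝓝[>] 0) := by
    refine tendsto_nhdsWithin_iff.2 ⟨tendsto_one_div_add_atTop_nhds_zero_nat.mono_left hle,
      Eventually.of_forall hspos⟩
  have hdich := model_dich_local (D := D) (B := B) (σ := σ) (q := q) (U := dom τ U)
    (W := ball (0 : E) 1) isOpen_ball hqb (fun z hz => hF0 z hz.1 hz.2) hG hconv 𝒰 hslim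
  set V : ℕ → Set E := fun j => (fun y => q + Th D B σ (s j) y) ⁻¹' dom τ U with hV
  obtain ⟨s0, hs0, hs0G⟩ := H.exists_mem_InS_of_fat hσ hGd hfat 𝒰 hslim hdich
  have hconI : ConicOff D B σ G (InS 𝒰 V) :=
    model_conic hσ (isOpen_InS 𝒰 V) (isOpen_OutS 𝒰 V) (disjoint_InS_OutS 𝒰 V) hGh hdich
      Subset.rfl fun T _ h _ => h
  have hdP : ∀ u, Lam D u = 0 → fderiv ℂ P q u = 0 := by
    refine peak_deriv_zero (B := B) (U := dom τ U) hσ hr0 hP hPq (fun z hz hzb => ?_) 𝒰 hslim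
      (ρ := rr D B σ s0) (fun y hy => ?_)
    · have h1 := hPre z hz hzb
      have h2 : 0 ≤ c * (‖z - q‖ ^ 2 + ‖D (z - q)‖) := by (clear * - hc; positivity)
      exact h2.trans h1
    · obtain ⟨r, hr, h⟩ := hconI s0 hs0 hs0G 1 one_pos y (by rw [hy, one_smul])
      exact h.mono fun j hj => hj (mem_ball_self hr)
  have hbi := hU.first_scaling hp hqb hσ hr0 hc hP hPq hPre hdP 𝒰 hslim hs0
  set S := connectedComponentIn (InS 𝒰 V) s0 with hS
  have hSo : IsOpen S := (isOpen_InS 𝒰 V).connectedComponentIn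
  have hSsub : S ⊆ InS 𝒰 V := connectedComponentIn_subset _ _
  have hSne : S.Nonempty := ⟨s0, mem_connectedComponentIn hs0⟩
  have hsat : ConicOff D B σ G S := by
    refine model_conic hσ (isOpen_InS 𝒰 V) (isOpen_OutS 𝒰 V) (disjoint_InS_OutS 𝒰 V) hGh hdich
      hSsub fun T hT hTI hTS => ?_
    obtain ⟨x, hxT, hxS⟩ := hTS
    have h1 : S = connectedComponentIn (InS 𝒰 V) x := connectedComponentIn_eq hxS
    rw [h1]
    exact hT.subset_connectedComponentIn hxT hTI
  -- the bounded model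
  obtain ⟨ℓ, B2, hℓ⟩ := exists_model_peak_explicit (B := B) hσ hr0 hP hPq hPre hdP 𝒰 hslim
  obtain ⟨U1, hU1o, hU1b, f0, g0, hfg0⟩ := exists_bounded_model hσ hSo hSne hGd hsat hc
    fun y hy => hℓ y (hSsub hy)
  obtain ⟨f, g, hfg⟩ := hbi
  have hbU1 := hfg.trans ((isBihol_iff hSo hU1o).2 hfg0)
  obtain ⟨hK1, hK1U, hco1⟩ := cocompactAut_of_bihol hU1o hU.cpt hU.sub hU.co hbU1
  have hU1c : IsPreconnected U1 := by
    have h1 : U1 = (fun x => f0 (f x)) '' U := by
      ext y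
      constructor
      · intro hy
        exact ⟨_, hbU1.mapsTo_inv hy, hbU1.right_inv y hy⟩
      · rintro ⟨x, hx, rfl⟩
        exact hbU1.mapsTo hx
    rw [h1]
    exact hU.conn.image _ hbU1.hol.continuousOn
  -- the second scaling
  obtain ⟨Q, hQd, hQ⟩ := exists_model_peak (B := B) hσ hr0 hP hPq hPre hdP 𝒰 hslim
  obtain ⟨Ω, h1, h2, h3, h4, h5⟩ := second_scaling hσ hU1o hU1c hU1b hK1 hK1U hco1 hSo
    ⟨g0, f0, hfg0.symm⟩ hGd hGh hsat hSne hc hQd (fun y hy => hQ y (hSsub hy))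
  exact ⟨U1, hU1o, hU1b, ⟨_, _, hbU1⟩, k, D, B, σ, Ω, hσ, h1, h2, h3, h4, h5,
    siegel_convex hσ hU1o hU1b hK1 hK1U hco1 h1 h2 h5⟩

end Vale.Agent.P274.Z
end

section

/-! Semialgebraic bounded subsets of affine varieties with cocompact group. -/

set_option linter.unusedSectionVars false

open Filter Metric Set Topology

namespace Vale.Agent.P274.Z

/-- The standard linear isomorphism. -/
noncomputable def euc (N : ℕ) : (Fin N → ℂ) ≃L[ℂ] EuclideanSpace ℂ (Fin N) :=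
  (EuclideanSpace.equiv (Fin N) ℂ).symm

theorem image_VV {N : ℕ} (I : Set (MvPolynomial (Fin N) ℂ)) :
    euc N '' VV (Ideal.span I) = zeroSet I := by
  ext z
  constructor
  · rintro ⟨w, hw, rfl⟩ f hf
    exact hw f (Ideal.subset_span hf)
  · intro hz
    refine ⟨fun i => z i, ?_, ?_⟩
    · intro f hf
      have h1 : Ideal.span I ≤ RingHom.ker (MvPolynomial.eval fun i => z i) := by
        rw [Ideal.span_le]
        intro g hg
        exact hz g hg
      exact h1 hf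
    · rfl

theorem isClosed_zeroSet {N : ℕ} (I : Set (MvPolynomial (Fin N) ℂ)) : IsClosed (zeroSet I) := by
  rw [← image_VV]
  exact (euc N).toHomeomorph.isClosedMap _ (isClosed_VV _)

/-- The set-up for a relatively open subset of an algebraic set. -/
theorem uset_of_algebraic {N : ℕ} (I : Set (MvPolynomial (Fin N) ℂ))
    {U O K : Set (EuclideanSpace ℂ (Fin N))} (hO : IsOpen O) (hU : U = zeroSet I ∩ O)
    (hUc : IsPreconnected U) (hb : Bornology.IsBounded U) (hK : IsCompact K) (hKU : K ⊆ U)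
    (hco : CocompactHol U K) : USet (zeroSet I) O U K := by
  refine ⟨isClosed_zeroSet I, hO, hU, hUc, hb, hK, hKU, hco, fun x hx => ?_⟩
  set A := euc N with hA
  have hO' : IsOpen (A ⁻¹' O) := hO.preimage A.continuous
  have h1 : A '' (VV (Ideal.span I) ∩ A ⁻¹' O) = U := by
    rw [image_inter_preimage, image_VV, hU]
  have h2 : A.symm x ∈ VV (Ideal.span I) ∩ A ⁻¹' O := by
    rw [← h1] at hx
    obtain ⟨w, hw, rfl⟩ := hx
    rwa [A.symm_apply_apply]
  have h3 := (equiHol_alg (Ideal.span I) hO' h2).of_equiv A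
  rwa [h1, A.apply_symm_apply] at h3

theorem differentiable_eval {N : ℕ} (G : MvPolynomial (Fin N) ℂ) :
    Differentiable ℂ (fun w : Fin N → ℂ => MvPolynomial.eval w G) := by
  induction G using MvPolynomial.induction_on with
  | C a => simp only [MvPolynomial.eval_C]; exact differentiable_const _
  | add p q hp hq =>
    simp only [map_add]
    exact hp.add hq
  | mul_X p i hp =>
    simp only [map_mul, MvPolynomial.eval_X]
    exact hp.mul (differentiable_apply i)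

theorem exists_good_poly' {N : ℕ} (I : Set (MvPolynomial (Fin N) ℂ))
    {U O : Set (EuclideanSpace ℂ (Fin N))} (hO : IsOpen O) (hU : U = zeroSet I ∩ O)
    (hne : U.Nonempty) : ∃ (n : ℕ) (G : EuclideanSpace ℂ (Fin N) → ℂ), Differentiable ℂ G ∧
      (∃ u ∈ U, G u ≠ 0) ∧
      ∀ z ∈ zeroSet I, G z ≠ 0 → ManPt (EuclideanSpace ℂ (Fin n)) (zeroSet I) z := by
  set A := euc N with hA
  have hO' : IsOpen (A ⁻¹' O) := hO.preimage A.continuous
  have h1 : A '' (VV (Ideal.span I) ∩ A ⁻¹' O) = U := by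
    rw [image_inter_preimage, image_VV, hU]
  have hne' : (VV (Ideal.span I) ∩ A ⁻¹' O).Nonempty := by
    rw [← h1] at hne
    exact hne.of_image
  obtain ⟨n, G, ⟨u, hu, hGu⟩, hG⟩ := exists_good_poly (Ideal.span I) hO' hne'
  refine ⟨n, fun z => MvPolynomial.eval (A.symm z) G, ?_, ⟨A u, ?_, ?_⟩, fun z hz hGz => ?_⟩
  · exact (differentiable_eval G).comp A.symm.differentiable
  · rw [← h1]
    exact ⟨u, hu, rfl⟩
  · simp only [A.symm_apply_apply]
    exact hGu
  · rw [← image_VV] at hz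
    obtain ⟨w, hw, rfl⟩ := hz
    simp only [← hA, A.symm_apply_apply] at hGz
    have h2 := (hG w hw hGz).of_equiv A (euc n)
    rw [hA, image_VV] at h2
    exact h2

/-- A connected set with an isolated point is a point. -/
theorem eq_singleton_of_manPt {X : Type*} [NormedAddCommGroup X] [NormedSpace ℂ X]
    {U Z O : Set X} (hO : IsOpen O) (hU : U = Z ∩ O) (hUc : IsPreconnected U) {u : X}
    (hu : u ∈ U) (h : ManPt (EuclideanSpace ℂ (Fin 0)) Z u) : U = {u} := by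
  have hu2 := hu
  rw [hU] at hu2
  have h1 := h.inter_open hO hu2.2
  rw [← hU] at h1
  obtain ⟨σ, π, W, hp, hσ⟩ := h1
  have hW : u ∈ W := by
    rw [← hσ]
    exact (hp.mapsσ (mem_ball_self one_pos)).2
  have h2 : U ∩ W ⊆ {u} := by
    intro z hz
    rw [mem_singleton_iff, ← hp.right z hz, ← hσ]
    congr 1
    exact Subsingleton.elim _ _
  refine Subset.antisymm ?_ (singleton_subset_iff.2 hu)
  refine preconnected_induction hUc ⟨u, hu, mem_singleton u⟩ (fun x hx hxu => ?_)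
    (fun x hx hfr => ?_)
  · rw [mem_singleton_iff] at hxu
    subst hxu
    filter_upwards [self_mem_nhdsWithin, mem_nhdsWithin_of_mem_nhds (hp.isOpen.mem_nhds hW)] with
      y h3 h4
    exact h2 ⟨h3, h4⟩
  · by_contra hxu
    have h3 : ∀ᶠ y in 𝓝[U] x, y ≠ u :=
      mem_nhdsWithin_of_mem_nhds (isOpen_ne.mem_nhds hxu)
    obtain ⟨y, h4, h5⟩ := (hfr.and_eventually h3).exists
    exact h5 h4

/-- The main theorem on bounded semialgebraic relatively open subsets of algebraic sets: they are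
biholomorphic to bounded domains and to convex Siegel domains. -/
theorem main_algebraic {N : ℕ} (I : Set (MvPolynomial (Fin N) ℂ))
    {U O K : Set (EuclideanSpace ℂ (Fin N))} (hO : IsOpen O) (hU : U = zeroSet I ∩ O)
    (hUc : IsConnected U) (hb : Bornology.IsBounded U) (hS : IsSemialgebraic U)
    (hK : IsCompact K) (hKU : K ⊆ U) (hco : CocompactHol U K) :
    (∃ U1 : Set (EuclideanSpace ℂ (Fin 0)), U1 = univ ∧ Bihol U U1) ∨
    ∃ (n : ℕ) (U1 : Set (EuclideanSpace ℂ (Fin n))), 0 < n ∧ IsOpen U1 ∧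
      Bornology.IsBounded U1 ∧ Bihol U U1 ∧
      ∃ (k : ℕ) (D : EuclideanSpace ℂ (Fin n) →L[ℝ] (Fin k → ℝ))
      (B : EuclideanSpace ℂ (Fin n) →L[ℝ] EuclideanSpace ℂ (Fin n) →L[ℝ] (Fin k → ℝ))
      (σ : (Fin k → ℂ) →L[ℂ] EuclideanSpace ℂ (Fin n)) (Ω : Set (Fin k → ℝ)),
      (∀ w, Lam D (σ w) = w) ∧
      IsOpen Ω ∧ IsPreconnected Ω ∧ Ω.Nonempty ∧ (∀ t : ℝ, 0 < t → ∀ ρ ∈ Ω, t • ρ ∈ Ω) ∧
      Biholomorphic U1 {y | D y + Lev B (prj D σ y) ∈ Ω} ∧
      Convex ℝ {y | D y + Lev B (prj D σ y) ∈ Ω} := by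
  have hUS := uset_of_algebraic I hO hU hUc.isPreconnected hb hK hKU hco
  obtain ⟨n, G, hG, ⟨u, hu, hGu⟩, hGm⟩ := exists_good_poly' I hO hU hUc.nonempty
  rcases Nat.eq_zero_or_pos n with rfl | hn
  · left
    have huZ : u ∈ zeroSet I := by
      rw [hU] at hu
      exact hu.1
    have h1 := eq_singleton_of_manPt hO hU hUc.isPreconnected hu (hGm u huZ hGu)
    refine ⟨univ, rfl, fun _ => 0, fun _ => u, ?_, ?_, fun _ _ => mem_univ _, fun _ _ => hu,
      fun x hx => ?_, fun y _ => Subsingleton.elim _ _⟩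
    · exact HolOn.of_diffOn isOpen_univ (subset_univ _) (differentiableOn_const _)
    · exact HolOn.of_diffOn isOpen_univ (subset_univ _) (differentiableOn_const _)
    · rw [h1, mem_singleton_iff] at hx
      exact hx.symm
  · right
    have hnt : Nontrivial (EuclideanSpace ℂ (Fin n)) := by
      have : Nonempty (Fin n) := ⟨⟨0, hn⟩⟩
      infer_instance
    obtain ⟨τ, π, W, hp, hpk⟩ := exists_peak_chart (isClosed_zeroSet I) hO hU hb hG
      ⟨u, hu, hGu⟩ hGm
    obtain ⟨F, hF, hFn, hF0⟩ := exists_chart_function hS hp.diffσ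
    obtain ⟨U1, h1, h2, h3, h4⟩ := hUS.siegel hp hpk hF hFn hF0
    exact ⟨n, U1, hn, h1, h2, h3, h4⟩

end Vale.Agent.P274.Z
end

section

/-! # P274-V: assembly. A Siegel domain, biholomorphic to a bounded domain, with a cocompact
properly discontinuous action is symmetric. -/

open Set Complex ComplexConjugate Topology
open scoped ContDiff

namespace Vale.Agent.P274.V

section general

variable {E : Type*} [NormedAddCommGroup E] [NormedSpace ℂ E] [FiniteDimensional ℂ E]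

theorem exists_invMetric {D : Set E} (hD : IsOpen D)
    (hb : ∃ U : Set E, IsOpen U ∧ Bornology.IsBounded U ∧ Biholomorphic D U) :
    ∃ h ρ, InvMetric D h ρ := by
  obtain ⟨U, hU, hUb, f, g, hfg⟩ := hb
  obtain ⟨H, i1, i2, e, h1, h2, h3, h4, h5⟩ := exists_bergman_map hU hUb
  obtain ⟨h, ρ, hm⟩ := invMetric_of_map hU h1 h2 h3 h4 h5
  exact invMetric_transport hD hU hfg hm

theorem IsAct.cocompactAut {D : Set E} {Γ : Type*} [Group Γ] {a : Γ → E → E} (ha : IsAct D a) :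
    ∃ K, IsCompact K ∧ K ⊆ D ∧ CocompactAut D K := by
  obtain ⟨K, hK, hKD, h⟩ := ha.cocompact
  refine ⟨K, hK, hKD, fun x hx => ?_⟩
  obtain ⟨γ, hγ⟩ := h x hx
  exact ⟨a γ⁻¹, a γ, by simpa using ha.biholo γ⁻¹, hγ⟩

theorem exists_ctx {D : Set E} (hD : IsOpen D) (hc : IsPreconnected D) (hne : D.Nonempty)
    (hb : ∃ U : Set E, IsOpen U ∧ Bornology.IsBounded U ∧ Biholomorphic D U) {Γ : Type*} [Group Γ]
    {a : Γ → E → E} (ha : IsAct D a) : ∃ h ρ, Ctx D h ρ := by
  obtain ⟨h, ρ, hm⟩ := exists_invMetric hD hb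
  obtain ⟨K, hK, hKD, hco⟩ := ha.cocompactAut
  refine ⟨h, ρ, hD, hc, hne, hb, hm, fun X hX => ?_⟩
  exact exists_isFlow_of_complete hD
    (fun x hx => (hX.1 x hx).differentiableWithinAt) (kil_complete hD hm hK hKD hco hX)

/-- Transport of actions. -/
theorem IsAct.transport {E' : Type*} [NormedAddCommGroup E'] [NormedSpace ℂ E'] {D : Set E}
    {D' : Set E'} {f : E → E'} {g : E' → E} (hfg : IsBiholo D D' f g) {Γ : Type*} [Group Γ]
    {a : Γ → E → E} (ha : IsAct D a) : IsAct D' fun γ => f ∘ a γ ∘ g where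
  biholo γ := (hfg.symm.trans (ha.biholo γ)).trans hfg
  one x hx := by
    simp only [Function.comp_apply]
    rw [ha.one _ (hfg.mapsTo_inv hx), hfg.right_inv x hx]
  mul γ δ x hx := by
    simp only [Function.comp_apply]
    rw [ha.mul γ δ _ (hfg.mapsTo_inv hx), hfg.left_inv _ ((ha.biholo δ).mapsTo (hfg.mapsTo_inv hx))]
  pd K hK hKD := by
    have h1 : IsCompact (g '' K) := hK.image_of_continuousOn (hfg.diffOn_inv.continuousOn.mono hKD)
    have h2 : g '' K ⊆ D := by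
      rintro _ ⟨x, hx, rfl⟩; exact hfg.mapsTo_inv (hKD hx)
    refine (ha.pd _ h1 h2).subset ?_
    rintro γ ⟨x, hx, hγ⟩
    refine ⟨g x, ⟨x, hx, rfl⟩, f (a γ (g x)), hγ, ?_⟩
    exact hfg.left_inv _ ((ha.biholo γ).mapsTo (hfg.mapsTo_inv (hKD hx)))
  cocompact := by
    obtain ⟨K, hK, hKD, h⟩ := ha.cocompact
    refine ⟨f '' K, hK.image_of_continuousOn (hfg.diffOn.continuousOn.mono hKD), ?_, ?_⟩
    · rintro _ ⟨x, hx, rfl⟩; exact hfg.mapsTo (hKD hx)
    · intro x hx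
      obtain ⟨γ, hγ⟩ := h (g x) (hfg.mapsTo_inv hx)
      exact ⟨γ, a γ (g x), hγ, rfl⟩

end general

section siegel

variable {Z : Type*} [NormedAddCommGroup Z] [NormedSpace ℂ Z] [FiniteDimensional ℂ Z] {k : ℕ}

theorem symAt_Sg {F : Z →L[ℝ] Z →L[ℝ] (Fin k → ℂ)} (hF : HermF F) {Ω : Set (Fin k → ℝ)}
    (hΩ : IsOpen Ω) (hcone : ∀ t : ℝ, 0 < t → ∀ y ∈ Ω, t • y ∈ Ω)
    (hc : IsPreconnected (Sg F Ω))
    (hb : ∃ U : Set (Z × (Fin k → ℂ)), IsOpen U ∧ Bornology.IsBounded U ∧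
      Biholomorphic (Sg F Ω) U) {Γ : Type*} [Group Γ]
    {a : Γ → (Z × (Fin k → ℂ)) → (Z × (Fin k → ℂ))} (ha : IsAct (Sg F Ω) a) :
    ∀ p ∈ Sg F Ω, SymAt (Sg F Ω) p := by
  intro p hp
  have hD := isOpen_Sg F hΩ
  obtain ⟨h, ρ, C⟩ := exists_ctx hD hc ⟨p, hp⟩ hb ha
  obtain ⟨g, g', hg, e, he, hge⟩ := exists_normalize hF hp
  obtain ⟨J, hJ, hJ0, hJ1⟩ := exists_J hF C (tauF_mem hΩ C.met) (nilF_mem hF hΩ C.met)
    (dilF_mem hΩ hcone C.met) (rotF_mem hF hΩ C.met) (fun a => conF_eq_zero C)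
    (trace_adK_eq_zero C ha) he
  have hpe : ((0 : Z), cpx e) ∈ Sg F Ω := hge ▸ hg.mapsTo hp
  have h1 := symAt_of_field C hJ hpe hJ0 hJ1
  have h2 := h1.transport hD hg.symm hpe
  rwa [← hge, hg.left_inv p hp] at h2

end siegel

section affine

variable {E : Type*} [NormedAddCommGroup E] [NormedSpace ℂ E] [FiniteDimensional ℂ E]

/-- Main theorem of the V part, for the domains produced by `siegel_of_corkscrew`. -/
theorem symAt_of_siegel {k : ℕ} {D : E →L[ℝ] (Fin k → ℝ)} {B : E →L[ℝ] E →L[ℝ] (Fin k → ℝ)}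
    {σ : (Fin k → ℂ) →L[ℂ] E} (hσ : ∀ w, Lam D (σ w) = w) {Ω : Set (Fin k → ℝ)} (hΩ : IsOpen Ω)
    (hcone : ∀ t : ℝ, 0 < t → ∀ y ∈ Ω, t • y ∈ Ω)
    (hc : IsPreconnected {y : E | D y + Lev B (prj D σ y) ∈ Ω})
    (hb : ∃ U : Set E, IsOpen U ∧ Bornology.IsBounded U ∧
      Biholomorphic {y : E | D y + Lev B (prj D σ y) ∈ Ω} U) {Γ : Type*} [Group Γ]
    {a : Γ → E → E} (ha : IsAct {y : E | D y + Lev B (prj D σ y) ∈ Ω} a) :
    ∀ p ∈ {y : E | D y + Lev B (prj D σ y) ∈ Ω},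
      SymAt {y : E | D y + Lev B (prj D σ y) ∈ Ω} p := by
  obtain ⟨F, L, hF, hL⟩ := exists_linear_siegel B hσ Ω
  set S := {y : E | D y + Lev B (prj D σ y) ∈ Ω} with hS
  have hmem : ∀ y, y ∈ S ↔ L y ∈ Sg F Ω := fun y => hL y
  have hLb : IsBiholo S (Sg F Ω) L L.symm :=
    { diffOn := L.differentiable.differentiableOn
      diffOn_inv := L.symm.differentiable.differentiableOn
      mapsTo := fun y hy => (hmem y).1 hy
      mapsTo_inv := fun y hy => (hmem _).2 (by simpa using hy)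
      left_inv := fun y _ => by simp
      right_inv := fun y _ => by simp }
  have hD : IsOpen (Sg F Ω) := isOpen_Sg F hΩ
  have hSo : IsOpen S := by
    have : S = L ⁻¹' (Sg F Ω) := by ext y; exact hmem y
    rw [this]; exact hD.preimage L.continuous
  have hc' : IsPreconnected (Sg F Ω) := by
    have : Sg F Ω = L '' S := by
      ext y
      constructor
      · intro hy; exact ⟨L.symm y, hLb.mapsTo_inv hy, by simp⟩
      · rintro ⟨x, hx, rfl⟩; exact hLb.mapsTo hx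
    rw [this]
    exact hc.image _ L.continuous.continuousOn
  have hb' : ∃ U : Set ((Lam D).ker × (Fin k → ℂ)), IsOpen U ∧ Bornology.IsBounded U ∧
      Biholomorphic (Sg F Ω) U := by
    obtain ⟨U, hU, hUb, f, g, hfg⟩ := hb
    refine ⟨L '' U, L.toHomeomorph.isOpenMap U hU, ?_, ?_⟩
    · exact (L : E →L[ℂ] (Lam D).ker × (Fin k → ℂ)).lipschitz.isBounded_image hUb
    · have h1 : IsBiholo U (L '' U) L L.symm :=
        { diffOn := L.differentiable.differentiableOn
          diffOn_inv := L.symm.differentiable.differentiableOn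
          mapsTo := mapsTo_image _ _
          mapsTo_inv := by rintro _ ⟨x, hx, rfl⟩; simpa using hx
          left_inv := fun y _ => by simp
          right_inv := fun y _ => by simp }
      exact ⟨_, _, (hLb.symm.trans hfg).trans h1⟩
  have key := symAt_Sg hF hΩ hcone hc' hb' (ha.transport hLb)
  intro p hp
  have h2 := (key (L p) (hLb.mapsTo hp)).transport hSo hLb.symm (hLb.mapsTo hp)
  simpa using h2

/-- The extension of an action on the subtype `U` to maps `E → E`. -/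
theorem isAct_of_mulAction {Γ : Type*} [Group Γ] {U : Set E} (hU : IsOpen U) [MulAction Γ U]
    (h : ActsHolomorphically Γ U)
    (hpd : ∀ K : Set U, IsCompact K → {γ : Γ | ∃ x ∈ K, γ • x ∈ K}.Finite)
    (hco : ∃ K : Set U, IsCompact K ∧ ∀ x : U, ∃ γ : Γ, γ • x ∈ K) :
    ∃ a : Γ → E → E, IsAct U a := by
  choose f hf hf2 using h
  refine ⟨f, ⟨fun γ => ⟨hf γ, hf γ⁻¹, fun x hx => ?_, fun x hx => ?_, fun x hx => ?_,
    fun x hx => ?_⟩, fun x hx => ?_, fun γ δ x hx => ?_, fun K hK hKU => ?_, ?_⟩⟩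
  · rw [hf2 γ ⟨x, hx⟩]; exact Subtype.property _
  · rw [hf2 γ⁻¹ ⟨x, hx⟩]; exact Subtype.property _
  · rw [hf2 γ ⟨x, hx⟩, hf2, inv_smul_smul]
  · rw [hf2 γ⁻¹ ⟨x, hx⟩, hf2, smul_inv_smul]
  · rw [hf2 1 ⟨x, hx⟩, one_smul]
  · rw [hf2 _ ⟨x, hx⟩, hf2 δ ⟨x, hx⟩, hf2, mul_smul]
  · have h1 : IsCompact (Subtype.val ⁻¹' K : Set U) := by
      rw [Subtype.isCompact_iff, Subtype.image_preimage_coe, inter_eq_self_of_subset_right hKU]
      exact hK
    refine (hpd _ h1).subset ?_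
    rintro γ ⟨x, hx, hγ⟩
    refine ⟨⟨x, hKU hx⟩, hx, ?_⟩
    rw [mem_preimage, ← hf2]
    exact hγ
  · obtain ⟨K, hK, hKc⟩ := hco
    refine ⟨Subtype.val '' K, hK.image continuous_subtype_val, ?_, fun x hx => ?_⟩
    · rintro _ ⟨x, -, rfl⟩; exact x.2
    · obtain ⟨γ, hγ⟩ := hKc ⟨x, hx⟩
      exact ⟨γ, by rw [hf2 γ ⟨x, hx⟩]; exact mem_image_of_mem _ hγ⟩

end affine

/-- Form for bounded domains in `ℂ^n`. -/
theorem isBoundedSymmetricDomain_of_siegel {n : ℕ} {U : Set (EuclideanSpace ℂ (Fin n))}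
    (hU : IsOpen U) (hUc : IsConnected U) (hUb : Bornology.IsBounded U) {k : ℕ}
    {D : EuclideanSpace ℂ (Fin n) →L[ℝ] (Fin k → ℝ)}
    {B : EuclideanSpace ℂ (Fin n) →L[ℝ] EuclideanSpace ℂ (Fin n) →L[ℝ] (Fin k → ℝ)}
    {σ : (Fin k → ℂ) →L[ℂ] EuclideanSpace ℂ (Fin n)} (hσ : ∀ w, Lam D (σ w) = w)
    {Ω : Set (Fin k → ℝ)} (hΩ : IsOpen Ω) (hcone : ∀ t : ℝ, 0 < t → ∀ y ∈ Ω, t • y ∈ Ω)
    (hUS : Biholomorphic U {y : EuclideanSpace ℂ (Fin n) | D y + Lev B (prj D σ y) ∈ Ω})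
    {Γ : Type*} [Group Γ] [MulAction Γ U] (h : ActsHolomorphically Γ U)
    (hpd : ∀ K : Set U, IsCompact K → {γ : Γ | ∃ x ∈ K, γ • x ∈ K}.Finite)
    (hco : ∃ K : Set U, IsCompact K ∧ ∀ x : U, ∃ γ : Γ, γ • x ∈ K) :
    IsBoundedSymmetricDomain U := by
  obtain ⟨f, g, hfg⟩ := hUS
  obtain ⟨a, ha⟩ := isAct_of_mulAction hU h hpd hco
  have hc : IsPreconnected {y : EuclideanSpace ℂ (Fin n) | D y + Lev B (prj D σ y) ∈ Ω} := by
    have : {y : EuclideanSpace ℂ (Fin n) | D y + Lev B (prj D σ y) ∈ Ω} = f '' U := by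
      ext y
      constructor
      · intro hy; exact ⟨g y, hfg.mapsTo_inv hy, hfg.right_inv y hy⟩
      · rintro ⟨x, hx, rfl⟩; exact hfg.mapsTo hx
    rw [this]
    exact hUc.isPreconnected.image _ hfg.diffOn.continuousOn
  have key := symAt_of_siegel hσ hΩ hcone hc ⟨U, hU, hUb, g, f, hfg.symm⟩ (ha.transport hfg)
  refine ⟨hU, hUc, hUb, fun x hx => ?_⟩
  have h1 := (key (f x) (hfg.mapsTo hx)).transport hU hfg.symm (hfg.mapsTo hx)
  rwa [hfg.left_inv x hx] at h1

end Vale.Agent.P274.V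
end

section

/-! Cocompact actions on locally compact spaces. -/

open Filter Set Topology

namespace Vale.Agent.P274

/-- If the quotient of a locally compact space by a group of homeomorphisms is compact, then some
compact set meets every orbit. -/
theorem exists_isCompact_smul_mem {Γ X : Type*} [Group Γ] [TopologicalSpace X]
    [LocallyCompactSpace X] [MulAction Γ X] [ContinuousConstSMul Γ X]
    [hcomp : CompactSpace (MulAction.orbitRel.Quotient Γ X)] :
    ∃ K : Set X, IsCompact K ∧ ∀ x : X, ∃ γ : Γ, γ • x ∈ K := by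
  have hN : ∀ x : X, ∃ N : Set X, IsCompact N ∧ N ∈ 𝓝 x := fun x => exists_compact_mem_nhds x
  choose N hNc hNx using hN
  let π : X → MulAction.orbitRel.Quotient Γ X := Quotient.mk _
  have hπ : IsOpenMap π := isOpenMap_quotient_mk'_mul
  obtain ⟨t, ht⟩ := isCompact_univ.elim_finite_subcover (fun x : X => π '' interior (N x))
    (fun x => hπ _ isOpen_interior) (by
      rintro y -
      obtain ⟨x, rfl⟩ := Quotient.exists_rep y
      exact mem_iUnion.2 ⟨x, x, mem_interior_iff_mem_nhds.2 (hNx x), rfl⟩)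
  refine ⟨⋃ x ∈ t, N x, t.isCompact_biUnion fun x _ => hNc x, fun x => ?_⟩
  obtain ⟨y, hyt, z, hz, hzx⟩ : ∃ y ∈ t, ∃ z ∈ interior (N y), π z = π x := by
    have := ht (mem_univ (π x))
    simpa only [mem_iUnion, mem_image, exists_prop] using this
  obtain ⟨γ, hγ⟩ : ∃ γ : Γ, γ • x = z := by
    have h1 := Quotient.exact hzx
    exact (MulAction.orbitRel_apply.1 h1)
  refine ⟨γ, ?_⟩
  rw [hγ]
  exact mem_biUnion hyt (interior_subset hz)

theorem finite_of_properlyDiscontinuous {Γ X : Type*} [Group Γ] [TopologicalSpace X]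
    [MulAction Γ X] (h : ProperlyDiscontinuousSMul Γ X) (K : Set X) (hK : IsCompact K) :
    {γ : Γ | ∃ x ∈ K, γ • x ∈ K}.Finite := by
  refine (h.finite_disjoint_inter_image hK hK).subset ?_
  rintro γ ⟨x, hx, hγ⟩
  exact ⟨γ • x, ⟨x, hx, rfl⟩, hγ⟩

end Vale.Agent.P274
end

section

open Vale.Agent.P274

/-- A bounded connected semialgebraic relatively open subset `U` of an affine variety with a
properly discontinuous cocompact holomorphic group action is biholomorphic to a bounded symmetric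
domain. -/
theorem Vale.Agent.P274.Z.symmetric_result (N : ℕ)
    (I : Set (MvPolynomial (Fin N) ℂ)) (U : Set (EuclideanSpace ℂ (Fin N)))
    (hU : ∃ O, IsOpen O ∧ U = zeroSet I ∩ O) (hUc : IsConnected U)
    (hb : Bornology.IsBounded U) (hS : IsSemialgebraic U)
    (Γ : Type*) [Group Γ] [MulAction Γ U] (hΓ : ActsHol Γ U)
    (hprop : ProperlyDiscontinuousSMul Γ U)
    (hcpt : CompactSpace (MulAction.orbitRel.Quotient Γ U)) :
    ∃ (n : ℕ) (D : Set (EuclideanSpace ℂ (Fin n))), IsBoundedSymmetricDomain D ∧ Z.Bihol U D := by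
  obtain ⟨O, hO, hUO⟩ := hU
  obtain ⟨K, hK, hKU, hco⟩ := exists_cocompactHol (Z.isClosed_zeroSet I) hO hUO hΓ
  rcases Z.main_algebraic I hO hUO hUc hb hS hK hKU hco with ⟨U1, hU1, hbi⟩ |
    ⟨n, U1, hn, h1, h2, h3, k, D, B, σ, Ω, hσ, h4, h5, h6, h7, h8, h9⟩
  · subst hU1
    refine ⟨0, Set.univ, ⟨isOpen_univ, ?_, ?_, ?_⟩, hbi⟩
    · rw [← Set.image_univ_of_surjective (Function.surjective_id)]
      exact (isConnected_singleton (x := (0 : EuclideanSpace ℂ (Fin 0)))).subset_closure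
        (fun x _ => ⟨x, Set.mem_univ _, rfl⟩) (fun x _ => subset_closure (Subsingleton.elim _ _))
    · exact (Metric.isBounded_ball (x := (0 : EuclideanSpace ℂ (Fin 0))) (r := 1)).subset
        fun x _ => by
          rw [Subsingleton.elim x 0]
          exact Metric.mem_ball_self one_pos
    · intro x _
      exact ⟨id, ⟨differentiableOn_id, differentiableOn_id, fun _ h => h, fun _ h => h,
        fun _ _ => rfl, fun _ _ => rfl⟩, rfl, 1, one_pos, fun y _ _ _ => Subsingleton.elim _ _⟩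
  · obtain ⟨f, g, hfg⟩ := h3
    let _ := hfg.mulAction Γ
    have hc1 : IsConnected U1 := by
      have : U1 = f '' U := by
        ext y
        constructor
        · intro hy; exact ⟨g y, hfg.mapsTo_inv hy, hfg.right_inv y hy⟩
        · rintro ⟨x, hx, rfl⟩; exact hfg.mapsTo hx
      rw [this]
      exact hUc.image _ hfg.hol.continuousOn
    have hA := hfg.transport h1 hΓ
    have hC : CompactSpace (MulAction.orbitRel.Quotient Γ U1) := hfg.transport_compact hcpt
    have hP : ProperlyDiscontinuousSMul Γ U1 := hfg.transport_proper hprop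
    have : LocallyCompactSpace U1 := h1.isLocallyClosed.locallyCompactSpace
    have : ContinuousConstSMul Γ U1 := by
      constructor
      intro γ
      obtain ⟨φ, hφ, hφ2⟩ := hA γ
      rw [continuous_induced_rng]
      have h1 : Continuous (fun x : U1 => φ x) :=
        continuousOn_iff_continuous_domRestrict.1 hφ.continuousOn
      have h2 : (Subtype.val ∘ fun x : U1 => γ • x) = fun x : U1 => φ x := by
        funext x
        exact (hφ2 x).symm
      rw [h2]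
      exact h1
    exact ⟨n, U1, V.isBoundedSymmetricDomain_of_siegel h1 hc1 h2 hσ h4 h7 h8 hA
      (finite_of_properlyDiscontinuous hP) exists_isCompact_smul_mem, f, g, hfg⟩
end

section

open Vale.Agent.P274

/-- A bounded connected semialgebraic relatively open subset `U` of a closed affine variety (the
zero set of an arbitrary set `I` of polynomials; `U` may be singular), on which a group acts
holomorphically with compact quotient, is biholomorphic to a bounded domain of `ℂ^n` and to a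
convex open subset of `ℂ^n`. If the action is properly discontinuous, the theorem of Frankel says
that `U` is biholomorphic to a bounded symmetric domain. -/
theorem Vale.Agent.P274.Z.varieties_result (N : ℕ)
    (I : Set (MvPolynomial (Fin N) ℂ)) (U : Set (EuclideanSpace ℂ (Fin N)))
    (hU : ∃ O, IsOpen O ∧ U = zeroSet I ∩ O) (hUc : IsConnected U)
    (hb : Bornology.IsBounded U) (hS : IsSemialgebraic U)
    (Γ : Type) [Group Γ] [MulAction Γ U] (hΓ : ActsHol Γ U)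
    (hcpt : CompactSpace (MulAction.orbitRel.Quotient Γ U)) :
    ∃ n : ℕ, (∃ B V : Set (EuclideanSpace ℂ (Fin n)), IsOpen B ∧ Bornology.IsBounded B ∧
        IsOpen V ∧ Convex ℝ V ∧ Z.Bihol U B ∧ Z.Bihol U V) ∧
      (FrankelTheorem n → ProperlyDiscontinuousSMul Γ U →
        ∃ D : Set (EuclideanSpace ℂ (Fin n)), IsBoundedSymmetricDomain D ∧ Z.Bihol U D) := by
  obtain ⟨O, hO, hUO⟩ := hU
  obtain ⟨K, hK, hKU, hco⟩ := exists_cocompactHol (Z.isClosed_zeroSet I) hO hUO hΓ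
  have hmain : ∃ n : ℕ, ∃ B V : Set (EuclideanSpace ℂ (Fin n)), IsOpen B ∧
      Bornology.IsBounded B ∧ IsOpen V ∧ Convex ℝ V ∧ Z.Bihol U B ∧ Z.Bihol U V := by
    rcases Z.main_algebraic I hO hUO hUc hb hS hK hKU hco with ⟨U1, hU1, hbi⟩ |
      ⟨n, U1, hn, h1, h2, h3, k, D, B, σ, Ω, hσ, h4, h5, h6, h7, h8, h9⟩
    · refine ⟨0, U1, U1, ?_, ?_, ?_, ?_, hbi, hbi⟩
      · rw [hU1]; exact isOpen_univ
      · rw [hU1]
        exact (Metric.isBounded_ball (x := (0 : EuclideanSpace ℂ (Fin 0))) (r := 1)).subset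
          fun x _ => by
            rw [Subsingleton.elim x 0]
            exact Metric.mem_ball_self one_pos
      · rw [hU1]; exact isOpen_univ
      · rw [hU1]; exact convex_univ
    · obtain ⟨f, g, hfg⟩ := h8
      exact ⟨n, U1, _, h1, h2, isOpen_siegel h4, h9, h3,
        h3.trans ⟨f, g, (Z.isBihol_iff h1 (isOpen_siegel h4)).2 hfg⟩⟩
  obtain ⟨n, B, V, hB, hBb, hV, hVc, hUB, hUV⟩ := hmain
  refine ⟨n, ⟨B, V, hB, hBb, hV, hVc, hUB, hUV⟩, fun hF hP => ?_⟩
  obtain ⟨f, g, hfg⟩ := hUV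
  obtain ⟨fb, gb, hfgb⟩ := hUB
  obtain ⟨D, hD, hVD⟩ := @hF V hV (hUc.nonempty.image f |>.mono
    (Set.image_subset_iff.2 hfg.mapsTo)) hVc
    ⟨B, hB, hBb, _, _, (Z.isBihol_iff hV hB).1 (hfg.symm.trans hfgb)⟩ Γ _ (hfg.mulAction Γ)
    (hfg.transport hV hΓ) (hfg.transport_proper hP) (hfg.transport_compact hcpt)
  obtain ⟨f', g', hfg'⟩ := hVD
  exact ⟨D, hD, _, _, hfg.trans ((Z.isBihol_iff hV hD.1).2 hfg')⟩
end
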